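import Vale.Agent.P127.Stk.LibFloors
import Vale.Agent.P127.Param

/-!
# P127 / Stk : the affine reduction

From a Kakeya set with a family of lines covered by countably many small pieces to normalised
coordinates.
-/

namespace Vale.Agent.P127.Stk

open Finset MeasureTheory Vale.Agent.P127

/-! ### Cells from covers -/

section cells

variable {X : Type*} [PseudoMetricSpace X] {m : ℕ}

open Classical in
/-- the images of a set covered by few balls under Lipschitz maps meet few dyadic cells -/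
theorem cells_of_cover {s : ℕ} {T : Set X} (u v : X → Fin m → ℝ) (N : ℕ)
    (hu : ∀ p ∈ T, ∀ q ∈ T, ∀ i, 2 * |u p i - u q i| ≤ N * dist p q)
    (hv : ∀ p ∈ T, ∀ q ∈ T, ∀ i, 2 * |v p i - v q i| ≤ N * dist p q)
    (C : Finset X) (hC : T ⊆ ⋃ c ∈ C, Metric.closedBall c ((1 / 2 : ℝ) ^ s)) :
    ∃ F : Finset ((Fin m → ℤ) × (Fin m → ℤ)),
      (F.card : ℝ) ≤ (2 * N + 3) ^ (2 * m) * C.card ∧ ∀ p ∈ T, (fl s (u p), fl s (v p)) ∈ F := by
  have hch : ∀ c : X, ∃ p : X, (∃ q ∈ T, q ∈ Metric.closedBall c ((1 / 2 : ℝ) ^ s)) →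
      p ∈ T ∧ p ∈ Metric.closedBall c ((1 / 2 : ℝ) ^ s) := by
    intro c
    by_cases h : ∃ q ∈ T, q ∈ Metric.closedBall c ((1 / 2 : ℝ) ^ s)
    · obtain ⟨q, hq⟩ := h
      exact ⟨q, fun _ => hq⟩
    · exact ⟨c, fun h' => absurd h' h⟩
  choose r hr using hch
  set D : Finset (Fin m → ℤ) := Fintype.piFinset fun _ : Fin m =>
    Finset.Icc (-((N : ℤ) + 1)) ((N : ℤ) + 1) with hD
  have hDcard : (D.card : ℝ) = (2 * N + 3) ^ m := by
    have h1 : D.card = (2 * N + 3) ^ m := by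
      rw [hD, Fintype.card_piFinset]
      simp only [Int.card_Icc, Finset.prod_const, Finset.card_univ, Fintype.card_fin]
      congr 1
      omega
    rw [h1]
    push_cast
    ring
  refine ⟨(C ×ˢ (D ×ˢ D)).image (fun z => (fl s (u (r z.1)) + z.2.1, fl s (v (r z.1)) + z.2.2)),
    ?_, ?_⟩
  · have h1 : (((C ×ˢ (D ×ˢ D)).image
        (fun z => (fl s (u (r z.1)) + z.2.1, fl s (v (r z.1)) + z.2.2))).card : ℝ) ≤
        (C ×ˢ (D ×ˢ D)).card := by exact_mod_cast Finset.card_image_le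
    refine h1.trans (le_of_eq ?_)
    rw [Finset.card_product, Finset.card_product]
    push_cast
    rw [hDcard]
    ring
  · intro p hp
    obtain ⟨c, hc, hpc⟩ := Set.mem_iUnion₂.1 (hC hp)
    have hrc := hr c ⟨p, hp, hpc⟩
    have hd : dist p (r c) ≤ 2 * (1 / 2 : ℝ) ^ s := by
      have h1 := Metric.mem_closedBall.1 hpc
      have h2 := Metric.mem_closedBall'.1 hrc.2
      have h3 := dist_triangle p c (r c)
      linarith
    have key : ∀ (g : X → Fin m → ℝ), (∀ p ∈ T, ∀ q ∈ T, ∀ i, 2 * |g p i - g q i| ≤ N * dist p q) →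
        (fun i => fl s (g p) i - fl s (g (r c)) i) ∈ D := by
      intro g hg
      rw [hD, Fintype.mem_piFinset]
      intro i
      have h1 : ∀ i, |g p i - g (r c) i| ≤ N * (1 / 2 : ℝ) ^ s := by
        intro i
        have h2 := hg p hp (r c) hrc.1 i
        have h3 : (N : ℝ) * dist p (r c) ≤ N * (2 * (1 / 2 : ℝ) ^ s) :=
          mul_le_mul_of_nonneg_left hd (Nat.cast_nonneg _)
        linarith
      have h2 := fl_sub_le h1 i
      rw [abs_le] at h2
      rw [Finset.mem_Icc]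
      exact h2
    rw [Finset.mem_image]
    refine ⟨(c, (fun i => fl s (u p) i - fl s (u (r c)) i,
      fun i => fl s (v p) i - fl s (v (r c)) i)), ?_, ?_⟩
    · rw [Finset.mem_product, Finset.mem_product]
      exact ⟨hc, key u hu, key v hv⟩
    · simp only [Prod.mk.injEq]
      constructor
      · funext i
        simp only [Pi.add_apply]
        ring
      · funext i
        simp only [Pi.add_apply]
        ring

end cells

/-! ### Slopes and positions as functions of the projection and the foot point -/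

section geom

variable {m : ℕ}

/-- the space of pairs (projection, foot point) -/
abbrev LS (m : ℕ) : Type :=
  (EuclideanSpace ℝ (Fin (m + 1)) →L[ℝ] EuclideanSpace ℝ (Fin (m + 1))) ×
    EuclideanSpace ℝ (Fin (m + 1))

/-- the last coordinate vector -/
noncomputable def elast (m : ℕ) : EuclideanSpace ℝ (Fin (m + 1)) :=
  EuclideanSpace.single (Fin.last m) 1

lemma norm_elast (m : ℕ) : ‖elast m‖ = 1 := by simp [elast]

/-- the slope -/
noncomputable def slp (p : LS m) (i : Fin m) : ℝ :=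
  (p.1 (elast m)).ofLp (Fin.castSucc i) / (p.1 (elast m)).ofLp (Fin.last m)

/-- the position at the height `0` -/
noncomputable def ps0 (p : LS m) (i : Fin m) : ℝ :=
  p.2.ofLp (Fin.castSucc i) - p.2.ofLp (Fin.last m) * slp p i

lemma coord_le {n : ℕ} (z : EuclideanSpace ℝ (Fin n)) (i : Fin n) : |z.ofLp i| ≤ ‖z‖ := by
  have := PiLp.norm_apply_le z i
  rwa [Real.norm_eq_abs] at this

lemma clm_coord (A : EuclideanSpace ℝ (Fin (m + 1)) →L[ℝ] EuclideanSpace ℝ (Fin (m + 1)))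
    (i : Fin (m + 1)) : |(A (elast m)).ofLp i| ≤ ‖A‖ := by
  refine (coord_le _ i).trans ?_
  have := A.le_opNorm (elast m)
  rwa [norm_elast, mul_one] at this

lemma clm_coord_sub (p q : LS m) (i : Fin (m + 1)) :
    |(p.1 (elast m)).ofLp i - (q.1 (elast m)).ofLp i| ≤ dist p q := by
  have h1 := clm_coord (p.1 - q.1) i
  rw [sub_apply, WithLp.ofLp_sub, Pi.sub_apply] at h1
  refine h1.trans ?_
  rw [← dist_eq_norm, Prod.dist_eq]
  exact le_max_left _ _

lemma foot_coord_sub (p q : LS m) (i : Fin (m + 1)) :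
    |p.2.ofLp i - q.2.ofLp i| ≤ dist p q := by
  have h1 := coord_le (p.2 - q.2) i
  rw [WithLp.ofLp_sub, Pi.sub_apply] at h1
  refine h1.trans ?_
  rw [← dist_eq_norm, Prod.dist_eq]
  exact le_max_right _ _

/-- the region of lines with bounded slopes and positions -/
def Reg (m : ℕ) (γ R : ℝ) : Set (LS m) :=
  {p | γ ≤ (p.1 (elast m)).ofLp (Fin.last m) ∧ (∀ i, |slp p i| ≤ 1) ∧ ‖p.2‖ ≤ R}

theorem slp_lip {γ R : ℝ} (hγ : 0 < γ) {p q : LS m} (hp : p ∈ Reg m γ R) (hq : q ∈ Reg m γ R)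
    (i : Fin m) : |slp p i - slp q i| ≤ 2 / γ * dist p q := by
  set a := (p.1 (elast m)).ofLp (Fin.castSucc i) with ha
  set b := (p.1 (elast m)).ofLp (Fin.last m) with hb
  set a' := (q.1 (elast m)).ofLp (Fin.castSucc i) with ha'
  set b' := (q.1 (elast m)).ofLp (Fin.last m) with hb'
  have h1 : |a - a'| ≤ dist p q := clm_coord_sub p q _
  have h2 : |b - b'| ≤ dist p q := clm_coord_sub p q _
  have hb0 : γ ≤ b := hp.1
  have hb0' : γ ≤ b' := hq.1
  have hs : |a' / b'| ≤ 1 := hq.2.1 i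
  have e : slp p i - slp q i = ((a - a') + (a' / b') * (b' - b)) / b := by
    unfold slp
    rw [← ha, ← hb, ← ha', ← hb']
    have h3 : b ≠ 0 := by linarith
    have h4 : b' ≠ 0 := by linarith
    field_simp
    ring
  rw [e, abs_div, abs_of_pos (by linarith : 0 < b), div_le_iff₀ (by linarith)]
  have h5 : |(a - a') + (a' / b') * (b' - b)| ≤ 2 * dist p q := by
    refine (abs_add_le _ _).trans ?_
    rw [abs_mul, abs_sub_comm b' b]
    have h6 : |a' / b'| * |b - b'| ≤ 1 * dist p q :=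
      mul_le_mul hs h2 (abs_nonneg _) (by norm_num)
    linarith
  have h7 : 2 * dist p q ≤ 2 / γ * dist p q * b := by
    have h8 : 2 / γ * dist p q * b = 2 * dist p q * (b / γ) := by ring
    rw [h8]
    have h9 : 1 ≤ b / γ := by rwa [one_le_div hγ]
    exact le_mul_of_one_le_right (by positivity) h9
  exact h5.trans h7

theorem ps0_lip {γ R : ℝ} (hγ : 0 < γ) {p q : LS m} (hp : p ∈ Reg m γ R) (hq : q ∈ Reg m γ R)
    (i : Fin m) : |ps0 p i - ps0 q i| ≤ (2 + R * (2 / γ)) * dist p q := by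
  have h1 := foot_coord_sub p q (Fin.castSucc i)
  have h2 := foot_coord_sub p q (Fin.last m)
  have h3 := slp_lip hγ hp hq i
  have h4 : |q.2.ofLp (Fin.last m)| ≤ R := (coord_le _ _).trans hq.2.2
  have h5 := hp.2.1 i
  have hR : 0 ≤ R := (abs_nonneg _).trans h4
  have e : ps0 p i - ps0 q i = (p.2.ofLp (Fin.castSucc i) - q.2.ofLp (Fin.castSucc i)) +
      ((q.2.ofLp (Fin.last m) - p.2.ofLp (Fin.last m)) * slp p i +
        q.2.ofLp (Fin.last m) * (slp q i - slp p i)) := by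
    unfold ps0
    ring
  rw [e]
  refine (abs_add_le _ _).trans ?_
  have h6 := abs_add_le ((q.2.ofLp (Fin.last m) - p.2.ofLp (Fin.last m)) * slp p i)
    (q.2.ofLp (Fin.last m) * (slp q i - slp p i))
  rw [abs_mul, abs_mul, abs_sub_comm (q.2.ofLp (Fin.last m)), abs_sub_comm (slp q i)] at h6
  have h7 : |p.2.ofLp (Fin.last m) - q.2.ofLp (Fin.last m)| * |slp p i| ≤ dist p q * 1 :=
    mul_le_mul h2 h5 (abs_nonneg _) dist_nonneg
  have h8 : |q.2.ofLp (Fin.last m)| * |slp p i - slp q i| ≤ R * (2 / γ * dist p q) :=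
    mul_le_mul h4 h3 (abs_nonneg _) hR
  nlinarith

end geom

/-! ### The reduction -/

section red

variable {m : ℕ}

/-- the vector with slope `y` and last coordinate `1` -/
noncomputable def dv (y : Fin m → ℝ) : EuclideanSpace ℝ (Fin (m + 1)) :=
  WithLp.toLp 2 (Fin.snoc (α := fun _ => ℝ) y 1)

lemma dv_cast (y : Fin m → ℝ) (i : Fin m) : (dv y).ofLp (Fin.castSucc i) = y i := by simp [dv]

lemma dv_last (y : Fin m → ℝ) : (dv y).ofLp (Fin.last m) = 1 := by simp [dv]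

lemma dv_sq (y : Fin m → ℝ) : ‖dv y‖ ^ 2 = ∑ i, y i ^ 2 + 1 := by
  rw [EuclideanSpace.norm_eq, Real.sq_sqrt (Finset.sum_nonneg fun i _ => by positivity),
    Fin.sum_univ_castSucc]
  simp [dv_cast, dv_last]

lemma dv_one_le (y : Fin m → ℝ) : 1 ≤ ‖dv y‖ := by
  have h1 := dv_sq y
  have h2 : 0 ≤ ∑ i, y i ^ 2 := Finset.sum_nonneg fun i _ => by positivity
  nlinarith [norm_nonneg (dv y)]

lemma dv_le (y : Fin m → ℝ) (hy : ∀ i, 0 ≤ y i ∧ y i < 1) : ‖dv y‖ ^ 2 ≤ m + 1 := by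
  rw [dv_sq]
  have : ∑ i, y i ^ 2 ≤ m := by
    calc ∑ i, y i ^ 2 ≤ ∑ _i : Fin m, (1 : ℝ) := by
          refine Finset.sum_le_sum fun i _ => ?_
          have := hy i
          nlinarith [this.1, this.2]
      _ = m := by simp
  linarith

/-- the unit vector with slope `y` -/
noncomputable def uv (y : Fin m → ℝ) : EuclideanSpace ℝ (Fin (m + 1)) := ‖dv y‖⁻¹ • dv y

lemma uv_norm (y : Fin m → ℝ) : ‖uv y‖ = 1 := by
  have h := dv_one_le y
  unfold uv
  rw [norm_smul, norm_inv, norm_norm, inv_mul_cancel₀ (by linarith)]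

lemma uv_cast (y : Fin m → ℝ) (i : Fin m) :
    (uv y).ofLp (Fin.castSucc i) = ‖dv y‖⁻¹ * y i := by
  simp [uv, dv_cast]

lemma uv_last (y : Fin m → ℝ) : (uv y).ofLp (Fin.last m) = ‖dv y‖⁻¹ := by
  simp [uv, dv_last]

/-- `p` is the pair (projection, foot point) of the line through `a` with direction `e` -/
def IsLn (p : LS m) (a e : EuclideanSpace ℝ (Fin (m + 1))) : Prop :=
  (∀ u, p.1 u = inner ℝ e u • e) ∧ p.2 = a - inner ℝ e a • e

lemma ln_elast {p : LS m} {a : EuclideanSpace ℝ (Fin (m + 1))} {y : Fin m → ℝ}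
    (h : IsLn p a (uv y)) : p.1 (elast m) = ‖dv y‖⁻¹ • uv y := by
  rw [h.1]
  congr 1
  unfold elast
  rw [EuclideanSpace.inner_single_right]
  simp [uv_last]

lemma ln_slp {p : LS m} {a : EuclideanSpace ℝ (Fin (m + 1))} {y : Fin m → ℝ}
    (h : IsLn p a (uv y)) (i : Fin m) : slp p i = y i := by
  have h0 : ‖dv y‖ ≠ 0 := by linarith [dv_one_le y]
  unfold slp
  rw [ln_elast h, WithLp.ofLp_smul, Pi.smul_apply, Pi.smul_apply, uv_cast, uv_last]
  simp only [smul_eq_mul]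
  field_simp

lemma ln_ps0 {p : LS m} {a : EuclideanSpace ℝ (Fin (m + 1))} {y : Fin m → ℝ}
    (h : IsLn p a (uv y)) (i : Fin m) :
    ps0 p i = a.ofLp (Fin.castSucc i) - a.ofLp (Fin.last m) * y i := by
  unfold ps0
  rw [ln_slp h, h.2]
  simp only [WithLp.ofLp_sub, WithLp.ofLp_smul, Pi.sub_apply, Pi.smul_apply, smul_eq_mul,
    uv_cast, uv_last]
  ring

lemma ln_reg {p : LS m} {a : EuclideanSpace ℝ (Fin (m + 1))} {y : Fin m → ℝ}
    (h : IsLn p a (uv y)) (hy : ∀ i, 0 ≤ y i ∧ y i < 1) {R : ℝ} (hR : ‖p.2‖ ≤ R) :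
    p ∈ Reg m (1 / ((m : ℝ) + 1)) R := by
  have h0 := dv_one_le y
  refine ⟨?_, fun i => ?_, hR⟩
  · rw [ln_elast h, WithLp.ofLp_smul, Pi.smul_apply, uv_last, smul_eq_mul, ← mul_inv, ← pow_two,
      one_div]
    exact inv_anti₀ (by positivity) (dv_le y hy)
  · rw [ln_slp h, abs_of_nonneg (hy i).1]
    exact (hy i).2.le

/-- the points of the line -/
lemma ln_pt {p : LS m} {a : EuclideanSpace ℝ (Fin (m + 1))} {y : Fin m → ℝ}
    (h : IsLn p a (uv y)) (r : ℝ) :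
    pt (ps0 p) y r = a + ((r - a.ofLp (Fin.last m)) * ‖dv y‖) • uv y := by
  have h0 := dv_one_le y
  have h1 : ‖dv y‖ ≠ 0 := by linarith
  ext i
  refine Fin.lastCases ?_ (fun i => ?_) i
  · rw [pt_last]
    simp only [WithLp.ofLp_add, WithLp.ofLp_smul, Pi.add_apply, Pi.smul_apply, smul_eq_mul,
      uv_last]
    field_simp
    ring
  · rw [pt_castSucc, ln_ps0 h]
    simp only [WithLp.ofLp_add, WithLp.ofLp_smul, Pi.add_apply, Pi.smul_apply, smul_eq_mul,
      uv_cast]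
    field_simp
    ring

/-- the class of slopes belonging to the piece `i`, the heights `[h₁, h₂]`, the cell `kk` and the
bound `R` -/
def Ycl (K : Set (EuclideanSpace ℝ (Fin (m + 1)))) (l : EuclideanSpace ℝ (Fin (m + 1)) → LS m)
    (S : ℕ → Set (LS m)) (q : ℕ × ℚ × ℚ × (Fin m → ℤ) × ℕ) : Set (Fin m → ℝ) :=
  {y | (∀ i, 0 ≤ y i ∧ y i < 1) ∧ l (uv y) ∈ S q.1 ∧ (q.2.1 : ℝ) < q.2.2.1 ∧
    (∀ r ∈ Set.Icc (q.2.1 : ℝ) q.2.2.1, pt (ps0 (l (uv y))) y r ∈ K) ∧
    (∀ i, 0 ≤ (ps0 (l (uv y)) i + q.2.1 * y i) / (q.2.2.1 - q.2.1) - q.2.2.2.1 i ∧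
      (ps0 (l (uv y)) i + q.2.1 * y i) / (q.2.2.1 - q.2.1) - q.2.2.2.1 i < 1) ∧
    ‖(l (uv y)).2‖ ≤ q.2.2.2.2}

theorem exists_Ycl {K : Set (EuclideanSpace ℝ (Fin (m + 1)))}
    {a : EuclideanSpace ℝ (Fin (m + 1)) → EuclideanSpace ℝ (Fin (m + 1))}
    (hK : ∀ e, ‖e‖ = 1 → ∀ t ∈ Set.Icc (0 : ℝ) 1, a e + t • e ∈ K)
    {l : EuclideanSpace ℝ (Fin (m + 1)) → LS m} (hl : ∀ e, ‖e‖ = 1 → IsLn (l e) (a e) e)
    {S : ℕ → Set (LS m)} (hS : ∀ e, ‖e‖ = 1 → ∃ i, l e ∈ S i) :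
    ∃ q, volume (Ycl K l S q) ≠ 0 := by
  have hcov : {y : Fin m → ℝ | ∀ i, 0 ≤ y i ∧ y i < 1} ⊆ ⋃ q, Ycl K l S q := by
    intro y hy
    have hy' : ∀ i, 0 ≤ y i ∧ y i < 1 := hy
    have hu := uv_norm y
    obtain ⟨i, hi⟩ := hS _ hu
    have h0 := dv_one_le y
    have hinv : (0 : ℝ) < ‖dv y‖⁻¹ := inv_pos.2 (by linarith)
    have hL := hl _ hu
    set al := (a (uv y)).ofLp (Fin.last m) with hal
    obtain ⟨h₁, h11, h12⟩ := exists_rat_btwn (show al < al + ‖dv y‖⁻¹ by linarith)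
    obtain ⟨h₂, h21, h22⟩ := exists_rat_btwn h12
    obtain ⟨R, hR⟩ := exists_nat_ge ‖(l (uv y)).2‖
    refine Set.mem_iUnion.2 ⟨(i, h₁, h₂, fun i =>
      ⌊(ps0 (l (uv y)) i + h₁ * y i) / (h₂ - h₁)⌋, R), hy', hi, by exact_mod_cast h21, ?_, ?_, hR⟩
    · intro r hr
      rw [ln_pt hL]
      refine hK _ hu _ ⟨?_, ?_⟩
      · have : 0 ≤ r - al := by
          have := hr.1
          simp only at this
          linarith
        positivity
      · have h3 : r - al ≤ ‖dv y‖⁻¹ := by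
          have := hr.2
          simp only at this
          linarith
        calc (r - al) * ‖dv y‖ ≤ ‖dv y‖⁻¹ * ‖dv y‖ :=
              mul_le_mul_of_nonneg_right h3 (norm_nonneg _)
          _ = 1 := inv_mul_cancel₀ (by linarith)
    · intro i
      simp only
      constructor
      · linarith [Int.floor_le ((ps0 (l (uv y)) i + h₁ * y i) / (h₂ - h₁))]
      · linarith [Int.lt_floor_add_one ((ps0 (l (uv y)) i + h₁ * y i) / (h₂ - h₁))]
  have hvol : volume (⋃ q, Ycl K l S q) ≠ 0 := by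
    intro h0
    have h1 := measure_mono_null hcov h0
    have h2 : {y : Fin m → ℝ | ∀ i, 0 ≤ y i ∧ y i < 1} =
        Set.pi Set.univ (fun _ => Set.Ico (0 : ℝ) 1) := by
      ext y
      simp [Set.mem_pi]
    rw [h2, Real.volume_pi_Ico] at h1
    simp at h1
  obtain ⟨q, hpos⟩ := exists_measure_pos_of_not_measure_iUnion_null hvol
  exact ⟨q, hpos.ne'⟩

/-- the affine reduction -/
theorem red {K : Set (EuclideanSpace ℝ (Fin (m + 1)))}
    {a : EuclideanSpace ℝ (Fin (m + 1)) → EuclideanSpace ℝ (Fin (m + 1))}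
    (hK : ∀ e, ‖e‖ = 1 → ∀ t ∈ Set.Icc (0 : ℝ) 1, a e + t • e ∈ K)
    {l : EuclideanSpace ℝ (Fin (m + 1)) → LS m} (hl : ∀ e, ‖e‖ = 1 → IsLn (l e) (a e) e)
    {S : ℕ → Set (LS m)} (hS : ∀ e, ‖e‖ = 1 → ∃ i, l e ∈ S i) {η : ℝ}
    (hbox : ∀ i, ∃ A : ℝ, ∀ s : ℕ, ∃ C : Finset (LS m), (C.card : ℝ) ≤ A * 2 ^ ((m + η) * s) ∧
      S i ⊆ ⋃ c ∈ C, Metric.closedBall c ((1 / 2 : ℝ) ^ s)) :
    ∃ (K' : Set (EuclideanSpace ℝ (Fin (m + 1)))) (Y : Set (Fin m → ℝ))
      (x : (Fin m → ℝ) → Fin m → ℝ), dimH K' ≤ dimH K ∧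
      (∀ y ∈ Y, ∀ i, 0 ≤ y i ∧ y i < 1) ∧ (∀ y ∈ Y, ∀ i, 0 ≤ x y i ∧ x y i < 1) ∧
      volume Y ≠ 0 ∧ (∀ y ∈ Y, ∀ t ∈ Set.Icc (0 : ℝ) 1, pt (x y) y t ∈ K') ∧
      ∃ A : ℝ, ∀ s : ℕ, ∃ F : Finset ((Fin m → ℤ) × (Fin m → ℤ)),
        (F.card : ℝ) ≤ A * 2 ^ ((m + η) * s) ∧ ∀ y ∈ Y, (fl s (x y), fl s y) ∈ F := by
  obtain ⟨⟨i, h₁, h₂, kk, R⟩, hvol⟩ := exists_Ycl hK hl hS
  set Y := Ycl K l S (i, h₁, h₂, kk, R) with hY
  have hYne : Y.Nonempty := nonempty_of_measure_ne_zero hvol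
  have hlt : (h₁ : ℝ) < h₂ := by
    obtain ⟨y, hy⟩ := hYne
    exact hy.2.2.1
  set lam : ℝ := h₂ - h₁ with hlam
  have hlam0 : 0 < lam := by linarith
  set x : (Fin m → ℝ) → Fin m → ℝ := fun y i =>
    (ps0 (l (uv y)) i + h₁ * y i) / lam - kk i with hx
  set b : EuclideanSpace ℝ (Fin (m + 1)) :=
    WithLp.toLp 2 (Fin.snoc (α := fun _ => ℝ) (fun i => (kk i : ℝ)) (h₁ / lam)) with hb
  have hbc : ∀ i : Fin m, b.ofLp (Fin.castSucc i) = kk i := fun i => by simp [hb]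
  have hbl : b.ofLp (Fin.last m) = h₁ / lam := by simp [hb]
  set L : EuclideanSpace ℝ (Fin (m + 1)) → EuclideanSpace ℝ (Fin (m + 1)) := fun p =>
    lam⁻¹ • p - b with hL
  have hLip : LipschitzWith (Real.toNNReal lam⁻¹) L := by
    refine LipschitzWith.of_dist_le_mul fun p q => ?_
    rw [Real.coe_toNNReal _ (by positivity), hL]
    simp only
    rw [dist_sub_right, dist_smul₀, Real.norm_eq_abs, abs_of_pos (by positivity)]
  refine ⟨L '' K, Y, x, hLip.dimH_image_le K, fun y hy => hy.1, fun y hy => hy.2.2.2.2.1, hvol,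
    ?_, ?_⟩
  · intro y hy t ht
    have hr : (h₁ : ℝ) + lam * t ∈ Set.Icc (h₁ : ℝ) h₂ := by
      constructor
      · have := mul_nonneg hlam0.le ht.1
        linarith
      · have := mul_le_mul_of_nonneg_left ht.2 hlam0.le
        linarith
    refine ⟨_, hy.2.2.2.1 _ hr, ?_⟩
    ext j
    refine Fin.lastCases ?_ (fun j => ?_) j
    · rw [pt_last, hL]
      simp only [WithLp.ofLp_sub, WithLp.ofLp_smul, Pi.sub_apply, Pi.smul_apply, smul_eq_mul,
        hbl, pt_last]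
      field_simp
      ring
    · rw [pt_castSucc, hL]
      simp only [WithLp.ofLp_sub, WithLp.ofLp_smul, Pi.sub_apply, Pi.smul_apply, smul_eq_mul,
        hbc, pt_castSucc, hx]
      field_simp
      ring
  · obtain ⟨A, hA⟩ := hbox i
    set γ : ℝ := 1 / ((m : ℝ) + 1) with hγ
    have hγ0 : 0 < γ := by positivity
    set c1 : ℝ := (2 + (R : ℝ) * (2 / γ) + |(h₁ : ℝ)| * (2 / γ)) / lam with hc1
    obtain ⟨N, hN⟩ := exists_nat_ge (max (2 * c1) (2 * (2 / γ)))
    have hN1 : 2 * c1 ≤ N := (le_max_left _ _).trans hN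
    have hN2 : 2 * (2 / γ) ≤ N := (le_max_right _ _).trans hN
    refine ⟨(2 * N + 3) ^ (2 * m) * A, fun s => ?_⟩
    obtain ⟨C, hC, hCS⟩ := hA s
    set T : Set (LS m) := (fun y => l (uv y)) '' Y with hT
    have hTreg : ∀ p ∈ T, p ∈ Reg m γ R := by
      rintro _ ⟨y, hy, rfl⟩
      exact ln_reg (hl _ (uv_norm y)) hy.1 hy.2.2.2.2.2
    have hTS : T ⊆ S i := by
      rintro _ ⟨y, hy, rfl⟩
      exact hy.2.1
    obtain ⟨F, hF, hF'⟩ := cells_of_cover (T := T) (s := s)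
      (fun p i => (ps0 p i + h₁ * slp p i) / lam - kk i) slp N (by
        intro p hp q hq j
        have e : (ps0 p j + h₁ * slp p j) / lam - kk j - ((ps0 q j + h₁ * slp q j) / lam - kk j) =
            ((ps0 p j - ps0 q j) + h₁ * (slp p j - slp q j)) / lam := by ring
        rw [e, abs_div, abs_of_pos hlam0]
        have h3 := ps0_lip hγ0 (hTreg p hp) (hTreg q hq) j
        have h4 := slp_lip hγ0 (hTreg p hp) (hTreg q hq) j
        have h5 := abs_add_le (ps0 p j - ps0 q j) (h₁ * (slp p j - slp q j))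
        rw [abs_mul] at h5
        have h6 : |(h₁ : ℝ)| * |slp p j - slp q j| ≤ |(h₁ : ℝ)| * (2 / γ * dist p q) :=
          mul_le_mul_of_nonneg_left h4 (abs_nonneg _)
        have h7 : |(ps0 p j - ps0 q j) + h₁ * (slp p j - slp q j)| / lam ≤ c1 * dist p q := by
          rw [hc1, div_mul_eq_mul_div]
          refine div_le_div_of_nonneg_right ?_ hlam0.le
          nlinarith
        have h8 : 2 * c1 * dist p q ≤ N * dist p q :=
          mul_le_mul_of_nonneg_right hN1 dist_nonneg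
        linarith) (by
        intro p hp q hq j
        have h4 := slp_lip hγ0 (hTreg p hp) (hTreg q hq) j
        have h8 : 2 * (2 / γ) * dist p q ≤ N * dist p q :=
          mul_le_mul_of_nonneg_right hN2 dist_nonneg
        linarith) C (hTS.trans hCS)
    refine ⟨F, hF.trans ?_, fun y hy => ?_⟩
    · rw [mul_assoc]
      exact mul_le_mul_of_nonneg_left hC (by positivity)
    · have h3 := hF' _ ⟨y, hy, rfl⟩
      have h4 : slp (l (uv y)) = y := funext fun i => ln_slp (hl _ (uv_norm y)) i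
      simp only [h4] at h3
      exact h3

end red

end Vale.Agent.P127.Stk
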