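import Vale.Agent.P127.Stk.ExtDim
import Vale.Agent.P127.Stk.Red

/-!
# P127 / Stk : the final theorem from the normalised Hausdorff theorem
-/

namespace Vale.Agent.P127.Stk

open MeasureTheory Vale.Agent.P127

/-- The final statement with accuracy `ε`: sets which contain a unit segment of each line of a
family of lines (one for each direction) of packing dimension at most `n - 1 + η` have Hausdorff
dimension at least `n - ε`. -/
def NearSticky (n : ℕ) : Prop :=
  ∀ ε : ℝ, 0 < ε → ∃ η : ℝ, 0 < η ∧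
    ∀ (K : Set (EuclideanSpace ℝ (Fin n))) (a : EuclideanSpace ℝ (Fin n) → EuclideanSpace ℝ (Fin n)),
      (∀ e : EuclideanSpace ℝ (Fin n), ‖e‖ = 1 → ∀ t ∈ Set.Icc (0 : ℝ) 1, a e + t • e ∈ K) →
      packingDim {p | ∃ e : EuclideanSpace ℝ (Fin n), ‖e‖ = 1 ∧ p = toLine (a e) e} ≤
        (((n : ℝ) - 1 + η : ℝ) : EReal) →
      ENNReal.ofReal ((n : ℝ) - ε) ≤ dimH K

/-- A sticky Kakeya set: for every unit vector `e` it contains the unit segment
`{a e + t e : 0 ≤ t ≤ 1}`, and the set of the lines `a e + ℝ e` has packing dimension (at most)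
`n - 1` in the space of affine lines. -/
def IsStickyKakeya {n : ℕ} (K : Set (EuclideanSpace ℝ (Fin n))) : Prop :=
  ∃ a : EuclideanSpace ℝ (Fin n) → EuclideanSpace ℝ (Fin n),
    (∀ e : EuclideanSpace ℝ (Fin n), ‖e‖ = 1 → ∀ t ∈ Set.Icc (0 : ℝ) 1, a e + t • e ∈ K) ∧
    packingDim {p | ∃ e : EuclideanSpace ℝ (Fin n), ‖e‖ = 1 ∧ p = toLine (a e) e} ≤
      (((n : ℝ) - 1 : ℝ) : EReal)

/-- the normalised Hausdorff theorem (helper37, `haus_norm`) -/
def HausNorm (m : ℕ) : Prop :=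
  ∀ ε0 : ℝ, 0 < ε0 → ∃ η > 0, ∀ (K' : Set (EuclideanSpace ℝ (Fin (m + 1))))
    (Y : Set (Fin m → ℝ)) (x : (Fin m → ℝ) → Fin m → ℝ),
    (∀ y ∈ Y, ∀ i, 0 ≤ y i ∧ y i < 1) → (∀ y ∈ Y, ∀ i, 0 ≤ x y i ∧ x y i < 1) →
    volume Y ≠ 0 → (∀ y ∈ Y, ∀ t ∈ Set.Icc (0 : ℝ) 1, pt (x y) y t ∈ K') →
    (∃ A : ℝ, ∀ s : ℕ, ∃ F : Finset ((Fin m → ℤ) × (Fin m → ℤ)),
      (F.card : ℝ) ≤ A * 2 ^ (((m : ℝ) + η) * s) ∧ ∀ y ∈ Y, (fl s (x y), fl s y) ∈ F) →
    ENNReal.ofReal ((m : ℝ) + 1 - ε0) ≤ dimH K'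

/-- finite covers from covering numbers -/
theorem exists_finite_cover {X : Type*} [PseudoMetricSpace X] {δ : ℝ} (hδ : 0 ≤ δ) {S : Set X}
    {B : ℝ} (hB : 0 ≤ B) (h : cov δ S ≤ ENNReal.ofReal B) :
    ∃ C : Finset X, (C.card : ℝ) ≤ B ∧ S ⊆ ⋃ c ∈ C, Metric.closedBall c δ := by
  classical
  rcases isEmpty_or_nonempty {C : Set X // Metric.IsCover δ.toNNReal S C} with hE | hN
  · exact hE.elim ⟨S, Metric.IsCover.refl _ _⟩
  obtain ⟨C, hC⟩ := ENat.exists_eq_iInf
    (fun C : {C : Set X // Metric.IsCover δ.toNNReal S C} => (C : Set X).encard)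
  have hC' : Metric.externalCoveringNumber δ.toNNReal S = (C : Set X).encard := by
    rw [Metric.externalCoveringNumber, hC, iInf_subtype]
  unfold cov at h
  rw [hC'] at h
  have hfin : (C : Set X).Finite := by
    by_contra hinf
    rw [Set.Infinite.encard_eq hinf, ENat.toENNReal_top, top_le_iff] at h
    exact ENNReal.ofReal_ne_top h
  refine ⟨hfin.toFinset, ?_, ?_⟩
  · rw [hfin.encard_eq_coe_toFinset_card] at h
    have h1 : ((hfin.toFinset.card : ℕ) : ENNReal) ≤ ENNReal.ofReal B := by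
      simpa using h
    rw [← ENNReal.ofReal_natCast, ENNReal.ofReal_le_ofReal_iff hB] at h1
    exact h1
  · intro x hx
    obtain ⟨c, hc, hd⟩ := C.2 hx
    refine Set.mem_iUnion₂.2 ⟨c, hfin.mem_toFinset.2 hc, ?_⟩
    have h1 : edist x c ≤ (δ.toNNReal : ENNReal) := hd
    rw [edist_nndist, ENNReal.coe_le_coe] at h1
    have h2 : (nndist x c : ℝ) ≤ (δ.toNNReal : ℝ) := by exact_mod_cast h1
    rwa [coe_nndist, Real.coe_toNNReal _ hδ] at h2

theorem isLn_toLine {m : ℕ} (a e : EuclideanSpace ℝ (Fin (m + 1))) (he : ‖e‖ = 1) :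
    IsLn (toLine a e) a e := by
  constructor
  · intro u
    exact Submodule.starProjection_unit_singleton ℝ he u
  · show a - (Submodule.span ℝ {e}).starProjection a = _
    rw [Submodule.starProjection_unit_singleton ℝ he]

/-- the near-sticky theorem -/
theorem nearSticky_of {n : ℕ} (hn : 2 ≤ n) (h : HausNorm (n - 1)) : NearSticky n := by
  obtain ⟨m, rfl⟩ : ∃ m, n = m + 1 := ⟨n - 1, by omega⟩
  simp only [Nat.add_sub_cancel] at h
  intro ε hε
  obtain ⟨η, hη, hmain⟩ := h ε hε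
  refine ⟨η / 2, by positivity, fun K a hK hp => ?_⟩
  have h1 : packingDim {p | ∃ e : EuclideanSpace ℝ (Fin (m + 1)), ‖e‖ = 1 ∧
      p = toLine (a e) e} < (((m : ℝ) + η : ℝ) : EReal) := by
    refine hp.trans_lt (EReal.coe_lt_coe_iff.2 ?_)
    push_cast
    linarith
  unfold packingDim at h1
  simp only [iInf_lt_iff] at h1
  obtain ⟨S, hS, hSd⟩ := h1
  obtain ⟨K', Y, x, hdim, hY, hx, hvol, hK', hcells⟩ := red hK
    (l := fun e => toLine (a e) e) (fun e he => isLn_toLine (a e) e he) (S := S)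
    (fun e he => Set.mem_iUnion.1 (hS ⟨e, he, rfl⟩)) (η := η) (fun i => by
      obtain ⟨C, hC, hcov⟩ := cov_le_of_upper
        ((le_iSup (fun i => upperMinkowskiDim (S i)) i).trans_lt hSd)
      refine ⟨C, fun s => ?_⟩
      exact exists_finite_cover (by positivity) (by positivity) (hcov s))
  have h2 := hmain K' Y x hY hx hvol hK' hcells
  refine le_trans (le_of_eq ?_) (h2.trans hdim)
  congr 1
  push_cast
  ring

/-- the sticky case -/
theorem dimH_of_nearSticky {n : ℕ} (h : NearSticky n) {K : Set (EuclideanSpace ℝ (Fin n))}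
    (hK : IsStickyKakeya K) : dimH K = n := by
  refine le_antisymm ?_ ?_
  · refine (dimH_mono (Set.subset_univ K)).trans (le_of_eq ?_)
    rw [Real.dimH_univ_eq_finrank, finrank_euclideanSpace, Fintype.card_fin]
  · obtain ⟨a, ha, hp⟩ := hK
    refine le_of_forall_lt_imp_le_of_dense fun b hb => ?_
    have hbt : b ≠ ⊤ := hb.ne_top
    obtain ⟨r, rfl⟩ : ∃ r : NNReal, b = r := ⟨b.toNNReal, (ENNReal.coe_toNNReal hbt).symm⟩
    have hr : (r : ℝ) < n := by
      have : r < (n : NNReal) := by exact_mod_cast hb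
      exact_mod_cast this
    obtain ⟨η, hη, hmain⟩ := h (n - r) (by linarith)
    have h1 := hmain K a ha (hp.trans (EReal.coe_le_coe_iff.2 (by linarith)))
    refine le_trans (le_of_eq ?_) h1
    rw [sub_sub_cancel, ENNReal.ofReal_coe_nnreal]

end Vale.Agent.P127.Stk
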