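import Vale.Agent.P127.Stk.ExtLaw

/-!
# P127 / Stk : the selection lemma for the Hausdorff extraction

If sets `T j` of times, unions of dyadic intervals of level `N j`, cover `[0,1]` (with
neighbourhoods), then some `T j` has density at least `1 / (4 (B + 1))` in a dyadic interval of
level `p j`, where `B` bounds the number of the earlier levels `N j'` which are finer than `p j`.
-/

namespace Vale.Agent.P127.Stk

open Finset Vale.Agent.P127 MeasureTheory

section selection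

/-- the dyadic interval of level `p` and number `i` -/
def dcell (p : ℕ) (i : ℤ) : Set ℝ := {t | t ∈ Set.Ico (0 : ℝ) 1 ∧ fl1 p t = i}

lemma measurable_fl1 (p : ℕ) : Measurable (fl1 p) := by
  unfold fl1
  exact Int.measurable_floor.comp (measurable_const_mul _)

lemma measurableSet_dcell (p : ℕ) (i : ℤ) : MeasurableSet (dcell p i) :=
  measurableSet_Ico.inter (measurable_fl1 p (measurableSet_singleton i))

lemma volume_dcell_le (p : ℕ) (i : ℤ) :
    volume (dcell p i) ≤ ENNReal.ofReal ((1 / 2 : ℝ) ^ p) := by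
  rw [← volume_cell1 p i]
  exact measure_mono fun t ht => ht.2

lemma volume_dcell {p : ℕ} {i : ℤ} (h0 : 0 ≤ i) (h1 : i < 2 ^ p) :
    volume (dcell p i) = ENNReal.ofReal ((1 / 2 : ℝ) ^ p) := by
  rw [← volume_cell1 p i]
  congr 1
  ext t
  simp only [dcell, Set.mem_ofPred_eq]
  refine ⟨fun h => h.2, fun h => ⟨?_, h⟩⟩
  have h2 : (0 : ℝ) < 2 ^ p := by positivity
  have h3 := h
  unfold fl1 at h3
  rw [Int.floor_eq_iff] at h3
  have h4 : (0 : ℝ) ≤ i := by exact_mod_cast h0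
  have h5 : (i : ℝ) + 1 ≤ 2 ^ p := by exact_mod_cast h1
  constructor
  · by_contra hneg
    push Not at hneg
    nlinarith [h3.1, mul_neg_of_pos_of_neg h2 hneg]
  · by_contra hneg
    push Not at hneg
    nlinarith [h3.2, mul_le_mul_of_nonneg_left hneg h2.le]

lemma fl1_mem_range {p : ℕ} {t : ℝ} (ht : t ∈ Set.Ico (0 : ℝ) 1) :
    0 ≤ fl1 p t ∧ fl1 p t < 2 ^ p := by
  have h2 : (0 : ℝ) < 2 ^ p := by positivity
  constructor
  · exact Int.floor_nonneg.2 (mul_nonneg h2.le ht.1)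
  · unfold fl1
    rw [Int.floor_lt]
    push_cast
    nlinarith [ht.2]

/-- a subset of `[0,1)` which is a union of dyadic intervals of level `p` -/
def Dy (p : ℕ) (S : Set ℝ) : Prop :=
  ∀ t ∈ Set.Ico (0:ℝ) 1, ∀ t' ∈ Set.Ico (0:ℝ) 1, fl1 p t = fl1 p t' → t ∈ S → t' ∈ S

lemma Dy.measurable {p : ℕ} {S : Set ℝ} (h : Dy p S) (hS : S ⊆ Set.Ico 0 1) :
    MeasurableSet S := by
  have h1 : S = ⋃ i ∈ fl1 p '' S, dcell p i := by
    ext t
    simp only [Set.mem_iUnion, dcell, Set.mem_ofPred_eq]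
    constructor
    · intro ht
      exact ⟨fl1 p t, ⟨t, ht, rfl⟩, hS ht, rfl⟩
    · rintro ⟨i, ⟨s, hs, rfl⟩, ht, hst⟩
      exact h s (hS hs) t ht hst.symm hs
  rw [h1]
  exact MeasurableSet.biUnion (Set.to_countable _) fun i _ => measurableSet_dcell p i

lemma Dy.fine {p p' : ℕ} {S : Set ℝ} (h : Dy p S) (hp : p ≤ p') : Dy p' S := by
  intro t ht t' ht' he hS
  refine h t ht t' ht' ?_ hS
  have := fl_of_fl hp (fun _ : Unit => t) (fun _ : Unit => t') (funext fun _ => he)
  exact congrFun this ()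

/-- summation over the dyadic intervals of level `p` -/
lemma volume_sum_dcell {p : ℕ} {S : Set ℝ} (hS : S ⊆ Set.Ico 0 1) (hm : MeasurableSet S) :
    volume S = ∑ i ∈ Finset.Ico (0 : ℤ) (2 ^ p), volume (S ∩ dcell p i) := by
  have h1 : S = ⋃ i ∈ Finset.Ico (0 : ℤ) (2 ^ p), S ∩ dcell p i := by
    ext t
    simp only [Set.mem_iUnion, Set.mem_inter_iff, dcell, Set.mem_ofPred_eq, Finset.mem_Ico,
      exists_prop]
    constructor
    · intro ht
      exact ⟨fl1 p t, fl1_mem_range (hS ht), ht, hS ht, rfl⟩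
    · rintro ⟨i, _, ht, _⟩
      exact ht
  conv_lhs => rw [h1]
  refine measure_biUnion_finset ?_ fun i _ => hm.inter (measurableSet_dcell p i)
  intro i _ j _ hij
  refine Set.disjoint_left.2 fun t ht ht' => hij ?_
  exact ht.2.2.symm.trans ht'.2.2

/-- density in a union of dyadic intervals -/
lemma density_union {p : ℕ} {T S : Set ℝ} {η : ℝ} (hη : 0 ≤ η) (hS : S ⊆ Set.Ico 0 1)
    (hSp : Dy p S) (hm : MeasurableSet (T ∩ S))
    (hT : ∀ i : ℤ, 0 ≤ i → i < 2 ^ p →
      volume (T ∩ dcell p i) ≤ ENNReal.ofReal ((1 / 2 : ℝ) ^ p * η)) :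
    volume (T ∩ S) ≤ ENNReal.ofReal η * volume S := by
  rw [volume_sum_dcell (p := p) hS (hSp.measurable hS),
    volume_sum_dcell (p := p) (fun t ht => hS ht.2) hm, Finset.mul_sum]
  refine Finset.sum_le_sum fun i hi => ?_
  rw [Finset.mem_Ico] at hi
  by_cases hne : (S ∩ dcell p i).Nonempty
  · obtain ⟨s, hs, hsi⟩ := hne
    have hsub : dcell p i ⊆ S := fun t ht =>
      hSp s hsi.1 t ht.1 (hsi.2.trans ht.2.symm) hs
    have h1 : S ∩ dcell p i = dcell p i := Set.inter_eq_right.2 hsub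
    rw [h1, volume_dcell hi.1 hi.2, ← ENNReal.ofReal_mul hη, mul_comm η]
    have h2 : T ∩ S ∩ dcell p i ⊆ T ∩ dcell p i := fun t ht => ⟨ht.1.1, ht.2⟩
    exact (measure_mono h2).trans (hT i hi.1 hi.2)
  · rw [Set.not_nonempty_iff_eq_empty] at hne
    have h1 : T ∩ S ∩ dcell p i = ∅ := by rw [Set.inter_assoc, hne, Set.inter_empty]
    rw [h1, measure_empty]
    exact zero_le

/-- the times which are not covered by the sets with index less than `j` -/
def unc (T : ℕ → Set ℝ) (j : ℕ) : Set ℝ := {t | t ∈ Set.Ico (0 : ℝ) 1 ∧ ∀ j' < j, t ∉ T j'}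

lemma unc_sub (T : ℕ → Set ℝ) (j : ℕ) : unc T j ⊆ Set.Ico 0 1 := fun _ h => h.1

lemma unc_anti (T : ℕ → Set ℝ) {j j' : ℕ} (h : j ≤ j') : unc T j' ⊆ unc T j :=
  fun _ ht => ⟨ht.1, fun k hk => ht.2 k (hk.trans_le h)⟩

lemma unc_zero (T : ℕ → Set ℝ) : unc T 0 = Set.Ico 0 1 := by
  ext t
  simp [unc]

lemma unc_succ (T : ℕ → Set ℝ) (j : ℕ) : unc T (j + 1) = unc T j \ (T j ∩ unc T j) := by
  ext t
  simp only [unc, Set.mem_ofPred_eq, Set.mem_sdiff, Set.mem_inter_iff]
  constructor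
  · rintro ⟨h1, h2⟩
    exact ⟨⟨h1, fun k hk => h2 k (by omega)⟩, fun h => h2 j (by omega) h.1⟩
  · rintro ⟨⟨h1, h2⟩, h3⟩
    refine ⟨h1, fun k hk hkt => ?_⟩
    rcases Nat.lt_succ_iff_lt_or_eq.1 hk with h | h
    · exact h2 k h hkt
    · subst h
      exact h3 ⟨hkt, h1, h2⟩

lemma unc_dy {T : ℕ → Set ℝ} {N : ℕ → ℕ} (hT : ∀ j, Dy (N j) (T j)) {p j : ℕ}
    (h : ∀ j' < j, N j' ≤ p) : Dy p (unc T j) := by
  intro t ht t' ht' he hU
  refine ⟨ht', fun k hk hkt => hU.2 k hk ?_⟩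
  exact (hT k).fine (h k hk) t' ht' t ht he.symm hkt

lemma measurable_inter_Ico {T : Set ℝ} {N : ℕ} (h : Dy N T) :
    MeasurableSet (T ∩ Set.Ico 0 1) := by
  refine Dy.measurable (p := N) ?_ Set.inter_subset_right
  intro t ht t' ht' he hS
  exact ⟨h t ht t' ht' he hS.1, ht'⟩

lemma unc_measurable {T : ℕ → Set ℝ} {N : ℕ → ℕ} (hT : ∀ j, Dy (N j) (T j)) (j : ℕ) :
    MeasurableSet (unc T j) := by
  induction j with
  | zero =>
    rw [unc_zero]
    exact measurableSet_Ico
  | succ j ih =>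
    rw [unc_succ]
    have h1 : T j ∩ unc T j = (T j ∩ Set.Ico 0 1) ∩ unc T j := by
      ext t
      simp only [Set.mem_inter_iff]
      exact ⟨fun h => ⟨⟨h.1, unc_sub T j h.2⟩, h.2⟩, fun h => ⟨h.1.1, h.2⟩⟩
    rw [h1]
    exact ih.diff ((measurable_inter_Ico (hT j)).inter ih)

/-- SELECTION LEMMA -/
theorem sel (N p : ℕ → ℕ) (hN : StrictMono N) (_hp : ∀ j, p j ≤ N j) (B : ℕ)
    (hB : ∀ j, ((Finset.range j).filter fun j' => p j < N j').card ≤ B)
    (T : ℕ → Set ℝ)
    (hT : ∀ j, ∀ t ∈ Set.Ico (0:ℝ) 1, ∀ t' ∈ Set.Ico (0:ℝ) 1, fl1 (N j) t = fl1 (N j) t' →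
      t ∈ T j → t' ∈ T j)
    (hcov : ∀ t ∈ Set.Icc (0:ℝ) 1, ∃ j, ∃ δ > 0, ∀ t' ∈ Set.Ico (0:ℝ) 1, |t' - t| < δ →
      t' ∈ T j) :
    ∃ j, ∃ i : ℤ, 0 ≤ i ∧ i < 2 ^ p j ∧
      ENNReal.ofReal ((1/2)^(p j) / (4 * (B + 1))) ≤
        volume (T j ∩ {t | t ∈ Set.Ico (0:ℝ) 1 ∧ fl1 (p j) t = i}) := by
  classical
  by_contra hcon
  push Not at hcon
  obtain ⟨η, hη⟩ : ∃ η : ℝ, η = 1 / (4 * (B + 1)) := ⟨_, rfl⟩
  have hB0 : (0 : ℝ) ≤ B := Nat.cast_nonneg B
  have hη0 : 0 < η := by rw [hη]; positivity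
  have hηB : 2 * η * B ≤ 1 / 2 := by
    rw [hη, mul_one_div, div_mul_eq_mul_div, div_le_div_iff₀ (by positivity) (by norm_num)]
    linarith
  have hη4 : η ≤ 1 / 4 := by
    rw [hη, div_le_div_iff₀ (by positivity) (by norm_num)]
    linarith
  have hdens : ∀ (j : ℕ) (S : Set ℝ), S ⊆ Set.Ico 0 1 → Dy (p j) S →
      volume (T j ∩ S) ≤ ENNReal.ofReal η * volume S := by
    intro j S hS hSp
    have hm : MeasurableSet (T j ∩ S) := by
      have h1 : T j ∩ S = (T j ∩ Set.Ico 0 1) ∩ S := by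
        ext t
        simp only [Set.mem_inter_iff]
        exact ⟨fun h => ⟨⟨h.1, hS h.2⟩, h.2⟩, fun h => ⟨h.1.1, h.2⟩⟩
      rw [h1]
      exact (measurable_inter_Ico (hT j)).inter (hSp.measurable hS)
    refine density_union hη0.le hS hSp hm fun i h0 h1 => ?_
    have h2 := hcon j i h0 h1
    have h3 : (1 / 2 : ℝ) ^ p j * η = (1/2)^(p j) / (4 * (B + 1)) := by
      rw [hη]
      ring
    rw [h3]
    exact h2.le
  obtain ⟨u, hu⟩ : ∃ u : ℕ → ℝ, ∀ j, u j = (volume (unc T j)).toReal := ⟨_, fun _ => rfl⟩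
  have hfin : ∀ (S : Set ℝ), S ⊆ Set.Ico 0 1 → volume S ≠ ⊤ := by
    intro S hS
    refine ne_top_of_le_ne_top ?_ (measure_mono hS)
    simp
  have hu0 : u 0 = 1 := by
    rw [hu, unc_zero]
    simp
  have hmU := unc_measurable (N := N) hT
  -- the step
  have hstep : ∀ j, 0 < u j ∧ (1 - 2 * η) * u j ≤ u (j + 1) := by
    intro j
    induction j using Nat.strong_induction_on with
    | _ j ih =>
    have hpos : 0 < u j := by
      rcases Nat.eq_zero_or_pos j with h | h
      · rw [h, hu0]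
        exact one_pos
      · obtain ⟨k, rfl⟩ := Nat.exists_eq_succ_of_ne_zero h.ne'
        have h1 := ih k (Nat.lt_succ_self k)
        exact lt_of_lt_of_le (mul_pos (by linarith) h1.1) h1.2
    refine ⟨hpos, ?_⟩
    -- the old sets
    obtain ⟨j1, hj1⟩ : ∃ j1, j1 = ((Finset.range j).filter fun j' => N j' ≤ p j).card := ⟨_, rfl⟩
    have hj1j : j1 ≤ j := by
      rw [hj1]
      exact (Finset.card_filter_le _ _).trans (le_of_eq (Finset.card_range j))
    have hold : ∀ j' < j1, N j' ≤ p j := by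
      intro j' hj'
      by_contra hlt
      push Not at hlt
      have h1 : (Finset.range j).filter (fun k => N k ≤ p j) ⊆ Finset.range j' := by
        intro k hk
        rw [Finset.mem_filter] at hk
        rw [Finset.mem_range]
        by_contra hge
        push Not at hge
        have := hN.monotone hge
        omega
      have h2 := Finset.card_le_card h1
      rw [Finset.card_range, ← hj1] at h2
      omega
    have hrec : j - j1 ≤ B := by
      have h1 := Finset.card_filter_add_card_filter_not (s := Finset.range j)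
        (fun j' => N j' ≤ p j)
      rw [← hj1, Finset.card_range] at h1
      have h2 : ((Finset.range j).filter fun j' => ¬ N j' ≤ p j).card ≤ B := by
        refine le_trans (le_of_eq ?_) (hB j)
        congr 1
        ext k
        simp
      omega
    -- from `j1` to `j`
    have hpow : ∀ k, j1 + k ≤ j → (1 - 2 * η) ^ k * u j1 ≤ u (j1 + k) := by
      intro k
      induction k with
      | zero => intro _; simp
      | succ k ihk =>
        intro hk
        have h1 := ihk (by omega)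
        have h2 := (ih (j1 + k) (by omega)).2
        calc (1 - 2 * η) ^ (k + 1) * u j1 = (1 - 2 * η) * ((1 - 2 * η) ^ k * u j1) := by ring
          _ ≤ (1 - 2 * η) * u (j1 + k) := mul_le_mul_of_nonneg_left h1 (by linarith)
          _ ≤ u (j1 + (k + 1)) := h2
    have huj1 : 0 ≤ u j1 := by
      rw [hu]
      exact ENNReal.toReal_nonneg
    have hhalf : u j1 / 2 ≤ u j := by
      have h1 := hpow (j - j1) (by omega)
      rw [Nat.add_sub_cancel' hj1j] at h1
      have h2 : (1 : ℝ) + ((j - j1 : ℕ) : ℝ) * (-(2 * η)) ≤ (1 + -(2 * η)) ^ (j - j1) :=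
        one_add_mul_le_pow (by linarith) _
      have h3 : ((j - j1 : ℕ) : ℝ) ≤ B := by exact_mod_cast hrec
      have h4 : (1 : ℝ) / 2 ≤ (1 - 2 * η) ^ (j - j1) := by
        have h5 : (1 : ℝ) - 2 * η = 1 + -(2 * η) := by ring
        rw [h5]
        refine le_trans ?_ h2
        have h6 : ((j - j1 : ℕ) : ℝ) * (2 * η) ≤ 1 / 2 := by
          calc ((j - j1 : ℕ) : ℝ) * (2 * η) ≤ B * (2 * η) :=
                mul_le_mul_of_nonneg_right h3 (by linarith)
            _ ≤ 1 / 2 := by linarith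
        linarith
      calc u j1 / 2 = 1 / 2 * u j1 := by ring
        _ ≤ (1 - 2 * η) ^ (j - j1) * u j1 := mul_le_mul_of_nonneg_right h4 huj1
        _ ≤ u j := h1
    -- the new set
    have hd := hdens j (unc T j1) (unc_sub T j1) (unc_dy hT hold)
    have hsub : T j ∩ unc T j ⊆ T j ∩ unc T j1 := fun t ht => ⟨ht.1, unc_anti T hj1j ht.2⟩
    have h1 : (volume (T j ∩ unc T j)).toReal ≤ η * u j1 := by
      have h2 := (measure_mono hsub).trans hd
      have h3 := ENNReal.toReal_mono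
        (ENNReal.mul_ne_top ENNReal.ofReal_ne_top (hfin _ (unc_sub T j1))) h2
      rwa [ENNReal.toReal_mul, ENNReal.toReal_ofReal hη0.le, ← hu] at h3
    have h4 : u j - (volume (T j ∩ unc T j)).toReal ≤ u (j + 1) := by
      rw [hu, hu, unc_succ]
      have h5 : MeasurableSet (T j ∩ unc T j) := by
        have h6 : T j ∩ unc T j = (T j ∩ Set.Ico 0 1) ∩ unc T j := by
          ext t
          simp only [Set.mem_inter_iff]
          exact ⟨fun h => ⟨⟨h.1, unc_sub T j h.2⟩, h.2⟩, fun h => ⟨h.1.1, h.2⟩⟩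
        rw [h6]
        exact (measurable_inter_Ico (hT j)).inter (hmU j)
      rw [measure_sdiff Set.inter_subset_right h5.nullMeasurableSet
        (hfin _ (fun t ht => unc_sub T j ht.2)),
        ENNReal.toReal_sub_of_le (measure_mono Set.inter_subset_right)
          (hfin _ (unc_sub T j))]
    nlinarith
  -- compactness
  choose! jj δ hδ hjj using hcov
  obtain ⟨F, hF, hcover⟩ := isCompact_Icc.elim_nhds_subcover (s := Set.Icc (0 : ℝ) 1)
    (fun t => Metric.ball t (δ t)) (fun t ht => Metric.ball_mem_nhds t (hδ t ht))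
  have hempty : unc T (F.sup jj + 1) = ∅ := by
    rw [Set.eq_empty_iff_forall_notMem]
    rintro t ⟨ht, hun⟩
    have h1 := hcover ⟨ht.1, ht.2.le⟩
    rw [Set.mem_iUnion₂] at h1
    obtain ⟨s, hs, hst⟩ := h1
    refine hun (jj s) (Nat.lt_succ_of_le (Finset.le_sup hs)) (hjj s (hF s hs) t ht ?_)
    rw [Metric.mem_ball, Real.dist_eq] at hst
    exact hst
  have h1 := (hstep (F.sup jj + 1)).1
  rw [hu, hempty] at h1
  simp at h1

end selection

end Vale.Agent.P127.Stk
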