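import Vale.Agent.P127.Stk.ExtH
import Vale.Agent.P127.Stk.Sel
import Vale.Agent.P127.Stk.Final

/-!
# P127 / Stk : the final theorems from the entropic lower bound `LB GrP m m`
-/

namespace Vale.Agent.P127.Stk

open MeasureTheory Vale.Agent.P127

/-- the selection lemma, in the form used by `haus_norm` -/
theorem selProp : SelProp := fun N p hN hp B hB T hT hcov => sel N p hN hp B hB T hT hcov

/-- the normalised Hausdorff theorem from the entropic lower bound -/
theorem hausNorm_of {m : ℕ} (hLB : LB GrP m m) : HausNorm m := by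
  intro ε0 hε
  obtain ⟨η, hη, h⟩ := haus_norm selProp hLB hε
  exact ⟨η, hη, h⟩

/-- the near-sticky theorem from the entropic lower bound -/
theorem nearSticky_of_LB (hLB : ∀ m : ℕ, LB GrP m m) (n : ℕ) (hn : 2 ≤ n) : NearSticky n :=
  nearSticky_of hn (hausNorm_of (hLB (n - 1)))

/-- the Hausdorff dimension of sticky Kakeya sets, from the entropic lower bound -/
theorem dimH_of_LB (hLB : ∀ m : ℕ, LB GrP m m) (n : ℕ) (hn : 2 ≤ n)
    (K : Set (EuclideanSpace ℝ (Fin n))) (hK : IsStickyKakeya K) : dimH K = n :=
  dimH_of_nearSticky (nearSticky_of_LB hLB n hn) hK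

end Vale.Agent.P127.Stk
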