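import Vale.Agent.P127.Stk.Red2

/-!
# P127 / Stk : the final theorem for a set of directions of positive outer measure
-/

namespace Vale.Agent.P127.Stk

open MeasureTheory Vale.Agent.P127

/-- The final statement for near-sticky families: `D` is a set of directions of positive outer
surface measure, `K` contains a segment of positive length of the line `a e + ℝ e` for every
`e ∈ D`, and these lines form a set of packing dimension at most `n - 1 + η`. -/
def NearStickyD (n : ℕ) : Prop :=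
  ∀ ε : ℝ, 0 < ε → ∃ η : ℝ, 0 < η ∧
    ∀ (K : Set (EuclideanSpace ℝ (Fin n)))
      (D : Set (Metric.sphere (0 : EuclideanSpace ℝ (Fin n)) 1))
      (a : Metric.sphere (0 : EuclideanSpace ℝ (Fin n)) 1 → EuclideanSpace ℝ (Fin n)),
      (volume : Measure (EuclideanSpace ℝ (Fin n))).toSphere D ≠ 0 →
      (∀ e ∈ D, ∃ r : ℝ, 0 < r ∧ ∀ t ∈ Set.Icc (0 : ℝ) r, a e + t • e.1 ∈ K) →
      packingDim ((fun e => toLine (a e) e.1) '' D) ≤ (((n : ℝ) - 1 + η : ℝ) : EReal) →
      ENNReal.ofReal ((n : ℝ) - ε) ≤ dimH K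

/-- the near-sticky theorem -/
theorem nearStickyD_of {n : ℕ} (hn : 2 ≤ n) (h : HausNorm (n - 1)) : NearStickyD n := by
  obtain ⟨m, rfl⟩ : ∃ m, n = m + 1 := ⟨n - 1, by omega⟩
  simp only [Nat.add_sub_cancel] at h
  intro ε hε
  obtain ⟨η, hη, hmain⟩ := h ε hε
  refine ⟨η / 2, by positivity, fun K D a hD hK hp => ?_⟩
  have h1 : packingDim ((fun e : Sph (m + 1) => toLine (a e) e.1) '' D) <
      (((m : ℝ) + η : ℝ) : EReal) := by
    refine hp.trans_lt (EReal.coe_lt_coe_iff.2 ?_)
    push_cast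
    linarith
  unfold packingDim at h1
  simp only [iInf_lt_iff] at h1
  obtain ⟨S, hS, hSd⟩ := h1
  obtain ⟨K', Y, x, hdim, hY, hx, hvol, hK', hcells⟩ := red2 hD
    (fun e he => by
      obtain ⟨r, hr, h⟩ := hK e he
      exact ⟨r, hr, h⟩) (S := S)
    (fun e he => Set.mem_iUnion.1 (hS ⟨e, he, rfl⟩)) (η := η) (fun i => by
      obtain ⟨C, hC, hcov⟩ := cov_le_of_upper
        ((le_iSup (fun i => upperMinkowskiDim (S i)) i).trans_lt hSd)
      refine ⟨C, fun s => ?_⟩
      exact exists_finite_cover (by positivity) (by positivity) (hcov s))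
  have h2 := hmain K' Y x hY hx hvol hK' hcells
  refine le_trans (le_of_eq ?_) (h2.trans hdim)
  congr 1
  push_cast
  ring

/-- the whole sphere -/
theorem nearSticky_of_D {n : ℕ} (hn : 2 ≤ n) (h : NearStickyD n) : NearSticky n := by
  intro ε hε
  obtain ⟨η, hη, hmain⟩ := h ε hε
  refine ⟨η, hη, fun K a hK hp => ?_⟩
  have : Nontrivial (EuclideanSpace ℝ (Fin n)) := by
    have : Nonempty (Fin n) := ⟨⟨0, by omega⟩⟩
    infer_instance
  refine hmain K Set.univ (fun e => a e.1) ?_ (fun e _ => ⟨1, one_pos, fun t ht =>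
    hK e.1 (by simp) t ht⟩) (le_trans (le_of_eq ?_) hp)
  · intro h0
    exact (volume : Measure (EuclideanSpace ℝ (Fin n))).toSphere_ne_zero
      (Measure.measure_univ_eq_zero.1 h0)
  · congr 1
    ext p
    constructor
    · rintro ⟨e, _, rfl⟩
      exact ⟨e.1, by simp, rfl⟩
    · rintro ⟨e, he, rfl⟩
      exact ⟨⟨e, by simpa using he⟩, Set.mem_univ _, rfl⟩

end Vale.Agent.P127.Stk
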