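import Vale.Agent.P127.Stk.Defs

/-!
# P127 / Stk : sums and differences (Madiman, Ruzsa, Balog-Szemeredi-Gowers, the swap trick)

Everything is conditional on a variable `C` and carries explicit error terms.
-/

namespace Vale.Agent.P127.Stk.Add

open Finset Vale.Agent.P127 Vale.Agent.P127.Stk

variable {Ω : Type} [Fintype Ω] {S T U V W : Type*}

/-- submodularity for variables determined by others -/
theorem sub2 (P : Law Ω) (X : Ω → S) (Y : Ω → T) (M : Ω → U) (J : Ω → V)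
    (h1 : ∀ ω ω', X ω = X ω' → M ω = M ω') (h2 : ∀ ω ω', Y ω = Y ω' → M ω = M ω')
    (h3 : ∀ ω ω', X ω = X ω' → Y ω = Y ω' → J ω = J ω') :
    P.H J + P.H M ≤ P.H X + P.H Y := by
  have h := P.submod X Y M
  have e1 : P.H (fun ω => (X ω, M ω)) ≤ P.H X := P.H_mono fun ω ω' e => by
    rw [e, h1 ω ω' e]
  have e2 : P.H (fun ω => (Y ω, M ω)) ≤ P.H Y := P.H_mono fun ω ω' e => by
    rw [e, h2 ω ω' e]
  have e3 : P.H J ≤ P.H (fun ω => (X ω, Y ω, M ω)) := P.H_mono fun ω ω' e => by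
    simp only [Prod.mk.injEq] at e
    exact h3 ω ω' e.1 e.2.1
  linarith

/-- monotonicity of the conditional entropy in the first variable -/
theorem hc_mono (P : Law Ω) {X : Ω → S} {Y : Ω → T} {C : Ω → U}
    (h : ∀ ω ω', X ω = X ω' → C ω = C ω' → Y ω = Y ω') : hc P Y C ≤ hc P X C := by
  unfold hc
  have : P.H (fun ω => (Y ω, C ω)) ≤ P.H (fun ω => (X ω, C ω)) := P.H_mono fun ω ω' e => by
    simp only [Prod.mk.injEq] at e
    rw [h ω ω' e.1 e.2, e.2]
  linarith

/-- equality of conditional entropies -/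
theorem hc_eq (P : Law Ω) {X : Ω → S} {Y : Ω → T} {C : Ω → U}
    (h : ∀ ω ω', C ω = C ω' → (X ω = X ω' ↔ Y ω = Y ω')) : hc P Y C = hc P X C :=
  le_antisymm (hc_mono P fun ω ω' h1 h2 => (h ω ω' h2).1 h1)
    (hc_mono P fun ω ω' h1 h2 => (h ω ω' h2).2 h1)

/-- more information in the condition -/
theorem hc_anti (P : Law Ω) {X : Ω → S} {C : Ω → T} {D : Ω → U}
    (h : ∀ ω ω', C ω = C ω' → D ω = D ω') : hc P X C ≤ hc P X D := by
  unfold hc
  have := sub2 P (fun ω => (X ω, D ω)) C D (fun ω => (X ω, C ω))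
    (fun ω ω' e => by simp only [Prod.mk.injEq] at e; exact e.2) h
    (fun ω ω' e1 e2 => by simp only [Prod.mk.injEq] at e1; rw [e1.1, e2])
  linarith

theorem hc_nonneg (P : Law Ω) (X : Ω → S) (C : Ω → T) : 0 ≤ hc P X C := by
  unfold hc
  have : P.H C ≤ P.H (fun ω => (X ω, C ω)) := P.H_mono fun ω ω' e => by
    simp only [Prod.mk.injEq] at e
    exact e.2
  linarith

/-- chain rule -/
theorem hc_chain (P : Law Ω) (X : Ω → S) (Y : Ω → T) (C : Ω → U) :
    hc P (fun ω => (X ω, Y ω)) C = hc P X (fun ω => (Y ω, C ω)) + hc P Y C := by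
  unfold hc
  have : P.H (fun ω => ((X ω, Y ω), C ω)) = P.H (fun ω => (X ω, (Y ω, C ω))) :=
    P.H_congr fun ω ω' => by simp only [Prod.mk.injEq, and_assoc]
  rw [this]
  ring

/-- subadditivity -/
theorem hc_pair_le (P : Law Ω) (X : Ω → S) (Y : Ω → T) (C : Ω → U) :
    hc P (fun ω => (X ω, Y ω)) C ≤ hc P X C + hc P Y C := by
  rw [hc_chain]
  have := hc_anti P (X := X) (C := fun ω => (Y ω, C ω)) (D := C)
    (fun ω ω' e => by simp only [Prod.mk.injEq] at e; exact e.2)
  linarith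

/-- conditional submodularity for variables determined by others -/
theorem csub (P : Law Ω) (X : Ω → S) (Y : Ω → T) (M : Ω → U) (J : Ω → V) (C : Ω → W)
    (h1 : ∀ ω ω', X ω = X ω' → M ω = M ω') (h2 : ∀ ω ω', Y ω = Y ω' → M ω = M ω')
    (h3 : ∀ ω ω', X ω = X ω' → Y ω = Y ω' → J ω = J ω') :
    hc P J C + hc P M C ≤ hc P X C + hc P Y C := by
  unfold hc
  have := sub2 P (fun ω => (X ω, C ω)) (fun ω => (Y ω, C ω)) (fun ω => (M ω, C ω))
    (fun ω => (J ω, C ω))
    (fun ω ω' e => by simp only [Prod.mk.injEq] at e; rw [h1 ω ω' e.1, e.2])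
    (fun ω ω' e => by simp only [Prod.mk.injEq] at e; rw [h2 ω ω' e.1, e.2])
    (fun ω ω' e e' => by
      simp only [Prod.mk.injEq] at e e'
      rw [h3 ω ω' e.1 e'.1, e.2])
  linarith

section group

variable {G : Type*} [AddCommGroup G] (P : Law Ω) (X Y Z : Ω → G) (C : Ω → W) {δ : ℝ}

/-- `H(X|C) - I(X;Y|C) ≤ H(X+Y|C)` in the form `H(X|Y,C) ≤ H(X+Y|C)` -/
theorem add_lower : hc P X (fun ω => (Y ω, C ω)) ≤ hc P (fun ω => X ω + Y ω) C := by
  refine le_trans ?_ (hc_anti P (X := fun ω => X ω + Y ω) (C := fun ω => (Y ω, C ω)) (D := C)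
    (fun ω ω' e => by simp only [Prod.mk.injEq] at e; exact e.2))
  refine hc_mono P fun ω ω' e1 e2 => ?_
  simp only [Prod.mk.injEq] at e2
  rw [e2.1] at e1
  exact add_right_cancel e1

/-- the same with the mutual information -/
theorem add_lower' : hc P X C - mi P X Y C ≤ hc P (fun ω => X ω + Y ω) C := by
  have := add_lower P X Y C
  unfold mi
  linarith

/-- Madiman's inequality: `H(X+Y+Z)+H(Y) ≤ H(X+Y)+H(Y+Z)` for almost independent variables -/
theorem madiman (hI : hc P X C + hc P Y C + hc P Z C - δ ≤ hc P (fun ω => (X ω, Y ω, Z ω)) C) :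
    hc P (fun ω => X ω + Y ω + Z ω) C + hc P Y C ≤
      hc P (fun ω => X ω + Y ω) C + hc P (fun ω => Y ω + Z ω) C + δ := by
  have h := csub P (fun ω => (X ω + Y ω, Z ω)) (fun ω => (X ω, Y ω + Z ω))
    (fun ω => X ω + Y ω + Z ω) (fun ω => (X ω, Y ω, Z ω)) C
    (fun ω ω' e => by simp only [Prod.mk.injEq] at e; rw [e.1, e.2])
    (fun ω ω' e => by
      simp only [Prod.mk.injEq] at e
      rw [add_assoc, add_assoc, e.1, e.2])
    (fun ω ω' e e' => by
      simp only [Prod.mk.injEq] at e e' ⊢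
      refine ⟨e'.1, ?_, e.2⟩
      have := e.1
      rw [e'.1] at this
      exact add_left_cancel this)
  have h1 := hc_pair_le P (fun ω => X ω + Y ω) Z C
  have h2 := hc_pair_le P X (fun ω => Y ω + Z ω) C
  linarith

/-- Ruzsa's triangle inequality: `H(X-Z)+H(Y) ≤ H(X+Y)+H(Y+Z)` -/
theorem ruzsa (hI : hc P X C + hc P Y C + hc P Z C - δ ≤ hc P (fun ω => (X ω, Y ω, Z ω)) C) :
    hc P (fun ω => X ω - Z ω) C + hc P Y C ≤
      hc P (fun ω => X ω + Y ω) C + hc P (fun ω => Y ω + Z ω) C + δ := by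
  have h := csub P (fun ω => (X ω + Y ω, Y ω + Z ω)) (fun ω => (X ω, Z ω))
    (fun ω => X ω - Z ω) (fun ω => (X ω, Y ω, Z ω)) C
    (fun ω ω' e => by
      simp only [Prod.mk.injEq] at e
      have : ∀ w, X w - Z w = (X w + Y w) - (Y w + Z w) := fun w => by abel
      rw [this ω, this ω', e.1, e.2])
    (fun ω ω' e => by
      simp only [Prod.mk.injEq] at e
      rw [e.1, e.2])
    (fun ω ω' e e' => by
      simp only [Prod.mk.injEq] at e e' ⊢
      refine ⟨e'.1, ?_, e'.2⟩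
      have := e.1
      rw [e'.1] at this
      exact add_left_cancel this)
  have h1 := hc_pair_le P (fun ω => X ω + Y ω) (fun ω => Y ω + Z ω) C
  have h2 := hc_pair_le P X Z C
  linarith

/-- Ruzsa's triangle inequality for differences: `H(X-Z)+H(Y) ≤ H(X-Y)+H(Y-Z)` -/
theorem ruzsa' (hI : hc P X C + hc P Y C + hc P Z C - δ ≤ hc P (fun ω => (X ω, Y ω, Z ω)) C) :
    hc P (fun ω => X ω - Z ω) C + hc P Y C ≤
      hc P (fun ω => X ω - Y ω) C + hc P (fun ω => Y ω - Z ω) C + δ := by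
  have h := csub P (fun ω => (X ω - Y ω, Y ω - Z ω)) (fun ω => (X ω, Z ω))
    (fun ω => X ω - Z ω) (fun ω => (X ω, Y ω, Z ω)) C
    (fun ω ω' e => by
      simp only [Prod.mk.injEq] at e
      have : ∀ w, X w - Z w = (X w - Y w) + (Y w - Z w) := fun w => by abel
      rw [this ω, this ω', e.1, e.2])
    (fun ω ω' e => by
      simp only [Prod.mk.injEq] at e
      rw [e.1, e.2])
    (fun ω ω' e e' => by
      simp only [Prod.mk.injEq] at e e' ⊢
      refine ⟨e'.1, ?_, e'.2⟩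
      have := e.1
      rw [e'.1] at this
      exact sub_right_injective this)
  have h1 := hc_pair_le P (fun ω => X ω - Y ω) (fun ω => Y ω - Z ω) C
  have h2 := hc_pair_le P X Z C
  linarith

/-- Balog-Szemeredi-Gowers: `(A₁,B₁)` and `(A₂,B₂)` with the same sum `Z`, almost conditionally
independent given the sum. -/
theorem bsg (A₁ B₁ A₂ B₂ : Ω → G) (hs : ∀ ω, A₁ ω + B₁ ω = A₂ ω + B₂ ω)
    (hI : hc P (fun ω => (A₁ ω, B₁ ω)) C + hc P (fun ω => (A₂ ω, B₂ ω)) C
      - hc P (fun ω => A₁ ω + B₁ ω) C - δ ≤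
      hc P (fun ω => ((A₁ ω, B₁ ω), (A₂ ω, B₂ ω))) C) :
    hc P (fun ω => A₁ ω - B₂ ω) C + hc P (fun ω => (A₁ ω, B₁ ω)) C
      + hc P (fun ω => (A₂ ω, B₂ ω)) C ≤
      hc P (fun ω => A₁ ω + B₁ ω) C + hc P A₁ C + hc P B₂ C + hc P B₁ C + hc P A₂ C + δ := by
  have h := csub P (fun ω => (A₁ ω, B₂ ω)) (fun ω => (B₁ ω, A₂ ω))
    (fun ω => A₁ ω - B₂ ω) (fun ω => ((A₁ ω, B₁ ω), (A₂ ω, B₂ ω))) C
    (fun ω ω' e => by
      simp only [Prod.mk.injEq] at e
      rw [e.1, e.2])
    (fun ω ω' e => by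
      simp only [Prod.mk.injEq] at e
      have : ∀ w, A₁ w - B₂ w = A₂ w - B₁ w := fun w => by
        have := hs w
        rw [sub_eq_sub_iff_add_eq_add]
        exact this
      rw [this ω, this ω', e.1, e.2])
    (fun ω ω' e e' => by
      simp only [Prod.mk.injEq] at e e' ⊢
      exact ⟨⟨e.1, e'.1⟩, e'.2, e.2⟩)
  have h1 := hc_pair_le P A₁ B₂ C
  have h2 := hc_pair_le P B₁ A₂ C
  linarith

/-- the swap trick: replace `Y` by `Z` in the sum `X + Y` -/
theorem swap : hc P (fun ω => X ω + Z ω) C + hc P Y (fun ω => (X ω, Z ω, C ω)) ≤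
    hc P (fun ω => X ω + Y ω) C + hc P (fun ω => Z ω - Y ω) C := by
  have h1 := hc_chain P (fun ω => X ω + Y ω) (fun ω => X ω + Z ω) C
  have h2 := hc_pair_le P (fun ω => X ω + Y ω) (fun ω => Z ω - Y ω) C
  have h3 : hc P (fun ω => (X ω + Y ω, X ω + Z ω)) C =
      hc P (fun ω => (X ω + Y ω, Z ω - Y ω)) C := by
    refine hc_eq P fun ω ω' _ => ?_
    simp only [Prod.mk.injEq]
    constructor
    · rintro ⟨e1, e2⟩
      refine ⟨e1, ?_⟩
      have : ∀ w, X w + Z w = (X w + Y w) + (Z w - Y w) := fun w => by abel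
      rw [this ω, this ω', e1, e2]
    · rintro ⟨e1, e2⟩
      refine ⟨e1, ?_⟩
      have : ∀ w, Z w - Y w = (X w + Z w) - (X w + Y w) := fun w => by abel
      rw [this ω, this ω', e1, e2]
  have h4 : hc P Y (fun ω => (X ω, Z ω, C ω)) ≤
      hc P (fun ω => X ω + Y ω) (fun ω => (X ω + Z ω, C ω)) := by
    refine le_trans ?_ (hc_anti P (X := fun ω => X ω + Y ω) (C := fun ω => (X ω, Z ω, C ω))
      (D := fun ω => (X ω + Z ω, C ω)) (fun ω ω' e => by
        simp only [Prod.mk.injEq] at e ⊢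
        rw [e.1, e.2.1]
        exact ⟨rfl, e.2.2⟩))
    refine hc_mono P fun ω ω' e1 e2 => ?_
    simp only [Prod.mk.injEq] at e2
    rw [e2.1] at e1
    exact add_left_cancel e1
  linarith

end group

/-- subadditivity for families -/
theorem hc_pi_le (P : Law Ω) {n : ℕ} (X : Fin n → Ω → S) (C : Ω → W) :
    hc P (fun ω i => X i ω) C ≤ ∑ i, hc P (X i) C := by
  induction n with
  | zero =>
    simp only [Finset.univ_eq_empty, Finset.sum_empty]
    have : hc P (fun ω (i : Fin 0) => X i ω) C ≤ hc P (fun ω : Ω => ()) C :=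
      hc_mono P fun ω ω' _ _ => funext fun i => i.elim0
    refine this.trans (le_of_eq ?_)
    unfold hc
    have : P.H (fun ω => ((), C ω)) = P.H C := P.H_congr fun ω ω' => by simp
    rw [this, sub_self]
  | succ n ih =>
    rw [Fin.sum_univ_castSucc]
    have h1 : hc P (fun ω (i : Fin (n + 1)) => X i ω) C ≤
        hc P (fun ω => ((fun i : Fin n => X i.castSucc ω), X (Fin.last n) ω)) C := by
      refine hc_mono P fun ω ω' e _ => funext fun i => ?_
      simp only [Prod.mk.injEq] at e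
      refine Fin.lastCases ?_ (fun j => ?_) i
      · exact e.2
      · exact congrFun e.1 j
    have h2 := hc_pair_le P (fun ω => (fun i : Fin n => X i.castSucc ω)) (X (Fin.last n)) C
    have h3 := ih (fun i => X i.castSucc)
    linarith

/-- a family of variables conditionally independent given `(M, C)` has a small information with
`M` if this is so for each of them -/
theorem mi_pi_le (P : Law Ω) {n : ℕ} (X : Fin n → Ω → S) (M : Ω → U) (C : Ω → W) {δ : ℝ}
    (h : ∑ i, hc P (X i) (fun ω => (M ω, C ω)) - δ ≤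
      hc P (fun ω i => X i ω) (fun ω => (M ω, C ω))) :
    mi P (fun ω i => X i ω) M C ≤ ∑ i, mi P (X i) M C + δ := by
  unfold mi
  have := hc_pi_le P X C
  rw [Finset.sum_sub_distrib]
  linarith

end Vale.Agent.P127.Stk.Add
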