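import Vale.Agent.P127.Stk.LibEnt

/-!
# P127 / Stk : entropy calculus, part 2 (domination, mixtures, events)
-/

namespace Vale.Agent.P127.Stk

open Finset Vale.Agent.P127

section dom

variable {Ω Ω' Ω'' : Type} [Fintype Ω] [Fintype Ω'] [Fintype Ω''] {S T U : Type*}

theorem sum_pr_aux (Q : Law Ω') (π : Ω' → Ω) : ∑ ω, Q.pr π ω = 1 := by
  classical
  rw [← Q.sum_one]
  unfold Law.pr
  exact Finset.sum_fiberwise_of_maps_to (fun _ _ => Finset.mem_univ _) _

/-- the law of `π` under `Q` -/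
noncomputable def push (Q : Law Ω') (π : Ω' → Ω) : Law Ω where
  w ω := Q.pr π ω
  nn ω := Q.pr_nonneg π ω
  sum_one := sum_pr_aux Q π

theorem push_w (Q : Law Ω') (π : Ω' → Ω) (ω : Ω) : (push Q π).w ω = Q.pr π ω := rfl

theorem push_pr (Q : Law Ω') (π : Ω' → Ω) (X : Ω → S) (x : S) :
    (push Q π).pr X x = Q.pr (X ∘ π) x := by
  classical
  unfold Law.pr
  simp only [push_w]
  unfold Law.pr
  rw [Finset.sum_filter, Finset.sum_filter]
  have h1 : ∀ ω : Ω, (if X ω = x then ∑ ω' with π ω' = ω, Q.w ω' else 0) =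
      ∑ ω' with π ω' = ω, (if (X ∘ π) ω' = x then Q.w ω' else 0) := by
    intro ω
    by_cases hx : X ω = x
    · rw [if_pos hx]
      refine Finset.sum_congr rfl fun ω' hω' => ?_
      have : π ω' = ω := by simpa using hω'
      rw [if_pos (by simp only [Function.comp_apply, this, hx])]
    · rw [if_neg hx]
      refine (Finset.sum_eq_zero fun ω' hω' => ?_).symm
      have : π ω' = ω := by simpa using hω'
      rw [if_neg (by simpa only [Function.comp_apply, this] using hx)]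
  rw [Finset.sum_congr rfl fun ω _ => h1 ω]
  exact Finset.sum_fiberwise_of_maps_to (fun _ _ => Finset.mem_univ _) _

theorem push_ex (Q : Law Ω') (π : Ω' → Ω) (f : Ω → ℝ) : (push Q π).ex f = Q.ex (f ∘ π) := by
  classical
  unfold Law.ex
  simp only [push_w]
  unfold Law.pr
  rw [← Finset.sum_fiberwise_of_maps_to (g := π) (t := (univ : Finset Ω))
    (fun _ _ => Finset.mem_univ _)]
  refine Finset.sum_congr rfl fun ω _ => ?_
  rw [Finset.sum_mul]
  refine Finset.sum_congr rfl fun ω' hω' => ?_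
  have : π ω' = ω := by simpa using hω'
  rw [Function.comp_apply, this]

theorem push_H (Q : Law Ω') (π : Ω' → Ω) (X : Ω → S) : (push Q π).H X = Q.H (X ∘ π) := by
  unfold Law.H
  simp only [push_pr]
  exact push_ex Q π _

theorem push_hc (Q : Law Ω') (π : Ω' → Ω) (X : Ω → S) (Y : Ω → T) :
    hc (push Q π) X Y = hc Q (X ∘ π) (Y ∘ π) := by
  unfold hc
  rw [push_H, push_H]
  rfl

theorem pr_congr_w {P P' : Law Ω} (h : ∀ ω, P.w ω = P'.w ω) (X : Ω → S) (x : S) :
    P.pr X x = P'.pr X x := by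
  unfold Law.pr
  exact Finset.sum_congr rfl fun ω _ => h ω

theorem law_ext {P P' : Law Ω} (h : ∀ ω, P.w ω = P'.w ω) : P = P' := by
  cases P
  cases P'
  simp only [Law.mk.injEq]
  exact funext h

theorem pr_id (P : Law Ω) (ω : Ω) : P.pr id ω = P.w ω := by
  classical
  unfold Law.pr
  rw [Finset.sum_eq_single ω]
  · intro b hb hne
    have : id b = ω := by simpa using hb
    exact absurd this hne
  · intro hn
    exact absurd (by simp) hn

theorem Dom.one_le {Q : Law Ω'} {π : Ω' → Ω} {P : Law Ω} {K : ℝ} (h : Dom Q π P K) :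
    1 ≤ K := by
  have h1 : ∑ ω, Q.pr π ω ≤ ∑ ω, K * P.w ω := Finset.sum_le_sum fun ω _ => h ω
  rw [sum_pr_aux, ← Finset.mul_sum, P.sum_one, mul_one] at h1
  exact h1

theorem Dom.mono {Q : Law Ω'} {π : Ω' → Ω} {P : Law Ω} {K K' : ℝ} (h : Dom Q π P K)
    (hK : K ≤ K') : Dom Q π P K' := fun ω =>
  (h ω).trans (mul_le_mul_of_nonneg_right hK (P.nn ω))

theorem Dom.refl (P : Law Ω) : Dom P id P 1 := by
  intro ω
  rw [pr_id, one_mul]

theorem Dom.comp {R : Law Ω''} {Q : Law Ω'} {P : Law Ω} {π' : Ω'' → Ω'} {π : Ω' → Ω}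
    {K K' : ℝ} (h' : Dom R π' Q K') (h : Dom Q π P K) : Dom R (π ∘ π') P (K' * K) := by
  intro ω
  have hK' : 0 ≤ K' := by linarith [h'.one_le]
  have h1 : R.pr (π ∘ π') ω = (push R π').pr π ω := (push_pr R π' π ω).symm
  rw [h1]
  have h2 : (push R π').pr π ω ≤ K' * Q.pr π ω := by
    unfold Law.pr
    rw [Finset.mul_sum]
    exact Finset.sum_le_sum fun ω' _ => h' ω'
  calc (push R π').pr π ω ≤ K' * Q.pr π ω := h2
    _ ≤ K' * (K * P.w ω) := mul_le_mul_of_nonneg_left (h ω) hK'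
    _ = K' * K * P.w ω := by ring

theorem Dom.pos {Q : Law Ω'} {π : Ω' → Ω} {P : Law Ω} {K : ℝ} (h : Dom Q π P K) {ω : Ω'}
    (hω : 0 < Q.w ω) : 0 < P.w (π ω) := by
  have h1 : 0 < Q.pr π (π ω) := Q.pr_pos π hω
  have h2 := h (π ω)
  rcases (P.nn (π ω)).eq_or_lt with h0 | h0
  · rw [← h0, mul_zero] at h2
    linarith
  · exact h0

/-- the complementary law, general version -/
theorem Dom.split_aux {Q : Law Ω'} {π : Ω' → Ω} {P : Law Ω} {K : ℝ}
    (h : Dom Q π P K) : ∃ R : Law Ω, (2 ≤ K → Dom R id P 2) ∧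
      ∀ ω, P.w ω = 1 / K * Q.pr π ω + (1 - 1 / K) * R.w ω := by
  have hK1 := h.one_le
  have hK0 : 0 < K := by linarith
  rcases eq_or_lt_of_le hK1 with hK | hK
  · refine ⟨P, fun h2 => by linarith, ?_⟩
    subst hK
    have h1 : ∀ ω, Q.pr π ω ≤ P.w ω := fun ω => by simpa using h ω
    have h2 : ∑ ω, (P.w ω - Q.pr π ω) = 0 := by
      rw [Finset.sum_sub_distrib, P.sum_one, sum_pr_aux, sub_self]
    have h3 := (Finset.sum_eq_zero_iff_of_nonneg (fun ω _ => sub_nonneg.2 (h1 ω))).1 h2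
    intro ω
    have := h3 ω (Finset.mem_univ _)
    rw [div_one, sub_self, zero_mul, one_mul, add_zero]
    linarith
  · have hd : 0 < 1 - 1 / K := by
      rw [sub_pos, div_lt_one hK0]
      exact hK
    refine ⟨⟨fun ω => (P.w ω - 1 / K * Q.pr π ω) / (1 - 1 / K), fun ω => ?_, ?_⟩, ?_, ?_⟩
    · refine div_nonneg ?_ hd.le
      have := h ω
      rw [sub_nonneg, one_div, inv_mul_le_iff₀ hK0]
      exact this
    · rw [← Finset.sum_div, Finset.sum_sub_distrib, ← Finset.mul_sum, P.sum_one, sum_pr_aux,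
        mul_one]
      exact div_self hd.ne'
    · intro h2 ω
      rw [pr_id]
      simp only
      rw [div_le_iff₀ hd]
      have h3 : 0 ≤ 1 / K * Q.pr π ω := mul_nonneg (by positivity) (Q.pr_nonneg _ _)
      have h4 : 1 / K ≤ 1 / 2 := one_div_le_one_div_of_le (by norm_num) h2
      nlinarith [P.nn ω]
    · intro ω
      simp only
      field_simp
      ring

/-- the complementary law -/
theorem Dom.split {Q : Law Ω'} {π : Ω' → Ω} {P : Law Ω} {K : ℝ} (hK : 2 ≤ K)
    (h : Dom Q π P K) : ∃ R : Law Ω, Dom R id P 2 ∧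
      ∀ ω, P.w ω = 1 / K * Q.pr π ω + (1 - 1 / K) * R.w ω := by
  obtain ⟨R, h1, h2⟩ := h.split_aux
  exact ⟨R, h1 hK, h2⟩

/-- the mixture as a law with a label -/
noncomputable def mixL (Q R : Law Ω) (a : ℝ) (h0 : 0 ≤ a) (h1 : a ≤ 1) : Law (Ω × Bool) where
  w p := if p.2 then a * Q.w p.1 else (1 - a) * R.w p.1
  nn p := by
    split_ifs
    · exact mul_nonneg h0 (Q.nn _)
    · exact mul_nonneg (by linarith) (R.nn _)
  sum_one := by
    rw [Fintype.sum_prod_type]
    simp only [Fintype.sum_bool, if_true]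
    rw [Finset.sum_add_distrib, ← Finset.mul_sum, Q.sum_one]
    have : ∑ x, (if false = true then a * Q.w x else (1 - a) * R.w x) = 1 - a := by
      simp only [Bool.false_eq_true, if_false]
      rw [← Finset.mul_sum, R.sum_one, mul_one]
    rw [this]
    ring

theorem mixL_ex (Q R : Law Ω) (a : ℝ) (h0 : 0 ≤ a) (h1 : a ≤ 1) (f : Ω × Bool → ℝ) :
    (mixL Q R a h0 h1).ex f =
      a * Q.ex (fun ω => f (ω, true)) + (1 - a) * R.ex (fun ω => f (ω, false)) := by
  unfold Law.ex mixL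
  rw [Fintype.sum_prod_type]
  simp only [Fintype.sum_bool, if_true, Bool.false_eq_true, if_false]
  rw [Finset.sum_add_distrib, Finset.mul_sum, Finset.mul_sum]
  congr 1
  · exact Finset.sum_congr rfl fun ω _ => by ring
  · exact Finset.sum_congr rfl fun ω _ => by ring

theorem mixL_pr (Q R : Law Ω) (a : ℝ) (h0 : 0 ≤ a) (h1 : a ≤ 1) (X : Ω × Bool → S) (x : S) :
    (mixL Q R a h0 h1).pr X x =
      a * Q.pr (fun ω => X (ω, true)) x + (1 - a) * R.pr (fun ω => X (ω, false)) x := by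
  rw [Law.pr_eq_ex, Law.pr_eq_ex, Law.pr_eq_ex]
  exact mixL_ex Q R a h0 h1 _

theorem mixL_H_lab (Q R : Law Ω) (a : ℝ) (h0 : 0 ≤ a) (h1 : a ≤ 1) (X : Ω → S) :
    (mixL Q R a h0 h1).H (fun p => (X p.1, p.2)) =
      a * Q.H X + (1 - a) * R.H X - a * Real.log a - (1 - a) * Real.log (1 - a) := by
  classical
  have e1 : ∀ x, (mixL Q R a h0 h1).pr (fun p => (X p.1, p.2)) (x, true) = a * Q.pr X x := by
    intro x
    rw [mixL_pr]
    have z : R.pr (fun ω => (X ω, false)) (x, true) = 0 := by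
      unfold Law.pr
      refine Finset.sum_eq_zero fun ω hω => ?_
      simp at hω
    have z' : Q.pr (fun ω => (X ω, true)) (x, true) = Q.pr X x := by
      unfold Law.pr
      exact Finset.sum_congr (by ext; simp) fun _ _ => rfl
    simp only
    rw [z, z']
    ring
  have e2 : ∀ x, (mixL Q R a h0 h1).pr (fun p => (X p.1, p.2)) (x, false) =
      (1 - a) * R.pr X x := by
    intro x
    rw [mixL_pr]
    have z : Q.pr (fun ω => (X ω, true)) (x, false) = 0 := by
      unfold Law.pr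
      refine Finset.sum_eq_zero fun ω hω => ?_
      simp at hω
    have z' : R.pr (fun ω => (X ω, false)) (x, false) = R.pr X x := by
      unfold Law.pr
      exact Finset.sum_congr (by ext; simp) fun _ _ => rfl
    simp only
    rw [z, z']
    ring
  have t1 : ∀ (L : Law Ω) (b : ℝ), 0 ≤ b →
      b * L.ex (fun ω => -Real.log (b * L.pr X (X ω))) = b * L.H X - b * Real.log b := by
    intro L b hb
    rcases hb.eq_or_lt with hb0 | hb0
    · rw [← hb0]; simp
    · have : L.ex (fun ω => -Real.log (b * L.pr X (X ω))) = L.H X - Real.log b := by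
        unfold Law.H
        rw [← L.ex_const (Real.log b), ← L.ex_sub]
        refine L.ex_congr fun ω hω => ?_
        rw [Real.log_mul hb0.ne' (L.pr_pos X hω).ne']
        ring
      rw [this]
      ring
  unfold Law.H
  rw [mixL_ex]
  simp only [e1, e2]
  rw [t1 Q a h0, t1 R (1 - a) (by linarith)]
  unfold Law.H
  ring

/-- mixtures -/
theorem mix_hc {Q : Law Ω'} {π : Ω' → Ω} {P R : Law Ω} {a : ℝ} (h0 : 0 ≤ a) (h1 : a ≤ 1)
    (h : ∀ ω, P.w ω = a * Q.pr π ω + (1 - a) * R.w ω) (X : Ω → S) (Y : Ω → T) :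
    a * hc Q (X ∘ π) (Y ∘ π) + (1 - a) * hc R X Y ≤ hc P X Y ∧
      hc P X Y ≤ a * hc Q (X ∘ π) (Y ∘ π) + (1 - a) * hc R X Y + Real.log 2 := by
  classical
  rw [← push_hc]
  set Q' := push Q π with hQ'
  set M := mixL Q' R a h0 h1 with hM
  have hP : P = push M Prod.fst := by
    refine law_ext fun ω => ?_
    rw [push_w, hM, mixL_pr, h ω]
    have z1 : Q'.pr (fun ω => (ω, true).1) ω = Q.pr π ω := by
      have := pr_id Q' ω
      rw [hQ', push_w] at this
      exact this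
    have z2 : R.pr (fun ω => (ω, false).1) ω = R.w ω := pr_id R ω
    rw [z1, z2]
  have hPhc : hc P X Y = hc M (fun p => X p.1) (fun p => Y p.1) := by
    rw [hP, push_hc]
    rfl
  have hlab : hc M (fun p => X p.1) (fun p => (Y p.1, p.2)) =
      a * hc Q' X Y + (1 - a) * hc R X Y := by
    have e1 : hc M (fun p => X p.1) (fun p => (Y p.1, p.2)) =
        M.H (fun p => ((X p.1, Y p.1), p.2)) - M.H (fun p => (Y p.1, p.2)) := by
      unfold hc
      congr 1
      refine M.H_congr fun p p' => ?_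
      simp only [Prod.mk.injEq]
      tauto
    rw [e1, hM, mixL_H_lab Q' R a h0 h1 (fun ω => (X ω, Y ω)), mixL_H_lab Q' R a h0 h1 Y]
    unfold hc
    ring
  rw [hPhc, ← hlab]
  constructor
  · exact hc_mono_right M _ fun p p' _ _ e => congrArg Prod.fst e
  · have s1 := hc_le_add' M (fun p => X p.1) (fun p => p.2) (fun p => Y p.1)
    have s2 : hc M (fun p : Ω × Bool => p.2) (fun p => Y p.1) ≤ Real.log 2 := by
      refine (hc_le_H M _ _).trans ?_
      have := M.H_le_log_card (fun p : Ω × Bool => p.2)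
      simpa using this
    have s3 : hc M (fun p => X p.1) (fun p => (p.2, Y p.1)) =
        hc M (fun p => X p.1) (fun p => (Y p.1, p.2)) :=
      hc_congr M (fun p p' _ _ e => congrArg Prod.fst e) (fun p p' _ _ e => congrArg Prod.fst e)
        (fun p p' _ _ e => by simp only [Prod.mk.injEq] at e ⊢; exact ⟨e.2, e.1⟩)
        (fun p p' _ _ e => by simp only [Prod.mk.injEq] at e ⊢; exact ⟨e.2, e.1⟩)
    linarith

theorem Dom.hc_le {Q : Law Ω'} {π : Ω' → Ω} {P : Law Ω} {K : ℝ} (h : Dom Q π P K)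
    (X : Ω → S) (Y : Ω → T) : hc Q (X ∘ π) (Y ∘ π) ≤ K * hc P X Y := by
  have hK1 := h.one_le
  have hK0 : 0 < K := by linarith
  obtain ⟨R, _, h2⟩ := h.split_aux
  have h3 : 1 / K ≤ 1 := (div_le_one hK0).2 hK1
  have h4 := (mix_hc (by positivity) h3 h2 X Y).1
  have h5 : 0 ≤ (1 - 1 / K) * hc R X Y := mul_nonneg (by linarith) (hc_nonneg R X Y)
  have h6 : 1 / K * hc Q (X ∘ π) (Y ∘ π) ≤ hc P X Y := by linarith
  rw [one_div, inv_mul_le_iff₀ hK0] at h6
  exact h6

/-- `R0` bounds the entropy of `X` given `Y` under every law (e.g. the logarithm of the number of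
values) -/
theorem Dom.le_hc {Q : Law Ω'} {π : Ω' → Ω} {P : Law Ω} {K : ℝ} (h : Dom Q π P K)
    (X : Ω → S) (Y : Ω → T) (R0 : ℝ) (hR : ∀ R : Law Ω, Dom R id P 2 → hc R X Y ≤ R0) :
    R0 - 2 * K * (R0 - hc P X Y + Real.log 2) ≤ hc Q (X ∘ π) (Y ∘ π) := by
  have hK1 := h.one_le
  have h2 : Dom Q π P (2 * K) := h.mono (by linarith)
  obtain ⟨R, h3, h4⟩ := h2.split (by linarith)
  have hK0 : 0 < 2 * K := by linarith
  have h5 : 1 / (2 * K) ≤ 1 := (div_le_one hK0).2 (by linarith)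
  have h6 := (mix_hc (by positivity) h5 h4 X Y).2
  have h7 : (1 - 1 / (2 * K)) * hc R X Y ≤ (1 - 1 / (2 * K)) * R0 :=
    mul_le_mul_of_nonneg_left (hR R h3) (by linarith)
  have h8 : hc P X Y ≤ 1 / (2 * K) * hc Q (X ∘ π) (Y ∘ π) + (1 - 1 / (2 * K)) * R0 +
      Real.log 2 := by linarith
  have h9 : (2 * K) * hc P X Y ≤ (2 * K) * (1 / (2 * K) * hc Q (X ∘ π) (Y ∘ π) +
      (1 - 1 / (2 * K)) * R0 + Real.log 2) := mul_le_mul_of_nonneg_left h8 hK0.le
  have h10 : (2 * K) * (1 / (2 * K) * hc Q (X ∘ π) (Y ∘ π) +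
      (1 - 1 / (2 * K)) * R0 + Real.log 2) = hc Q (X ∘ π) (Y ∘ π) + (2 * K - 1) * R0 +
      2 * K * Real.log 2 := by
    field_simp
  rw [h10] at h9
  linarith

theorem Dom.mi_le {Q : Law Ω'} {π : Ω' → Ω} {P : Law Ω} {K : ℝ} (h : Dom Q π P K)
    (X : Ω → S) (Y : Ω → T) (Z : Ω → U) :
    mi Q (X ∘ π) (Y ∘ π) (Z ∘ π) ≤ K * (mi P X Y Z + Real.log 2) := by
  have hK1 := h.one_le
  have hK0 : 0 < K := by linarith
  obtain ⟨R, _, h2⟩ := h.split_aux
  have h3 : 1 / K ≤ 1 := (div_le_one hK0).2 hK1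
  have h4 := (mix_hc (by positivity) h3 h2 X Z).1
  have h5 := (mix_hc (by positivity) h3 h2 X (fun ω => (Y ω, Z ω))).2
  have h6 : 0 ≤ (1 - 1 / K) * mi R X Y Z := mul_nonneg (by linarith) (mi_nonneg R X Y Z)
  have e1 : mi Q (X ∘ π) (Y ∘ π) (Z ∘ π) =
      hc Q (X ∘ π) (Z ∘ π) - hc Q (X ∘ π) ((fun ω => (Y ω, Z ω)) ∘ π) := rfl
  have e2 : mi P X Y Z = hc P X Z - hc P X (fun ω => (Y ω, Z ω)) := rfl
  have e3 : mi R X Y Z = hc R X Z - hc R X (fun ω => (Y ω, Z ω)) := rfl
  rw [e3] at h6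
  have h7 : 1 / K * mi Q (X ∘ π) (Y ∘ π) (Z ∘ π) ≤ mi P X Y Z + Real.log 2 := by
    rw [e1, e2]
    linarith
  rw [one_div, inv_mul_le_iff₀ hK0] at h7
  exact h7

open Classical in
/-- probability of an event -/
noncomputable def prE (P : Law Ω) (E : Ω → Prop) : ℝ := ∑ ω with E ω, P.w ω

open Classical in
/-- the law conditioned on an event (junk if the event has probability zero) -/
noncomputable def on (P : Law Ω) (E : Ω → Prop) : Law Ω := P.cond (fun ω => E ω) True

theorem prE_eq_aux (P : Law Ω) (E : Ω → Prop) : P.pr (fun ω => E ω) True = prE P E := by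
  classical
  unfold Law.pr prE
  refine Finset.sum_congr ?_ fun _ _ => rfl
  ext ω
  simp

theorem prE_nonneg (P : Law Ω) (E : Ω → Prop) : 0 ≤ prE P E :=
  Finset.sum_nonneg fun ω _ => P.nn ω

theorem prE_le_one (P : Law Ω) (E : Ω → Prop) : prE P E ≤ 1 := by
  rw [← prE_eq_aux]
  exact P.pr_le_one _ _

theorem prE_not (P : Law Ω) (E : Ω → Prop) : prE P (fun ω => ¬ E ω) = 1 - prE P E := by
  classical
  have h1 : prE P E + prE P (fun ω => ¬ E ω) = 1 := by
    unfold prE
    rw [← P.sum_one, Finset.sum_filter, Finset.sum_filter, ← Finset.sum_add_distrib]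
    refine Finset.sum_congr rfl fun ω _ => ?_
    by_cases hE : E ω
    · simp [hE]
    · simp [hE]
  linarith

open Classical in
theorem on_w {P : Law Ω} {E : Ω → Prop} (h : 0 < prE P E) (ω : Ω) :
    (on P E).w ω = if E ω then P.w ω / prE P E else 0 := by
  unfold on
  rw [P.cond_w _ _ (by rw [prE_eq_aux]; exact h), prE_eq_aux]
  by_cases hE : E ω
  · rw [if_pos (by simpa using hE), if_pos hE]
  · rw [if_neg (by simpa using hE), if_neg hE]

theorem on_pos {P : Law Ω} {E : Ω → Prop} (h : 0 < prE P E) {ω : Ω} (hω : 0 < (on P E).w ω) :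
    E ω ∧ 0 < P.w ω := by
  classical
  rw [on_w h] at hω
  by_cases hE : E ω
  · rw [if_pos hE] at hω
    refine ⟨hE, ?_⟩
    rcases (P.nn ω).eq_or_lt with h0 | h0
    · rw [← h0, zero_div] at hω
      exact absurd hω (lt_irrefl _)
    · exact h0
  · rw [if_neg hE] at hω
    exact absurd hω (lt_irrefl _)

theorem Dom.on {P : Law Ω} {E : Ω → Prop} {p : ℝ} (hp : 0 < p) (h : p ≤ prE P E) :
    Dom (on P E) id P (1 / p) := by
  classical
  intro ω
  rw [pr_id, on_w (hp.trans_le h)]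
  split_ifs
  · rw [div_eq_mul_one_div, mul_comm]
    exact mul_le_mul_of_nonneg_right (one_div_le_one_div_of_le hp h) (P.nn ω)
  · exact mul_nonneg (by positivity) (P.nn ω)

/-- conditional entropy split over an event -/
theorem hc_le_on (P : Law Ω) (E : Ω → Prop) (h : 0 < prE P E) (h' : prE P E < 1)
    (X : Ω → S) (Y : Ω → T) :
    hc P X Y ≤ Real.log 2 + prE P E * hc (on P E) X Y +
      (1 - prE P E) * hc (on P fun ω => ¬ E ω) X Y := by
  classical
  have hn : 0 < prE P (fun ω => ¬ E ω) := by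
    rw [prE_not]
    linarith
  have hw : ∀ ω, P.w ω = prE P E * (on P E).pr id ω +
      (1 - prE P E) * (on P fun ω => ¬ E ω).w ω := by
    intro ω
    rw [pr_id, on_w h, on_w hn, prE_not]
    have h1 : 1 - prE P E ≠ 0 := by linarith
    by_cases hE : E ω
    · rw [if_pos hE, if_neg (by simpa using hE)]
      rw [mul_zero, add_zero, mul_div_cancel₀ _ h.ne']
    · rw [if_neg hE, if_pos hE, mul_zero, zero_add, mul_div_cancel₀ _ h1]
  have := (mix_hc h.le h'.le hw X Y).2
  simp only [Function.comp_id] at this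
  linarith

/-- exceptional events: if `X` has at most `N` values and outside of the event `E` at most `N'`
values given `Y` -/
theorem hc_le_exc (P : Law Ω) (E : Ω → Prop) (X : Ω → S) (Y : Ω → T) (N N' : ℕ) (hN' : 1 ≤ N')
    (h1 : ∃ F : Finset S, F.card ≤ N ∧ ∀ ω, 0 < P.w ω → X ω ∈ F)
    (h2 : ∀ ω, 0 < P.w ω → ¬ E ω → ∃ F : Finset S, F.card ≤ N' ∧
      ∀ ω', 0 < P.w ω' → ¬ E ω' → Y ω' = Y ω → X ω' ∈ F) :
    hc P X Y ≤ Real.log 2 + Real.log N' + prE P E * Real.log N := by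
  classical
  obtain ⟨F, hF, hXF⟩ := h1
  have hl2 : 0 ≤ Real.log 2 := Real.log_nonneg (by norm_num)
  have hlN' : 0 ≤ Real.log N' := Real.log_nonneg (by exact_mod_cast hN')
  have hlN : 0 ≤ Real.log N := Real.log_natCast_nonneg N
  have hp0 := prE_nonneg P E
  have hp1 := prE_le_one P E
  rcases hp0.eq_or_lt with h0 | h0
  · have hno : ∀ ω, 0 < P.w ω → ¬ E ω := by
      intro ω hω hE
      have : P.w ω ≤ prE P E := by
        unfold prE
        exact Finset.single_le_sum (f := P.w) (fun ω _ => P.nn ω) (by simpa using hE)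
      linarith
    have := hc_le_log P X Y N' fun ω hω => by
      obtain ⟨G, hG, hG'⟩ := h2 ω hω (hno ω hω)
      exact ⟨G, hG, fun ω' hω' e => hG' ω' hω' (hno ω' hω') e⟩
    rw [← h0]
    linarith
  · rcases hp1.eq_or_lt with h3 | h3
    · have := hc_le_log P X Y N fun ω _ => ⟨F, hF, fun ω' hω' _ => hXF ω' hω'⟩
      rw [h3]
      linarith
    · have hn : 0 < prE P (fun ω => ¬ E ω) := by
        rw [prE_not]
        linarith
      have e1 := hc_le_on P E h0 h3 X Y
      have e2 : hc (Stk.on P E) X Y ≤ Real.log N :=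
        hc_le_log _ X Y N fun ω _ => ⟨F, hF, fun ω' hω' _ => hXF ω' (on_pos h0 hω').2⟩
      have e3 : hc (Stk.on P fun ω => ¬ E ω) X Y ≤ Real.log N' := by
        refine hc_le_log _ X Y N' fun ω hω => ?_
        obtain ⟨hE, hω⟩ := on_pos hn hω
        obtain ⟨G, hG, hG'⟩ := h2 ω hω hE
        refine ⟨G, hG, fun ω' hω' e => ?_⟩
        obtain ⟨hE', hω'⟩ := on_pos hn hω'
        exact hG' ω' hω' hE' e
      have e4 : prE P E * hc (Stk.on P E) X Y ≤ prE P E * Real.log N :=
        mul_le_mul_of_nonneg_left e2 h0.le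
      have e5 : (1 - prE P E) * hc (Stk.on P fun ω => ¬ E ω) X Y ≤
          (1 - prE P E) * Real.log N' := mul_le_mul_of_nonneg_left e3 (by linarith)
      have e6 : (1 - prE P E) * Real.log N' ≤ 1 * Real.log N' :=
        mul_le_mul_of_nonneg_right (by linarith) hlN'
      linarith

end dom

end Vale.Agent.P127.Stk
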