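import Vale.Agent.P127.Stk.Defs

/-!
# P127 / Stk : entropy calculus, part 1

Everything is stated on the support of the law (`0 < P.w ω`).
-/

namespace Vale.Agent.P127.Stk

open Finset Vale.Agent.P127

section ent

variable {Ω : Type} [Fintype Ω] {S S' T T' U V : Type*} (P : Law Ω)

/-- on the support of `P`, `X` is a function of `Y` -/
def Fn (P : Law Ω) (X : Ω → S) (Y : Ω → T) : Prop :=
  ∀ ω ω', 0 < P.w ω → 0 < P.w ω' → Y ω = Y ω' → X ω = X ω'

theorem H_mono' {X : Ω → S} {Y : Ω → T} (h : Fn P Y X) : P.H Y ≤ P.H X := by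
  classical
  unfold Law.H
  refine P.ex_mono fun ω hω => ?_
  have h1 : P.pr X (X ω) ≤ P.pr Y (Y ω) := by
    unfold Law.pr
    rw [Finset.sum_filter, Finset.sum_filter]
    refine Finset.sum_le_sum fun ω' _ => ?_
    rcases (P.nn ω').eq_or_lt with h0 | h0
    · rw [← h0]; simp
    · by_cases hx : X ω' = X ω
      · rw [if_pos hx, if_pos (h ω' ω h0 hω hx)]
      · rw [if_neg hx]
        split_ifs
        · exact h0.le
        · exact le_rfl
  have := Real.log_le_log (P.pr_pos X hω) h1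
  linarith

theorem H_congr' {X : Ω → S} {Y : Ω → T} (h : Fn P Y X) (h' : Fn P X Y) : P.H X = P.H Y :=
  le_antisymm (H_mono' P h') (H_mono' P h)

/-- submodularity in the form of partitions: `D` a function of `X` and of `Y`,
`(X,Y)` determines `Z` -/
theorem submod' {X : Ω → S} {Y : Ω → T} {Z : Ω → U} {D : Ω → V}
    (hX : Fn P D X) (hY : Fn P D Y) (hZ : Fn P Z (fun ω => (X ω, Y ω))) :
    P.H Z + P.H D ≤ P.H X + P.H Y := by
  have h := P.submod X Y D
  have h1 : P.H (fun ω => (X ω, D ω)) = P.H X :=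
    H_congr' P (fun ω ω' _ _ e => congrArg Prod.fst e)
      (fun ω ω' p p' e => Prod.ext e (hX ω ω' p p' e))
  have h2 : P.H (fun ω => (Y ω, D ω)) = P.H Y :=
    H_congr' P (fun ω ω' _ _ e => congrArg Prod.fst e)
      (fun ω ω' p p' e => Prod.ext e (hY ω ω' p p' e))
  have h3 : P.H Z ≤ P.H (fun ω => (X ω, Y ω, D ω)) := by
    refine H_mono' P fun ω ω' p p' e => hZ ω ω' p p' ?_
    simp only [Prod.mk.injEq] at e ⊢
    exact ⟨e.1, e.2.1⟩
  linarith

theorem hc_nonneg (X : Ω → S) (Y : Ω → T) : 0 ≤ hc P X Y := by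
  unfold hc
  have := H_mono' P (X := fun ω => (X ω, Y ω)) (Y := Y) (by
    intro ω ω' _ _
    simp only [Prod.mk.injEq]
    exact fun h => h.2)
  linarith

theorem hc_mono_left {X : Ω → S} {X' : Ω → S'} {Y : Ω → T}
    (h : Fn P X (fun ω => (X' ω, Y ω))) : hc P X Y ≤ hc P X' Y := by
  unfold hc
  have := H_mono' P (X := fun ω => (X' ω, Y ω)) (Y := fun ω => (X ω, Y ω)) (by
    intro ω ω' p p' e
    have e2 := (Prod.mk.injEq _ _ _ _ ▸ e).2
    exact Prod.ext (h ω ω' p p' e) e2)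
  linarith

theorem hc_mono_right (X : Ω → S) {Y : Ω → T} {Y' : Ω → T'}
    (h : Fn P Y Y') : hc P X Y' ≤ hc P X Y := by
  have h1 := submod' P (X := fun ω => (X ω, Y ω)) (Y := Y') (Z := fun ω => (X ω, Y' ω)) (D := Y)
    (fun ω ω' _ _ e => congrArg Prod.snd e) h (by
      intro ω ω' _ _
      simp only [Prod.mk.injEq]
      exact fun e => ⟨e.1.1, e.2⟩)
  unfold hc
  linarith

theorem hc_congr {X : Ω → S} {X' : Ω → S'} {Y : Ω → T} {Y' : Ω → T'}
    (h1 : Fn P X (fun ω => (X' ω, Y ω))) (h2 : Fn P X' (fun ω => (X ω, Y ω)))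
    (h3 : Fn P Y Y') (h4 : Fn P Y' Y) : hc P X Y = hc P X' Y' := by
  refine le_antisymm ?_ ?_
  · exact (hc_mono_left P h1).trans (hc_mono_right P X' h4)
  · refine (hc_mono_right P X' h3).trans (hc_mono_left P h2)

theorem hc_zero {X : Ω → S} {Y : Ω → T} (h : Fn P X Y) : hc P X Y = 0 := by
  unfold hc
  rw [H_congr' P (X := fun ω => (X ω, Y ω)) (Y := Y) (fun ω ω' _ _ e => congrArg Prod.snd e)
    (fun ω ω' p p' e => Prod.ext (h ω ω' p p' e) e)]
  ring

theorem hc_le_H (X : Ω → S) (Y : Ω → T) : hc P X Y ≤ P.H X := by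
  have h1 : hc P X (fun _ => ()) = P.H X := by
    unfold hc
    have h1 : P.H (fun _ : Ω => ()) = 0 := by
      have h2 : P.H (fun _ : Ω => ()) ≤ Real.log (Fintype.card Unit) := P.H_le_log_card _
      simp only [Fintype.card_unit, Nat.cast_one, Real.log_one] at h2
      exact le_antisymm h2 (P.H_nonneg _)
    rw [h1, sub_zero]
    refine P.H_congr fun ω ω' => ?_
    simp
  rw [← h1]
  exact hc_mono_right P X fun _ _ _ _ _ => rfl

/-- chain rule -/
theorem hc_pair (X : Ω → S) (Y : Ω → T) (Z : Ω → U) :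
    hc P (fun ω => (X ω, Y ω)) Z = hc P X Z + hc P Y (fun ω => (X ω, Z ω)) := by
  unfold hc
  have : P.H (fun ω => ((X ω, Y ω), Z ω)) = P.H (fun ω => (Y ω, X ω, Z ω)) := by
    refine P.H_congr fun ω ω' => ?_
    simp only [Prod.mk.injEq]
    tauto
  rw [this]
  ring

/-- `H(X|Z) ≤ H(X'|Z) + H(X|X',Z)` -/
theorem hc_le_add (X : Ω → S) (X' : Ω → S') (Z : Ω → U) :
    hc P X Z ≤ hc P X' Z + hc P X (fun ω => (X' ω, Z ω)) := by
  rw [← hc_pair]
  refine hc_mono_left P ?_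
  intro ω ω' _ _
  simp only [Prod.mk.injEq]
  exact fun e => e.1.2

/-- `H(X|Z) ≤ H(X|Y,Z) + H(Y|Z)` -/
theorem hc_le_add' (X : Ω → S) (Y : Ω → T) (Z : Ω → U) :
    hc P X Z ≤ hc P X (fun ω => (Y ω, Z ω)) + hc P Y Z := by
  have := hc_le_add P X Y Z
  linarith

/-- counting bound: given `Y` there are at most `N` values of `X` -/
theorem hc_le_log (X : Ω → S) (Y : Ω → T) (N : ℕ)
    (h : ∀ ω, 0 < P.w ω → ∃ F : Finset S, F.card ≤ N ∧
      ∀ ω', 0 < P.w ω' → Y ω' = Y ω → X ω' ∈ F) : hc P X Y ≤ Real.log N := by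
  classical
  have h' : ∀ y : T, ∃ F : Finset S, F.card ≤ N ∧
      ∀ ω', 0 < P.w ω' → Y ω' = y → X ω' ∈ F := by
    intro y
    by_cases hy : ∃ ω, 0 < P.w ω ∧ Y ω = y
    · obtain ⟨ω, hω, rfl⟩ := hy
      exact h ω hω
    · refine ⟨∅, by simp, fun ω' h1 h2 => ?_⟩
      exact absurd ⟨ω', h1, h2⟩ hy
  choose F hF1 hF2 using h'
  have hex : ∃ ω, 0 < P.w ω := by
    by_contra hcon
    push Not at hcon
    have : ∑ ω, P.w ω ≤ 0 := Finset.sum_nonpos fun ω _ => hcon ω
    rw [P.sum_one] at this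
    linarith
  obtain ⟨ω0, hω0⟩ := hex
  have hN : 0 < N := by
    have := hF2 (Y ω0) ω0 hω0 rfl
    exact lt_of_lt_of_le (Finset.card_pos.2 ⟨_, this⟩) (hF1 _)
  have hN' : (0 : ℝ) < N := by exact_mod_cast hN
  have hg := P.gibbs_cond X Y (fun x y => if x ∈ F y then 1 / (N : ℝ) else 0)
    (fun x y => by split_ifs <;> positivity) ?_ (fun ω hω => by
      rw [if_pos (hF2 _ ω hω rfl)]
      positivity)
  · have h2 : P.ex (fun ω => - Real.log ((fun x y => if x ∈ F y then 1 / (N : ℝ) else 0)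
        (X ω) (Y ω))) = P.ex (fun _ => Real.log N) := by
      refine P.ex_congr fun ω hω => ?_
      simp only
      rw [if_pos (hF2 _ ω hω rfl), one_div, Real.log_inv, neg_neg]
    rw [h2, P.ex_const] at hg
    exact hg
  · intro y G
    rw [← Finset.sum_filter, Finset.sum_const, nsmul_eq_mul, mul_one_div]
    refine div_le_one_of_le₀ ?_ hN'.le
    have : (G.filter (fun x => x ∈ F y)).card ≤ (F y).card :=
      Finset.card_le_card fun x hx => (Finset.mem_filter.1 hx).2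
    exact_mod_cast this.trans (hF1 y)

/-- a difference with few values -/
theorem hc_sub_le {ι : Type} [Fintype ι] (X X' : Ω → ι → ℤ) (Y : Ω → T) (N : ℕ)
    (h : ∀ ω, 0 < P.w ω → ∀ i, |X ω i - X' ω i| ≤ N) :
    hc P X Y ≤ hc P X' Y + Fintype.card ι * Real.log (2 * N + 1) := by
  classical
  refine (hc_le_add P X X' Y).trans ?_
  have h1 : hc P X (fun ω => (X' ω, Y ω)) ≤ Real.log (((2 * N + 1) ^ Fintype.card ι : ℕ) : ℝ) := by
    refine hc_le_log P X _ _ fun ω hω => ?_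
    refine ⟨Fintype.piFinset fun i => Finset.Icc (X' ω i - N) (X' ω i + N), ?_, ?_⟩
    · rw [Fintype.card_piFinset]
      have : ∀ i, (Finset.Icc (X' ω i - N) (X' ω i + N)).card = 2 * N + 1 := by
        intro i
        rw [Int.card_Icc]
        omega
      simp only [this, Finset.prod_const, Finset.card_univ]
      exact le_rfl
    · intro ω' hω' e
      simp only [Prod.mk.injEq] at e
      rw [Fintype.mem_piFinset]
      intro i
      have h2 := abs_le.1 (h ω' hω' i)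
      rw [e.1] at h2
      rw [Finset.mem_Icc]
      constructor <;> linarith [h2.1, h2.2]
  have h2 : Real.log (((2 * N + 1) ^ Fintype.card ι : ℕ) : ℝ) =
      Fintype.card ι * Real.log (2 * N + 1) := by
    push_cast
    rw [Real.log_pow]
  linarith

theorem mi_nonneg (X : Ω → S) (Y : Ω → T) (Z : Ω → U) : 0 ≤ mi P X Y Z := by
  have h1 := hc_mono_right P X (Y := Z) (Y' := fun ω => (Y ω, Z ω))
    (fun ω ω' _ _ e => congrArg Prod.snd e)
  unfold mi
  linarith

theorem mi_symm (X : Ω → S) (Y : Ω → T) (Z : Ω → U) : mi P X Y Z = mi P Y X Z := by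
  unfold mi hc
  have : P.H (fun ω => (X ω, Y ω, Z ω)) = P.H (fun ω => (Y ω, X ω, Z ω)) := by
    refine P.H_congr fun ω ω' => ?_
    simp only [Prod.mk.injEq]
    tauto
  linarith

/-- chain rule for the information -/
theorem mi_pair (X : Ω → S) (Y : Ω → T) (Y' : Ω → T') (Z : Ω → U) :
    mi P X (fun ω => (Y ω, Y' ω)) Z = mi P X Y Z + mi P X Y' (fun ω => (Y ω, Z ω)) := by
  unfold mi
  rw [hc_congr P (X := X) (X' := X) (Y := fun ω => ((Y ω, Y' ω), Z ω))
    (Y' := fun ω => (Y' ω, Y ω, Z ω)) (fun ω ω' _ _ e => congrArg Prod.fst e)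
    (fun ω ω' _ _ e => congrArg Prod.fst e) (by
      intro ω ω' _ _
      simp only [Prod.mk.injEq]
      tauto) (by
      intro ω ω' _ _
      simp only [Prod.mk.injEq]
      tauto)]
  ring

theorem mi_mono_right (X : Ω → S) {Y : Ω → T} {Y' : Ω → T'} {Z : Ω → U}
    (h : Fn P Y (fun ω => (Y' ω, Z ω))) : mi P X Y Z ≤ mi P X Y' Z := by
  unfold mi
  have := hc_mono_right P X (Y := fun ω => (Y ω, Z ω)) (Y' := fun ω => (Y' ω, Z ω)) (by
    intro ω ω' p p' e
    exact Prod.ext (h ω ω' p p' e) (Prod.mk.injEq _ _ _ _ ▸ e).2)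
  linarith

theorem mi_mono_left {X : Ω → S} {X' : Ω → S'} (Y : Ω → T) {Z : Ω → U}
    (h : Fn P X (fun ω => (X' ω, Z ω))) : mi P X Y Z ≤ mi P X' Y Z := by
  rw [mi_symm P X, mi_symm P X']
  exact mi_mono_right P Y h

theorem mi_congr_cond (X : Ω → S) (Y : Ω → T) {Z : Ω → U} {Z' : Ω → V}
    (h : Fn P Z Z') (h' : Fn P Z' Z) : mi P X Y Z = mi P X Y Z' := by
  unfold mi
  rw [hc_congr P (X := X) (X' := X) (Y := Z) (Y' := Z') (fun ω ω' _ _ e => congrArg Prod.fst e)
      (fun ω ω' _ _ e => congrArg Prod.fst e) h h',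
    hc_congr P (X := X) (X' := X) (Y := fun ω => (Y ω, Z ω)) (Y' := fun ω => (Y ω, Z' ω))
      (fun ω ω' _ _ e => congrArg Prod.fst e) (fun ω ω' _ _ e => congrArg Prod.fst e) ?_ ?_]
  · intro ω ω' p p' e
    simp only [Prod.mk.injEq] at e ⊢
    exact ⟨e.1, h ω ω' p p' e.2⟩
  · intro ω ω' p p' e
    simp only [Prod.mk.injEq] at e ⊢
    exact ⟨e.1, h' ω ω' p p' e.2⟩

theorem mi_le_hc (X : Ω → S) (Y : Ω → T) (Z : Ω → U) : mi P X Y Z ≤ hc P X Z := by
  unfold mi
  have := hc_nonneg P X (fun ω => (Y ω, Z ω))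
  linarith

theorem mi_le_hc' (X : Ω → S) (Y : Ω → T) (Z : Ω → U) : mi P X Y Z ≤ hc P Y Z := by
  rw [mi_symm]
  exact mi_le_hc P Y X Z

/-- moving a variable which is a function of `X` into the condition -/
theorem mi_cond_le {X : Ω → S} (Y : Ω → T) {W : Ω → V} (Z : Ω → U)
    (h : Fn P W (fun ω => (X ω, Z ω))) :
    mi P X Y (fun ω => (W ω, Z ω)) ≤ mi P X Y Z := by
  have h1 : mi P (fun ω => (W ω, X ω)) Y Z ≤ mi P X Y Z := by
    refine mi_mono_left P Y ?_
    intro ω ω' p p' e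
    exact Prod.ext (h ω ω' p p' e) (Prod.mk.injEq _ _ _ _ ▸ e).1
  rw [mi_symm P _ Y, mi_pair, mi_symm P Y X] at h1
  have h2 := mi_nonneg P Y W Z
  linarith

end ent

end Vale.Agent.P127.Stk
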