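import Vale.Agent.P127.Stk.KillA

/-!
# P127 / Stk / Kill: the killing lemma, and its combination with the straight displacement
-/

namespace Vale.Agent.P127.Stk

open Finset Vale.Agent.P127

section object

variable {Ω Ω' : Type} [Fintype Ω'] {m κ : ℕ} {σ : Type}

open Classical in
/-- the matrix of the object with one more killed direction, as a function of the data -/
noncomputable def kgm (Q : Law Ω') (o : Ob Ω m κ) (π : Ω' → Ω) (D : Ω' → σ)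
    (v : Ω' → Fin m → ℝ) (i0 : Fin m) (d : σ) (i j : Fin m) : ℝ :=
  if hd : ∃ ω, 0 < Q.w ω ∧ D ω = d then
    (if j ∈ o.J then o.Γ (π hd.choose) i j - v hd.choose i * o.Γ (π hd.choose) i0 j
      else if j = i0 then v hd.choose i else 0)
  else 0

theorem kgm_bd (Q : Law Ω') (o : Ob Ω m κ) (π : Ω' → Ω) (D : Ω' → σ)
    (v : Ω' → Fin m → ℝ) (i0 : Fin m) (hv : ∀ ω, 0 < Q.w ω → ∀ i, |v ω i| ≤ 1)
    (d : σ) (i j : Fin m) : |kgm Q o π D v i0 d i j| ≤ 3 ^ (κ + 1) := by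
  have h1 : (1 : ℝ) ≤ 3 ^ κ := one_le_pow₀ (by norm_num)
  have h2 : (3 : ℝ) ^ (κ + 1) = 3 * 3 ^ κ := by rw [pow_succ]; ring
  unfold kgm
  split_ifs with hd hj hi
  · have a1 := hv _ hd.choose_spec.1 i
    have a2 := o.bd (π hd.choose) i j
    have a3 := o.bd (π hd.choose) i0 j
    have a4 := abs_sub (o.Γ (π hd.choose) i j) (v hd.choose i * o.Γ (π hd.choose) i0 j)
    have a5 : |v hd.choose i * o.Γ (π hd.choose) i0 j| ≤ 3 ^ κ := by
      rw [abs_mul]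
      have := mul_le_mul a1 a3 (abs_nonneg _) zero_le_one
      linarith
    linarith
  · have a1 := hv _ hd.choose_spec.1 i
    linarith
  · rw [abs_zero]
    linarith
  · rw [abs_zero]
    linarith

/-- the object with one more killed direction -/
noncomputable def kob (Q : Law Ω') (o : Ob Ω m κ) (π : Ω' → Ω) (D : Ω' → σ)
    (v : Ω' → Fin m → ℝ) (i0 : Fin m) (hi : i0 ∉ o.J)
    (hv : ∀ ω, 0 < Q.w ω → ∀ i, |v ω i| ≤ 1) : Ob Ω' m (κ + 1) where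
  γ := σ
  G := D
  J := insert i0 o.J
  Γ := fun ω => kgm Q o π D v i0 (D ω)
  card := by rw [Finset.card_insert_of_notMem hi, o.card]
  bd := fun ω i j => kgm_bd Q o π D v i0 hv (D ω) i j
  fn := fun ω ω' h => by rw [h]

theorem kgm_eq (Q : Law Ω') (o : Ob Ω m κ) (π : Ω' → Ω) (D : Ω' → σ)
    (v : Ω' → Fin m → ℝ) (i0 : Fin m) (h1 : Fn Q (fun ω => o.Γ (π ω)) D) (h2 : Fn Q v D)
    {ω : Ω'} (hω : 0 < Q.w ω) (i j : Fin m) : kgm Q o π D v i0 (D ω) i j =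
      (if j ∈ o.J then o.Γ (π ω) i j - v ω i * o.Γ (π ω) i0 j
        else if j = i0 then v ω i else 0) := by
  have hd : ∃ ω', 0 < Q.w ω' ∧ D ω' = D ω := ⟨ω, hω, rfl⟩
  unfold kgm
  rw [dif_pos hd]
  have e1 : o.Γ (π hd.choose) = o.Γ (π ω) := h1 _ _ hd.choose_spec.1 hω hd.choose_spec.2
  have e2 : v hd.choose = v ω := h2 _ _ hd.choose_spec.1 hω hd.choose_spec.2
  rw [e1, e2]

theorem kob_app (Q : Law Ω') (o : Ob Ω m κ) (π : Ω' → Ω) (D : Ω' → σ)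
    (v : Ω' → Fin m → ℝ) (i0 : Fin m) (hi : i0 ∉ o.J)
    (hv : ∀ ω, 0 < Q.w ω → ∀ i, |v ω i| ≤ 1) (h1 : Fn Q (fun ω => o.Γ (π ω)) D)
    (h2 : Fn Q v D) {ω : Ω'} (hω : 0 < Q.w ω) (hJ : ∀ j ∈ o.J, v ω j = 0) (h0 : v ω i0 = 1)
    (u : Fin m → ℝ) (i : Fin m) : (kob Q o π D v i0 hi hv).app ω u i =
      o.app (π ω) u i - o.app (π ω) u i0 * v ω i := by
  classical
  have hJ' : (kob Q o π D v i0 hi hv).J = insert i0 o.J := rfl
  have hΓ : (kob Q o π D v i0 hi hv).Γ ω = kgm Q o π D v i0 (D ω) := rfl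
  unfold Ob.app
  rw [hJ', hΓ]
  by_cases hii : i = i0
  · subst hii
    rw [if_pos (Finset.mem_insert_self _ _), if_neg hi, h0]
    ring
  by_cases hij : i ∈ o.J
  · rw [if_pos (Finset.mem_insert_of_mem hij), if_pos hij, hJ i hij]
    ring
  · rw [if_neg (by simp [hii, hij]), if_neg hij, if_neg hi, Finset.sum_insert hi,
      kgm_eq Q o π D v i0 h1 h2 hω, if_neg hi, if_pos rfl]
    have e : ∑ j ∈ o.J, kgm Q o π D v i0 (D ω) i j * u j =
        ∑ j ∈ o.J, o.Γ (π ω) i j * u j - v ω i * ∑ j ∈ o.J, o.Γ (π ω) i0 j * u j := by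
      rw [Finset.mul_sum, ← Finset.sum_sub_distrib]
      refine Finset.sum_congr rfl fun j hj => ?_
      rw [kgm_eq Q o π D v i0 h1 h2 hω, if_pos hj]
      ring
    rw [e]
    ring

theorem app_add (o : Ob Ω m κ) (ω : Ω) (u w : Fin m → ℝ) (i : Fin m) :
    o.app ω (fun i => u i + w i) i = o.app ω u i + o.app ω w i := by
  unfold Ob.app
  split_ifs
  · ring
  · have : ∑ j ∈ o.J, o.Γ ω i j * (u j + w j) =
        ∑ j ∈ o.J, o.Γ ω i j * u j + ∑ j ∈ o.J, o.Γ ω i j * w j := by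
      rw [← Finset.sum_add_distrib]
      exact Finset.sum_congr rfl fun j _ => by ring
    rw [this]
    ring

theorem app_smul (o : Ob Ω m κ) (ω : Ω) (a : ℝ) (u : Fin m → ℝ) (i : Fin m) :
    o.app ω (fun i => a * u i) i = a * o.app ω u i := by
  unfold Ob.app
  split_ifs
  · ring
  · have : ∑ j ∈ o.J, o.Γ ω i j * (a * u j) = a * ∑ j ∈ o.J, o.Γ ω i j * u j := by
      rw [Finset.mul_sum]
      exact Finset.sum_congr rfl fun j _ => by ring
    rw [this]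
    ring

end object

/-- **killing lemma** (negated form): under `NK m h (κ + 1)`, a direction `v` which depends only
on cheap data `D` cannot be killed below the scale `2^{-r}`; `δ` depends only on `η`
(and on `m`, `h`, `κ`). -/
theorem kill (R : Gr) {m : ℕ} {h : ℝ} {κ : ℕ} (hN : NK R m h (κ + 1)) {η : ℝ} (hη : 0 < η) :
    ∃ δ : ℝ, 0 < δ ∧ ∀ (K : ℝ) (g : R.G), ∃ n : ℕ, ∀ (L : ℕ) (e C : ℝ), R.ok g n L e C →
      ∀ (Ω : Type) [Fintype Ω] (P : Law Ω) (c : Cf Ω m) (o : Ob Ω m κ), Good P c L e C →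
      ∀ (Ω' : Type) [Fintype Ω'] (Q : Law Ω') (π : Ω' → Ω), Dom Q π P K →
      ∀ (σ : Type) (D : Ω' → σ) (r r' : ℕ) (v : Ω' → Fin m → ℝ) (i0 : Fin m),
        r ≤ r' → r' ≤ L → η * L ≤ (r' : ℝ) - r → i0 ∉ o.J →
        Fn Q (fun ω => o.Γ (π ω)) D → Fn Q v D →
        (∀ ω, 0 < Q.w ω → (∀ j ∈ o.J, v ω j = 0) ∧ v ω i0 = 1 ∧ ∀ i, |v ω i| ≤ 1) →
        mi Q (fun ω => (c.x (π ω), c.y (π ω))) D
          (fun ω => (c.t (π ω), c.A (π ω), fl r (c.x (π ω)), fl r (c.y (π ω)))) ≤ δ * L →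
        (h - κ - 1) * ((r' : ℝ) - r) * Real.log 2 + δ * L <
          hc Q (fun ω => fl r' (fun i => o.F c (π ω) i - o.F c (π ω) i0 * v ω i))
            (fun ω => ((fl r (c.x (π ω)), fl r (c.y (π ω))), c.t (π ω), D ω, c.A (π ω))) := by
  obtain ⟨ι, hι, hN⟩ := hN
  refine ⟨ι * η / 4, by positivity, fun K g => ?_⟩
  set K1 := max K 2 with hK1
  have hK2 : 2 ≤ K1 := le_max_right _ _
  have hK0 : 0 < K1 := by linarith
  have hk0 : 0 ≤ klc m 2 := klc_nonneg (by norm_num)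
  obtain ⟨g1, hg1⟩ := R.dom g (8 * K1) (by positivity)
  obtain ⟨g2, hg2⟩ := R.sub g1 η hη
  obtain ⟨n2, hn2⟩ := hN g2
  obtain ⟨n1, hn1⟩ := hg2 n2
  obtain ⟨n0, hn0⟩ := hg1 n1
  obtain ⟨n3, hn3⟩ := R.small g (ι * η / (4 * klc m 2 + 1)) (by positivity)
  refine ⟨max n0 n3, fun L e C hok => ?_⟩
  intro Ω _ P c o hG Ω' _ Q π hQ σ D r r' v i0 hrr hr'L hη' hi0 hΓ hv hvs hmi
  have hC0 : 0 ≤ C := (mi_nonneg P _ _ _).trans hG.ind
  have hsm := (hn3 L e C (R.anti _ _ _ _ _ _ (le_max_right _ _) hok)).1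
  have q3 : 4 * klc m 2 + 1 ≤ ι * η * L := by
    rw [div_mul_eq_mul_div, le_div_iff₀ (by positivity), one_mul] at hsm
    exact hsm
  have hL1 : (0 : ℝ) < L := by
    by_contra hcon
    have : ι * η * (L : ℝ) ≤ 0 :=
      mul_nonpos_of_nonneg_of_nonpos (by positivity) (not_lt.1 hcon)
    linarith
  set L' := r' - r with hL'
  have hcast : (L' : ℝ) = (r' : ℝ) - r := by rw [hL', Nat.cast_sub hrr]
  rw [← hcast] at hη' ⊢
  have hvb : ∀ ω, 0 < Q.w ω → ∀ i, |v ω i| ≤ 1 := fun ω hω => (hvs ω hω).2.2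
  set o' := kob Q o π D v i0 hi0 hvb with ho'
  set c' := (c.comp π).sub r with hc'
  have hgood : Good Q c' L' (8 * K1 * (e + 1)) (8 * K1 * (C + 1)) := by
    have g1 := hG.comp hK2 (hQ.mono (le_max_left K 2))
    have g2 := g1.sub r L' (by omega)
    refine g2.mono le_rfl (le_of_eq (by ring)) ?_
    have : 0 ≤ K1 * (C + 1) := by positivity
    linarith
  have hok' : R.ok g2 n2 L' (8 * K1 * (e + 1)) (8 * K1 * (C + 1)) := by
    refine hn1 L L' _ _ (hn0 L e C (R.anti _ _ _ _ _ _ (le_max_left _ _) hok)) hη' ?_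
    rw [hL']
    omega
  have hcost : mi Q (fun ω => (c'.x ω, c'.y ω)) o'.G (fun ω => (c'.t ω, c'.A ω)) ≤ ι * L' := by
    have h1 : mi Q (fun ω => (c'.x ω, c'.y ω)) o'.G (fun ω => (c'.t ω, c'.A ω)) ≤
        mi Q (fun ω => (c.x (π ω), c.y (π ω))) o'.G (fun ω => (c'.t ω, c'.A ω)) := by
      refine mi_mono_left Q _ fun ω ω' _ _ he => ?_
      have he' := (Prod.mk.inj he).1
      have e1 : c.x (π ω) = c.x (π ω') := (Prod.mk.inj he').1
      have e2 : c.y (π ω) = c.y (π ω') := (Prod.mk.inj he').2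
      show ((fun i => Int.fract ((2 : ℝ) ^ r * c.x (π ω) i)),
        (fun i => Int.fract ((2 : ℝ) ^ r * c.y (π ω) i))) = _
      rw [e1, e2]
      rfl
    refine h1.trans (le_trans hmi ?_)
    have : ι * (η * L) ≤ ι * L' := mul_le_mul_of_nonneg_left hη' hι.le
    have h3 : 0 ≤ ι * (η * L) := by positivity
    linarith
  have hmain := hn2 L' _ _ hok' Ω' Q c' o' hgood hcost
  -- the digits of the projected point of the sub-configuration
  set Tv : Ω' → Fin m → ℝ := fun ω i => o.F c (π ω) i - o.F c (π ω) i0 * v ω i with hTv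
  set g : Ω' → Fin m → ℝ := fun ω i =>
    o'.app ω (fun i => (fl r (c.x (π ω)) i : ℝ) + c.t (π ω) * fl r (c.y (π ω)) i) i with hg
  have hdec : ∀ ω, 0 < Q.w ω → ∀ i, (2 : ℝ) ^ r * Tv ω i = g ω i + o'.F c' ω i := by
    intro ω hω i
    have hs := hvs ω hω
    have e1 : Tv ω i = o'.app ω (c.pt (π ω)) i := by
      rw [ho', kob_app Q o π D v i0 hi0 hvb hΓ hv hω hs.1 hs.2.1]
      rfl
    rw [e1, ← app_smul, hg]
    simp only
    unfold Ob.F
    rw [← app_add]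
    congr 1
    funext j
    have := pt_sub (c.comp π) r ω j
    exact this
  have hdet : hc Q (fun ω => fl L' (o'.F c' ω))
      (fun ω => (fl r' (Tv ω), c'.t ω, o'.G ω, c'.A ω)) ≤ klc m 2 := by
    refine kl_det Q (fun ω => fl L' (o'.F c' ω)) _
      (fun ω i => (fl r' (Tv ω) i : ℝ) - 2 ^ L' * g ω i) (B := 2) ?_ ?_
    · intro ω ω' hω hω' he
      obtain ⟨e1, he⟩ := Prod.mk.inj he
      obtain ⟨e2, he⟩ := Prod.mk.inj he
      obtain ⟨e3, he⟩ := Prod.mk.inj he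
      obtain ⟨e4, he⟩ := Prod.mk.inj he
      obtain ⟨e5, e6⟩ := Prod.mk.inj he
      have f2 : c.t (π ω) = c.t (π ω') := e2
      have f3 : D ω = D ω' := e3
      have f5 : fl r (c.x (π ω)) = fl r (c.x (π ω')) := e5
      have f6 : fl r (c.y (π ω)) = fl r (c.y (π ω')) := e6
      have f7 : o'.Γ ω = o'.Γ ω' := o'.fn _ _ f3
      funext i
      rw [hg]
      simp only
      unfold Ob.app
      rw [e1, f2, f5, f6, f7]
    · intro ω hω i
      have a1 := kl_fl L' (o'.F c' ω) i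
      have a2 := kl_fl r' (Tv ω) i
      have a3 := hdec ω hω i
      have a4 : (2 : ℝ) ^ r' = 2 ^ L' * 2 ^ r := by rw [← pow_add, hL', Nat.sub_add_cancel hrr]
      have a5 : (2 : ℝ) ^ r' * Tv ω i = 2 ^ L' * g ω i + 2 ^ L' * o'.F c' ω i := by
        rw [a4, mul_assoc, a3]
        ring
      rw [abs_le]
      constructor <;> linarith [a1.1, a1.2, a2.1, a2.2]
  have hdrop := kl_drop Q (fun ω => fl L' (o'.F c' ω)) (fun ω => fl r' (Tv ω))
    (fun ω => (c'.t ω, o'.G ω, c'.A ω))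
  have hright : hc Q (fun ω => fl r' (Tv ω)) (fun ω => (c'.t ω, o'.G ω, c'.A ω)) ≤
      hc Q (fun ω => fl r' (Tv ω))
        (fun ω => ((fl r (c.x (π ω)), fl r (c.y (π ω))), c.t (π ω), D ω, c.A (π ω))) := by
    refine kl_hc_right Q _ fun ω ω' _ _ he => ?_
    obtain ⟨e2, he⟩ := Prod.mk.inj he
    obtain ⟨e3, he⟩ := Prod.mk.inj he
    obtain ⟨e4, he⟩ := Prod.mk.inj he
    obtain ⟨e5, e6⟩ := Prod.mk.inj he
    have f2 : c.t (π ω) = c.t (π ω') := e2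
    have f3 : D ω = D ω' := e3
    have f4 : c.A (π ω) = c.A (π ω') := e4
    have f5 : fl r (c.x (π ω)) = fl r (c.x (π ω')) := e5
    have f6 : fl r (c.y (π ω)) = fl r (c.y (π ω')) := e6
    simp only [f2, f3, f4, f5, f6]
  have hlog : (1 : ℝ) / 2 < Real.log 2 := by
    have := Real.log_two_gt_d9
    linarith
  have h5 : ι * (η * L) ≤ ι * L' := mul_le_mul_of_nonneg_left hη' hι.le
  have h6 : 0 < ι * (L' : ℝ) := by
    have : 0 < ι * (η * L) := by positivity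
    linarith
  have h7 : ι * L' * (1 / 2) < ι * L' * Real.log 2 := mul_lt_mul_of_pos_left hlog h6
  have h8 : (h - ((κ + 1 : ℕ) : ℝ) + ι) * L' * Real.log 2 =
      (h - κ - 1) * L' * Real.log 2 + ι * L' * Real.log 2 := by push_cast; ring
  rw [h8] at hmain
  have h9 : ι * η / 4 * L = ι * (η * L) / 4 := by ring
  rw [h9]
  have h10 : ι * η * L = ι * (η * L) := by ring
  linarith

section aux

variable {Ω : Type} [Fintype Ω] {S T U : Type*}

/-- symmetry of the information -/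
theorem kl_symm (P : Law Ω) (X : Ω → S) (Y : Ω → T) (Z : Ω → U) :
    hc P X Z - hc P X (fun ω => (Y ω, Z ω)) = hc P Y Z - hc P Y (fun ω => (X ω, Z ω)) := by
  have h1 := kl_chain P X Y Z
  have h2 := kl_chain P Y X Z
  have h3 : hc P (fun ω => (X ω, Y ω)) Z ≤ hc P (fun ω => (Y ω, X ω)) Z :=
    kl_hc_left P fun ω ω' _ _ he => by
      simp only [Prod.mk.injEq] at he ⊢
      exact ⟨he.1.2, he.1.1⟩
  have h4 : hc P (fun ω => (Y ω, X ω)) Z ≤ hc P (fun ω => (X ω, Y ω)) Z :=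
    kl_hc_left P fun ω ω' _ _ he => by
      simp only [Prod.mk.injEq] at he ⊢
      exact ⟨he.1.2, he.1.1⟩
  linarith

/-- the projected digits are determined by the digits -/
theorem kl_T (Q : Law Ω) {m : ℕ} (X : Ω → Fin m → ℝ) (Z : Ω → T) (v : Ω → Fin m → ℝ)
    (i0 : Fin m) (r' : ℕ) (hv : Fn Q v Z) (hvb : ∀ ω, 0 < Q.w ω → ∀ i, |v ω i| ≤ 1) :
    hc Q (fun ω => fl r' (fun i => X ω i - X ω i0 * v ω i)) (fun ω => (fl r' (X ω), Z ω)) ≤
      klc m 3 := by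
  refine kl_det Q _ (fun ω => (fl r' (X ω), Z ω))
    (fun ω i => (fl r' (X ω) i : ℝ) - fl r' (X ω) i0 * v ω i) (B := 3) ?_ ?_
  · intro ω ω' g g' he
    simp only [Prod.mk.injEq] at he
    funext i
    beta_reduce
    rw [he.1, hv ω ω' g g' he.2]
  · intro ω g i
    have a1 := kl_fl r' (X ω) i
    have a2 := kl_fl r' (X ω) i0
    have a3 := kl_fl r' (fun i => X ω i - X ω i0 * v ω i) i
    have a5 := abs_le.1 (hvb ω g i)
    rw [abs_le]
    constructor <;> nlinarith [a1.1, a1.2, a2.1, a2.2, a3.1, a3.2, a5.1, a5.2]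

/-- the first digits are determined by the digits -/
theorem kl_r (Q : Law Ω) {m : ℕ} (X : Ω → Fin m → ℝ) (Z : Ω → T) {r r' : ℕ} (hrr : r ≤ r') :
    hc Q (fun ω => fl r (X ω)) (fun ω => (fl r' (X ω), Z ω)) ≤ klc m 2 := by
  have hpow : (2 : ℝ) ^ r' = 2 ^ r * 2 ^ (r' - r) := by
    rw [← pow_add, Nat.add_sub_cancel' hrr]
  have hp0 : (0 : ℝ) < 2 ^ (r' - r) := by positivity
  have hp1 : (1 : ℝ) ≤ 2 ^ (r' - r) := one_le_pow₀ (by norm_num)
  refine kl_det Q _ (fun ω => (fl r' (X ω), Z ω))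
    (fun ω i => (fl r' (X ω) i : ℝ) / 2 ^ (r' - r)) (B := 2) ?_ ?_
  · intro ω ω' g g' he
    simp only [Prod.mk.injEq] at he
    funext i
    beta_reduce
    rw [he.1]
  · intro ω g i
    have a1 := kl_fl r' (X ω) i
    have a2 := kl_fl r (X ω) i
    have a3 : ((2 : ℝ) ^ r' * X ω i - fl r' (X ω) i) / 2 ^ (r' - r) =
        2 ^ r * X ω i - (fl r' (X ω) i : ℝ) / 2 ^ (r' - r) := by
      rw [hpow]
      field_simp
    have a4 : 0 ≤ ((2 : ℝ) ^ r' * X ω i - fl r' (X ω) i) / 2 ^ (r' - r) :=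
      div_nonneg a1.1 hp0.le
    have a5 : ((2 : ℝ) ^ r' * X ω i - fl r' (X ω) i) / 2 ^ (r' - r) ≤ 1 := by
      rw [div_le_iff₀ hp0]
      linarith [a1.2]
    rw [abs_le]
    constructor <;> linarith [a2.1, a2.2]

/-- the first digits of the projected point are determined by the cell -/
theorem kl_cell {Ω' : Type} [Fintype Ω'] (Q : Law Ω') {m κ : ℕ} (c : Cf Ω m) (o : Ob Ω m κ)
    (π : Ω' → Ω) {σ : Type} (D : Ω' → σ) (r : ℕ) (ht : ∀ ω, 0 ≤ c.t ω ∧ c.t ω < 1)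
    (hΓ : Fn Q (fun ω => o.Γ (π ω)) D) :
    hc Q (fun ω => fl r (o.F c (π ω)))
      (fun ω => ((fl r (c.x (π ω)), fl r (c.y (π ω))), c.t (π ω), D ω, c.A (π ω))) ≤
      klc m (1 + 2 * (1 + κ * 3 ^ κ)) := by
  refine kl_det Q _ _ (fun ω i => o.app (π ω)
    (fun i => (fl r (c.x (π ω)) i : ℝ) + c.t (π ω) * fl r (c.y (π ω)) i) i) ?_ ?_
  · intro ω ω' g g' he
    simp only [Prod.mk.injEq] at he
    obtain ⟨⟨e1, e2⟩, e3, e4, e5⟩ := he
    have e6 : o.Γ (π ω) = o.Γ (π ω') := hΓ ω ω' g g' e4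
    funext i
    beta_reduce
    unfold Ob.app
    rw [e1, e2, e3, e6]
  · intro ω g i
    have a1 := kl_fl r (o.F c (π ω)) i
    have a2 : (2 : ℝ) ^ r * o.F c (π ω) i = o.app (π ω)
        (fun i => (fl r (c.x (π ω)) i : ℝ) + c.t (π ω) * fl r (c.y (π ω)) i) i +
        o.app (π ω) ((c.sub r).pt (π ω)) i := by
      unfold Ob.F
      rw [← app_smul, ← app_add]
      congr 1
      funext j
      exact pt_sub c r (π ω) j
    have a3 : ∀ j, |(c.sub r).pt (π ω) j| ≤ 2 := by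
      intro j
      have b1 := Int.fract_nonneg ((2 : ℝ) ^ r * c.x (π ω) j)
      have b2 := Int.fract_lt_one ((2 : ℝ) ^ r * c.x (π ω) j)
      have b3 := Int.fract_nonneg ((2 : ℝ) ^ r * c.y (π ω) j)
      have b4 := Int.fract_lt_one ((2 : ℝ) ^ r * c.y (π ω) j)
      have b5 := ht (π ω)
      have b6 : (c.sub r).pt (π ω) j = Int.fract ((2 : ℝ) ^ r * c.x (π ω) j) +
        c.t (π ω) * Int.fract ((2 : ℝ) ^ r * c.y (π ω) j) := rfl
      rw [b6, abs_le]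
      have b7 := mul_nonneg b5.1 b3
      have b8 : c.t (π ω) * Int.fract ((2 : ℝ) ^ r * c.y (π ω) j) ≤ 1 := by nlinarith [b5.1, b5.2]
      constructor <;> linarith
    have a4 : |o.app (π ω) ((c.sub r).pt (π ω)) i| ≤ 2 * (1 + κ * 3 ^ κ) := by
      unfold Ob.app
      split_ifs
      · rw [abs_zero]
        positivity
      · have c1 := abs_sub ((c.sub r).pt (π ω) i)
          (∑ j ∈ o.J, o.Γ (π ω) i j * (c.sub r).pt (π ω) j)
        have c2 : |∑ j ∈ o.J, o.Γ (π ω) i j * (c.sub r).pt (π ω) j| ≤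
            ∑ _j ∈ o.J, (3 : ℝ) ^ κ * 2 := by
          refine (Finset.abs_sum_le_sum_abs _ _).trans (Finset.sum_le_sum fun j _ => ?_)
          rw [abs_mul]
          exact mul_le_mul (o.bd (π ω) i j) (a3 j) (abs_nonneg _) (by positivity)
        rw [Finset.sum_const, o.card, nsmul_eq_mul] at c2
        have c3 := a3 i
        linarith
    rw [abs_le] at a4 ⊢
    constructor <;> linarith [a1.1, a1.2, a4.1, a4.2]

end aux

/-- **killing with a straight displacement** (negated form). `V ≈ 2^{r'} (F + w0) + M v`,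
`V ≈ 2^{r'} (F + w1)` up to the scale `2^{-r}`, with `v` a function of `D`, and `w0`, `w1`
functions of all the data `(t, D, A, E1, E2)`; `E1` costs nothing given the cells `[x]_r, [y]_r`,
`E2` has little information on `[F]_{r'}`. -/
theorem kill_so (R : Gr) {m : ℕ} {h : ℝ} {κ : ℕ} (hN : NK R m h (κ + 1)) {η : ℝ} (hη : 0 < η) :
    ∃ δ : ℝ, 0 < δ ∧ ∀ (K : ℝ) (g : R.G), ∃ n : ℕ, ∀ (L : ℕ) (e C : ℝ), R.ok g n L e C →
      ∀ (Ω : Type) [Fintype Ω] (P : Law Ω) (c : Cf Ω m) (o : Ob Ω m κ), Good P c L e C →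
      ∀ (Ω' : Type) [Fintype Ω'] (Q : Law Ω') (π : Ω' → Ω), Dom Q π P K →
      ∀ (σ σ₁ σ₂ : Type) (D : Ω' → σ) (E₁ : Ω' → σ₁) (E₂ : Ω' → σ₂) (r r' : ℕ)
        (v w0 w1 : Ω' → Fin m → ℝ) (V : Ω' → Fin m → ℤ) (M : Ω' → ℤ) (i0 : Fin m),
        r ≤ r' → r' ≤ L → η * L ≤ (r' : ℝ) - r → i0 ∉ o.J →
        Fn Q (fun ω => o.Γ (π ω)) D → Fn Q v D →
        (∀ ω, 0 < Q.w ω → (∀ j ∈ o.J, v ω j = 0) ∧ v ω i0 = 1 ∧ ∀ i, |v ω i| ≤ 1) →
        Fn Q w0 (fun ω => (c.t (π ω), D ω, c.A (π ω), E₁ ω, E₂ ω)) →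
        Fn Q w1 (fun ω => (c.t (π ω), D ω, c.A (π ω), E₁ ω, E₂ ω)) →
        (∀ ω, 0 < Q.w ω → ∀ i,
          |(V ω i : ℝ) - (2 ^ r' * (o.F c (π ω) i + w0 ω i) + M ω * v ω i)| ≤
            (2 : ℝ) ^ (δ * L)) →
        (∀ ω, 0 < Q.w ω → ∀ i,
          |(V ω i : ℝ) - 2 ^ r' * (o.F c (π ω) i + w1 ω i)| ≤
            (2 : ℝ) ^ (δ * L) * 2 ^ (r' - r)) →
        mi Q (fun ω => (c.x (π ω), c.y (π ω))) D
          (fun ω => (c.t (π ω), c.A (π ω), fl r (c.x (π ω)), fl r (c.y (π ω)))) ≤ δ * L →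
        hc Q E₁ (fun ω => ((fl r (c.x (π ω)), fl r (c.y (π ω))), c.t (π ω), D ω, c.A (π ω))) ≤
          δ * L →
        mi Q (fun ω => fl r' (o.F c (π ω))) E₂
          (fun ω => (c.t (π ω), D ω, c.A (π ω), E₁ ω)) ≤ δ * L →
        (h - κ - 1) * ((r' : ℝ) - r) * Real.log 2 + δ * L <
          hc Q V (fun ω => (c.t (π ω), D ω, c.A (π ω), E₁ ω, E₂ ω)) -
          hc Q (fun ω => fl r (o.F c (π ω)))
            (fun ω => (c.t (π ω), D ω, c.A (π ω), E₁ ω, E₂ ω)) -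
          hc Q M (fun ω => (fl r' (o.F c (π ω)), c.t (π ω), D ω, c.A (π ω), E₁ ω, E₂ ω)) := by
  obtain ⟨δ1, hδ1, hkill⟩ := kill R hN hη
  set Cst : ℝ := 5 * (m * (Real.log 4 + 2 * Real.log 7)) + klc m 3 + klc m 2 +
    klc m (1 + 2 * (1 + κ * 3 ^ κ)) with hCst
  have hCst0 : 0 ≤ Cst := by
    have h1 : 0 ≤ klc m 3 := klc_nonneg (by norm_num)
    have h2 : 0 ≤ klc m 2 := klc_nonneg (by norm_num)
    have h3 : 0 ≤ klc m (1 + 2 * (1 + κ * 3 ^ κ)) := klc_nonneg (by positivity)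
    have h4 : 0 ≤ Real.log 4 := Real.log_nonneg (by norm_num)
    have h5 : 0 ≤ Real.log 7 := Real.log_nonneg (by norm_num)
    positivity
  set δ : ℝ := δ1 / (2 * (10 * m + 3)) with hδ
  have hδ0 : 0 < δ := by positivity
  have hδe : (10 * m + 3) * δ = δ1 / 2 := by
    rw [hδ]
    field_simp
  have hδle : δ ≤ δ1 := by
    have : 0 ≤ (10 * (m : ℝ) + 2) * δ := by positivity
    linarith
  refine ⟨δ, hδ0, fun K g => ?_⟩
  obtain ⟨n0, hn0⟩ := hkill K g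
  obtain ⟨n3, hn3⟩ := R.small g (δ1 / (2 * Cst + 1)) (by positivity)
  refine ⟨max n0 n3, fun L e C hok => ?_⟩
  intro Ω _ P c o hG Ω' _ Q π hQ σ σ₁ σ₂ D E₁ E₂ r r' v w0 w1 V M i0 hrr hr'L hη' hi0 hΓ hv hvs
    hw0 hw1 ha hb hmi hE1 hE2
  have hLn : (0 : ℝ) ≤ L := Nat.cast_nonneg L
  have hLc : 2 * Cst ≤ δ1 * L := by
    have hsm := (hn3 L e C (R.anti _ _ _ _ _ _ (le_max_right _ _) hok)).1
    rw [div_mul_eq_mul_div, le_div_iff₀ (by positivity), one_mul] at hsm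
    linarith
  have hvb : ∀ ω, 0 < Q.w ω → ∀ i, |v ω i| ≤ 1 := fun ω hω => (hvs ω hω).2.2
  have hv1 : ∀ ω, 0 < Q.w ω → v ω i0 = 1 := fun ω hω => (hvs ω hω).2.1
  set B : ℝ := (2 : ℝ) ^ (δ * L) with hB
  have hB1 : 1 ≤ B := Real.one_le_rpow (by norm_num) (by positivity)
  have hk := hn0 L e C (R.anti _ _ _ _ _ _ (le_max_left _ _) hok) Ω P c o hG Ω' Q π hQ σ D r r'
    v i0 hrr hr'L hη' hi0 hΓ hv hvs (hmi.trans (mul_le_mul_of_nonneg_right hδle hLn))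
  set S : Ω' → ℝ × σ × c.α × σ₁ × σ₂ := fun ω => (c.t (π ω), D ω, c.A (π ω), E₁ ω, E₂ ω) with hS
  set Z0 : Ω' → ℝ × σ × c.α × σ₁ := fun ω => (c.t (π ω), D ω, c.A (π ω), E₁ ω) with hZ0
  set W : Ω' → ((Fin m → ℤ) × (Fin m → ℤ)) × ℝ × σ × c.α := fun ω =>
    ((fl r (c.x (π ω)), fl r (c.y (π ω))), c.t (π ω), D ω, c.A (π ω)) with hW
  set X : Ω' → Fin m → ℝ := fun ω => o.F c (π ω) with hX
  set T' : Ω' → Fin m → ℤ := fun ω => fl r' (fun i => X ω i - X ω i0 * v ω i) with hT'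
  set Fr : Ω' → Fin m → ℤ := fun ω => fl r (X ω) with hFr
  set F' : Ω' → Fin m → ℤ := fun ω => fl r' (X ω) with hF'
  have hvS : Fn Q v S := fun ω ω' g g' he => by
    simp only [hS, Prod.mk.injEq] at he
    exact hv ω ω' g g' he.2.1
  have hvZ : Fn Q v Z0 := fun ω ω' g g' he => by
    simp only [hZ0, Prod.mk.injEq] at he
    exact hv ω ω' g g' he.2.1
  have hso := kl_so Q X V M S v w0 w1 i0 r r' B (by linarith) hrr hvS hw0 hw1 hv1 hvb ha hb
  -- from the cell to the digits of the projected point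
  have d1 := kl_drop Q T' (fun ω => (E₁ ω, Fr ω)) W
  have d2 := kl_chain Q E₁ Fr W
  have d3 : hc Q Fr (fun ω => (E₁ ω, W ω)) ≤ hc Q Fr W :=
    kl_hc_right Q Fr fun ω ω' _ _ he => (Prod.mk.inj he).2
  have d4 : hc Q Fr W ≤ klc m (1 + 2 * (1 + κ * 3 ^ κ)) := kl_cell Q c o π D r hG.t01 hΓ
  have d5 : hc Q T' (fun ω => ((E₁ ω, Fr ω), W ω)) ≤ hc Q T' (fun ω => (Fr ω, Z0 ω)) :=
    kl_hc_right Q T' fun ω ω' _ _ he => by
      simp only [hW, hZ0, Prod.mk.injEq] at he ⊢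
      exact ⟨he.1.2, he.2.2.1, he.2.2.2.1, he.2.2.2.2, he.1.1⟩
  -- removing `E₂`
  have s1 := kl_symm Q T' E₂ (fun ω => (Fr ω, Z0 ω))
  have s2 : hc Q T' (fun ω => (E₂ ω, Fr ω, Z0 ω)) ≤ hc Q T' (fun ω => (Fr ω, S ω)) :=
    kl_hc_right Q T' fun ω ω' _ _ he => by
      simp only [hS, hZ0, Prod.mk.injEq] at he ⊢
      exact ⟨he.2.1, he.2.2.1, he.2.2.2.1, he.2.2.2.2.1, he.2.2.2.2.2, he.1⟩
  have s3 := kl_symm Q F' E₂ Z0
  have s4 : hc Q F' Z0 - hc Q F' (fun ω => (E₂ ω, Z0 ω)) ≤ δ * L := hE2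
  have s5 : hc Q E₂ (fun ω => (Fr ω, Z0 ω)) ≤ hc Q E₂ Z0 :=
    kl_hc_right Q E₂ fun ω ω' _ _ he => (Prod.mk.inj he).2
  have s6 := kl_drop Q E₂ (fun ω => (T' ω, Fr ω)) (fun ω => (F' ω, Z0 ω))
  have s7 : hc Q E₂ (fun ω => ((T' ω, Fr ω), F' ω, Z0 ω)) ≤
      hc Q E₂ (fun ω => (T' ω, Fr ω, Z0 ω)) :=
    kl_hc_right Q E₂ fun ω ω' _ _ he => by
      simp only [Prod.mk.injEq] at he ⊢
      exact ⟨he.1.1, he.1.2, he.2.2⟩
  have s8 := kl_chain Q T' Fr (fun ω => (F' ω, Z0 ω))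
  have s9 : hc Q T' (fun ω => (F' ω, Z0 ω)) ≤ klc m 3 := kl_T Q X Z0 v i0 r' hvZ hvb
  have s10 : hc Q Fr (fun ω => (T' ω, F' ω, Z0 ω)) ≤ hc Q Fr (fun ω => (F' ω, Z0 ω)) :=
    kl_hc_right Q Fr fun ω ω' _ _ he => (Prod.mk.inj he).2
  have s11 : hc Q Fr (fun ω => (F' ω, Z0 ω)) ≤ klc m 2 := kl_r Q X Z0 hrr
  -- the constant
  have c1 : klc m (3 + 2 * B) ≤ m * (Real.log 4 + 2 * Real.log 7) + 2 * m * (δ * L) := by
    unfold klc
    have h1 : Real.log (2 + (3 + 2 * B)) ≤ Real.log (7 * B) :=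
      Real.log_le_log (by linarith) (by linarith)
    have h2 : Real.log (7 * B) = Real.log 7 + δ * L * Real.log 2 := by
      rw [Real.log_mul (by norm_num) (by linarith), hB, Real.log_rpow (by norm_num)]
    have h3 : δ * L * Real.log 2 ≤ δ * L := by
      have h4 : Real.log 2 ≤ 1 := by
        have := Real.log_two_lt_d9
        linarith
      have h5 : 0 ≤ δ * L := by positivity
      nlinarith
    have h6 : Real.log 4 + 2 * Real.log (2 + (3 + 2 * B)) ≤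
        Real.log 4 + 2 * (Real.log 7 + δ * L) := by linarith
    have h7 := mul_le_mul_of_nonneg_left h6 (Nat.cast_nonneg m : (0 : ℝ) ≤ m)
    linarith
  have c2 : (10 * m + 3) * δ * L = δ1 / 2 * L := by rw [hδe]
  have c3 : hc Q E₁ W ≤ δ * L := hE1
  have c4 : (h - κ - 1) * ((r' : ℝ) - r) * Real.log 2 + δ1 * L < hc Q T' W := hk
  linarith

end Vale.Agent.P127.Stk
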