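import Vale.Agent.P127.Stk.BaseF
import Vale.Agent.P127.Stk.Kill

/-!
# P127 / Stk : section 6, the base case
-/

namespace Vale.Agent.P127.Stk

open Finset Vale.Agent.P127

/-- section 6: `CK 0` and `RK 1` -/
theorem pBase (R : Gr) : PBase R :=
  Bs.base_of_kill R fun _ _ _ hN _ hη => kill R hN hη

end Vale.Agent.P127.Stk
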