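import Vale.Agent.P127.Stk.CDefs

/-!
# P127 / Stk : second half of the displacement lemma (PROOF.md, section 8)
-/

namespace Vale.Agent.P127.Stk

open Finset Vale.Agent.P127

section dispB

variable {Ω Ω' β γ ζ : Type} [Fintype Ω] [Fintype Ω'] {d : ℕ}

/-- the digits as a vector on all coordinates -/
noncomputable def db_ext (J : Finset (Fin d)) (j0 : Fin d) (σ : ℕ)
    (u : {j // j ∈ J ∧ j ≠ j0} → ℤ) (j : Fin d) : ℝ :=
  if h : j ∈ J ∧ j ≠ j0 then (u ⟨j, h⟩ : ℝ) / 2 ^ σ else 0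

theorem db_ext_j0 (J : Finset (Fin d)) (j0 : Fin d) (σ : ℕ)
    (u : {j // j ∈ J ∧ j ≠ j0} → ℤ) : db_ext J j0 σ u j0 = 0 := by
  unfold db_ext
  rw [dif_neg]
  exact fun h => h.2 rfl

theorem db_ext_close (J : Finset (Fin d)) (j0 : Fin d) (σ : ℕ) (z : Fin d → ℝ) (j : Fin d)
    (hj : j ∈ J) (hj0 : j ≠ j0) :
    |z j - db_ext J j0 σ (fl σ (fun j : {j // j ∈ J ∧ j ≠ j0} => z j)) j| ≤
      (1 / 2 : ℝ) ^ σ := by
  unfold db_ext
  rw [dif_pos ⟨hj, hj0⟩]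
  have h2 : (0 : ℝ) < 2 ^ σ := by positivity
  show |z j - ((⌊(2 : ℝ) ^ σ * z j⌋ : ℤ) : ℝ) / 2 ^ σ| ≤ _
  have e1 := Int.floor_le ((2 : ℝ) ^ σ * z j)
  have e2 := Int.lt_floor_add_one ((2 : ℝ) ^ σ * z j)
  have e3 : (1 / 2 : ℝ) ^ σ = 1 / 2 ^ σ := by rw [div_pow, one_pow]
  have e4 : z j - ((⌊(2 : ℝ) ^ σ * z j⌋ : ℤ) : ℝ) / 2 ^ σ =
      (2 ^ σ * z j - ⌊(2 : ℝ) ^ σ * z j⌋) / 2 ^ σ := by field_simp
  rw [e4, e3, abs_div, abs_of_pos h2]
  refine div_le_div_of_nonneg_right ?_ h2.le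
  rw [abs_le]
  constructor <;> linarith

/-- the projection of the displaced point along the direction of the displacement -/
theorem db_det1 (J : Finset (Fin d)) (E : Fin d → Fin d → ℝ) (z : Fin d → ℝ) (i0 j0 i : Fin d)
    (hi : i ∉ J) (hi0 : i0 ∉ J) (hj0 : j0 ∈ J) (r r' : ℕ) (hrr : r ≤ r') (N1 : ℝ)
    (hmax : ∀ i j, i ∉ J → j ∈ J → |E i j| ≤ |E i0 j0|) (hle : (2 : ℝ) ^ r * |E i0 j0| ≤ 1)
    (hne : E i0 j0 ≠ 0) (xi xi0 Wi Wi0 : ℝ)
    (h1 : |Wi + 2 ^ r' * ∑ j ∈ J, E i j * z j| ≤ N1)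
    (h2 : |Wi0 + 2 ^ r' * ∑ j ∈ J, E i0 j * z j| ≤ N1) :
    |(xi / 2 ^ r' - xi0 / 2 ^ r' * (E i j0 / E i0 j0)) -
      ((xi + Wi) / 2 ^ r' - (xi0 + Wi0) / 2 ^ r' * (E i j0 / E i0 j0) +
        ∑ j ∈ J, (E i j - E i j0 / E i0 j0 * E i0 j) *
          db_ext J j0 (r' - r) (fl (r' - r) (fun j : {j // j ∈ J ∧ j ≠ j0} => z j)) j)| ≤
      (2 * d + 2 * N1) * (1 / 2 : ℝ) ^ r' := by
  have hD : (0 : ℝ) < 2 ^ r' := by positivity
  have hq : (0 : ℝ) < 2 ^ r := by positivity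
  have hpos : 0 < |E i0 j0| := abs_pos.2 hne
  have hnu : |E i j0 / E i0 j0| ≤ 1 := by
    rw [abs_div, div_le_one hpos]
    exact hmax i j0 hi hj0
  set ν : ℝ := E i j0 / E i0 j0 with hν
  have hνE : E i j0 - ν * E i0 j0 = 0 := by
    rw [hν, div_mul_cancel₀ _ hne, sub_self]
  set u : Fin d → ℝ :=
    db_ext J j0 (r' - r) (fl (r' - r) (fun j : {j // j ∈ J ∧ j ≠ j0} => z j)) with hu
  have hle' : |E i0 j0| ≤ (1 / 2 : ℝ) ^ r := by
    rw [one_div, inv_pow, ← one_div, le_div_iff₀ hq, mul_comm]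
    exact hle
  have hs1 : ∑ j ∈ J, (E i j - ν * E i0 j) * z j =
      ∑ j ∈ J, E i j * z j - ν * ∑ j ∈ J, E i0 j * z j := by
    rw [Finset.mul_sum, ← Finset.sum_sub_distrib]
    exact Finset.sum_congr rfl fun j _ => by ring
  have hs2 : ∑ j ∈ J, (E i j - ν * E i0 j) * (z j - u j) =
      ∑ j ∈ J, (E i j - ν * E i0 j) * z j - ∑ j ∈ J, (E i j - ν * E i0 j) * u j := by
    rw [← Finset.sum_sub_distrib]
    exact Finset.sum_congr rfl fun j _ => by ring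
  set a : ℝ := Wi + 2 ^ r' * ∑ j ∈ J, E i j * z j with ha
  set b : ℝ := Wi0 + 2 ^ r' * ∑ j ∈ J, E i0 j * z j with hb
  have key : (xi / 2 ^ r' - xi0 / 2 ^ r' * ν) -
      ((xi + Wi) / 2 ^ r' - (xi0 + Wi0) / 2 ^ r' * ν + ∑ j ∈ J, (E i j - ν * E i0 j) * u j) =
      -((a - ν * b) / 2 ^ r') + ∑ j ∈ J, (E i j - ν * E i0 j) * (z j - u j) := by
    rw [hs2, hs1, ha, hb]
    field_simp
    ring
  rw [key]
  have b1 : |(a - ν * b) / 2 ^ r'| ≤ 2 * N1 * (1 / 2 : ℝ) ^ r' := by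
    have e3 : (1 / 2 : ℝ) ^ r' = 1 / 2 ^ r' := by rw [div_pow, one_pow]
    rw [abs_div, abs_of_pos hD, e3, mul_one_div]
    refine div_le_div_of_nonneg_right ?_ hD.le
    have c1 : |a - ν * b| ≤ |a| + |ν * b| := abs_sub _ _
    have c2 : |ν * b| ≤ |b| := by
      rw [abs_mul]
      exact mul_le_of_le_one_left (abs_nonneg _) hnu
    linarith
  have b2 : |∑ j ∈ J, (E i j - ν * E i0 j) * (z j - u j)| ≤ 2 * d * (1 / 2 : ℝ) ^ r' := by
    refine (Finset.abs_sum_le_sum_abs _ _).trans ?_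
    have h3 : ∀ j ∈ J, |(E i j - ν * E i0 j) * (z j - u j)| ≤ 2 * (1 / 2 : ℝ) ^ r' := by
      intro j hj
      by_cases hjj : j = j0
      · rw [hjj, hνE, zero_mul, abs_zero]
        positivity
      · rw [abs_mul]
        have c1 : |E i j - ν * E i0 j| ≤ 2 * (1 / 2 : ℝ) ^ r := by
          have d1 : |E i j - ν * E i0 j| ≤ |E i j| + |ν * E i0 j| := abs_sub _ _
          have d2 : |ν * E i0 j| ≤ |E i0 j| := by
            rw [abs_mul]
            exact mul_le_of_le_one_left (abs_nonneg _) hnu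
          have d3 := hmax i j hi hj
          have d4 := hmax i0 j hi0 hj
          linarith
        have c2 : |z j - u j| ≤ (1 / 2 : ℝ) ^ (r' - r) := db_ext_close J j0 (r' - r) z j hj hjj
        have c3 : (1 / 2 : ℝ) ^ r * (1 / 2 : ℝ) ^ (r' - r) = (1 / 2 : ℝ) ^ r' := by
          rw [← pow_add, Nat.add_sub_cancel' hrr]
        calc |E i j - ν * E i0 j| * |z j - u j| ≤
            (2 * (1 / 2 : ℝ) ^ r) * (1 / 2 : ℝ) ^ (r' - r) :=
              mul_le_mul c1 c2 (abs_nonneg _) (by positivity)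
          _ = 2 * (1 / 2 : ℝ) ^ r' := by rw [mul_assoc, c3]
    refine (Finset.sum_le_sum h3).trans ?_
    rw [Finset.sum_const, nsmul_eq_mul]
    have h5 : (J.card : ℝ) ≤ d := by
      have := Finset.card_le_univ J
      rw [Fintype.card_fin] at this
      exact_mod_cast this
    have h6 : (0 : ℝ) ≤ 2 * (1 / 2 : ℝ) ^ r' := by positivity
    nlinarith [mul_le_mul_of_nonneg_right h5 h6]
  have b3 := abs_add_le (-((a - ν * b) / 2 ^ r')) (∑ j ∈ J, (E i j - ν * E i0 j) * (z j - u j))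
  rw [abs_neg] at b3
  linarith

/-- the displacement determines the coordinate `j0` of `z` -/
theorem db_det2 (J : Finset (Fin d)) (E : Fin d → Fin d → ℝ) (z : Fin d → ℝ) (i0 j0 : Fin d)
    (hj0 : j0 ∈ J) (r r' w : ℕ) (hrr : r + w ≤ r') (N1 : ℝ)
    (hmax : ∀ j ∈ J, |E i0 j| ≤ |E i0 j0|) (hlo : 1 < (2 : ℝ) ^ (r + w) * |E i0 j0|)
    (hne : E i0 j0 ≠ 0) (Wi0 : ℝ)
    (h2 : |Wi0 + 2 ^ r' * ∑ j ∈ J, E i0 j * z j| ≤ N1) :
    |z j0 - (-(Wi0 / 2 ^ r') - ∑ j ∈ J, E i0 j *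
          db_ext J j0 (r' - r) (fl (r' - r) (fun j : {j // j ∈ J ∧ j ≠ j0} => z j)) j) /
        E i0 j0| ≤
      (d + N1) * (1 / 2 : ℝ) ^ (r' - r - w) := by
  have hD : (0 : ℝ) < 2 ^ r' := by positivity
  have hpos : 0 < |E i0 j0| := abs_pos.2 hne
  set u : Fin d → ℝ :=
    db_ext J j0 (r' - r) (fl (r' - r) (fun j : {j // j ∈ J ∧ j ≠ j0} => z j)) with hu
  have hu0 : u j0 = 0 := db_ext_j0 J j0 _ _
  set b : ℝ := Wi0 + 2 ^ r' * ∑ j ∈ J, E i0 j * z j with hb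
  have hs1 : ∑ j ∈ J, E i0 j * z j - ∑ j ∈ J, E i0 j * u j =
      E i0 j0 * z j0 + ∑ j ∈ J.erase j0, E i0 j * (z j - u j) := by
    rw [← Finset.sum_sub_distrib, ← Finset.add_sum_erase J _ hj0, hu0]
    congr 1
    · ring
    · exact Finset.sum_congr rfl fun j _ => by ring
  have key : z j0 - (-(Wi0 / 2 ^ r') - ∑ j ∈ J, E i0 j * u j) / E i0 j0 =
      (b / 2 ^ r' - ∑ j ∈ J.erase j0, E i0 j * (z j - u j)) / E i0 j0 := by
    have k1 : b / 2 ^ r' = Wi0 / 2 ^ r' + ∑ j ∈ J, E i0 j * z j := by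
      rw [hb]
      field_simp
    rw [eq_div_iff hne, sub_mul, div_mul_cancel₀ _ hne, k1]
    linarith
  rw [key, abs_div, div_le_iff₀ hpos]
  have hN : 0 ≤ N1 := (abs_nonneg _).trans h2
  have b1 : |b / 2 ^ r'| ≤ N1 * (1 / 2 : ℝ) ^ (r' - r - w) * |E i0 j0| := by
    rw [abs_div, abs_of_pos hD, div_le_iff₀ hD]
    have c1 : (1 / 2 : ℝ) ^ (r' - r - w) * 2 ^ r' = 2 ^ (r + w) := by
      have d1 : (2 : ℝ) ^ r' = 2 ^ (r' - r - w) * 2 ^ (r + w) := by
        rw [← pow_add]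
        congr 1
        omega
      rw [d1, ← mul_assoc, ← mul_pow]
      norm_num
    have c2 : N1 * (1 / 2 : ℝ) ^ (r' - r - w) * |E i0 j0| * 2 ^ r' =
        N1 * (2 ^ (r + w) * |E i0 j0|) := by
      rw [← c1]
      ring
    rw [c2]
    nlinarith
  have b2 : |∑ j ∈ J.erase j0, E i0 j * (z j - u j)| ≤
      d * (1 / 2 : ℝ) ^ (r' - r - w) * |E i0 j0| := by
    refine (Finset.abs_sum_le_sum_abs _ _).trans ?_
    have h3 : ∀ j ∈ J.erase j0, |E i0 j * (z j - u j)| ≤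
        (1 / 2 : ℝ) ^ (r' - r - w) * |E i0 j0| := by
      intro j hj
      obtain ⟨hjj, hjJ⟩ := Finset.mem_erase.1 hj
      rw [abs_mul, mul_comm]
      have c2 : |z j - u j| ≤ (1 / 2 : ℝ) ^ (r' - r) := db_ext_close J j0 (r' - r) z j hjJ hjj
      have c3 : (1 / 2 : ℝ) ^ (r' - r) ≤ (1 / 2 : ℝ) ^ (r' - r - w) :=
        pow_le_pow_of_le_one (by norm_num) (by norm_num) (Nat.sub_le _ _)
      exact mul_le_mul (c2.trans c3) (hmax j hjJ) (abs_nonneg _) (by positivity)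
    refine (Finset.sum_le_sum h3).trans ?_
    rw [Finset.sum_const, nsmul_eq_mul]
    have h5 : ((J.erase j0).card : ℝ) ≤ d := by
      have := Finset.card_le_univ (J.erase j0)
      rw [Fintype.card_fin] at this
      exact_mod_cast this
    have h6 : (0 : ℝ) ≤ (1 / 2 : ℝ) ^ (r' - r - w) * |E i0 j0| := by positivity
    calc ((J.erase j0).card : ℝ) * ((1 / 2 : ℝ) ^ (r' - r - w) * |E i0 j0|) ≤
        d * ((1 / 2 : ℝ) ^ (r' - r - w) * |E i0 j0|) := mul_le_mul_of_nonneg_right h5 h6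
      _ = d * (1 / 2 : ℝ) ^ (r' - r - w) * |E i0 j0| := by ring
  have b3 := abs_sub (b / 2 ^ r') (∑ j ∈ J.erase j0, E i0 j * (z j - u j))
  calc |b / 2 ^ r' - ∑ j ∈ J.erase j0, E i0 j * (z j - u j)| ≤
      |b / 2 ^ r'| + |∑ j ∈ J.erase j0, E i0 j * (z j - u j)| := b3
    _ ≤ N1 * (1 / 2 : ℝ) ^ (r' - r - w) * |E i0 j0| +
        d * (1 / 2 : ℝ) ^ (r' - r - w) * |E i0 j0| := add_le_add b1 b2
    _ = (d + N1) * (1 / 2 : ℝ) ^ (r' - r - w) * |E i0 j0| := by ring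

/-- the entropy inequalities -/
theorem db_ent {S1 S2 S3 S4 S5 S6 S7 S8 S9 : Type*} (P' : Law Ω') (Y : Ω' → S1) (V : Ω' → S2)
    (V0 : Ω' → S3) (R : Ω' → S4) (S : Ω' → S5) (X : Ω' → S6) (t : Ω' → S7) (T : Ω' → S8)
    (X' : Ω' → S9) (c1 c2 : ℝ)
    (h1 : hc P' Y (fun ω => (V ω, (R ω, S ω))) ≤ c1)
    (h2 : Fn P' V0 V)
    (h3 : Fn P' Y (fun ω => (X ω, S ω))) (h4 : Fn P' R (fun ω => (X ω, S ω)))
    (h5 : hc P' t (fun ω => (V0 ω, (X ω, S ω))) ≤ c2)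
    (h6 : mi P' t X' T ≤ 0)
    (h7 : Fn P' (fun ω => (X ω, S ω)) (fun ω => (X' ω, T ω))) :
    hc P' Y (fun ω => (R ω, S ω)) + hc P' t T ≤
      hc P' V (fun ω => (R ω, S ω)) + (c1 + c2) := by
  have a1 : hc P' (fun ω => (Y ω, V0 ω)) (fun ω => (R ω, S ω)) ≤
      hc P' (fun ω => (V ω, Y ω)) (fun ω => (R ω, S ω)) := by
    refine hc_mono_left P' ?_
    intro ω ω' p p' e
    have e1 : V ω = V ω' := congrArg (fun x => x.1.1) e
    have e2 : Y ω = Y ω' := congrArg (fun x => x.1.2) e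
    exact Prod.ext e2 (h2 ω ω' p p' e1)
  rw [hc_pair, hc_pair] at a1
  have a2 : hc P' V0 (fun ω => (X ω, S ω)) ≤ hc P' V0 (fun ω => (Y ω, (R ω, S ω))) := by
    refine hc_mono_right P' _ ?_
    intro ω ω' p p' e
    have e2 : S ω = S ω' := congrArg (fun x => x.2) e
    exact Prod.ext (h3 ω ω' p p' e) (Prod.ext (h4 ω ω' p p' e) e2)
  have a3 := hc_le_add P' t V0 (fun ω => (X ω, S ω))
  have a4 : hc P' t (fun ω => (X' ω, T ω)) ≤ hc P' t (fun ω => (X ω, S ω)) :=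
    hc_mono_right P' t h7
  unfold mi at h6
  linarith

/-- close numbers have almost the same digits -/
theorem db_fl1_close {T : Type*} (P : Law Ω') {s : ℕ} (N : ℕ) (v w : Ω' → ℝ) (Z : Ω' → T)
    (h : ∀ ω, 0 < P.w ω → |v ω - w ω| ≤ N * (1 / 2 : ℝ) ^ s) :
    hc P (fun ω => fl1 s (v ω)) (fun ω => (fl1 s (w ω), Z ω)) ≤ Real.log (2 * N + 3) := by
  have h1 := hc_fl_close P (s := s) (ι := Unit) N (fun ω _ => v ω) (fun ω _ => w ω) Z
    (fun ω hω _ => h ω hω)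
  rw [Fintype.card_unit, Nat.cast_one, one_mul] at h1
  refine le_trans ?_ h1
  refine (hc_mono_left P (X' := fun ω => fl s (fun _ : Unit => v ω)) ?_).trans
    (hc_mono_right P _ ?_)
  · intro ω ω' _ _ e
    have e1 : fl s (fun _ : Unit => v ω) = fl s (fun _ : Unit => v ω') := congrArg Prod.fst e
    exact congrFun e1 ()
  · intro ω ω' _ _ e
    have e1 : fl1 s (w ω) = fl1 s (w ω') := congrArg (fun x => x.1) e
    have e2 : Z ω = Z ω' := congrArg (fun x => x.2) e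
    exact Prod.ext (funext fun _ => e1) e2

/-- a bounded number has few integer parts -/
theorem db_fl1_zero {T : Type*} (P : Law Ω') (v : Ω' → ℝ) (Z : Ω' → T)
    (h : ∀ ω, 0 < P.w ω → |v ω| ≤ 2) :
    hc P (fun ω => fl1 0 (v ω)) Z ≤ Real.log 5 := by
  have h1 := hc_le_log P (fun ω => fl1 0 (v ω)) Z 5 (fun ω _ => by
    refine ⟨Finset.Icc (-2 : ℤ) 2, by simp, ?_⟩
    intro ω' hω' _
    rw [Finset.mem_Icc]
    obtain ⟨a1, a2⟩ := abs_le.1 (h ω' hω')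
    unfold fl1
    rw [pow_zero, one_mul]
    constructor
    · refine Int.le_floor.2 ?_
      push_cast
      exact a1
    · have h5 := (Int.floor_le (v ω')).trans a2
      exact_mod_cast h5)
  exact_mod_cast h1

/-- second half of the displacement lemma: the projection along the direction of the
displacement loses the entropy of the displacement -/
theorem disp_B {P : Law Ω} {P' : Law Ω'} {B : Ω → β} {q : Ω → γ} {X0 : Ω → Fin d → ℤ}
    {Z : Ω' → ζ} {π π1 π2 : Ω' → Ω} {e1 : ℝ} (h : AbsOut P P' B q X0 Z π π1 π2 e1)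
    (J : Finset (Fin d)) (C : β → γ → Fin d → ℝ) (E : β → Fin d → Fin d → ℝ) (W : Ω' → Fin d → ℤ)
    (i0 j0 : Fin d) (hi0 : i0 ∉ J) (hj0 : j0 ∈ J) (r r' w N1 : ℕ) (hrr : r ≤ r')
    (hE : ∀ ω, 0 < P.w ω → (∀ i j, i ∉ J → j ∈ J → |E (B ω) i j| ≤ |E (B ω) i0 j0|) ∧
      (2 : ℝ) ^ r * |E (B ω) i0 j0| ≤ 1 ∧ 1 < (2 : ℝ) ^ (r + w) * |E (B ω) i0 j0|)
    (hW : ∀ ω, 0 < P'.w ω → (∀ i, i ∉ J → |(W ω i : ℝ) + 2 ^ r' * ∑ j ∈ J, E (B (π ω)) i j *
      (C (B (π ω)) (q (π2 ω)) j - C (B (π ω)) (q (π1 ω)) j)| ≤ N1) ∧ ∀ i ∈ J, W ω i = 0)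
    (hz : ∀ ω, 0 < P'.w ω → ∀ j ∈ J,
      |C (B (π ω)) (q (π2 ω)) j - C (B (π ω)) (q (π1 ω)) j| ≤ 2) :
    hc P' (fun ω => fl r' (fun i => (X0 (π ω) i : ℝ) / 2 ^ r' - (X0 (π ω) i0 : ℝ) / 2 ^ r' *
          (if i ∈ J then 0 else E (B (π ω)) i j0 / E (B (π ω)) i0 j0)))
        (fun ω => (fl r (fun i => (X0 (π ω) i : ℝ) / 2 ^ r'), q (π ω), B (π ω), Z ω,
          zd B q π π1 π2 J C j0 (r' - r) ω)) +
      hc P' (fun ω => fl1 (r' - r - w)
          (C (B (π ω)) (q (π2 ω)) j0 - C (B (π ω)) (q (π1 ω)) j0))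
        (fun ω => (zd B q π π1 π2 J C j0 (r' - r) ω, B (π ω), Z ω)) ≤
      hc P' (fun ω i => X0 (π ω) i + W ω i)
        (fun ω => (fl r (fun i => (X0 (π ω) i : ℝ) / 2 ^ r'), q (π ω), B (π ω), Z ω,
          zd B q π π1 π2 J C j0 (r' - r) ω)) +
      (d + 2) * Real.log (8 * d + 8 * N1 + 8) := by
  have hd0 : (0 : ℝ) ≤ d := Nat.cast_nonneg _
  have hN0 : (0 : ℝ) ≤ N1 := Nat.cast_nonneg _
  have hL : 0 ≤ Real.log (8 * d + 8 * N1 + 8) := Real.log_nonneg (by linarith)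
  -- facts on the support
  have hsup : ∀ ω, 0 < P'.w ω → 0 < P.w (π ω) := by
    intro ω hω
    rw [← h.law (π ω)]
    exact P'.pr_pos π hω
  have hEne : ∀ ω, 0 < P'.w ω → E (B (π ω)) i0 j0 ≠ 0 := by
    intro ω hω h0
    obtain ⟨-, -, h3⟩ := hE (π ω) (hsup ω hω)
    rw [h0, abs_zero, mul_zero] at h3
    linarith
  -- step 1: the approximation of `Y`
  have s1 : hc P' (fun ω => fl r' (fun i => (X0 (π ω) i : ℝ) / 2 ^ r' -
        (X0 (π ω) i0 : ℝ) / 2 ^ r' *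
          (if i ∈ J then 0 else E (B (π ω)) i j0 / E (B (π ω)) i0 j0)))
      (fun ω => ((fun i => X0 (π ω) i + W ω i), (fl r (fun i => (X0 (π ω) i : ℝ) / 2 ^ r'),
        (q (π ω), B (π ω), Z ω, zd B q π π1 π2 J C j0 (r' - r) ω)))) ≤
      d * Real.log (8 * d + 8 * N1 + 8) := by
    have b1 := hc_fl_close P' (s := r') (2 * d + 2 * N1)
      (fun ω => fun i : Fin d => (X0 (π ω) i : ℝ) / 2 ^ r' - (X0 (π ω) i0 : ℝ) / 2 ^ r' *
          (if i ∈ J then 0 else E (B (π ω)) i j0 / E (B (π ω)) i0 j0))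
      (fun ω => fun i : Fin d => ((X0 (π ω) i + W ω i : ℤ) : ℝ) / 2 ^ r' -
        ((X0 (π ω) i0 + W ω i0 : ℤ) : ℝ) / 2 ^ r' *
          (if i ∈ J then 0 else E (B (π ω)) i j0 / E (B (π ω)) i0 j0) +
        (if i ∈ J then 0 else ∑ j ∈ J, (E (B (π ω)) i j -
          E (B (π ω)) i j0 / E (B (π ω)) i0 j0 * E (B (π ω)) i0 j) *
            db_ext J j0 (r' - r) (zd B q π π1 π2 J C j0 (r' - r) ω) j))
      (fun ω => ((fun i => X0 (π ω) i + W ω i), (fl r (fun i => (X0 (π ω) i : ℝ) / 2 ^ r'),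
        (q (π ω), B (π ω), Z ω, zd B q π π1 π2 J C j0 (r' - r) ω))))
      (by
        intro ω hω i
        obtain ⟨hE1, hE2, -⟩ := hE (π ω) (hsup ω hω)
        obtain ⟨hW1, hW2⟩ := hW ω hω
        by_cases hi : i ∈ J
        · simp only [if_pos hi, hW2 i hi]
          simp only [add_zero, mul_zero, sub_zero, sub_self, abs_zero]
          positivity
        · simp only [if_neg hi]
          have k1 := db_det1 J (E (B (π ω)))
            (fun j => C (B (π ω)) (q (π2 ω)) j - C (B (π ω)) (q (π1 ω)) j) i0 j0 i hi hi0 hj0 r r'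
            hrr N1 hE1 hE2 (hEne ω hω) (X0 (π ω) i) (X0 (π ω) i0) (W ω i) (W ω i0)
            (hW1 i hi) (hW1 i0 hi0)
          push_cast
          exact k1)
    refine le_trans (hc_mono_right P' _ ?_) (b1.trans ?_)
    · intro ω ω' _ _ e
      refine Prod.ext ?_ e
      have e1 : (fun i => X0 (π ω) i + W ω i) = (fun i => X0 (π ω') i + W ω' i) :=
        congrArg (fun x => x.1) e
      have e2 : B (π ω) = B (π ω') := congrArg (fun x => x.2.2.2.1) e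
      have e3 : zd B q π π1 π2 J C j0 (r' - r) ω = zd B q π π1 π2 J C j0 (r' - r) ω' :=
        congrArg (fun x => x.2.2.2.2.2) e
      have e4 : ∀ i, X0 (π ω) i + W ω i = X0 (π ω') i + W ω' i := fun i => congrFun e1 i
      funext i
      simp only [fl, e4, e2, e3]
    · rw [Fintype.card_fin]
      refine mul_le_mul_of_nonneg_left ?_ (Nat.cast_nonneg _)
      refine Real.log_le_log (by positivity) ?_
      push_cast
      linarith
  -- step 3: the displacement determines `z_j0`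
  have s3 : hc P' (fun ω => fl1 (r' - r - w)
        (C (B (π ω)) (q (π2 ω)) j0 - C (B (π ω)) (q (π1 ω)) j0))
      (fun ω => (X0 (π ω) i0 + W ω i0, (X0 (π ω),
        (q (π ω), B (π ω), Z ω, zd B q π π1 π2 J C j0 (r' - r) ω)))) ≤
      Real.log (8 * d + 8 * N1 + 8) := by
    rcases le_or_gt (r + w) r' with hw | hw
    · have b1 := db_fl1_close P' (s := r' - r - w) (d + N1)
        (fun ω => C (B (π ω)) (q (π2 ω)) j0 - C (B (π ω)) (q (π1 ω)) j0)
        (fun ω => (-((W ω i0 : ℝ) / 2 ^ r') - ∑ j ∈ J, E (B (π ω)) i0 j *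
          db_ext J j0 (r' - r) (zd B q π π1 π2 J C j0 (r' - r) ω) j) / E (B (π ω)) i0 j0)
        (fun ω => (X0 (π ω) i0 + W ω i0, (X0 (π ω),
          (q (π ω), B (π ω), Z ω, zd B q π π1 π2 J C j0 (r' - r) ω))))
        (by
          intro ω hω
          obtain ⟨hE1, hE2, hE3⟩ := hE (π ω) (hsup ω hω)
          obtain ⟨hW1, hW2⟩ := hW ω hω
          have k1 := db_det2 J (E (B (π ω)))
            (fun j => C (B (π ω)) (q (π2 ω)) j - C (B (π ω)) (q (π1 ω)) j) i0 j0 hj0 r r' w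
            hw N1 (fun j hj => hE1 i0 j hi0 hj) hE3 (hEne ω hω) (W ω i0) (hW1 i0 hi0)
          push_cast
          exact k1)
      refine le_trans (hc_mono_right P' _ ?_) (b1.trans ?_)
      · intro ω ω' _ _ e
        refine Prod.ext ?_ e
        have e1 : X0 (π ω) i0 + W ω i0 = X0 (π ω') i0 + W ω' i0 := congrArg (fun x => x.1) e
        have e2 : B (π ω) = B (π ω') := congrArg (fun x => x.2.2.2.1) e
        have e3 : zd B q π π1 π2 J C j0 (r' - r) ω = zd B q π π1 π2 J C j0 (r' - r) ω' :=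
          congrArg (fun x => x.2.2.2.2.2) e
        have e4 : X0 (π ω) = X0 (π ω') := congrArg (fun x => x.2.1) e
        have e5 : W ω i0 = W ω' i0 := by
          rw [e4] at e1
          exact add_left_cancel e1
        simp only [e5, e2, e3]
      · refine Real.log_le_log (by positivity) ?_
        push_cast
        linarith
    · have hs0 : r' - r - w = 0 := by omega
      rw [hs0]
      refine (db_fl1_zero P' _ _ (fun ω hω => hz ω hω j0 hj0)).trans ?_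
      refine Real.log_le_log (by norm_num) ?_
      linarith
  -- step 4: independence
  have s4 : mi P' (fun ω => fl1 (r' - r - w)
        (C (B (π ω)) (q (π2 ω)) j0 - C (B (π ω)) (q (π1 ω)) j0)) π
      (fun ω => (zd B q π π1 π2 J C j0 (r' - r) ω, B (π ω), Z ω)) ≤ 0 := by
    have b1 : mi P' (fun ω => fl1 (r' - r - w)
          (C (B (π ω)) (q (π2 ω)) j0 - C (B (π ω)) (q (π1 ω)) j0)) π
        (fun ω => (zd B q π π1 π2 J C j0 (r' - r) ω, B (π ω), Z ω)) ≤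
        mi P' (fun ω => (π1 ω, π2 ω)) π
          (fun ω => (zd B q π π1 π2 J C j0 (r' - r) ω, B (π ω), Z ω)) := by
      refine mi_mono_left P' _ ?_
      intro ω ω' _ _ e
      have e1 : π1 ω = π1 ω' := congrArg (fun x => x.1.1) e
      have e2 : π2 ω = π2 ω' := congrArg (fun x => x.1.2) e
      have e3 : B (π ω) = B (π ω') := congrArg (fun x => x.2.2.1) e
      simp only [e1, e2, e3]
    have b2 : mi P' (fun ω => (π1 ω, π2 ω)) π
        (fun ω => (zd B q π π1 π2 J C j0 (r' - r) ω, B (π ω), Z ω)) ≤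
        mi P' (fun ω => (π1 ω, π2 ω)) π (fun ω => (B (π ω), Z ω)) := by
      refine mi_cond_le P' _ _ ?_
      intro ω ω' _ _ e
      have e1 : π1 ω = π1 ω' := congrArg (fun x => x.1.1) e
      have e2 : π2 ω = π2 ω' := congrArg (fun x => x.1.2) e
      have e3 : B (π ω) = B (π ω') := congrArg (fun x => x.2.1) e
      show zd B q π π1 π2 J C j0 (r' - r) ω = zd B q π π1 π2 J C j0 (r' - r) ω'
      unfold zd
      rw [e1, e2, e3]
    rw [mi_symm P' (fun ω => (π1 ω, π2 ω)) π (fun ω => (B (π ω), Z ω)), h.ind] at b2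
    exact b1.trans b2
  -- put together
  have fin := db_ent P'
    (fun ω => fl r' (fun i => (X0 (π ω) i : ℝ) / 2 ^ r' - (X0 (π ω) i0 : ℝ) / 2 ^ r' *
          (if i ∈ J then 0 else E (B (π ω)) i j0 / E (B (π ω)) i0 j0)))
    (fun ω i => X0 (π ω) i + W ω i)
    (fun ω => X0 (π ω) i0 + W ω i0)
    (fun ω => fl r (fun i => (X0 (π ω) i : ℝ) / 2 ^ r'))
    (fun ω => (q (π ω), B (π ω), Z ω, zd B q π π1 π2 J C j0 (r' - r) ω))
    (fun ω => X0 (π ω))
    (fun ω => fl1 (r' - r - w) (C (B (π ω)) (q (π2 ω)) j0 - C (B (π ω)) (q (π1 ω)) j0))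
    (fun ω => (zd B q π π1 π2 J C j0 (r' - r) ω, B (π ω), Z ω))
    π _ _ s1 (fun ω ω' _ _ e => congrFun e i0)
    (by
      intro ω ω' _ _ e
      have e1 : X0 (π ω) = X0 (π ω') := congrArg (fun x => x.1) e
      have e2 : B (π ω) = B (π ω') := congrArg (fun x => x.2.2.1) e
      simp only [e1, e2])
    (by
      intro ω ω' _ _ e
      have e1 : X0 (π ω) = X0 (π ω') := congrArg (fun x => x.1) e
      simp only [e1])
    s3 s4
    (by
      intro ω ω' _ _ e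
      have e1 : π ω = π ω' := congrArg (fun x => x.1) e
      have e2 : zd B q π π1 π2 J C j0 (r' - r) ω = zd B q π π1 π2 J C j0 (r' - r) ω' :=
        congrArg (fun x => x.2.1) e
      have e3 : Z ω = Z ω' := congrArg (fun x => x.2.2.2) e
      simp only [e1, e2, e3])
  have e2 : (d + 2 : ℝ) * Real.log (8 * d + 8 * N1 + 8) =
      (d * Real.log (8 * d + 8 * N1 + 8) + Real.log (8 * d + 8 * N1 + 8)) +
        Real.log (8 * d + 8 * N1 + 8) := by ring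
  rw [e2]
  linarith

end dispB

end Vale.Agent.P127.Stk
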