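import Vale.Agent.P127.Stk.CDefs

/-!
# P127 / Stk : full entropy of one coordinate of `z` (PROOF.md, section 8)
-/

namespace Vale.Agent.P127.Stk

open Finset Vale.Agent.P127

section dz

variable {Ω Ω' β γ ζ : Type} [Fintype Ω] [Fintype Ω'] {d : ℕ}

/-- two random variables with the same law have the same expectations -/
theorem dz_ex {S : Type*} (P : Law Ω') {X Y : Ω' → S} (h : ∀ s, P.pr X s = P.pr Y s)
    (g : S → ℝ) : P.ex (fun ω => g (X ω)) = P.ex (fun ω => g (Y ω)) := by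
  classical
  have key : ∀ W : Ω' → S, img W ⊆ img X ∪ img Y →
      P.ex (fun ω => g (W ω)) = ∑ s ∈ img X ∪ img Y, P.pr W s * g s := by
    intro W hW
    rw [P.ex_comp W g]
    refine Finset.sum_subset hW ?_
    intro x _ hx
    have h1 : P.pr W x = 0 := by
      unfold Law.pr
      refine Finset.sum_eq_zero fun ω hω => ?_
      exact absurd (mem_img.2 ⟨ω, (Finset.mem_filter.1 hω).2⟩) hx
    rw [h1, zero_mul]
  rw [key X subset_union_left, key Y subset_union_right]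
  exact Finset.sum_congr rfl fun s _ => by rw [h]

theorem dz_H {S T : Type*} (P : Law Ω') {X Y : Ω' → S} (h : ∀ s, P.pr X s = P.pr Y s)
    (f : S → T) : P.H (fun ω => f (X ω)) = P.H (fun ω => f (Y ω)) := by
  have h1 : ∀ t, P.pr (fun ω => f (X ω)) t = P.pr (fun ω => f (Y ω)) t := by
    intro t
    rw [Law.pr_eq_ex, Law.pr_eq_ex]
    exact dz_ex P h (fun s => Law.ind (f s = t))
  unfold Law.H
  simp only [h1]
  exact dz_ex P h (fun s => -Real.log (P.pr (fun ω => f (Y ω)) (f s)))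

theorem dz_hc {S T U : Type*} (P : Law Ω') {X Y : Ω' → S} (h : ∀ s, P.pr X s = P.pr Y s)
    (f : S → T) (g : S → U) :
    hc P (fun ω => f (X ω)) (fun ω => g (X ω)) = hc P (fun ω => f (Y ω)) (fun ω => g (Y ω)) := by
  unfold hc
  rw [dz_H P h (fun s => (f s, g s)), dz_H P h g]

/-- step (a) -/
theorem dz_a {P : Law Ω} {P' : Law Ω'} {B : Ω → β} {q : Ω → γ} {X0 : Ω → Fin d → ℤ}
    {Z : Ω' → ζ} {π π1 π2 : Ω' → Ω} {e1 : ℝ} (h : AbsOut P P' B q X0 Z π π1 π2 e1)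
    {T : Type} (A : β → γ → T) :
    hc P (fun ω => A (B ω) (q ω)) (fun ω => (X0 ω, B ω)) - e1 ≤
      hc P' (fun ω => A (B (π ω)) (q (π2 ω))) (fun ω => (π1 ω, B (π ω), Z ω)) := by
  have s1 : hc P' (fun ω => A (B (π ω)) (q (π2 ω)))
      (fun ω => (π1 ω, X0 (π1 ω), B (π ω), Z ω)) ≤
      hc P' (fun ω => A (B (π ω)) (q (π2 ω))) (fun ω => (π1 ω, B (π ω), Z ω)) := by
    refine hc_mono_right P' _ ?_
    intro ω ω' _ _ e
    simp only [Prod.mk.injEq] at e ⊢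
    exact ⟨e.1, e.2.2⟩
  have s2 : mi P' (fun ω => A (B (π ω)) (q (π2 ω))) π1
      (fun ω => (X0 (π1 ω), B (π ω), Z ω)) ≤ 0 := by
    rw [← h.ind12, mi_symm P' π1 π2]
    refine mi_mono_left P' π1 ?_
    intro ω ω' _ _ e
    simp only [Prod.mk.injEq] at e
    show A (B (π ω)) (q (π2 ω)) = A (B (π ω')) (q (π2 ω'))
    rw [e.2.2.1, e.1]
  have s4 : hc P' (fun ω => A (B (π ω)) (q (π2 ω))) (fun ω => (X0 (π1 ω), B (π ω), Z ω)) =
      hc P' (fun ω => A (B (π2 ω)) (q (π2 ω))) (fun ω => (X0 (π2 ω), B (π2 ω), Z ω)) := by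
    refine hc_congr P' ?_ ?_ ?_ ?_
    · intro ω ω' p p' e
      simp only [Prod.mk.injEq] at e
      obtain ⟨_, a2, _⟩ := h.supp ω p
      obtain ⟨_, b2, _⟩ := h.supp ω' p'
      show A (B (π ω)) (q (π2 ω)) = A (B (π ω')) (q (π2 ω'))
      rw [← a2, ← b2]
      exact e.1
    · intro ω ω' p p' e
      simp only [Prod.mk.injEq] at e
      obtain ⟨_, a2, _⟩ := h.supp ω p
      obtain ⟨_, b2, _⟩ := h.supp ω' p'
      show A (B (π2 ω)) (q (π2 ω)) = A (B (π2 ω')) (q (π2 ω'))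
      rw [a2, b2]
      exact e.1
    · intro ω ω' p p' e
      simp only [Prod.mk.injEq] at e ⊢
      obtain ⟨_, a2, a3⟩ := h.supp ω p
      obtain ⟨_, b2, b3⟩ := h.supp ω' p'
      refine ⟨?_, ?_, e.2.2⟩
      · rw [a3, b3]; exact e.1
      · rw [← a2, ← b2]; exact e.2.1
    · intro ω ω' p p' e
      simp only [Prod.mk.injEq] at e ⊢
      obtain ⟨_, a2, a3⟩ := h.supp ω p
      obtain ⟨_, b2, b3⟩ := h.supp ω' p'
      refine ⟨?_, ?_, e.2.2⟩
      · rw [← a3, ← b3]; exact e.1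
      · rw [a2, b2]; exact e.2.1
  have s5 : hc P' (fun ω => A (B (π2 ω)) (q (π2 ω))) (fun ω => (X0 (π2 ω), B (π2 ω), Z ω)) =
      hc P' (fun ω => A (B (π ω)) (q (π ω))) (fun ω => (X0 (π ω), B (π ω), Z ω)) :=
    dz_hc P' (X := fun ω => (Z ω, π2 ω)) (Y := fun ω => (Z ω, π ω))
      (fun s => h.law2 s.1 s.2) (fun s => A (B s.2) (q s.2)) (fun s => (X0 s.2, B s.2, s.1))
  have s6 : mi P' (fun ω => A (B (π ω)) (q (π ω))) Z (fun ω => (X0 (π ω), B (π ω))) ≤ e1 := by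
    refine le_trans ?_ h.cheap
    refine le_trans ?_ (mi_cond_le P' (X := fun ω => (q (π ω), X0 (π ω))) Z
      (W := fun ω => X0 (π ω)) (fun ω => B (π ω)) ?_)
    · refine mi_mono_left P' Z ?_
      intro ω ω' _ _ e
      simp only [Prod.mk.injEq] at e
      show A (B (π ω)) (q (π ω)) = A (B (π ω')) (q (π ω'))
      rw [e.2.2, e.1.1]
    · intro ω ω' _ _ e
      simp only [Prod.mk.injEq] at e
      exact e.1.2
  have s6' : hc P' (fun ω => A (B (π ω)) (q (π ω))) (fun ω => (Z ω, X0 (π ω), B (π ω))) =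
      hc P' (fun ω => A (B (π ω)) (q (π ω))) (fun ω => (X0 (π ω), B (π ω), Z ω)) := by
    refine hc_congr P' (fun ω ω' _ _ e => congrArg Prod.fst e)
      (fun ω ω' _ _ e => congrArg Prod.fst e) ?_ ?_
    · intro ω ω' _ _ e
      simp only [Prod.mk.injEq] at e ⊢
      exact ⟨e.2.2, e.1, e.2.1⟩
    · intro ω ω' _ _ e
      simp only [Prod.mk.injEq] at e ⊢
      exact ⟨e.2.1, e.2.2, e.1⟩
  have s7 : hc P' (fun ω => A (B (π ω)) (q (π ω))) (fun ω => (X0 (π ω), B (π ω))) =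
      hc P (fun ω => A (B ω) (q ω)) (fun ω => (X0 ω, B ω)) :=
    hc_of_law P' P π h.law (fun ω => A (B ω) (q ω)) (fun ω => (X0 ω, B ω))
  unfold mi at s2 s6
  linarith

/-- a vector in a box has few digits -/
theorem dz_box {ι : Type} [Fintype ι] {T : Type*} (P : Law Ω') (s : ℕ) (v : Ω' → ι → ℝ)
    (Y : Ω' → T) (h : ∀ ω, 0 < P.w ω → ∀ i, |v ω i| ≤ 2) :
    hc P (fun ω => fl s (v ω)) Y ≤ Fintype.card ι * (s * Real.log 2 + Real.log 5) := by
  classical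
  have h1 := hc_le_log P (fun ω => fl s (v ω)) Y ((5 * 2 ^ s) ^ Fintype.card ι) (fun ω _ => by
    refine ⟨Fintype.piFinset fun _ : ι => Finset.Icc (-(2 * 2 ^ s) : ℤ) (2 * 2 ^ s), ?_, ?_⟩
    · rw [Fintype.card_piFinset]
      simp only [Finset.prod_const, Finset.card_univ]
      refine Nat.pow_le_pow_left ?_ _
      rw [Int.card_Icc]
      have h2 : (0 : ℤ) < 2 ^ s := by positivity
      have h3 : ((2 ^ s : ℕ) : ℤ) = 2 ^ s := by push_cast; rfl
      have h4 : 1 ≤ 2 ^ s := Nat.one_le_two_pow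
      omega
    · intro ω' hω' _
      rw [Fintype.mem_piFinset]
      intro i
      rw [Finset.mem_Icc]
      have h2 : (0 : ℝ) < 2 ^ s := by positivity
      obtain ⟨a1, a2⟩ := abs_le.1 (h ω' hω' i)
      constructor
      · refine Int.le_floor.2 ?_
        push_cast
        nlinarith
      · have h5 : (2 : ℝ) ^ s * v ω' i ≤ 2 * 2 ^ s := by nlinarith
        have h6 : ((fl s (v ω') i : ℤ) : ℝ) ≤ ((2 * 2 ^ s : ℤ) : ℝ) := by
          push_cast
          exact (Int.floor_le _).trans h5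
        exact_mod_cast h6)
  refine h1.trans (le_of_eq ?_)
  push_cast
  rw [Real.log_pow, Real.log_mul (by norm_num) (by positivity), Real.log_pow]
  ring

/-- full entropy of one coordinate of `z` -/
theorem disp_z {P : Law Ω} {P' : Law Ω'} {B : Ω → β} {q : Ω → γ} {X0 : Ω → Fin d → ℤ}
    {Z : Ω' → ζ} {π π1 π2 : Ω' → Ω} {e1 : ℝ} (h : AbsOut P P' B q X0 Z π π1 π2 e1)
    (J : Finset (Fin d)) (C : β → γ → Fin d → ℝ) (j0 : Fin d) (hj0 : j0 ∈ J) (e3 : ℝ) (s σ : ℕ)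
    (hs : s ≤ σ)
    (H3 : (J.card : ℝ) * σ * Real.log 2 - e3 ≤
      hc P (fun ω => fl σ (fun j : {j // j ∈ J} => C (B ω) (q ω) j)) (fun ω => (X0 ω, B ω)))
    (hz : ∀ ω, 0 < P'.w ω → ∀ j ∈ J,
      |C (B (π ω)) (q (π2 ω)) j - C (B (π ω)) (q (π1 ω)) j| ≤ 2) :
    s * Real.log 2 - e3 - e1 - 2 * J.card * Real.log 5 ≤
      hc P' (fun ω => fl1 s (C (B (π ω)) (q (π2 ω)) j0 - C (B (π ω)) (q (π1 ω)) j0))
        (fun ω => (zd B q π π1 π2 J C j0 σ ω, B (π ω), Z ω)) := by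
  classical
  -- (a)
  have a1 := dz_a h (fun b g => fl σ (fun j : {j // j ∈ J} => C b g j))
  -- (b)
  set zJ : Ω' → {j // j ∈ J} → ℤ := fun ω => fl σ (fun j : {j // j ∈ J} =>
    C (B (π ω)) (q (π2 ω)) j - C (B (π ω)) (q (π1 ω)) j) with hzJ
  have b1 := hc_le_add P' (fun ω => fl σ (fun j : {j // j ∈ J} => C (B (π ω)) (q (π2 ω)) j))
    zJ (fun ω => (π1 ω, B (π ω), Z ω))
  have b2 : hc P' (fun ω => fl σ (fun j : {j // j ∈ J} => C (B (π ω)) (q (π2 ω)) j))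
      (fun ω => (zJ ω, π1 ω, B (π ω), Z ω)) ≤ J.card * Real.log 5 := by
    have c1 := hc_fl_close P' (s := σ) 1
      (fun ω => fun j : {j // j ∈ J} => C (B (π ω)) (q (π2 ω)) j)
      (fun ω => fun j : {j // j ∈ J} => (zJ ω j : ℝ) / 2 ^ σ + C (B (π ω)) (q (π1 ω)) j)
      (fun ω => (zJ ω, π1 ω, B (π ω), Z ω)) (by
        intro ω _ j
        have h2 : (0 : ℝ) < 2 ^ σ := by positivity
        have e1 : (zJ ω j : ℝ) ≤ 2 ^ σ * (C (B (π ω)) (q (π2 ω)) j - C (B (π ω)) (q (π1 ω)) j) :=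
          Int.floor_le _
        have e2 : 2 ^ σ * (C (B (π ω)) (q (π2 ω)) j - C (B (π ω)) (q (π1 ω)) j) <
            (zJ ω j : ℝ) + 1 := Int.lt_floor_add_one _
        have e3 : (1 / 2 : ℝ) ^ σ = 1 / 2 ^ σ := by rw [div_pow, one_pow]
        have e4 : C (B (π ω)) (q (π2 ω)) j -
            ((zJ ω j : ℝ) / 2 ^ σ + C (B (π ω)) (q (π1 ω)) j) =
            (2 ^ σ * (C (B (π ω)) (q (π2 ω)) j - C (B (π ω)) (q (π1 ω)) j) - zJ ω j) / 2 ^ σ := by
          field_simp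
          ring
        rw [e4, e3, Nat.cast_one, one_mul, abs_div, abs_of_pos h2]
        refine div_le_div_of_nonneg_right ?_ h2.le
        rw [abs_le]
        constructor <;> linarith)
    have c2 : hc P' (fun ω => fl σ (fun j : {j // j ∈ J} => C (B (π ω)) (q (π2 ω)) j))
        (fun ω => (zJ ω, π1 ω, B (π ω), Z ω)) ≤
        hc P' (fun ω => fl σ (fun j : {j // j ∈ J} => C (B (π ω)) (q (π2 ω)) j))
          (fun ω => (fl σ (fun j : {j // j ∈ J} =>
            (zJ ω j : ℝ) / 2 ^ σ + C (B (π ω)) (q (π1 ω)) j), zJ ω, π1 ω, B (π ω), Z ω)) := by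
      refine hc_mono_right P' _ ?_
      intro ω ω' _ _ e
      simp only [Prod.mk.injEq] at e ⊢
      refine ⟨?_, e⟩
      rw [e.1, e.2.1, e.2.2.1]
    refine c2.trans (c1.trans (le_of_eq ?_))
    rw [Fintype.card_coe]
    norm_num
  have b3 : hc P' zJ (fun ω => (π1 ω, B (π ω), Z ω)) ≤ hc P' zJ (fun ω => (B (π ω), Z ω)) := by
    refine hc_mono_right P' _ ?_
    intro ω ω' _ _ e
    exact congrArg Prod.snd e
  -- (c)
  have d1 : hc P' zJ (fun ω => (B (π ω), Z ω)) ≤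
      hc P' (fun ω => (zd B q π π1 π2 J C j0 σ ω,
        fl1 σ (C (B (π ω)) (q (π2 ω)) j0 - C (B (π ω)) (q (π1 ω)) j0)))
        (fun ω => (B (π ω), Z ω)) := by
    refine hc_mono_left P' ?_
    intro ω ω' _ _ e
    simp only [Prod.mk.injEq] at e
    funext j
    by_cases hj : (j : Fin d) = j0
    · have := e.1.2
      have hj' : j = ⟨j0, hj0⟩ := Subtype.ext hj
      rw [hj']
      exact this
    · exact congrFun e.1.1 ⟨j.1, j.2, hj⟩
  rw [hc_pair] at d1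
  have d2 := dz_box P' σ (fun ω => fun j : {j // j ∈ J ∧ j ≠ j0} =>
    C (B (π ω)) (q (π2 ω)) j - C (B (π ω)) (q (π1 ω)) j) (fun ω => (B (π ω), Z ω))
    (fun ω hω j => hz ω hω j.1 j.2.1)
  have d3 : (Fintype.card {j // j ∈ J ∧ j ≠ j0} : ℝ) = J.card - 1 := by
    have e1 : Fintype.card {j // j ∈ J ∧ j ≠ j0} = (J.erase j0).card := by
      rw [Fintype.card_subtype]
      congr 1
      ext j
      simp only [Finset.mem_filter, Finset.mem_univ, true_and, Finset.mem_erase]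
      tauto
    rw [e1, Finset.card_erase_of_mem hj0, Nat.cast_sub (Finset.card_pos.2 ⟨j0, hj0⟩)]
    norm_num
  rw [d3] at d2
  have d4 := hc_le_add P'
    (fun ω => fl1 σ (C (B (π ω)) (q (π2 ω)) j0 - C (B (π ω)) (q (π1 ω)) j0))
    (fun ω => fl1 s (C (B (π ω)) (q (π2 ω)) j0 - C (B (π ω)) (q (π1 ω)) j0))
    (fun ω => (zd B q π π1 π2 J C j0 σ ω, B (π ω), Z ω))
  have d5 := hc_fl1_digits_le P' hs
    (fun ω => C (B (π ω)) (q (π2 ω)) j0 - C (B (π ω)) (q (π1 ω)) j0)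
    (fun ω => (zd B q π π1 π2 J C j0 σ ω, B (π ω), Z ω))
  rw [Nat.cast_sub hs] at d5
  have d2' : hc P' (fun ω => zd B q π π1 π2 J C j0 σ ω) (fun ω => (B (π ω), Z ω)) ≤
      ((J.card : ℝ) - 1) * (σ * Real.log 2 + Real.log 5) := d2
  have l5 : 0 ≤ Real.log 5 := Real.log_nonneg (by norm_num)
  nlinarith [a1, b1, b2, b3, d1, d2', d4, d5, H3]

end dz

end Vale.Agent.P127.Stk
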