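import Vale.Agent.P127.Stk.CDispA
import Vale.Agent.P127.Stk.CDispB
import Vale.Agent.P127.Stk.CDispZ

/-!
# P127 / Stk : the displacement lemma (PROOF.md, section 8)
-/

namespace Vale.Agent.P127.Stk

open Finset Vale.Agent.P127

section disp

variable {Ω Ω' β γ ζ : Type} [Fintype Ω] [Fintype Ω'] {d : ℕ}

/-- removing `Z` and a function of `(π1, π2, B)` from the condition -/
theorem dd_drop {S T U : Type*} {P : Law Ω} {P' : Law Ω'} {B : Ω → β} {q : Ω → γ}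
    {X0 : Ω → Fin d → ℤ} {Z : Ω' → ζ} {π π1 π2 : Ω' → Ω} {e1 : ℝ}
    (h : AbsOut P P' B q X0 Z π π1 π2 e1) (Y : Ω → S) (R : Ω → T) (D : Ω' → U)
    (hY : ∀ ω ω', X0 ω = X0 ω' → B ω = B ω' → Y ω = Y ω')
    (hR : ∀ ω ω', X0 ω = X0 ω' → R ω = R ω')
    (hD : ∀ ω ω', π1 ω = π1 ω' → π2 ω = π2 ω' → B (π ω) = B (π ω') → D ω = D ω') :
    hc P Y (fun ω => (R ω, q ω, B ω)) ≤
      hc P' (fun ω => Y (π ω)) (fun ω => (R (π ω), q (π ω), B (π ω), Z ω, D ω)) + e1 := by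
  -- pass to `P'`
  have h1 : hc P Y (fun ω => (R ω, q ω, B ω)) =
      hc P' (fun ω => Y (π ω)) (fun ω => (R (π ω), q (π ω), B (π ω))) := by
    have e : P = push P' π := law_ext fun ω => by rw [push_w]; exact (h.law ω).symm
    have := push_hc P' π Y (fun ω => (R ω, q ω, B ω))
    rw [← e] at this
    exact this
  -- remove `Z`
  have h2 : hc P' (fun ω => Y (π ω)) (fun ω => (R (π ω), q (π ω), B (π ω))) -
      hc P' (fun ω => Y (π ω)) (fun ω => (Z ω, R (π ω), q (π ω), B (π ω))) ≤ e1 := by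
    have a1 : mi P' (fun ω => Y (π ω)) Z (fun ω => (R (π ω), q (π ω), B (π ω))) ≤
        mi P' (fun ω => (q (π ω), X0 (π ω))) Z (fun ω => (R (π ω), q (π ω), B (π ω))) := by
      refine mi_mono_left P' Z ?_
      intro ω ω' _ _ e
      simp only [Prod.mk.injEq] at e
      exact hY _ _ e.1.2 e.2.2.2
    have a2 : mi P' (fun ω => (q (π ω), X0 (π ω))) Z (fun ω => (R (π ω), q (π ω), B (π ω))) ≤
        mi P' (fun ω => (q (π ω), X0 (π ω))) Z (fun ω => (q (π ω), B (π ω))) := by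
      refine mi_cond_le P' Z (X := fun ω => (q (π ω), X0 (π ω))) (W := fun ω => R (π ω))
        (fun ω => (q (π ω), B (π ω))) ?_
      intro ω ω' _ _ e
      simp only [Prod.mk.injEq] at e
      exact hR _ _ e.1.2
    have a3 : mi P' (fun ω => (q (π ω), X0 (π ω))) Z (fun ω => (q (π ω), B (π ω))) ≤
        mi P' (fun ω => (q (π ω), X0 (π ω))) Z (fun ω => B (π ω)) := by
      refine mi_cond_le P' Z (X := fun ω => (q (π ω), X0 (π ω))) (W := fun ω => q (π ω))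
        (fun ω => B (π ω)) ?_
      intro ω ω' _ _ e
      simp only [Prod.mk.injEq] at e
      exact e.1.1
    have a4 := h.cheap
    have a5 : hc P' (fun ω => Y (π ω)) (fun ω => (R (π ω), q (π ω), B (π ω))) -
      hc P' (fun ω => Y (π ω)) (fun ω => (Z ω, R (π ω), q (π ω), B (π ω))) =
        mi P' (fun ω => Y (π ω)) Z (fun ω => (R (π ω), q (π ω), B (π ω))) := rfl
    linarith
  -- remove `D`
  have h3 : hc P' (fun ω => Y (π ω)) (fun ω => (Z ω, R (π ω), q (π ω), B (π ω))) ≤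
      hc P' (fun ω => Y (π ω)) (fun ω => (D ω, Z ω, R (π ω), q (π ω), B (π ω))) := by
    have a1 : mi P' (fun ω => Y (π ω)) D (fun ω => (Z ω, R (π ω), q (π ω), B (π ω))) ≤
        mi P' π D (fun ω => (Z ω, R (π ω), q (π ω), B (π ω))) := by
      refine mi_mono_left P' D ?_
      intro ω ω' _ _ e
      simp only [Prod.mk.injEq] at e
      show Y (π ω) = Y (π ω')
      rw [e.1]
    have a2 : mi P' π D (fun ω => (Z ω, R (π ω), q (π ω), B (π ω))) =
        mi P' π D (fun ω => ((R (π ω), q (π ω)), B (π ω), Z ω)) := by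
      refine mi_congr_cond P' π D ?_ ?_
      · intro ω ω' _ _ e
        simp only [Prod.mk.injEq] at e ⊢
        exact ⟨e.2.2, e.1.1, e.1.2, e.2.1⟩
      · intro ω ω' _ _ e
        simp only [Prod.mk.injEq] at e ⊢
        exact ⟨⟨e.2.1, e.2.2.1⟩, e.2.2.2, e.1⟩
    have a3 : mi P' π D (fun ω => ((R (π ω), q (π ω)), B (π ω), Z ω)) ≤
        mi P' π D (fun ω => (B (π ω), Z ω)) := by
      refine mi_cond_le P' D (X := π) (W := fun ω => (R (π ω), q (π ω)))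
        (fun ω => (B (π ω), Z ω)) ?_
      intro ω ω' _ _ e
      simp only [Prod.mk.injEq] at e
      show (R (π ω), q (π ω)) = (R (π ω'), q (π ω'))
      rw [e.1]
    have a4 : mi P' π D (fun ω => (B (π ω), Z ω)) ≤
        mi P' π (fun ω => (π1 ω, π2 ω)) (fun ω => (B (π ω), Z ω)) := by
      refine mi_mono_right P' π ?_
      intro ω ω' _ _ e
      simp only [Prod.mk.injEq] at e
      exact hD _ _ e.1.1 e.1.2 e.2.1
    have a5 := h.ind
    have a6 : hc P' (fun ω => Y (π ω)) (fun ω => (Z ω, R (π ω), q (π ω), B (π ω))) -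
      hc P' (fun ω => Y (π ω)) (fun ω => (D ω, Z ω, R (π ω), q (π ω), B (π ω))) =
        mi P' (fun ω => Y (π ω)) D (fun ω => (Z ω, R (π ω), q (π ω), B (π ω))) := rfl
    linarith
  have h4 : hc P' (fun ω => Y (π ω)) (fun ω => (D ω, Z ω, R (π ω), q (π ω), B (π ω))) =
      hc P' (fun ω => Y (π ω)) (fun ω => (R (π ω), q (π ω), B (π ω), Z ω, D ω)) := by
    refine hc_congr P' (fun ω ω' _ _ e => congrArg Prod.fst e)
      (fun ω ω' _ _ e => congrArg Prod.fst e) ?_ ?_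
    · intro ω ω' _ _ e
      simp only [Prod.mk.injEq] at e ⊢
      tauto
    · intro ω ω' _ _ e
      simp only [Prod.mk.injEq] at e ⊢
      tauto
  linarith

/-- the displacement lemma -/
theorem disp {P : Law Ω} {P' : Law Ω'} {B : Ω → β} {q : Ω → γ} {X0 : Ω → Fin d → ℤ}
    {Z : Ω' → ζ} {π π1 π2 : Ω' → Ω} {e1 : ℝ} (h : AbsOut P P' B q X0 Z π π1 π2 e1)
    (J : Finset (Fin d)) (C : β → γ → Fin d → ℝ) (E : β → Fin d → Fin d → ℝ) (W : Ω' → Fin d → ℤ)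
    (i0 j0 : Fin d) (hi0 : i0 ∉ J) (hj0 : j0 ∈ J) (f e2 e3 : ℝ) (n r r' w N1 : ℕ)
    (hnr : n ≤ r) (hrr : r ≤ r') (he1 : 0 ≤ e1)
    (hE : ∀ ω, 0 < P.w ω → (∀ i j, i ∉ J → j ∈ J → |E (B ω) i j| ≤ |E (B ω) i0 j0|) ∧
      (2 : ℝ) ^ r * |E (B ω) i0 j0| ≤ 1 ∧ 1 < (2 : ℝ) ^ (r + w) * |E (B ω) i0 j0|)
    (hW : ∀ ω, 0 < P'.w ω → (∀ i, i ∉ J → |(W ω i : ℝ) + 2 ^ r' * ∑ j ∈ J, E (B (π ω)) i j *
      (C (B (π ω)) (q (π2 ω)) j - C (B (π ω)) (q (π1 ω)) j)| ≤ N1) ∧ ∀ i ∈ J, W ω i = 0)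
    (hz : ∀ ω, 0 < P'.w ω → ∀ j ∈ J,
      |C (B (π ω)) (q (π2 ω)) j - C (B (π ω)) (q (π1 ω)) j| ≤ 2)
    (H1 : hc P' (fun ω i => X0 (π ω) i + W ω i) (fun ω => (q (π ω), B (π ω), Z ω)) ≤
      f * ((r' : ℝ) - n) * Real.log 2 + e1)
    (H2 : f * ((r : ℝ) - n) * Real.log 2 - e2 ≤
      hc P (fun ω => fl r (fun i => (X0 ω i : ℝ) / 2 ^ r')) (fun ω => (q ω, B ω)))
    (H3 : (J.card : ℝ) * (r' - r : ℕ) * Real.log 2 - e3 ≤
      hc P (fun ω => fl (r' - r) (fun j : {j // j ∈ J} => C (B ω) (q ω) j))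
        (fun ω => (X0 ω, B ω))) :
    hc P (fun ω => fl r' (fun i => (X0 ω i : ℝ) / 2 ^ r' -
        (X0 ω i0 : ℝ) / 2 ^ r' * (if i ∈ J then 0 else E (B ω) i j0 / E (B ω) i0 j0)))
      (fun ω => (fl r (fun i => (X0 ω i : ℝ) / 2 ^ r'), q ω, B ω)) ≤
      (f - 1) * ((r' : ℝ) - r) * Real.log 2 + 4 * e1 + e2 + e3 + w * Real.log 2 +
        (4 * d + 8) * Real.log (8 * d + 8 * N1 + 8) := by
  have hA := disp_A h J C E W i0 j0 hi0 hj0 f e2 n r r' w N1 hnr hrr hE hW hz H1 H2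
  have hB := disp_B h J C E W i0 j0 hi0 hj0 r r' w N1 hrr hE hW hz
  have hC := disp_z h J C j0 hj0 e3 (r' - r - w) (r' - r) (Nat.sub_le _ _) H3 hz
  have hD := dd_drop h
    (fun ω => fl r' (fun i => (X0 ω i : ℝ) / 2 ^ r' -
        (X0 ω i0 : ℝ) / 2 ^ r' * (if i ∈ J then 0 else E (B ω) i j0 / E (B ω) i0 j0)))
    (fun ω => fl r (fun i => (X0 ω i : ℝ) / 2 ^ r'))
    (zd B q π π1 π2 J C j0 (r' - r)) (by
      intro ω ω' e1 e2
      simp only [e1, e2]) (by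
      intro ω ω' e1
      simp only [e1]) (by
      intro ω ω' e1 e2 e3
      unfold zd
      rw [e1, e2, e3])
  have hl2 : 0 < Real.log 2 := Real.log_pos (by norm_num)
  have hcard : (J.card : ℝ) ≤ d := by
    have := Finset.card_le_univ J
    rw [Fintype.card_fin] at this
    exact_mod_cast this
  have hd0 : (0 : ℝ) ≤ d := Nat.cast_nonneg d
  have hN0 : (0 : ℝ) ≤ N1 := Nat.cast_nonneg N1
  have h5 : Real.log 5 ≤ Real.log (8 * d + 8 * N1 + 8) :=
    Real.log_le_log (by norm_num) (by linarith)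
  have h50 : 0 < Real.log 5 := Real.log_pos (by norm_num)
  have hc5 : (J.card : ℝ) * Real.log 5 ≤ d * Real.log (8 * d + 8 * N1 + 8) :=
    mul_le_mul hcard h5 h50.le hd0
  have hsub : ((r' : ℝ) - r - w) * Real.log 2 ≤ ((r' - r - w : ℕ) : ℝ) * Real.log 2 := by
    refine mul_le_mul_of_nonneg_right ?_ hl2.le
    have h1 : (r' : ℝ) ≤ ((r' - r - w : ℕ) : ℝ) + r + w := by
      have : r' ≤ (r' - r - w) + r + w := by omega
      exact_mod_cast this
    linarith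
  have e1' : (f - 1) * ((r' : ℝ) - r) * Real.log 2 + w * Real.log 2 =
      f * ((r' : ℝ) - r) * Real.log 2 - ((r' : ℝ) - r - w) * Real.log 2 := by ring
  have e2' : (4 * (d : ℝ) + 8) * Real.log (8 * d + 8 * N1 + 8) =
      d * Real.log (8 * d + 8 * N1 + 8) + (d + 2) * Real.log (8 * d + 8 * N1 + 8) +
      2 * (d * Real.log (8 * d + 8 * N1 + 8)) + 6 * Real.log (8 * d + 8 * N1 + 8) := by ring
  refine hD.trans ?_
  rw [e2']
  linarith

end disp

end Vale.Agent.P127.Stk
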