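import Vale.Agent.P127.Stk.Defs

/-!
# P127 / Stk : the statements of the parts
-/

namespace Vale.Agent.P127.Stk

open Finset Vale.Agent.P127

/-- the key on which copies of the time are conditionally independent: the line, the side
information and the first `a` digits of the time -/
noncomputable def key {Ω : Type} {m : ℕ} (c : Cf Ω m) (a : ℕ) (ω : Ω) :
    (Fin m → ℝ) × (Fin m → ℝ) × c.α × ℤ := (c.x ω, c.y ω, c.A ω, fl1 a (c.t ω))

/-- for all small parameters: the quantifier pattern of all steps.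
`E ε a P c o` is the conclusion with accuracy `ε`. -/
def Ev (R : Gr) (m : ℕ) (h : ℝ) (κ : ℕ)
    (E : ℝ → ℕ → (Ω : Type) → [Fintype Ω] → Law Ω → Cf Ω m → Ob Ω m κ → Prop) : Prop :=
  ∀ ε : ℝ, 0 < ε → ∃ ι : ℝ, 0 < ι ∧ ∃ εu : ℝ, 0 < εu ∧ ∀ g : R.G, ∃ n : ℕ,
    ∀ (a : ℕ) (e C : ℝ), R.ok g n ((κ + 4) * a) e C →
      ∀ (Ω : Type) [Fintype Ω] (P : Law Ω) (c : Cf Ω m) (o : Ob Ω m κ),
        Hyp h κ a ι εu e C P c o → E ε a Ω P c o

/-- `R(k)` : the projected point at one time determines the projected point at another time with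
the same first `a` digits, up to the precision `2^{-k a}` -/
def RK (R : Gr) (m : ℕ) (h : ℝ) (κ k : ℕ) : Prop :=
  Ev R m h κ fun ε a Ω _ P c o =>
    ∀ Q : Law (Fin 2 → Ω), (∀ w, Q.w w = cw P (key c a) 1 w) →
      ∀ s : ℕ, (s : ℝ) + ε * ((κ + 4) * a : ℕ) ≤ k * a →
        hc Q (fun w => fl s (o.F c (w 1)))
          (fun w => (fl s (o.F c (w 0)), (fun i => (c.t (w i), o.G (w i))), c.A (w 0))) ≤
        ε * ((κ + 4) * a : ℕ)

/-- the Lagrange coefficient of the node `l` at the point `w (last)` -/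
noncomputable def lag {Ω : Type} (t : Ω → ℝ) {k : ℕ} (w : Fin (k + 2) → Ω) (l : Fin (k + 1)) : ℝ :=
  ∏ l' ∈ (Finset.univ : Finset (Fin (k + 1))).erase l,
    (t (w (Fin.last (k + 1))) - t (w l'.castSucc)) / (t (w l.castSucc) - t (w l'.castSucc))

open Classical in
/-- `C(k)` : the matrix `Γ` is, as a function of the time in a dyadic interval of length `2^{-a}`,
a polynomial of degree at most `k` up to an error `2^{-(k+1)a}` -/
def CK (R : Gr) (m : ℕ) (h : ℝ) (κ k : ℕ) : Prop :=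
  Ev R m h κ fun ε a Ω _ P c o =>
    ∀ Q : Law (Fin (k + 2) → Ω), (∀ w, Q.w w = cw P (key c a) (k + 1) w) →
      ∑ w with (∃ i, i ∉ o.J ∧ ∃ j ∈ o.J,
          (2 : ℝ) ^ (-(((k + 1) * a : ℕ) : ℝ) + ε * ((κ + 4) * a : ℕ)) <
            |o.Γ (w (Fin.last (k + 1))) i j -
              ∑ l : Fin (k + 1), lag c.t w l * o.Γ (w l.castSucc) i j|), Q.w w ≤ ε

/-- extremal objects with uniform times -/
def YU (R : Gr) (m : ℕ) (h : ℝ) (κ : ℕ) : Prop :=
  ∀ ι : ℝ, 0 < ι → ∀ εu : ℝ, 0 < εu → ∃ g : R.G, ∀ n : ℕ, ∃ (a : ℕ) (e C : ℝ),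
    R.ok g n ((κ + 4) * a) e C ∧
    ∃ (Ω : Type) (_ : Fintype Ω) (P : Law Ω) (c : Cf Ω m) (o : Ob Ω m κ),
      Hyp h κ a ι εu e C P c o

/-- choice of the window (PROOF.md, section 5) -/
def PWindow (R : Gr) : Prop := ∀ (m : ℕ) (h : ℝ) (κ : ℕ), LB R m h → YK R m h κ → YU R m h κ

/-- the base case (section 6) -/
def PBase (R : Gr) : Prop := ∀ (m : ℕ) (h : ℝ) (κ : ℕ), LB R m h → NK R m h (κ + 1) →
  CK R m h κ 0 ∧ RK R m h κ 1

/-- the step for `Γ` (section 8) -/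
def PStepC (R : Gr) : Prop := ∀ (m : ℕ) (h : ℝ) (κ k : ℕ), 1 ≤ k → k ≤ κ + 1 → LB R m h → NK R m h (κ + 1) →
  CK R m h κ 0 → RK R m h κ k → CK R m h κ (k - 1) → CK R m h κ k

/-- the step for the determinism (section 9) -/
def PStepR (R : Gr) : Prop := ∀ (m : ℕ) (h : ℝ) (κ k : ℕ), 1 ≤ k → k ≤ κ + 1 → LB R m h → NK R m h (κ + 1) →
  CK R m h κ 0 → RK R m h κ k → CK R m h κ k → RK R m h κ (k + 1)

/-- the end of the proof (section 10) -/
def PEnd (R : Gr) : Prop := ∀ (m : ℕ) (h : ℝ) (κ : ℕ), h < m → κ < m → LB R m h → YU R m h κ →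
  RK R m h κ (κ + 2) → False

/-- the entropic core theorem -/
theorem core (R : Gr) (hW : PWindow R) (hB : PBase R) (hC : PStepC R) (hR : PStepR R)
    (hE : PEnd R)
    (m : ℕ) (h : ℝ) (κ : ℕ) (hm : h < m) (hκ : κ < m) (h1 : LB R m h) (h2 : YK R m h κ)
    (h3 : NK R m h (κ + 1)) : False := by
  have key : ∀ k, k ≤ κ + 1 → CK R m h κ k ∧ RK R m h κ (k + 1) := by
    intro k
    induction k with
    | zero => intro _; exact hB m h κ h1 h3
    | succ k ih =>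
      intro hk
      obtain ⟨c1, r1⟩ := ih (by omega)
      have c0 := (hB m h κ h1 h3).1
      have c2 : CK R m h κ (k + 1) := hC m h κ (k + 1) (by omega) hk h1 h3 c0 r1 (by simpa using c1)
      exact ⟨c2, hR m h κ (k + 1) (by omega) hk h1 h3 c0 r1 c2⟩
  exact hE m h κ hm hκ h1 (hW m h κ h1 h2) (key (κ + 1) le_rfl).2

end Vale.Agent.P127.Stk
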