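import Vale.Agent.P127.Stk.Lib
import Vale.Agent.P127.Stk.Props

/-!
# P127 / Stk : tools for families of copies

`Qc` = copies of `P` over `key c a`, restricted to an event `E`.
-/

namespace Vale.Agent.P127.Stk.Fam

open Finset Vale.Agent.P127 Vale.Agent.P127.Stk

section gen

variable {Ω : Type} [Fintype Ω] {S S' T T' U V W : Type*} (Q : Law Ω)

/-- `X` and `Y` are functions of the line `l`, the data `Z` and the side information `A`; `Z` is a
part of `T`: the whole `T` can be added to the condition at the cost `mi l T A` -/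
theorem add_T {X : Ω → S} {Y : Ω → S'} {l : Ω → V} {Z : Ω → T'} {T0 : Ω → T} {A : Ω → U}
    (hX : Fn Q X (fun ω => (l ω, Z ω, A ω))) (hY : Fn Q Y (fun ω => (l ω, Z ω, A ω)))
    (hZ : Fn Q Z T0) :
    hc Q X (fun ω => (Y ω, Z ω, A ω)) - mi Q l T0 A ≤ hc Q X (fun ω => (Y ω, T0 ω, A ω)) := by
  have h1 : mi Q X T0 (fun ω => (Y ω, Z ω, A ω)) ≤ mi Q l T0 A := by
    have e1 : mi Q X T0 (fun ω => (Y ω, Z ω, A ω)) ≤ mi Q l T0 (fun ω => (Y ω, Z ω, A ω)) :=
      mi_mono_left Q T0 (fun ω ω' p p' e => hX ω ω' p p' (by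
        simp only [Prod.mk.injEq] at e ⊢
        exact ⟨e.1, e.2.2.1, e.2.2.2⟩))
    have e2 : mi Q l T0 (fun ω => (Y ω, Z ω, A ω)) ≤ mi Q l T0 (fun ω => (Z ω, A ω)) :=
      mi_cond_le Q T0 (fun ω => (Z ω, A ω)) (fun ω ω' p p' e => hY ω ω' p p' (by
        simp only [Prod.mk.injEq] at e ⊢
        exact ⟨e.1, e.2.1, e.2.2⟩))
    have e3 : mi Q l T0 (fun ω => (Z ω, A ω)) ≤ mi Q l T0 A := by
      have h2 := mi_pair Q l Z T0 A
      have h3 : mi Q l (fun ω => (Z ω, T0 ω)) A ≤ mi Q l T0 A :=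
        mi_mono_right Q l (fun ω ω' p p' e => by
          simp only [Prod.mk.injEq] at e ⊢
          exact ⟨hZ ω ω' p p' e.1, e.1⟩)
      have h4 := mi_nonneg Q l Z A
      linarith
    linarith
  have h2 : hc Q X (fun ω => (T0 ω, Y ω, Z ω, A ω)) = hc Q X (fun ω => (Y ω, T0 ω, A ω)) := by
    refine hc_congr Q (fun ω ω' _ _ e => congrArg Prod.fst e)
      (fun ω ω' _ _ e => congrArg Prod.fst e) (fun ω ω' p p' e => ?_) (fun ω ω' _ _ e => ?_)
    · simp only [Prod.mk.injEq] at e ⊢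
      exact ⟨e.2.1, e.1, hZ ω ω' p p' e.2.1, e.2.2⟩
    · simp only [Prod.mk.injEq] at e ⊢
      exact ⟨e.2.1, e.1, e.2.2.2⟩
  have h3 : mi Q X T0 (fun ω => (Y ω, Z ω, A ω)) =
      hc Q X (fun ω => (Y ω, Z ω, A ω)) - hc Q X (fun ω => (T0 ω, Y ω, Z ω, A ω)) := rfl
  linarith

/-- the same without `Y` -/
theorem add_T0 {X : Ω → S} {l : Ω → V} {Z : Ω → T'} {T0 : Ω → T} {A : Ω → U}
    (hX : Fn Q X (fun ω => (l ω, Z ω, A ω))) (hZ : Fn Q Z T0) :
    hc Q X (fun ω => (Z ω, A ω)) - mi Q l T0 A ≤ hc Q X (fun ω => (T0 ω, A ω)) := by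
  have h := add_T Q (X := X) (Y := fun _ => ()) (l := l) (Z := Z) (T0 := T0) (A := A) hX
    (fun _ _ _ _ _ => rfl) hZ
  have e1 : hc Q X (fun ω => ((), Z ω, A ω)) = hc Q X (fun ω => (Z ω, A ω)) :=
    hc_congr Q (fun ω ω' _ _ e => congrArg Prod.fst e)
      (fun ω ω' _ _ e => congrArg Prod.fst e) (fun ω ω' _ _ e => by
        simp only [Prod.mk.injEq] at e ⊢; exact ⟨trivial, e.1, e.2⟩) (fun ω ω' _ _ e => by
        simp only [Prod.mk.injEq] at e ⊢; exact ⟨e.2.1, e.2.2⟩)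
  have e2 : hc Q X (fun ω => ((), T0 ω, A ω)) = hc Q X (fun ω => (T0 ω, A ω)) :=
    hc_congr Q (fun ω ω' _ _ e => congrArg Prod.fst e)
      (fun ω ω' _ _ e => congrArg Prod.fst e) (fun ω ω' _ _ e => by
        simp only [Prod.mk.injEq] at e ⊢; exact ⟨trivial, e.1, e.2⟩) (fun ω ω' _ _ e => by
        simp only [Prod.mk.injEq] at e ⊢; exact ⟨e.2.1, e.2.2⟩)
  linarith

/-- extra conditioning on a variable of small conditional entropy -/
theorem add_V {X : Ω → S} {Y : Ω → T} (V' : Ω → V) {Z : Ω → U} {v : ℝ}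
    (hZ : Fn Q Z (fun ω => (V' ω, Y ω))) (hv : hc Q V' Y ≤ v) :
    hc Q X Y - v ≤ hc Q X Z := by
  have h1 := hc_le_add' Q X V' Y
  have h2 : hc Q X (fun ω => (V' ω, Y ω)) ≤ hc Q X Z := hc_mono_right Q X hZ
  linarith

/-- the information of a part of the data about a function of the line, conditionally on the rest
of the data and on functions of the line and the data -/
theorem mi_part {X : Ω → S} {Y : Ω → S'} {l : Ω → V} {Z : Ω → T'} {B : Ω → W} {T0 : Ω → T}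
    {A : Ω → U} (hX : Fn Q X (fun ω => (l ω, Z ω, A ω)))
    (hY : Fn Q Y (fun ω => (l ω, Z ω, A ω))) (hZ : Fn Q Z T0) (hB : Fn Q B T0) :
    mi Q X B (fun ω => (Y ω, Z ω, A ω)) ≤ mi Q l T0 A := by
  have e1 : mi Q X B (fun ω => (Y ω, Z ω, A ω)) ≤ mi Q l B (fun ω => (Y ω, Z ω, A ω)) :=
    mi_mono_left Q B (fun ω ω' p p' e => hX ω ω' p p' (by
      simp only [Prod.mk.injEq] at e ⊢
      exact ⟨e.1, e.2.2.1, e.2.2.2⟩))
  have e2 : mi Q l B (fun ω => (Y ω, Z ω, A ω)) ≤ mi Q l B (fun ω => (Z ω, A ω)) :=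
    mi_cond_le Q B (fun ω => (Z ω, A ω)) (fun ω ω' p p' e => hY ω ω' p p' (by
      simp only [Prod.mk.injEq] at e ⊢
      exact ⟨e.1, e.2.1, e.2.2⟩))
  have e3 : mi Q l B (fun ω => (Z ω, A ω)) ≤ mi Q l T0 A := by
    have h2 := mi_pair Q l Z B A
    have h3 : mi Q l (fun ω => (Z ω, B ω)) A ≤ mi Q l T0 A :=
      mi_mono_right Q l (fun ω ω' p p' e => by
        simp only [Prod.mk.injEq] at e ⊢
        exact ⟨hZ ω ω' p p' e.1, hB ω ω' p p' e.1⟩)
    have h4 := mi_nonneg Q l Z A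
    linarith
  linarith

end gen

section fam

variable {Ω : Type} [Fintype Ω] {m κ : ℕ} {P : Law Ω} {c : Cf Ω m} {o : Ob Ω m κ}
  {L : ℕ} {e C E0 : ℝ} {a N : ℕ}

/-- the data of the copies -/
def TT (c : Cf Ω m) (o : Ob Ω m κ) {N : ℕ} (w : Fin (N + 1) → Ω) : Fin (N + 1) → ℝ × o.γ :=
  fun j => (c.t (w j), o.G (w j))

/-- cost of the time and the object -/
theorem cost_pair (hG : Good P c L e C)
    (hE : mi P (fun ω => (c.x ω, c.y ω)) o.G (fun ω => (c.t ω, c.A ω)) ≤ E0) :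
    mi P (fun ω => (c.x ω, c.y ω)) (fun ω => (c.t ω, o.G ω)) c.A ≤ C + E0 := by
  rw [mi_pair]
  have := hG.ind
  linarith

/-- cost of the copies -/
theorem cost_cw {Q : Law (Fin (N + 1) → Ω)} (hQ : ∀ w, Q.w w = cw P (key c a) N w)
    (hG : Good P c L e C)
    (hE : mi P (fun ω => (c.x ω, c.y ω)) o.G (fun ω => (c.t ω, c.A ω)) ≤ E0)
    (i : Fin (N + 1)) :
    mi Q (fun w => (c.x (w i), c.y (w i))) (TT c o) (fun w => c.A (w i)) ≤
      (N + 2) * (C + E0) := by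
  have h := cw_cost hQ (fun ω => (c.x ω, c.y ω)) c.A (fun ω => (c.t ω, o.G ω))
    (fun ω => fl1 a (c.t ω)) (fun ω ω' _ _ e => by
      simp only [Prod.mk.injEq] at e
      show fl1 a (c.t ω) = fl1 a (c.t ω')
      rw [e.1]) (fun ω ω' _ _ e => by
      simp only [Prod.mk.injEq] at e
      show key c a ω = key c a ω'
      unfold key
      rw [e.1.1, e.1.2, e.2.1, e.2.2]) (fun ω ω' _ _ e => by
      unfold key at e
      simp only [Prod.mk.injEq] at e ⊢
      exact ⟨⟨e.1, e.2.1⟩, e.2.2.1, e.2.2.2⟩) i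
  have h2 := cost_pair hG hE
  have h3 : (0 : ℝ) ≤ N + 2 := by positivity
  exact h.trans (mul_le_mul_of_nonneg_left h2 h3)

/-- on the support of the copies the lines, the side information and the first digits of the times
coincide -/
theorem cw_same {Q : Law (Fin (N + 1) → Ω)} (hQ : ∀ w, Q.w w = cw P (key c a) N w)
    {w : Fin (N + 1) → Ω} (hw : 0 < Q.w w) (i j : Fin (N + 1)) :
    c.x (w i) = c.x (w j) ∧ c.y (w i) = c.y (w j) ∧ c.A (w i) = c.A (w j) ∧
      fl1 a (c.t (w i)) = fl1 a (c.t (w j)) := by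
  have h := (cw_supp hQ hw).1
  have h1 : key c a (w i) = key c a (w j) := (h i).trans (h j).symm
  unfold key at h1
  simp only [Prod.mk.injEq] at h1
  exact h1

theorem cw_dom {Q : Law (Fin (N + 1) → Ω)} (hQ : ∀ w, Q.w w = cw P (key c a) N w)
    (i : Fin (N + 1)) : Dom Q (fun w => w i) P 1 := by
  intro ω
  rw [cw_marg hQ, one_mul]

variable {E : (Fin (N + 1) → Ω) → Prop} {p : ℝ}

theorem on_dom {Q : Law (Fin (N + 1) → Ω)} (hQ : ∀ w, Q.w w = cw P (key c a) N w)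
    (hp : 0 < p) (hE : p ≤ prE Q E) (i : Fin (N + 1)) :
    Dom (on Q E) (fun w => w i) P (1 / p) := by
  have h := (Dom.on hp hE).comp (cw_dom hQ i)
  rw [mul_one] at h
  exact h

theorem on_same {Q : Law (Fin (N + 1) → Ω)} (hQ : ∀ w, Q.w w = cw P (key c a) N w)
    (hp : 0 < p) (hE : p ≤ prE Q E) {w : Fin (N + 1) → Ω} (hw : 0 < (on Q E).w w)
    (i j : Fin (N + 1)) :
    c.x (w i) = c.x (w j) ∧ c.y (w i) = c.y (w j) ∧ c.A (w i) = c.A (w j) ∧
      fl1 a (c.t (w i)) = fl1 a (c.t (w j)) :=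
  cw_same hQ (on_pos (hp.trans_le hE) hw).2 i j

/-- cost of the copies under the condition `E` -/
theorem cost_on {Q : Law (Fin (N + 1) → Ω)} (hQ : ∀ w, Q.w w = cw P (key c a) N w)
    (hG : Good P c L e C)
    (hc' : mi P (fun ω => (c.x ω, c.y ω)) o.G (fun ω => (c.t ω, c.A ω)) ≤ E0)
    (hp : 0 < p) (hE : p ≤ prE Q E) (i : Fin (N + 1)) :
    mi (on Q E) (fun w => (c.x (w i), c.y (w i))) (TT c o) (fun w => c.A (w i)) ≤
      1 / p * ((N + 2) * (C + E0) + Real.log 2) := by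
  have h1 := (Dom.on hp hE).mi_le (fun w => (c.x (w i), c.y (w i))) (TT c o)
    (fun w => c.A (w i))
  have h2 := cost_cw (o := o) hQ hG hc' i
  have h3 : (0 : ℝ) ≤ 1 / p := by positivity
  refine h1.trans (mul_le_mul_of_nonneg_left ?_ h3)
  linarith

/-- law of a sub-tuple under the condition `E`: probabilities of events -/
theorem prE_sub {M : ℕ} {Q : Law (Fin (N + 1) → Ω)} (hQ : ∀ w, Q.w w = cw P (key c a) N w)
    {Q' : Law (Fin (M + 1) → Ω)} (hQ' : ∀ w, Q'.w w = cw P (key c a) M w)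
    (i : Fin (M + 1) → Fin (N + 1)) (hi : Function.Injective i)
    (B : (Fin (M + 1) → Ω) → Prop) : prE Q (fun w => B (w ∘ i)) = prE Q' B := by
  classical
  unfold prE
  rw [Finset.sum_filter, Finset.sum_filter]
  have h1 : ∀ v, Q'.w v = ∑ w with w ∘ i = v, Q.w w := by
    intro v
    rw [hQ' v, ← cw_sub hQ i hi v]
    unfold Law.pr
    refine Finset.sum_congr ?_ fun _ _ => rfl
    ext w
    simp
  have h2 : ∀ v, (if B v then Q'.w v else 0) =
      ∑ w with w ∘ i = v, (if B (w ∘ i) then Q.w w else 0) := by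
    intro v
    by_cases hB : B v
    · rw [if_pos hB, h1]
      refine Finset.sum_congr rfl fun w hw => ?_
      rw [if_pos ((Finset.mem_filter.1 hw).2 ▸ hB)]
    · rw [if_neg hB]
      symm
      refine Finset.sum_eq_zero fun w hw => ?_
      rw [if_neg (fun h => hB ((Finset.mem_filter.1 hw).2 ▸ h))]
  rw [Finset.sum_congr rfl fun v _ => h2 v]
  exact (Finset.sum_fiberwise_of_maps_to (fun _ _ => Finset.mem_univ _) _).symm

/-- conditional entropies of a sub-tuple -/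
theorem hc_sub {M : ℕ} {Q : Law (Fin (N + 1) → Ω)} (hQ : ∀ w, Q.w w = cw P (key c a) N w)
    {Q' : Law (Fin (M + 1) → Ω)} (hQ' : ∀ w, Q'.w w = cw P (key c a) M w)
    (i : Fin (M + 1) → Fin (N + 1)) (hi : Function.Injective i) {S T : Type*}
    (X : (Fin (M + 1) → Ω) → S) (Y : (Fin (M + 1) → Ω) → T) :
    hc Q (fun w => X (w ∘ i)) (fun w => Y (w ∘ i)) = hc Q' X Y :=
  hc_of_law Q Q' (fun w => w ∘ i) (fun v => by rw [cw_sub hQ i hi v, hQ' v]) X Y

/-- conditional entropies of a sub-tuple under the condition `E` -/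
theorem hc_sub_on {M : ℕ} {Q : Law (Fin (N + 1) → Ω)} (hQ : ∀ w, Q.w w = cw P (key c a) N w)
    {Q' : Law (Fin (M + 1) → Ω)} (hQ' : ∀ w, Q'.w w = cw P (key c a) M w)
    (i : Fin (M + 1) → Fin (N + 1)) (hi : Function.Injective i) (hp : 0 < p)
    (hE : p ≤ prE Q E) {S T : Type*}
    (X : (Fin (M + 1) → Ω) → S) (Y : (Fin (M + 1) → Ω) → T) :
    hc (on Q E) (fun w => X (w ∘ i)) (fun w => Y (w ∘ i)) ≤ 1 / p * hc Q' X Y := by
  rw [← hc_sub hQ hQ' i hi X Y]
  exact (Dom.on hp hE).hc_le (fun w => X (w ∘ i)) (fun w => Y (w ∘ i))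

/-- back from the condition `E` to the copies -/
theorem hc_le_of_on {S T : Type*} (Q : Law Ω) (E : Ω → Prop) (hE : 0 < prE Q E)
    (X : Ω → S) (Y : Ω → T) {R0 : ℝ} (hR : hc (on Q fun ω => ¬ E ω) X Y ≤ R0) :
    hc Q X Y ≤ Real.log 2 + hc (on Q E) X Y + (1 - prE Q E) * R0 := by
  have h0 := hc_nonneg (on Q E) X Y
  have hl := Real.log_nonneg (by norm_num : (1 : ℝ) ≤ 2)
  have h1 := prE_le_one Q E
  rcases h1.lt_or_eq with h | h
  · have h2 := hc_le_on Q E hE h X Y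
    have h3 : prE Q E * hc (on Q E) X Y ≤ hc (on Q E) X Y := by nlinarith
    have h4 : (1 - prE Q E) * hc (on Q fun ω => ¬ E ω) X Y ≤ (1 - prE Q E) * R0 :=
      mul_le_mul_of_nonneg_left hR (by linarith)
    linarith
  · have h2 : on Q E = Q := by
      refine law_ext fun ω => ?_
      rw [on_w hE, h, div_one]
      split_ifs with hc
      · rfl
      · have h3 : prE Q (fun ω => ¬ E ω) = 0 := by rw [prE_not, h, sub_self]
        classical
        have h4 : Q.w ω ≤ prE Q (fun ω => ¬ E ω) := by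
          unfold prE
          exact Finset.single_le_sum (f := Q.w) (fun ω _ => Q.nn ω) (by simpa using hc)
        exact (le_antisymm (by linarith) (Q.nn ω)).symm
    rw [h2, h]
    linarith

end fam

end Vale.Agent.P127.Stk.Fam
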