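import Vale.Agent.P127.Stk.CDefs
import Vale.Agent.P127.Stk.FamTools

/-!
# P127 / Stk : entropies of a cube family (PROOF.md, section 8)
-/

namespace Vale.Agent.P127.Stk

open Finset Vale.Agent.P127

section ce

/-- the first digits of the truncated vector -/
theorem ce_fl_fl {ι : Type} {r N : ℕ} (h : r ≤ N) (v : ι → ℝ) :
    fl r (fun i => (fl N v i : ℝ) / 2 ^ N) = fl r v := by
  funext i
  show ⌊(2 : ℝ) ^ r * ((⌊(2 : ℝ) ^ N * v i⌋ : ℝ) / 2 ^ N)⌋ = ⌊(2 : ℝ) ^ r * v i⌋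
  rw [floor_pow_aux h (v i)]
  have h1 : (2 : ℝ) ^ r * ((⌊(2 : ℝ) ^ N * v i⌋ : ℝ) / 2 ^ N) =
      (⌊(2 : ℝ) ^ N * v i⌋ : ℝ) / ((2 ^ (N - r) : ℕ) : ℝ) := by
    have h2 : (2 : ℝ) ^ N = (2 : ℝ) ^ r * (2 : ℝ) ^ (N - r) := by
      rw [← pow_add, Nat.add_sub_cancel' h]
    rw [h2]
    push_cast
    field_simp
  rw [h1, Int.floor_div_natCast, Int.floor_intCast]

variable {Ω : Type} [Fintype Ω] {S T : Type*}

/-- entropy of a tuple -/
theorem ce_hc_pi {V : Type} [Fintype V] (P : Law Ω) (X : V → Ω → S) (Y : Ω → T) :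
    hc P (fun ω v => X v ω) Y ≤ ∑ v, hc P (X v) Y := by
  classical
  have h : ∀ s : Finset V, hc P (fun ω (v : s) => X v ω) Y ≤ ∑ v ∈ s, hc P (X v) Y := by
    intro s
    induction s using Finset.induction_on with
    | empty =>
      rw [Finset.sum_empty]
      refine (hc_zero P ?_).le
      intro ω ω' _ _ _
      funext v
      exact absurd v.2 (Finset.notMem_empty _)
    | insert a s ha ih =>
      rw [Finset.sum_insert ha]
      have h1 : hc P (fun ω (v : (insert a s : Finset V)) => X v ω) Y ≤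
          hc P (fun ω => (X a ω, fun v : s => X v ω)) Y := by
        refine hc_mono_left P ?_
        intro ω ω' _ _ e
        simp only [Prod.mk.injEq] at e
        funext v
        rcases Finset.mem_insert.1 v.2 with hv | hv
        · show X v ω = X v ω'
          rw [hv]
          exact e.1.1
        · exact congrFun e.1.2 ⟨v.1, hv⟩
      have h2 := hc_pair P (X a) (fun ω (v : s) => X v ω) Y
      have h3 : hc P (fun ω (v : s) => X v ω) (fun ω => (X a ω, Y ω)) ≤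
          hc P (fun ω (v : s) => X v ω) Y :=
        hc_mono_right P _ fun ω ω' _ _ e => congrArg Prod.snd e
      linarith
  have h1 : hc P (fun ω v => X v ω) Y ≤
      hc P (fun ω (v : (Finset.univ : Finset V)) => X v ω) Y := by
    refine hc_mono_left P ?_
    intro ω ω' _ _ e
    simp only [Prod.mk.injEq] at e
    funext v
    exact congrFun e.1 ⟨v, Finset.mem_univ v⟩
  exact h1.trans (h _)

end ce

section lin

variable {m : ℕ}

/-- the cell -/
theorem ce_cell (n : ℕ) (v : ℝ) : |v - (⌊(2 : ℝ) ^ n * v⌋ : ℝ) / 2 ^ n| ≤ (1 / 2 : ℝ) ^ n := by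
  have h2 : (0 : ℝ) < 2 ^ n := by positivity
  have a1 := Int.floor_le ((2 : ℝ) ^ n * v)
  have a2 := Int.lt_floor_add_one ((2 : ℝ) ^ n * v)
  have e1 : v - (⌊(2 : ℝ) ^ n * v⌋ : ℝ) / 2 ^ n =
      ((2 : ℝ) ^ n * v - ⌊(2 : ℝ) ^ n * v⌋) / 2 ^ n := by
    field_simp
  rw [e1, abs_div, abs_of_pos h2, one_div, inv_pow, div_le_iff₀ h2, inv_mul_cancel₀ h2.ne',
    abs_le]
  constructor <;> linarith

/-- change of the projected point -/
theorem ce_lin (κ n : ℕ) (J : Finset (Fin m)) (hJ : J.card = κ) (Γ : Fin m → Fin m → ℝ)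
    (hΓ : ∀ i j, |Γ i j| ≤ 3 ^ κ) (t : ℝ) (ht : 0 ≤ t ∧ t < 1) (x y x' y' : Fin m → ℝ)
    (hx : ∀ i, |x i - x' i| ≤ (1 / 2 : ℝ) ^ n) (hy : ∀ i, |y i - y' i| ≤ (1 / 2 : ℝ) ^ n)
    (i : Fin m) :
    |linF J Γ t x y i - linF J Γ t x' y' i| ≤
      ((2 * (1 + κ * 3 ^ κ) : ℕ) : ℝ) * (1 / 2 : ℝ) ^ n := by
  have hp : (0 : ℝ) ≤ (1 / 2 : ℝ) ^ n := by positivity
  have hd : ∀ j, |(x j + t * y j) - (x' j + t * y' j)| ≤ 2 * (1 / 2 : ℝ) ^ n := by
    intro j
    have e1 : (x j + t * y j) - (x' j + t * y' j) = (x j - x' j) + t * (y j - y' j) := by ring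
    rw [e1]
    refine (abs_add_le _ _).trans ?_
    rw [abs_mul, abs_of_nonneg ht.1]
    have h1 := hx j
    have h2 : t * |y j - y' j| ≤ 1 * (1 / 2 : ℝ) ^ n :=
      mul_le_mul ht.2.le (hy j) (abs_nonneg _) zero_le_one
    linarith
  unfold linF
  by_cases hi : i ∈ J
  · rw [if_pos hi, if_pos hi, sub_zero, abs_zero]
    positivity
  · rw [if_neg hi, if_neg hi]
    have e1 : (x i + t * y i - ∑ j ∈ J, Γ i j * (x j + t * y j)) -
        (x' i + t * y' i - ∑ j ∈ J, Γ i j * (x' j + t * y' j)) =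
        ((x i + t * y i) - (x' i + t * y' i)) -
          ∑ j ∈ J, Γ i j * ((x j + t * y j) - (x' j + t * y' j)) := by
      simp only [mul_sub, Finset.sum_sub_distrib]
      ring
    rw [e1]
    refine (abs_sub _ _).trans ?_
    have h2 : |∑ j ∈ J, Γ i j * ((x j + t * y j) - (x' j + t * y' j))| ≤
        κ * (3 ^ κ * (2 * (1 / 2 : ℝ) ^ n)) := by
      refine (Finset.abs_sum_le_sum_abs _ _).trans ?_
      have h3 : ∑ j ∈ J, |Γ i j * ((x j + t * y j) - (x' j + t * y' j))| ≤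
          ∑ j ∈ J, (3 : ℝ) ^ κ * (2 * (1 / 2 : ℝ) ^ n) := by
        refine Finset.sum_le_sum fun j _ => ?_
        rw [abs_mul]
        exact mul_le_mul (hΓ i j) (hd j) (abs_nonneg _) (by positivity)
      rw [Finset.sum_const, hJ, nsmul_eq_mul] at h3
      exact h3
    have h3 := hd i
    push_cast
    nlinarith

end lin

section fam

variable {Ω Ω' : Type} [Fintype Ω] [Fintype Ω'] {m κ k : ℕ}

omit [Fintype Ω] in
/-- the keys give the line -/
theorem ce_key {a : ℕ} {c : Cf Ω m} {ω ω' : Ω} (h : key c a ω = key c a ω') :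
    c.x ω = c.x ω' ∧ c.y ω = c.y ω' ∧ c.A ω = c.A ω' := by
  unfold key at h
  simp only [Prod.mk.injEq] at h
  exact ⟨h.1, h.2.1, h.2.2.1⟩

/-- the condition of a family costs little -/
theorem ce_lower {a : ℕ} {K cost : ℝ} {P : Law Ω} {c : Cf Ω m} {o : Ob Ω m κ} {Q : Law Ω'}
    {π : CI k → Ω' → Ω} (h : CubeFam a k K cost P c o Q π) (i : CI k) {S T : Type*}
    (X : Ω' → S) (Y : Ω' → T)
    (hX : Fn Q X (fun ω => ((c.x (π (vb k) ω), c.y (π (vb k) ω)), TT c o π ω i,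
      c.A (π (vb k) ω))))
    (hY : Fn Q Y (fun ω => ((c.x (π (vb k) ω), c.y (π (vb k) ω)), TT c o π ω i,
      c.A (π (vb k) ω)))) :
    hc Q X (fun ω => (Y ω, c.t (π i ω), o.G (π i ω), c.A (π i ω))) - cost ≤
      hc Q X (fun ω => (Y ω, TT c o π ω, c.A (π (vb k) ω))) := by
  have h1 := Fam.add_T Q (X := X) (Y := Y)
    (l := fun ω => (c.x (π (vb k) ω), c.y (π (vb k) ω))) (Z := fun ω => TT c o π ω i)
    (T0 := TT c o π) (A := fun ω => c.A (π (vb k) ω)) hX hY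
    (fun ω ω' _ _ e => congrFun e i)
  have h2 := h.cost
  have h3 : hc Q X (fun ω => (Y ω, c.t (π i ω), o.G (π i ω), c.A (π i ω))) =
      hc Q X (fun ω => (Y ω, TT c o π ω i, c.A (π (vb k) ω))) := by
    refine hc_congr Q (fun ω ω' _ _ e => congrArg Prod.fst e)
      (fun ω ω' _ _ e => congrArg Prod.fst e) (fun ω ω' p p' e => ?_) (fun ω ω' p p' e => ?_)
    · simp only [TT, Prod.mk.injEq] at e ⊢
      refine ⟨e.1, e.2.1.1, e.2.1.2, ?_⟩
      rw [(ce_key (h.keys ω p i (vb k))).2.2, (ce_key (h.keys ω' p' i (vb k))).2.2]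
      exact e.2.2
    · simp only [TT, Prod.mk.injEq] at e ⊢
      refine ⟨e.1, ⟨e.2.1, e.2.2.1⟩, ?_⟩
      rw [← (ce_key (h.keys ω p i (vb k))).2.2, ← (ce_key (h.keys ω' p' i (vb k))).2.2]
      exact e.2.2.2
  linarith

/-- the projected points of a family are determined, up to few values, by the cell of the line
and the data -/
theorem ce_cells {a n : ℕ} {K cost : ℝ} {P : Law Ω} {c : Cf Ω m} {o : Ob Ω m κ} {Q : Law Ω'}
    {π : CI k → Ω' → Ω} (hf : CubeFam a k K cost P c o Q π)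
    (h01 : ∀ ω, 0 ≤ c.t ω ∧ c.t ω < 1) {T : Type*} (Z : Ω' → T) :
    hc Q (fun ω => fun S => fl n (cF c o π S ω))
      (fun ω => (cq n c π ω, TT c o π ω, Z ω)) ≤
      2 ^ (k + 2) * m * Real.log (2 * ((2 * (1 + κ * 3 ^ κ) : ℕ) : ℝ) + 3) := by
  have h1 := hc_fl_close Q (s := n) (2 * (1 + κ * 3 ^ κ))
    (fun ω (p : Finset (Fin (k + 2)) × Fin m) => cF c o π p.1 ω p.2)
    (fun ω (p : Finset (Fin (k + 2)) × Fin m) =>
      linF o.J (o.Gh (TT c o π ω (Sum.inl p.1)).2) (TT c o π ω (Sum.inl p.1)).1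
        (fun i => ((cq n c π ω).1 i : ℝ) / 2 ^ n) (fun i => ((cq n c π ω).2 i : ℝ) / 2 ^ n) p.2)
    (fun ω => (cq n c π ω, TT c o π ω, Z ω)) (by
      intro ω hω p
      have hk := ce_key (hf.keys ω hω (Sum.inl p.1) (vb k))
      show |o.F c (π (Sum.inl p.1) ω) p.2 - linF o.J (o.Gh (o.G (π (Sum.inl p.1) ω)))
        (c.t (π (Sum.inl p.1) ω)) _ _ p.2| ≤ _
      rw [F_eq_linF, o.Gh_G, hk.1, hk.2.1]
      exact ce_lin κ n o.J o.card _ (fun i j => o.bd _ i j) _ (h01 _) _ _ _ _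
        (fun i => ce_cell n _) (fun i => ce_cell n _) p.2)
  have h2 : (Fintype.card (Finset (Fin (k + 2)) × Fin m) : ℝ) = 2 ^ (k + 2) * m := by
    rw [Fintype.card_prod, Fintype.card_finset, Fintype.card_fin, Fintype.card_fin]
    push_cast
    ring
  rw [h2] at h1
  refine le_trans ?_ h1
  refine (hc_mono_left Q (X' := fun ω => fl n
    (fun (p : Finset (Fin (k + 2)) × Fin m) => cF c o π p.1 ω p.2)) ?_).trans
      (hc_mono_right Q _ ?_)
  · intro ω ω' _ _ e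
    simp only [Prod.mk.injEq] at e
    funext S i
    exact congrFun e.1 (S, i)
  · intro ω ω' _ _ e
    simp only [Prod.mk.injEq] at e ⊢
    refine ⟨?_, e.1, e.2⟩
    simp only [e.1, e.2.1]

/-- a logarithm -/
theorem ce_log {a κ k : ℕ} {εr : ℝ}
    (hbig : 2 ^ (k + 3) * (m + 1) * Real.log (4 * 3 ^ κ * (κ + 1) + 10) ≤
      εr * ((κ + 4) * a : ℕ)) :
    0 ≤ εr * ((κ + 4) * a : ℕ) ∧
    2 ^ (k + 2) * m * Real.log (2 * ((2 * (1 + κ * 3 ^ κ) : ℕ) : ℝ) + 3) ≤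
      εr * ((κ + 4) * a : ℕ) ∧
    (m : ℝ) * Real.log 7 ≤ εr * ((κ + 4) * a : ℕ) := by
  have h3 : (0 : ℝ) < 3 ^ κ := by positivity
  have hκ : (0 : ℝ) ≤ κ := Nat.cast_nonneg _
  have hm : (0 : ℝ) ≤ m := Nat.cast_nonneg _
  have hb : (0 : ℝ) ≤ Real.log (4 * 3 ^ κ * (κ + 1) + 10) :=
    Real.log_nonneg (by nlinarith [mul_nonneg h3.le hκ])
  have hpos : (0 : ℝ) ≤ 2 ^ (k + 3) * (m + 1) * Real.log (4 * 3 ^ κ * (κ + 1) + 10) := by
    positivity
  have h1 : Real.log (2 * ((2 * (1 + κ * 3 ^ κ) : ℕ) : ℝ) + 3) ≤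
      Real.log (4 * 3 ^ κ * (κ + 1) + 10) := by
    refine Real.log_le_log (by positivity) ?_
    push_cast
    nlinarith [mul_nonneg h3.le hκ]
  have h2 : Real.log 7 ≤ Real.log (4 * 3 ^ κ * (κ + 1) + 10) := by
    refine Real.log_le_log (by norm_num) ?_
    nlinarith [mul_nonneg h3.le hκ]
  have hk : (1 : ℝ) ≤ 2 ^ (k + 2) := one_le_pow₀ (by norm_num)
  have hk3 : (2 : ℝ) ^ (k + 3) = 2 * 2 ^ (k + 2) := by ring
  refine ⟨hpos.trans hbig, le_trans ?_ hbig, le_trans ?_ hbig⟩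
  · refine mul_le_mul ?_ h1 (Real.log_nonneg (by push_cast; nlinarith [mul_nonneg hκ h3.le]))
      (by positivity)
    rw [hk3]
    nlinarith
  · refine mul_le_mul ?_ h2 (Real.log_nonneg (by norm_num)) (by positivity)
    rw [hk3]
    nlinarith

/-- hypotheses of the absorption lemma and of the displacement lemma -/
theorem cube_ent {a n N : ℕ} {h K cost εr : ℝ} {P : Law Ω} {c : Cf Ω m} {o : Ob Ω m κ}
    {Q : Law Ω'} {π : CI k → Ω' → Ω} (hf : CubeFam a k K cost P c o Q π)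
    (hx : ∀ ω i, 0 ≤ c.x ω i ∧ c.x ω i < 1) (hy : ∀ ω i, 0 ≤ c.y ω i ∧ c.y ω i < 1)
    (h01 : ∀ ω, 0 ≤ c.t ω ∧ c.t ω < 1)
    (hr : ∀ S, Rates h ((κ + 4) * a) εr c o Q (π (Sum.inl S)))
    (hR : ∀ S, hc Q (fun ω => fl n (cF c o π S ω))
      (fun ω => (fl n (cF c o π ∅ ω), TT c o π ω, c.A (π (vb k) ω))) ≤ εr * ((κ + 4) * a : ℕ))
    (hcost : cost ≤ εr * ((κ + 4) * a : ℕ)) (hnN : n ≤ N) (hN : N ≤ (κ + 4) * a)
    (hbig : 2 ^ (k + 3) * (m + 1) * Real.log (4 * 3 ^ κ * (κ + 1) + 10) ≤ εr * ((κ + 4) * a : ℕ)) :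
    (∀ S, hc Q (cX N c o π S) (cB n c o π) ≤
      (h - κ) * ((N : ℝ) - n) * Real.log 2 + εr * ((κ + 4) * a : ℕ)) ∧
    (∀ r : ℕ, n ≤ r → r ≤ N → (h - κ) * ((r : ℝ) - n) * Real.log 2 -
        3 * εr * ((κ + 4) * a : ℕ) ≤
      hc Q (fun ω => fl r (fun i => (cX N c o π ∅ ω i : ℝ) / 2 ^ N))
        (fun ω => (cq n c π ω, cB n c o π ω))) ∧
    (∀ s : ℕ, s ≤ n → (κ : ℝ) * s * Real.log 2 - 2 ^ (k + 4) * εr * ((κ + 4) * a : ℕ) ≤
      hc Q (fun ω => fl s (fun j : {j // j ∈ o.J} => cC n c o (cB n c o π ω) (cq n c π ω) j))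
        (fun ω => (cX N c o π ∅ ω, cB n c o π ω))) := by
  obtain ⟨hb0, hb1, hb2⟩ := ce_log (m := m) hbig
  refine ⟨fun S => ?_, fun r hnr hrN => ?_, fun s hs => ?_⟩
  · refine le_trans (hc_mono_right Q _ ?_) ((hr S).r3 n N hnN hN)
    intro ω ω' p p' e
    simp only [cB, Prod.mk.injEq] at e ⊢
    have e1 := congrFun e.1 (Sum.inl S)
    simp only [TT, Prod.mk.injEq] at e1
    refine ⟨congrFun e.2.2 S, e1.1, e1.2, ?_⟩
    rw [(ce_key (hf.keys ω p (Sum.inl S) (vb k))).2.2,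
      (ce_key (hf.keys ω' p' (Sum.inl S) (vb k))).2.2]
    exact e.2.1
  · have h1 := (hr ∅).r1 n r hnr (hrN.trans hN)
    have h2 := ce_lower hf (Sum.inl ∅) (fun ω => fl r (o.F c (π (Sum.inl ∅) ω)))
      (cq n c π) (by
        intro ω ω' _ _ e
        simp only [TT, Prod.mk.injEq] at e
        show fl r (o.F c (π (vb k) ω)) = fl r (o.F c (π (vb k) ω'))
        rw [F_eq_linF, F_eq_linF, e.1.1, e.1.2, e.2.1.1, o.fn _ _ e.2.1.2]) (by
        intro ω ω' _ _ e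
        simp only [TT, Prod.mk.injEq] at e
        show cq n c π ω = cq n c π ω'
        unfold cq
        rw [e.1.1, e.1.2])
    have h3 := ce_cells (n := n) hf h01 (fun ω => c.A (π (vb k) ω))
    have h4 := hc_le_add' Q (fun ω => fl r (o.F c (π (Sum.inl ∅) ω)))
      (fun ω => fun S => fl n (cF c o π S ω))
      (fun ω => (cq n c π ω, TT c o π ω, c.A (π (vb k) ω)))
    have h5 : hc Q (fun ω => fl r (o.F c (π (Sum.inl ∅) ω)))
        (fun ω => (fun S => fl n (cF c o π S ω),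
          cq n c π ω, TT c o π ω, c.A (π (vb k) ω))) ≤
        hc Q (fun ω => fl r (fun i => (cX N c o π ∅ ω i : ℝ) / 2 ^ N))
          (fun ω => (cq n c π ω, cB n c o π ω)) := by
      refine hc_mono_left Q ?_ |>.trans (hc_mono_right Q _ ?_)
      · intro ω ω' _ _ e
        simp only [Prod.mk.injEq] at e
        have e1 := e.1
        simp only [cX] at e1
        rw [ce_fl_fl hrN, ce_fl_fl hrN] at e1
        exact e1
      · intro ω ω' _ _ e
        simp only [cB, Prod.mk.injEq] at e ⊢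
        exact ⟨e.2.1, e.2.2.1, e.2.2.2, e.1⟩
    have h6 : hc Q (fun ω => fl r (o.F c (π (Sum.inl ∅) ω)))
        (fun ω => (fl n (c.x (π (Sum.inl ∅) ω)), fl n (c.y (π (Sum.inl ∅) ω)),
          c.t (π (Sum.inl ∅) ω), o.G (π (Sum.inl ∅) ω), c.A (π (Sum.inl ∅) ω))) ≤
        hc Q (fun ω => fl r (o.F c (π (Sum.inl ∅) ω)))
          (fun ω => (cq n c π ω, c.t (π (Sum.inl ∅) ω), o.G (π (Sum.inl ∅) ω),
            c.A (π (Sum.inl ∅) ω))) := by
      refine hc_mono_right Q _ ?_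
      intro ω ω' _ _ e
      simp only [Prod.mk.injEq] at e ⊢
      exact ⟨Prod.ext e.1 e.2.1, e.2.2.1, e.2.2.2.1, e.2.2.2.2⟩
    linarith
  · have h1 := (hr ∅).r4 s N (hs.trans hnN) hN
    have h2 := ce_lower hf (Sum.inl ∅)
      (fun ω => fl s (fun j : {j // j ∈ o.J} => c.pt (π (Sum.inl ∅) ω) j))
      (fun ω => fl N (o.F c (π (Sum.inl ∅) ω))) (by
        intro ω ω' _ _ e
        simp only [TT, Prod.mk.injEq] at e
        simp only [Cf.pt]
        show fl s (fun j : {j // j ∈ o.J} => c.x (π (vb k) ω) j + c.t (π (Sum.inl ∅) ω) *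
          c.y (π (vb k) ω) j) = fl s (fun j : {j // j ∈ o.J} => c.x (π (vb k) ω') j +
          c.t (π (Sum.inl ∅) ω') * c.y (π (vb k) ω') j)
        rw [e.1.1, e.1.2, e.2.1.1]) (by
        intro ω ω' _ _ e
        simp only [TT, Prod.mk.injEq] at e
        show fl N (o.F c (π (vb k) ω)) = fl N (o.F c (π (vb k) ω'))
        rw [F_eq_linF, F_eq_linF, e.1.1, e.1.2, e.2.1.1, o.fn _ _ e.2.1.2])
    have h3 := ce_hc_pi Q (fun S ω => fl n (cF c o π S ω))
      (fun ω => (fl N (o.F c (π (Sum.inl ∅) ω)), TT c o π ω, c.A (π (vb k) ω)))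
    have h4 : ∑ S : Finset (Fin (k + 2)), hc Q (fun ω => fl n (cF c o π S ω))
        (fun ω => (fl N (o.F c (π (Sum.inl ∅) ω)), TT c o π ω, c.A (π (vb k) ω))) ≤
        ∑ S : Finset (Fin (k + 2)), εr * ((κ + 4) * a : ℕ) := by
      refine Finset.sum_le_sum fun S _ => le_trans (hc_mono_right Q _ ?_) (hR S)
      intro ω ω' _ _ e
      simp only [Prod.mk.injEq] at e ⊢
      exact ⟨fl_of_fl hnN _ _ e.1, e.2.1, e.2.2⟩
    rw [Finset.sum_const, Finset.card_univ, Fintype.card_finset, Fintype.card_fin,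
      nsmul_eq_mul, Nat.cast_pow, Nat.cast_ofNat] at h4
    have h5 := hc_le_add' Q
      (fun ω => fl s (fun j : {j // j ∈ o.J} => c.pt (π (Sum.inl ∅) ω) j))
      (fun ω => fun S => fl n (cF c o π S ω))
      (fun ω => (fl N (o.F c (π (Sum.inl ∅) ω)), TT c o π ω, c.A (π (vb k) ω)))
    have h6 := hc_le_add Q
      (fun ω => fl s (fun j : {j // j ∈ o.J} => c.pt (π (Sum.inl ∅) ω) j))
      (fun ω => fl s (fun j : {j // j ∈ o.J} => cC n c o (cB n c o π ω) (cq n c π ω) j))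
      (fun ω => (fun S => fl n (cF c o π S ω), fl N (o.F c (π (Sum.inl ∅) ω)), TT c o π ω,
        c.A (π (vb k) ω)))
    have h7 := hc_fl_close Q (s := s) 2
      (fun ω (j : {j // j ∈ o.J}) => c.pt (π (Sum.inl ∅) ω) j)
      (fun ω (j : {j // j ∈ o.J}) => cC n c o (cB n c o π ω) (cq n c π ω) j)
      (fun ω => (fun S => fl n (cF c o π S ω), fl N (o.F c (π (Sum.inl ∅) ω)), TT c o π ω,
        c.A (π (vb k) ω))) (by
      intro ω _ j
      have hp : (1 / 2 : ℝ) ^ n ≤ (1 / 2 : ℝ) ^ s :=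
        pow_le_pow_of_le_one (by norm_num) (by norm_num) hs
      have a1 := ce_cell n (c.x (π (vb k) ω) j)
      have a2 := ce_cell n (c.y (π (vb k) ω) j)
      have a3 := h01 (π (vb k) ω)
      show |(c.x (π (vb k) ω) j + c.t (π (vb k) ω) * c.y (π (vb k) ω) j) -
        ((⌊(2 : ℝ) ^ n * c.x (π (vb k) ω) j⌋ : ℝ) / 2 ^ n + c.t (π (vb k) ω) *
          ((⌊(2 : ℝ) ^ n * c.y (π (vb k) ω) j⌋ : ℝ) / 2 ^ n))| ≤ _
      have e1 : (c.x (π (vb k) ω) j + c.t (π (vb k) ω) * c.y (π (vb k) ω) j) -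
        ((⌊(2 : ℝ) ^ n * c.x (π (vb k) ω) j⌋ : ℝ) / 2 ^ n + c.t (π (vb k) ω) *
          ((⌊(2 : ℝ) ^ n * c.y (π (vb k) ω) j⌋ : ℝ) / 2 ^ n)) =
          (c.x (π (vb k) ω) j - (⌊(2 : ℝ) ^ n * c.x (π (vb k) ω) j⌋ : ℝ) / 2 ^ n) +
          c.t (π (vb k) ω) *
            (c.y (π (vb k) ω) j - (⌊(2 : ℝ) ^ n * c.y (π (vb k) ω) j⌋ : ℝ) / 2 ^ n) := by
        ring
      rw [e1]
      refine (abs_add_le _ _).trans ?_
      rw [abs_mul, abs_of_nonneg a3.1]
      have h2 : c.t (π (vb k) ω) *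
          |c.y (π (vb k) ω) j - (⌊(2 : ℝ) ^ n * c.y (π (vb k) ω) j⌋ : ℝ) / 2 ^ n| ≤
          1 * (1 / 2 : ℝ) ^ n :=
        mul_le_mul a3.2.le a2 (abs_nonneg _) zero_le_one
      push_cast
      linarith)
    have h8 : hc Q (fun ω => fl s (fun j : {j // j ∈ o.J} =>
          cC n c o (cB n c o π ω) (cq n c π ω) j))
        (fun ω => (fun S => fl n (cF c o π S ω), fl N (o.F c (π (Sum.inl ∅) ω)), TT c o π ω,
          c.A (π (vb k) ω))) ≤
        hc Q (fun ω => fl s (fun j : {j // j ∈ o.J} =>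
          cC n c o (cB n c o π ω) (cq n c π ω) j))
        (fun ω => (cX N c o π ∅ ω, cB n c o π ω)) := by
      refine hc_mono_right Q _ ?_
      intro ω ω' _ _ e
      simp only [cB, cX, Prod.mk.injEq] at e ⊢
      exact ⟨e.2.1, e.2.2.1, e.2.2.2, e.1⟩
    have h9 : (Fintype.card {j // j ∈ o.J} : ℝ) * Real.log (2 * ((2 : ℕ) : ℝ) + 3) ≤
        (m : ℝ) * Real.log 7 := by
      have c1 : Fintype.card {j // j ∈ o.J} ≤ m := by
        rw [Fintype.card_coe]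
        exact (Finset.card_le_univ _).trans (by rw [Fintype.card_fin])
      have c2 : (Fintype.card {j // j ∈ o.J} : ℝ) ≤ m := by exact_mod_cast c1
      have c3 : (2 * ((2 : ℕ) : ℝ) + 3) = 7 := by norm_num
      rw [c3]
      exact mul_le_mul_of_nonneg_right c2 (Real.log_nonneg (by norm_num))
    have hk2 : (4 : ℝ) ≤ 2 ^ (k + 2) := by
      have : (1 : ℝ) ≤ 2 ^ k := one_le_pow₀ (by norm_num)
      have h4 : (2 : ℝ) ^ (k + 2) = 2 ^ k * 4 := by ring
      linarith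
    have hk4 : (2 : ℝ) ^ (k + 4) = 4 * 2 ^ (k + 2) := by ring
    have h10 : (0 : ℝ) ≤ (2 ^ (k + 2) - 4) * (εr * ((κ + 4) * a : ℕ)) :=
      mul_nonneg (by linarith) hb0
    rw [hk4]
    nlinarith

end fam

end Vale.Agent.P127.Stk
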