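import Vale.Agent.P127.Stk.CDefs

/-!
# P127 / Stk : cube sums of polynomials (C1 of PROOF.md, section 8)

The alternating sum over a cube of dimension `p` of a polynomial of degree less than `p` is zero;
estimates for the cube sums of the times and of the matrices of a typical point.
-/

namespace Vale.Agent.P127.Stk

open Finset Vale.Agent.P127

/-! ### finite differences -/

theorem ci_powerset {ι : Type} [DecidableEq ι] (A : Finset ι) (lam : ι → ℝ) (u : ℝ) :
    ∀ f : Polynomial ℝ, f.degree < A.card →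
      ∑ S ∈ A.powerset, (-1 : ℝ) ^ S.card * f.eval (u + ∑ i ∈ S, lam i) = 0 := by
  induction A using Finset.induction_on with
  | empty =>
    intro f hf
    have h0 : f = 0 := by
      by_contra h
      rw [Polynomial.degree_eq_natDegree h, Finset.card_empty] at hf
      exact absurd hf (by simp)
    simp [h0]
  | insert a A ha ih =>
    intro f hf
    rw [Finset.sum_powerset_insert ha, ← Finset.sum_add_distrib]
    have h1 : ∀ S ∈ A.powerset, (-1 : ℝ) ^ S.card * f.eval (u + ∑ i ∈ S, lam i) +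
        (-1 : ℝ) ^ (insert a S).card * f.eval (u + ∑ i ∈ insert a S, lam i) =
        - ((-1 : ℝ) ^ S.card * (f.comp (Polynomial.X + Polynomial.C (lam a)) - f).eval
          (u + ∑ i ∈ S, lam i)) := by
      intro S hS
      have haS : a ∉ S := fun h => ha (Finset.mem_powerset.1 hS h)
      rw [Finset.card_insert_of_notMem haS, Finset.sum_insert haS]
      simp only [Polynomial.eval_sub, Polynomial.eval_comp, Polynomial.eval_add,
        Polynomial.eval_X, Polynomial.eval_C]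
      rw [show u + (lam a + ∑ i ∈ S, lam i) = u + ∑ i ∈ S, lam i + lam a by ring]
      ring
    rw [Finset.sum_congr rfl h1, Finset.sum_neg_distrib, ih, neg_zero]
    by_cases hf0 : f = 0
    · simp [hf0]
    · have h2 : (f.comp (Polynomial.X + Polynomial.C (lam a)) - f).degree <
          (f.comp (Polynomial.X + Polynomial.C (lam a))).degree := by
        apply Polynomial.degree_sub_lt_left
        · exact Polynomial.degree_taylor f (lam a)
        · intro h3
          exact hf0 ((Polynomial.taylor_eq_zero (lam a) f).1 h3)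
        · exact Polynomial.leadingCoeff_taylor (lam a) f
      have h3 : (f.comp (Polynomial.X + Polynomial.C (lam a))).degree = f.degree :=
        Polynomial.degree_taylor f (lam a)
      rw [h3] at h2
      rw [Finset.card_insert_of_notMem ha] at hf
      have h4 : f.degree ≤ A.card := by
        rw [Polynomial.degree_eq_natDegree hf0] at hf ⊢
        have : f.natDegree < A.card + 1 := by exact_mod_cast hf
        exact_mod_cast Nat.lt_succ_iff.1 this
      exact lt_of_lt_of_le h2 h4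

theorem cube_poly {p : ℕ} (f : Polynomial ℝ) (hf : f.natDegree < p) (u : ℝ) (lam : Fin p → ℝ) :
    ∑ S : Finset (Fin p), (-1 : ℝ) ^ S.card * f.eval (u + ∑ i ∈ S, lam i) = 0 := by
  have h := ci_powerset (Finset.univ : Finset (Fin p)) lam u f (by
    rw [Finset.card_fin]
    refine lt_of_le_of_lt Polynomial.degree_le_natDegree ?_
    exact_mod_cast hf)
  rwa [Finset.powerset_univ] at h

/-! ### estimates -/

/-- perturbation of a product -/
theorem ci_prod {ι : Type} [DecidableEq ι] (s : Finset ι) (u v : ι → ℝ) (R δ : ℝ) (hR : 0 ≤ R)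
    (hδ : 0 ≤ δ) (hu : ∀ i ∈ s, |u i| ≤ R) (hv : ∀ i ∈ s, |v i| ≤ R)
    (huv : ∀ i ∈ s, |u i - v i| ≤ δ) :
    R * |∏ i ∈ s, u i - ∏ i ∈ s, v i| ≤ s.card * R ^ s.card * δ := by
  induction s using Finset.induction_on with
  | empty => simp
  | insert a s ha ih =>
    rw [Finset.prod_insert ha, Finset.prod_insert ha, Finset.card_insert_of_notMem ha]
    have h1 := ih (fun i hi => hu i (Finset.mem_insert_of_mem hi))
      (fun i hi => hv i (Finset.mem_insert_of_mem hi))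
      (fun i hi => huv i (Finset.mem_insert_of_mem hi))
    have h2 : |∏ i ∈ s, v i| ≤ R ^ s.card := by
      rw [Finset.abs_prod]
      calc ∏ i ∈ s, |v i| ≤ ∏ _i ∈ s, R :=
            Finset.prod_le_prod (fun i _ => abs_nonneg _)
              (fun i hi => hv i (Finset.mem_insert_of_mem hi))
        _ = R ^ s.card := by rw [Finset.prod_const]
    have h3 : u a * ∏ i ∈ s, u i - v a * ∏ i ∈ s, v i =
        u a * (∏ i ∈ s, u i - ∏ i ∈ s, v i) + (u a - v a) * ∏ i ∈ s, v i := by ring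
    have ha1 := hu a (Finset.mem_insert_self a s)
    have ha2 := huv a (Finset.mem_insert_self a s)
    calc R * |u a * ∏ i ∈ s, u i - v a * ∏ i ∈ s, v i|
        ≤ R * (|u a| * |∏ i ∈ s, u i - ∏ i ∈ s, v i| + |u a - v a| * |∏ i ∈ s, v i|) := by
          rw [h3, ← abs_mul, ← abs_mul]
          exact mul_le_mul_of_nonneg_left (abs_add_le _ _) hR
      _ = |u a| * (R * |∏ i ∈ s, u i - ∏ i ∈ s, v i|) + R * (|u a - v a| * |∏ i ∈ s, v i|) := by
          ring
      _ ≤ R * (s.card * R ^ s.card * δ) + R * (δ * R ^ s.card) := by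
          gcongr
      _ = ((s.card + 1 : ℕ) : ℝ) * R ^ (s.card + 1) * δ := by
          push_cast
          ring

/-- sum over a cube of a function close to a polynomial -/
theorem ci_sum {p : ℕ} (f : Polynomial ℝ) (hf : f.natDegree < p) (u : ℝ) (lam : Fin p → ℝ)
    (Y : Finset (Fin p) → ℝ) (E : ℝ)
    (hY : ∀ S, |Y S - f.eval (u + ∑ i ∈ S, lam i)| ≤ E) :
    |∑ S : Finset (Fin p), (-1 : ℝ) ^ S.card * Y S| ≤ 2 ^ p * E := by
  have h1 : ∑ S : Finset (Fin p), (-1 : ℝ) ^ S.card * Y S =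
      ∑ S : Finset (Fin p), (-1 : ℝ) ^ S.card * (Y S - f.eval (u + ∑ i ∈ S, lam i)) := by
    have h2 := cube_poly f hf u lam
    calc ∑ S : Finset (Fin p), (-1 : ℝ) ^ S.card * Y S
        = ∑ S : Finset (Fin p), (-1 : ℝ) ^ S.card * Y S -
          ∑ S : Finset (Fin p), (-1 : ℝ) ^ S.card * f.eval (u + ∑ i ∈ S, lam i) := by
            rw [h2, sub_zero]
      _ = _ := by
          rw [← Finset.sum_sub_distrib]
          refine Finset.sum_congr rfl fun S _ => ?_
          ring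
  rw [h1]
  calc |∑ S : Finset (Fin p), (-1 : ℝ) ^ S.card * (Y S - f.eval (u + ∑ i ∈ S, lam i))|
      ≤ ∑ S : Finset (Fin p), |(-1 : ℝ) ^ S.card * (Y S - f.eval (u + ∑ i ∈ S, lam i))| :=
        Finset.abs_sum_le_sum_abs _ _
    _ ≤ ∑ _S : Finset (Fin p), E := by
        refine Finset.sum_le_sum fun S _ => ?_
        rw [abs_mul, abs_pow, abs_neg, abs_one, one_pow, one_mul]
        exact hY S
    _ = 2 ^ p * E := by
        rw [Finset.sum_const, Finset.card_univ, Fintype.card_finset, Fintype.card_fin,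
          nsmul_eq_mul]
        push_cast
        ring

/-- bound for one Lagrange term: `n + 1` numerators, `k` denominators -/
theorem ci_den {k : ℕ} (nd : Fin (k + 1) → ℝ) (l : Fin (k + 1)) (D : ℝ)
    (hsep : ∀ l' : Fin (k + 1), l ≠ l' → 1 ≤ D * |nd l - nd l'|) :
    |∏ l' ∈ (Finset.univ : Finset (Fin (k + 1))).erase l, (nd l - nd l')⁻¹| ≤ D ^ k := by
  rw [Finset.abs_prod]
  have hc : ((Finset.univ : Finset (Fin (k + 1))).erase l).card = k := by
    rw [Finset.card_erase_of_mem (Finset.mem_univ l), Finset.card_univ, Fintype.card_fin]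
    rfl
  calc ∏ l' ∈ (Finset.univ : Finset (Fin (k + 1))).erase l, |(nd l - nd l')⁻¹|
      ≤ ∏ _l' ∈ (Finset.univ : Finset (Fin (k + 1))).erase l, D := by
        refine Finset.prod_le_prod (fun i _ => abs_nonneg _) fun l' hl' => ?_
        have h1 := hsep l' (Finset.ne_of_mem_erase hl').symm
        rw [abs_inv]
        have h2 : 0 < |nd l - nd l'| := by
          by_contra h3
          have h4 : |nd l - nd l'| = 0 := le_antisymm (not_lt.1 h3) (abs_nonneg _)
          rw [h4, mul_zero] at h1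
          linarith
        rw [inv_le_iff_one_le_mul₀ h2]
        exact h1
    _ = D ^ k := by rw [Finset.prod_const, hc]

/-- the interpolation polynomial -/
noncomputable def ci_g {k : ℕ} (nd G : Fin (k + 1) → ℝ) : Polynomial ℝ :=
  ∑ l : Fin (k + 1), Polynomial.C
    ((∏ l' ∈ (Finset.univ : Finset (Fin (k + 1))).erase l, (nd l - nd l')⁻¹) * G l) *
      ∏ l' ∈ (Finset.univ : Finset (Fin (k + 1))).erase l, (Polynomial.X - Polynomial.C (nd l'))

theorem ci_card {k : ℕ} (l : Fin (k + 1)) :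
    ((Finset.univ : Finset (Fin (k + 1))).erase l).card = k := by
  rw [Finset.card_erase_of_mem (Finset.mem_univ l), Finset.card_univ, Fintype.card_fin]
  rfl

theorem ci_g_deg {k : ℕ} (nd G : Fin (k + 1) → ℝ) : (ci_g nd G).natDegree ≤ k := by
  unfold ci_g
  refine Polynomial.natDegree_sum_le_of_forall_le _ _ fun l _ => ?_
  refine (Polynomial.natDegree_C_mul_le _ _).trans ?_
  rw [Polynomial.natDegree_prod_of_monic _ _ (fun l' _ => Polynomial.monic_X_sub_C _)]
  simp only [Polynomial.natDegree_X_sub_C, Finset.sum_const, ci_card, smul_eq_mul, mul_one]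
  exact le_rfl

theorem ci_g_eval {k : ℕ} (nd G : Fin (k + 1) → ℝ) (t : ℝ) : (ci_g nd G).eval t =
    ∑ l : Fin (k + 1), (∏ l' ∈ (Finset.univ : Finset (Fin (k + 1))).erase l, (nd l - nd l')⁻¹) *
      G l * ∏ l' ∈ (Finset.univ : Finset (Fin (k + 1))).erase l, (t - nd l') := by
  unfold ci_g
  rw [Polynomial.eval_finsetSum]
  refine Finset.sum_congr rfl fun l _ => ?_
  rw [Polynomial.eval_mul, Polynomial.eval_C, Polynomial.eval_prod]
  simp only [Polynomial.eval_sub, Polynomial.eval_X, Polynomial.eval_C]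

/-- size of the interpolation polynomial -/
theorem ci_g_le {k : ℕ} (nd G : Fin (k + 1) → ℝ) (R D B t : ℝ) (hD : 0 ≤ D)
    (hsep : ∀ l l' : Fin (k + 1), l ≠ l' → 1 ≤ D * |nd l - nd l'|)
    (hG : ∀ l, |G l| ≤ B) (ht : ∀ l, |t - nd l| ≤ R) :
    |(ci_g nd G).eval t| ≤ (k + 1) * ((R * D) ^ k * B) := by
  rw [ci_g_eval]
  refine (Finset.abs_sum_le_sum_abs _ _).trans ?_
  calc ∑ l : Fin (k + 1), |(∏ l' ∈ (Finset.univ : Finset (Fin (k + 1))).erase l,
        (nd l - nd l')⁻¹) * G l * ∏ l' ∈ (Finset.univ : Finset (Fin (k + 1))).erase l, (t - nd l')|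
      ≤ ∑ _l : Fin (k + 1), (R * D) ^ k * B := by
        refine Finset.sum_le_sum fun l _ => ?_
        rw [abs_mul, abs_mul]
        have h1 := ci_den nd l D (hsep l)
        have h2 : |∏ l' ∈ (Finset.univ : Finset (Fin (k + 1))).erase l, (t - nd l')| ≤ R ^ k := by
          rw [Finset.abs_prod]
          calc ∏ l' ∈ (Finset.univ : Finset (Fin (k + 1))).erase l, |t - nd l'|
              ≤ ∏ _l' ∈ (Finset.univ : Finset (Fin (k + 1))).erase l, R :=
                Finset.prod_le_prod (fun _ _ => abs_nonneg _) (fun l' _ => ht l')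
            _ = R ^ k := by rw [Finset.prod_const, ci_card]
        have hB : 0 ≤ B := (abs_nonneg _).trans (hG l)
        calc |∏ l' ∈ (Finset.univ : Finset (Fin (k + 1))).erase l, (nd l - nd l')⁻¹| * |G l| *
              |∏ l' ∈ (Finset.univ : Finset (Fin (k + 1))).erase l, (t - nd l')|
            ≤ D ^ k * B * R ^ k := by
              gcongr
              exact hG l
          _ = (R * D) ^ k * B := by rw [mul_pow]; ring
    _ = (k + 1) * ((R * D) ^ k * B) := by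
        rw [Finset.sum_const, Finset.card_univ, Fintype.card_fin, nsmul_eq_mul]
        push_cast
        ring

/-- perturbation of the interpolation polynomial -/
theorem ci_g_sub {k : ℕ} (nd G : Fin (k + 1) → ℝ) (R D B δ t s : ℝ) (hR : 0 ≤ R) (hD : 0 ≤ D)
    (hδ : 0 ≤ δ) (hsep : ∀ l l' : Fin (k + 1), l ≠ l' → 1 ≤ D * |nd l - nd l'|)
    (hG : ∀ l, |G l| ≤ B) (ht : ∀ l, |t - nd l| ≤ R) (hs : ∀ l, |s - nd l| ≤ R)
    (hts : |t - s| ≤ δ) :
    R * |(ci_g nd G).eval t - (ci_g nd G).eval s| ≤ (k + 1) * (k * (R * D) ^ k * B * δ) := by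
  rw [ci_g_eval, ci_g_eval, ← Finset.sum_sub_distrib]
  refine (mul_le_mul_of_nonneg_left (Finset.abs_sum_le_sum_abs _ _) hR).trans ?_
  rw [Finset.mul_sum]
  refine (Finset.sum_le_sum (g := fun _ => k * (R * D) ^ k * B * δ) fun l _ => ?_).trans ?_
  · have hB : 0 ≤ B := (abs_nonneg _).trans (hG l)
    have h1 := ci_den nd l D (hsep l)
    have h2 := ci_prod ((Finset.univ : Finset (Fin (k + 1))).erase l) (fun l' => t - nd l')
      (fun l' => s - nd l') R δ hR hδ (fun l' _ => ht l') (fun l' _ => hs l')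
      (fun l' _ => by
        have h3 : t - nd l' - (s - nd l') = t - s := by ring
        rw [h3]
        exact hts)
    rw [ci_card] at h2
    rw [← mul_sub, abs_mul, abs_mul]
    calc R * (|∏ l' ∈ (Finset.univ : Finset (Fin (k + 1))).erase l, (nd l - nd l')⁻¹| * |G l| *
          |∏ l' ∈ (Finset.univ : Finset (Fin (k + 1))).erase l, (t - nd l') -
            ∏ l' ∈ (Finset.univ : Finset (Fin (k + 1))).erase l, (s - nd l')|)
        = (|∏ l' ∈ (Finset.univ : Finset (Fin (k + 1))).erase l, (nd l - nd l')⁻¹| * |G l|) *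
          (R * |∏ l' ∈ (Finset.univ : Finset (Fin (k + 1))).erase l, (t - nd l') -
            ∏ l' ∈ (Finset.univ : Finset (Fin (k + 1))).erase l, (s - nd l')|) := by ring
      _ ≤ (D ^ k * B) * (k * R ^ k * δ) := by
          gcongr
          exact hG l
      _ = k * (R * D) ^ k * B * δ := by rw [mul_pow]; ring
  · rw [Finset.sum_const, Finset.card_univ, Fintype.card_fin, nsmul_eq_mul]
    push_cast
    exact le_rfl

/-- perturbation of `(t - t₀) g(t)` -/
theorem ci_h_sub {k : ℕ} (nd G : Fin (k + 1) → ℝ) (R D B δ t s t0 : ℝ) (hR : 0 ≤ R) (hD : 0 ≤ D)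
    (hδ : 0 ≤ δ) (hsep : ∀ l l' : Fin (k + 1), l ≠ l' → 1 ≤ D * |nd l - nd l'|)
    (hG : ∀ l, |G l| ≤ B) (ht : ∀ l, |t - nd l| ≤ R) (hs : ∀ l, |s - nd l| ≤ R)
    (hts : |t - s| ≤ δ) (ht0 : |t - t0| ≤ R) :
    |(t - t0) * (ci_g nd G).eval t - (s - t0) * (ci_g nd G).eval s| ≤
      (k + 1) ^ 2 * ((R * D) ^ k * B * δ) := by
  have h1 := ci_g_sub nd G R D B δ t s hR hD hδ hsep hG ht hs hts
  have h2 := ci_g_le nd G R D B s hD hsep hG hs
  have h3 : (t - t0) * (ci_g nd G).eval t - (s - t0) * (ci_g nd G).eval s =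
      (t - t0) * ((ci_g nd G).eval t - (ci_g nd G).eval s) + (t - s) * (ci_g nd G).eval s := by
    ring
  rw [h3]
  refine (abs_add_le _ _).trans ?_
  rw [abs_mul, abs_mul]
  calc |t - t0| * |(ci_g nd G).eval t - (ci_g nd G).eval s| + |t - s| * |(ci_g nd G).eval s|
      ≤ R * |(ci_g nd G).eval t - (ci_g nd G).eval s| + δ * ((k + 1) * ((R * D) ^ k * B)) := by
        gcongr
    _ ≤ (k + 1) * (k * (R * D) ^ k * B * δ) + δ * ((k + 1) * ((R * D) ^ k * B)) := by
        gcongr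
    _ = (k + 1) ^ 2 * ((R * D) ^ k * B * δ) := by ring

/-- times in the same dyadic interval -/
theorem ci_dyad (a L : ℕ) (haL : a ≤ L) (s t : ℝ) (h : fl1 a s = fl1 a t) :
    |t - s| ≤ (1 / 2) ^ a ∧ |t - (fl1 L t : ℝ) / 2 ^ L| ≤ (1 / 2) ^ L ∧
      |(fl1 L t : ℝ) / 2 ^ L - s| ≤ (1 / 2) ^ a := by
  unfold fl1 at *
  have pa : (0 : ℝ) < 2 ^ a := by positivity
  have pL : (0 : ℝ) < 2 ^ L := by positivity
  have h1 := Int.floor_le ((2 : ℝ) ^ a * t)
  have h2 := Int.lt_floor_add_one ((2 : ℝ) ^ a * t)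
  have h3 := Int.floor_le ((2 : ℝ) ^ a * s)
  have h4 := Int.lt_floor_add_one ((2 : ℝ) ^ a * s)
  have h5 := Int.floor_le ((2 : ℝ) ^ L * t)
  have h6 := Int.lt_floor_add_one ((2 : ℝ) ^ L * t)
  rw [h] at h3 h4
  have e1 : (1 / 2 : ℝ) ^ a = 1 / 2 ^ a := by rw [one_div_pow]
  have e2 : (1 / 2 : ℝ) ^ L = 1 / 2 ^ L := by rw [one_div_pow]
  rw [e1, e2]
  have h7 : (2 : ℤ) ^ (L - a) * ⌊(2 : ℝ) ^ a * t⌋ ≤ ⌊(2 : ℝ) ^ L * t⌋ := by
    rw [Int.le_floor]
    push_cast
    calc (2 : ℝ) ^ (L - a) * ⌊(2 : ℝ) ^ a * t⌋ ≤ 2 ^ (L - a) * (2 ^ a * t) := by gcongr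
      _ = 2 ^ L * t := by
        rw [← mul_assoc, ← pow_add, Nat.sub_add_cancel haL]
  have h8 : (2 : ℝ) ^ (L - a) * ⌊(2 : ℝ) ^ a * t⌋ ≤ ⌊(2 : ℝ) ^ L * t⌋ := by
    exact_mod_cast h7
  set N : ℝ := (⌊(2 : ℝ) ^ a * t⌋ : ℝ) with hN
  set M : ℝ := (⌊(2 : ℝ) ^ L * t⌋ : ℝ) with hM
  have h9 : N ≤ 2 ^ a * (M / 2 ^ L) := by
    have : (2 : ℝ) ^ L = 2 ^ (L - a) * 2 ^ a := by rw [← pow_add, Nat.sub_add_cancel haL]
    have p3 : (0 : ℝ) < 2 ^ (L - a) := by positivity
    rw [this]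
    have e3 : (2 : ℝ) ^ a * (M / (2 ^ (L - a) * 2 ^ a)) = M / 2 ^ (L - a) := by
      field_simp
    rw [e3, le_div_iff₀ p3]
    linarith
  have h10 : M / 2 ^ L ≤ t := by
    rw [div_le_iff₀ pL]
    linarith
  refine ⟨?_, ?_, ?_⟩
  · rw [le_div_iff₀ pa, ← abs_of_pos pa, ← abs_mul, abs_le]
    constructor <;> linarith
  · rw [le_div_iff₀ pL, ← abs_of_pos pL, ← abs_mul, abs_of_pos pL, sub_mul,
      div_mul_cancel₀ _ pL.ne', abs_le]
    constructor <;> linarith
  · have h11 : 2 ^ a * (M / 2 ^ L) ≤ 2 ^ a * t := by gcongr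
    rw [le_div_iff₀ pa, ← abs_of_pos pa, ← abs_mul, abs_le]
    constructor <;> linarith

section det

variable {Ω Ω' : Type} {m κ k : ℕ}

theorem ci_cg (c : Cf Ω m) (o : Ob Ω m κ) (π : CI k → Ω' → Ω) (ω : Ω')
    (S : Finset (Fin (k + 2))) (i j : Fin m) :
    cg c o π ω S i j = (ci_g (fun l => c.t (π (Sum.inr l) ω))
      (fun l => o.Γ (π (Sum.inr l) ω) i j)).eval (c.t (π (Sum.inl S) ω)) := by
  rw [ci_g_eval]
  unfold cg
  refine Finset.sum_congr rfl fun l _ => ?_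
  rw [show (∏ l' ∈ (Finset.univ : Finset (Fin (k + 1))).erase l,
    (c.t (π (Sum.inl S) ω) - c.t (π (Sum.inr l') ω)) /
      (c.t (π (Sum.inr l) ω) - c.t (π (Sum.inr l') ω))) =
    (∏ l' ∈ (Finset.univ : Finset (Fin (k + 1))).erase l,
      (c.t (π (Sum.inl S) ω) - c.t (π (Sum.inr l') ω))) *
    ∏ l' ∈ (Finset.univ : Finset (Fin (k + 1))).erase l,
      (c.t (π (Sum.inr l) ω) - c.t (π (Sum.inr l') ω))⁻¹ by
    rw [← Finset.prod_mul_distrib]
    rfl]
  ring

/-- the sum in the formula for `W`, `t_S` within `2^{-L}` of an exact cube -/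
theorem cube_interp (a w L : ℕ) (c : Cf Ω m) (o : Ob Ω m κ) (π : CI k → Ω' → Ω) (ω : Ω')
    (h01 : ∀ ω, 0 ≤ c.t ω ∧ c.t ω < 1)
    (hk : ∀ i j, fl1 a (c.t (π i ω)) = fl1 a (c.t (π j ω)))
    (hc : IsCube (fun S => fl1 L (c.t (π (Sum.inl S) ω)))) (haL : a ≤ L)
    (ht : CTyp a w c o π ω) (i j : Fin m) (hi : i ∉ o.J) (hj : j ∈ o.J) :
    |∑ S : Finset (Fin (k + 2)), (-1 : ℝ) ^ S.card * c.t (π (Sum.inl S) ω)| ≤
        2 ^ (k + 2) * (1 / 2) ^ L ∧
    |∑ S : Finset (Fin (k + 2)), (-1 : ℝ) ^ S.card *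
        (c.t (π (Sum.inl S) ω) - c.t (π (vb k) ω)) * o.Γ (π (Sum.inl S) ω) i j| ≤
      2 ^ (k + 2) * (1 / 2) ^ a * (2 ^ w * (1 / 2) ^ ((k + 1) * a)) +
        2 ^ (k + 2) * ((k + 1) ^ 2 * 2 ^ (k + 1) * 3 ^ κ * 2 ^ (k * w) * (1 / 2) ^ L) ∧
    |cS o π ω i j| ≤ 2 ^ (k + 2) * (2 ^ w * (1 / 2) ^ ((k + 1) * a)) +
        2 ^ (k + 2) * ((k + 1) ^ 2 * 2 ^ (k + 1) * 3 ^ κ * 2 ^ (k * w) * 2 ^ a * (1 / 2) ^ L) := by
  have _ := h01
  obtain ⟨u0, lam, hU⟩ := hc
  set nd : Fin (k + 1) → ℝ := fun l => c.t (π (Sum.inr l) ω) with hnd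
  set G : Fin (k + 1) → ℝ := fun l => o.Γ (π (Sum.inr l) ω) i j with hG
  set t0 : ℝ := c.t (π (vb k) ω) with ht0
  set T : Finset (Fin (k + 2)) → ℝ := fun S => c.t (π (Sum.inl S) ω) with hT
  set τ : Finset (Fin (k + 2)) → ℝ := fun S => (u0 : ℝ) / 2 ^ L + ∑ i ∈ S, (lam i : ℝ) / 2 ^ L
    with hτ
  have hτT : ∀ S, τ S = (fl1 L (T S) : ℝ) / 2 ^ L := by
    intro S
    have h1 : fl1 L (T S) = u0 + ∑ i ∈ S, (lam i : ℤ) := hU S
    rw [h1]
    simp only [hτ]
    push_cast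
    rw [add_div, Finset.sum_div]
  set R : ℝ := (1 / 2) ^ a with hR
  set δ : ℝ := (1 / 2) ^ L with hδ
  set D : ℝ := 2 ^ (a + w) with hD
  have R0 : 0 < R := by positivity
  have δ0 : 0 < δ := by positivity
  have D0 : 0 < D := by positivity
  have hRD : R * D = 2 ^ w := by
    rw [hR, hD, pow_add, ← mul_assoc, ← mul_pow]
    norm_num
  have hRDk : (R * D) ^ k = 2 ^ (k * w) := by
    rw [hRD, ← pow_mul, mul_comm]
  have hR2 : R * 2 ^ a = 1 := by
    rw [hR, ← mul_pow]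
    norm_num
  have dT : ∀ S x, |T S - c.t (π x ω)| ≤ R := fun S x => (ci_dyad a L haL _ _ (hk x (Sum.inl S))).1
  have dτ : ∀ S x, |τ S - c.t (π x ω)| ≤ R := fun S x => by
    rw [hτT]
    exact (ci_dyad a L haL _ _ (hk x (Sum.inl S))).2.2
  have dd : ∀ S, |T S - τ S| ≤ δ := fun S => by
    rw [hτT]
    exact (ci_dyad a L haL _ _ rfl).2.1
  have hGB : ∀ l, |G l| ≤ 3 ^ κ := fun l => o.bd _ i j
  have hpol : ∀ S, |o.Γ (π (Sum.inl S) ω) i j - (ci_g nd G).eval (T S)| ≤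
      2 ^ w * (1 / 2) ^ ((k + 1) * a) := by
    intro S
    have h1 := ht.pol S i j hi hj
    rw [ci_cg] at h1
    have h2 : (0 : ℝ) < 2 ^ ((k + 1) * a) := by positivity
    rw [one_div_pow, mul_one_div, le_div_iff₀ h2, mul_comm]
    exact h1
  have e1 : (1 : ℝ) ≤ 2 ^ (k + 1) := one_le_pow₀ (by norm_num)
  refine ⟨?_, ?_, ?_⟩
  · refine ci_sum Polynomial.X (by rw [Polynomial.natDegree_X]; omega) ((u0 : ℝ) / 2 ^ L)
      (fun i => (lam i : ℝ) / 2 ^ L) T δ fun S => ?_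
    rw [Polynomial.eval_X]
    exact dd S
  · have h1 := ci_sum ((Polynomial.X - Polynomial.C t0) * ci_g nd G) (p := k + 2) (by
        refine lt_of_le_of_lt Polynomial.natDegree_mul_le ?_
        rw [Polynomial.natDegree_X_sub_C]
        have := ci_g_deg nd G
        omega) ((u0 : ℝ) / 2 ^ L) (fun i => (lam i : ℝ) / 2 ^ L)
      (fun S => (T S - t0) * o.Γ (π (Sum.inl S) ω) i j)
      (R * (2 ^ w * (1 / 2) ^ ((k + 1) * a)) +
        (k + 1) ^ 2 * 2 ^ (k + 1) * 3 ^ κ * 2 ^ (k * w) * δ) (by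
        intro S
        rw [Polynomial.eval_mul, Polynomial.eval_sub, Polynomial.eval_X, Polynomial.eval_C]
        have h2 := ci_h_sub nd G R D (3 ^ κ) δ (T S) (τ S) t0 R0.le D0.le δ0.le ht.sep hGB
          (fun l => dT S _) (fun l => dτ S _) (dd S) (dT S _)
        have h3 : (T S - t0) * o.Γ (π (Sum.inl S) ω) i j - (τ S - t0) * (ci_g nd G).eval (τ S) =
            (T S - t0) * (o.Γ (π (Sum.inl S) ω) i j - (ci_g nd G).eval (T S)) +
            ((T S - t0) * (ci_g nd G).eval (T S) - (τ S - t0) * (ci_g nd G).eval (τ S)) := by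
          ring
        change |(T S - t0) * o.Γ (π (Sum.inl S) ω) i j - (τ S - t0) * (ci_g nd G).eval (τ S)| ≤ _
        rw [h3]
        refine (abs_add_le _ _).trans (add_le_add ?_ (h2.trans ?_))
        · rw [abs_mul]
          exact mul_le_mul (dT S _) (hpol S) (abs_nonneg _) R0.le
        · rw [hRDk]
          calc ((k : ℝ) + 1) ^ 2 * (2 ^ (k * w) * 3 ^ κ * δ)
              = ((k : ℝ) + 1) ^ 2 * 1 * 3 ^ κ * 2 ^ (k * w) * δ := by ring
            _ ≤ (k + 1) ^ 2 * 2 ^ (k + 1) * 3 ^ κ * 2 ^ (k * w) * δ := by gcongr)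
    have h4 : ∑ S : Finset (Fin (k + 2)), (-1 : ℝ) ^ S.card * (T S - t0) *
        o.Γ (π (Sum.inl S) ω) i j = ∑ S : Finset (Fin (k + 2)), (-1 : ℝ) ^ S.card *
        ((T S - t0) * o.Γ (π (Sum.inl S) ω) i j) :=
      Finset.sum_congr rfl fun S _ => mul_assoc _ _ _
    rw [h4]
    refine h1.trans (le_of_eq ?_)
    ring
  · have h1 := ci_sum (ci_g nd G) (p := k + 2) (by
        have := ci_g_deg nd G
        omega) ((u0 : ℝ) / 2 ^ L) (fun i => (lam i : ℝ) / 2 ^ L)
      (fun S => o.Γ (π (Sum.inl S) ω) i j)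
      (2 ^ w * (1 / 2) ^ ((k + 1) * a) +
        (k + 1) ^ 2 * 2 ^ (k + 1) * 3 ^ κ * 2 ^ (k * w) * 2 ^ a * δ) (by
        intro S
        have h2 := ci_g_sub nd G R D (3 ^ κ) δ (T S) (τ S) R0.le D0.le δ0.le ht.sep hGB
          (fun l => dT S _) (fun l => dτ S _) (dd S)
        have h3 : o.Γ (π (Sum.inl S) ω) i j - (ci_g nd G).eval (τ S) =
            (o.Γ (π (Sum.inl S) ω) i j - (ci_g nd G).eval (T S)) +
            ((ci_g nd G).eval (T S) - (ci_g nd G).eval (τ S)) := by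
          ring
        change |o.Γ (π (Sum.inl S) ω) i j - (ci_g nd G).eval (τ S)| ≤ _
        rw [h3]
        refine (abs_add_le _ _).trans (add_le_add (hpol S) ?_)
        rw [hRDk] at h2
        have h5 : |(ci_g nd G).eval (T S) - (ci_g nd G).eval (τ S)| =
            2 ^ a * (R * |(ci_g nd G).eval (T S) - (ci_g nd G).eval (τ S)|) := by
          rw [← mul_assoc, mul_comm (2 ^ a : ℝ) R, hR2, one_mul]
        rw [h5]
        calc 2 ^ a * (R * |(ci_g nd G).eval (T S) - (ci_g nd G).eval (τ S)|)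
            ≤ 2 ^ a * (((k : ℝ) + 1) * (k * 2 ^ (k * w) * 3 ^ κ * δ)) := by gcongr
          _ = (((k : ℝ) + 1) * k) * 1 * 3 ^ κ * 2 ^ (k * w) * 2 ^ a * δ := by ring
          _ ≤ (k + 1) ^ 2 * 2 ^ (k + 1) * 3 ^ κ * 2 ^ (k * w) * 2 ^ a * δ := by
            have h6 : ((k : ℝ) + 1) * k ≤ (k + 1) ^ 2 := by nlinarith [(Nat.cast_nonneg k : (0:ℝ) ≤ k)]
            gcongr)
    unfold cS
    refine h1.trans (le_of_eq ?_)
    ring

end det

end Vale.Agent.P127.Stk
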