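import Vale.Agent.P127.Stk.CDefs

/-!
# P127 / Stk : the noise in the step for `Γ` (PROOF.md, section 8)

The change of the projected point between the times of two vertices of the cube is, up to `O(1)`,
a function of the cell of the line.
-/

namespace Vale.Agent.P127.Stk

open Finset Vale.Agent.P127

theorem cn_frac (n : ℕ) (v : ℝ) :
    |v - (⌊(2 : ℝ) ^ n * v⌋ : ℝ) / 2 ^ n| ≤ 1 / 2 ^ n := by
  have h2 : (0 : ℝ) < 2 ^ n := by positivity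
  have h0 := Int.floor_le ((2 : ℝ) ^ n * v)
  have h1 := Int.lt_floor_add_one ((2 : ℝ) ^ n * v)
  have e : v - (⌊(2 : ℝ) ^ n * v⌋ : ℝ) / 2 ^ n = ((2 : ℝ) ^ n * v - ⌊(2 : ℝ) ^ n * v⌋) / 2 ^ n := by
    field_simp
  rw [e, abs_div, abs_of_pos h2, abs_of_nonneg (by linarith)]
  exact div_le_div_of_nonneg_right (by linarith) h2.le

theorem cn_time (a : ℕ) (u v : ℝ) (h : fl1 a u = fl1 a v) : |u - v| ≤ 1 / 2 ^ a := by
  have h2 : (0 : ℝ) < 2 ^ a := by positivity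
  have h1 := (Int.abs_sub_lt_one_of_floor_eq_floor h).le
  rw [← mul_sub, abs_mul, abs_of_pos h2] at h1
  rw [le_div_iff₀ h2]
  linarith

theorem cn_floors (A B D : ℝ) (h : |A - B - D| ≤ 1) : |⌊A⌋ - ⌊B⌋ - ⌊D⌋| ≤ 4 := by
  have hA0 := Int.floor_le A
  have hA1 := Int.lt_floor_add_one A
  have hB0 := Int.floor_le B
  have hB1 := Int.lt_floor_add_one B
  have hD0 := Int.floor_le D
  have hD1 := Int.lt_floor_add_one D
  have h1 := abs_le.1 h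
  have h2 : |((⌊A⌋ - ⌊B⌋ - ⌊D⌋ : ℤ) : ℝ)| ≤ ((4 : ℤ) : ℝ) := by
    push_cast
    rw [abs_le]
    constructor <;> linarith [h1.1, h1.2]
  rw [← Int.cast_abs] at h2
  exact_mod_cast h2

theorem cn_linF_sub {m : ℕ} (J : Finset (Fin m)) (Γ : Fin m → Fin m → ℝ) (t : ℝ)
    (x y x' y' : Fin m → ℝ) (i : Fin m) :
    linF J Γ t x y i - linF J Γ t x' y' i =
      linF J Γ t (fun j => x j - x' j) (fun j => y j - y' j) i := by
  unfold linF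
  split_ifs
  · simp
  · have : ∑ j ∈ J, Γ i j * (x j - x' j + t * (y j - y' j)) =
        ∑ j ∈ J, Γ i j * (x j + t * y j) - ∑ j ∈ J, Γ i j * (x' j + t * y' j) := by
      rw [← Finset.sum_sub_distrib]
      exact Finset.sum_congr rfl fun j _ => by ring
    rw [this]
    ring

/-- the main estimate -/
theorem cn_main {m κ : ℕ} (a w n : ℕ) (J : Finset (Fin m)) (hJ : J.card = κ)
    (Γ Γ' : Fin m → Fin m → ℝ) (t t' : ℝ) (dx dy : Fin m → ℝ) (i : Fin m) (hi : i ∉ J)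
    (hdx : ∀ j, |dx j| ≤ 1 / 2 ^ n) (hdy : ∀ j, |dy j| ≤ 1 / 2 ^ n)
    (ht : |t - t'| ≤ 1 / 2 ^ a) (ht1 : |t| ≤ 1)
    (hG : ∀ j ∈ J, |Γ i j - Γ' i j| ≤ 2 ^ w / 2 ^ a) (hG' : ∀ j ∈ J, |Γ' i j| ≤ 3 ^ κ) :
    |linF J Γ t dx dy i - linF J Γ' t' dx dy i| ≤
      1 / 2 ^ a * (1 / 2 ^ n) * (1 + κ * (2 * 2 ^ w + 3 ^ κ)) := by
  have e : linF J Γ t dx dy i - linF J Γ' t' dx dy i =
      (t - t') * dy i - ∑ j ∈ J, ((Γ i j - Γ' i j) * (dx j + t * dy j) +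
        Γ' i j * ((t - t') * dy j)) := by
    unfold linF
    rw [if_neg hi, if_neg hi]
    have : ∑ j ∈ J, ((Γ i j - Γ' i j) * (dx j + t * dy j) + Γ' i j * ((t - t') * dy j)) =
        ∑ j ∈ J, Γ i j * (dx j + t * dy j) - ∑ j ∈ J, Γ' i j * (dx j + t' * dy j) := by
      rw [← Finset.sum_sub_distrib]
      exact Finset.sum_congr rfl fun j _ => by ring
    rw [this]
    ring
  have hn : (0 : ℝ) < 1 / 2 ^ n := by positivity
  have ha : (0 : ℝ) < 1 / 2 ^ a := by positivity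
  have h1 : |(t - t') * dy i| ≤ 1 / 2 ^ a * (1 / 2 ^ n) := by
    rw [abs_mul]
    exact mul_le_mul ht (hdy i) (abs_nonneg _) ha.le
  have h2 : ∀ j ∈ J, |(Γ i j - Γ' i j) * (dx j + t * dy j) + Γ' i j * ((t - t') * dy j)| ≤
      1 / 2 ^ a * (1 / 2 ^ n) * (2 * 2 ^ w + 3 ^ κ) := by
    intro j hj
    have h3 : |dx j + t * dy j| ≤ 2 * (1 / 2 ^ n) := by
      calc |dx j + t * dy j| ≤ |dx j| + |t * dy j| := abs_add_le _ _
        _ = |dx j| + |t| * |dy j| := by rw [abs_mul]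
        _ ≤ 1 / 2 ^ n + 1 * (1 / 2 ^ n) :=
            add_le_add (hdx j) (mul_le_mul ht1 (hdy j) (abs_nonneg _) zero_le_one)
        _ = _ := by ring
    have h4 : |(t - t') * dy j| ≤ 1 / 2 ^ a * (1 / 2 ^ n) := by
      rw [abs_mul]
      exact mul_le_mul ht (hdy j) (abs_nonneg _) ha.le
    calc |(Γ i j - Γ' i j) * (dx j + t * dy j) + Γ' i j * ((t - t') * dy j)|
        ≤ |(Γ i j - Γ' i j) * (dx j + t * dy j)| + |Γ' i j * ((t - t') * dy j)| :=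
          abs_add_le _ _
      _ = |Γ i j - Γ' i j| * |dx j + t * dy j| + |Γ' i j| * |(t - t') * dy j| := by
          rw [abs_mul, abs_mul (Γ' i j)]
      _ ≤ 2 ^ w / 2 ^ a * (2 * (1 / 2 ^ n)) + 3 ^ κ * (1 / 2 ^ a * (1 / 2 ^ n)) :=
          add_le_add (mul_le_mul (hG j hj) h3 (abs_nonneg _) (by positivity))
            (mul_le_mul (hG' j hj) h4 (abs_nonneg _) (by positivity))
      _ = _ := by ring
  rw [e]
  calc |(t - t') * dy i - ∑ j ∈ J, ((Γ i j - Γ' i j) * (dx j + t * dy j) +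
        Γ' i j * ((t - t') * dy j))|
      ≤ |(t - t') * dy i| + |∑ j ∈ J, ((Γ i j - Γ' i j) * (dx j + t * dy j) +
        Γ' i j * ((t - t') * dy j))| := abs_sub _ _
    _ ≤ 1 / 2 ^ a * (1 / 2 ^ n) + ∑ j ∈ J, (1 / 2 ^ a * (1 / 2 ^ n) * (2 * 2 ^ w + 3 ^ κ)) :=
        add_le_add h1 ((Finset.abs_sum_le_sum_abs _ _).trans (Finset.sum_le_sum h2))
    _ = _ := by
        rw [Finset.sum_const, hJ, nsmul_eq_mul]
        ring

variable {Ω Ω' : Type} {m κ k : ℕ}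

/-- noise -/
theorem cphi_noise (a w n N : ℕ) (c : Cf Ω m) (o : Ob Ω m κ) (π : CI k → Ω' → Ω) (ω : Ω')
    (hx : ∀ ω i, 0 ≤ c.x ω i ∧ c.x ω i < 1) (hy : ∀ ω i, 0 ≤ c.y ω i ∧ c.y ω i < 1)
    (h01 : ∀ ω, 0 ≤ c.t ω ∧ c.t ω < 1)
    (hk : ∀ i j, key c a (π i ω) = key c a (π j ω)) (ht : CTyp a w c o π ω)
    (hN : N + 2 * w ≤ n + a) (hw : 1 + 2 * κ + κ * 3 ^ κ ≤ 2 ^ w) (S : Finset (Fin (k + 2)))
    (i : Fin m) :
    |cX N c o π S ω i - cX N c o π ∅ ω i - cphi n N c o S (cB n c o π ω) (cq n c π ω) i| ≤ 4 := by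
  have hkey := hk (Sum.inl S) (vb k)
  simp only [key, Prod.mk.injEq] at hkey
  obtain ⟨ex, ey, -, et⟩ := hkey
  have e1 : cX N c o π S ω i = ⌊(2 : ℝ) ^ N * linF o.J (o.Γ (π (Sum.inl S) ω))
      (c.t (π (Sum.inl S) ω)) (c.x (π (vb k) ω)) (c.y (π (vb k) ω)) i⌋ := by
    rw [← ex, ← ey]
    rfl
  have e2 : cX N c o π ∅ ω i = ⌊(2 : ℝ) ^ N * linF o.J (o.Γ (π (vb k) ω))
      (c.t (π (vb k) ω)) (c.x (π (vb k) ω)) (c.y (π (vb k) ω)) i⌋ := rfl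
  have e3 : cphi n N c o S (cB n c o π ω) (cq n c π ω) i =
      ⌊(2 : ℝ) ^ N * (linF o.J (o.Γ (π (Sum.inl S) ω)) (c.t (π (Sum.inl S) ω))
        (fun j => (⌊(2 : ℝ) ^ n * c.x (π (vb k) ω) j⌋ : ℝ) / 2 ^ n)
        (fun j => (⌊(2 : ℝ) ^ n * c.y (π (vb k) ω) j⌋ : ℝ) / 2 ^ n) i -
      linF o.J (o.Γ (π (vb k) ω)) (c.t (π (vb k) ω))
        (fun j => (⌊(2 : ℝ) ^ n * c.x (π (vb k) ω) j⌋ : ℝ) / 2 ^ n)
        (fun j => (⌊(2 : ℝ) ^ n * c.y (π (vb k) ω) j⌋ : ℝ) / 2 ^ n) i)⌋ := by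
    rw [← Ob.Gh_G o (π (Sum.inl S) ω), ← Ob.Gh_G o (π (vb k) ω)]
    rfl
  rw [e1, e2, e3]
  apply cn_floors
  by_cases hi : i ∈ o.J
  · simp [linF, hi]
  · have h2 : (0 : ℝ) < 2 ^ a := by positivity
    have hmain := cn_main (κ := κ) a w n o.J o.card (o.Γ (π (Sum.inl S) ω)) (o.Γ (π (vb k) ω))
      (c.t (π (Sum.inl S) ω)) (c.t (π (vb k) ω))
      (fun j => c.x (π (vb k) ω) j - (⌊(2 : ℝ) ^ n * c.x (π (vb k) ω) j⌋ : ℝ) / 2 ^ n)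
      (fun j => c.y (π (vb k) ω) j - (⌊(2 : ℝ) ^ n * c.y (π (vb k) ω) j⌋ : ℝ) / 2 ^ n)
      i hi (fun j => cn_frac n _) (fun j => cn_frac n _) (cn_time a _ _ et)
      (by rw [abs_of_nonneg (h01 _).1]; exact (h01 _).2.le)
      (fun j hj => by
        rw [le_div_iff₀ h2]
        have := ht.gam S i j hi hj
        linarith) (fun j _ => o.bd _ _ _)
    rw [← cn_linF_sub, ← cn_linF_sub] at hmain
    have e4 : ∀ A B C D : ℝ, (2 : ℝ) ^ N * A - 2 ^ N * B - 2 ^ N * (C - D) =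
        2 ^ N * ((A - C) - (B - D)) := fun A B C D => by ring
    rw [e4, abs_mul, abs_of_pos (by positivity : (0 : ℝ) < 2 ^ N)]
    refine (mul_le_mul_of_nonneg_left hmain (by positivity)).trans ?_
    have h5 : (1 : ℝ) + κ * (2 * 2 ^ w + 3 ^ κ) ≤ 2 ^ w * 2 ^ w := by
      have h6 : ((1 + 2 * κ + κ * 3 ^ κ : ℕ) : ℝ) ≤ ((2 ^ w : ℕ) : ℝ) := Nat.cast_le.2 hw
      push_cast at h6
      have h7 : (1 : ℝ) ≤ 2 ^ w := one_le_pow₀ (by norm_num)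
      have h8 : (0 : ℝ) ≤ 1 + κ * 3 ^ κ := by positivity
      nlinarith
    have h9 : (2 : ℝ) ^ N * (2 ^ w * 2 ^ w) ≤ 2 ^ n * 2 ^ a := by
      rw [← pow_add, ← pow_add, ← pow_add]
      exact pow_le_pow_right₀ (by norm_num) (by omega)
    calc (2 : ℝ) ^ N * (1 / 2 ^ a * (1 / 2 ^ n) * (1 + κ * (2 * 2 ^ w + 3 ^ κ)))
        ≤ 2 ^ N * (1 / 2 ^ a * (1 / 2 ^ n) * (2 ^ w * 2 ^ w)) := by gcongr
      _ = (2 ^ N * (2 ^ w * 2 ^ w)) / (2 ^ n * 2 ^ a) := by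
          field_simp
      _ ≤ 1 := (div_le_one (by positivity)).2 h9

end Vale.Agent.P127.Stk
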