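import Vale.Agent.P127.Stk.CInterp

/-!
# P127 / Stk : the formula for `W` (PROOF.md, section 8)
-/

namespace Vale.Agent.P127.Stk

open Finset Vale.Agent.P127

section det

variable {Ω Ω' : Type} {m κ k : ℕ}

/-- the alternating sum of the signs vanishes -/
theorem cw_f_signs (p : ℕ) :
    ∑ S : Finset (Fin (p + 1)), (-1 : ℝ) ^ S.card = 0 := by
  have h := Finset.sum_powerset_neg_one_pow_card_of_nonempty
    (x := (Finset.univ : Finset (Fin (p + 1)))) ⟨0, Finset.mem_univ _⟩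
  rw [Finset.powerset_univ] at h
  have h2 : ((∑ S : Finset (Fin (p + 1)), (-1 : ℤ) ^ S.card : ℤ) : ℝ) = 0 := by
    rw [h]
    norm_num
  rw [← h2]
  push_cast
  rfl

/-- the alternating sum of a cube of dimension at least two vanishes -/
theorem cw_f_cube (p : ℕ) (u : ℝ) (lam : Fin (p + 2) → ℝ) :
    ∑ S : Finset (Fin (p + 2)), (-1 : ℝ) ^ S.card * (u + ∑ i ∈ S, lam i) = 0 := by
  have h1 : ∀ i : Fin (p + 2),
      ∑ S : Finset (Fin (p + 2)), (if i ∈ S then (-1 : ℝ) ^ S.card else 0) = 0 := by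
    intro i
    have hne : ((Finset.univ : Finset (Fin (p + 2))).erase i).Nonempty := by
      rw [← Finset.card_pos, Finset.card_erase_of_mem (Finset.mem_univ i), Finset.card_univ,
        Fintype.card_fin]
      omega
    have h2 := Finset.sum_powerset_neg_one_pow_card_of_nonempty hne
    have h3 : ((∑ S ∈ ((Finset.univ : Finset (Fin (p + 2))).erase i).powerset,
        (-1 : ℤ) ^ S.card : ℤ) : ℝ) = 0 := by
      rw [h2]
      norm_num
    push_cast at h3
    rw [← Finset.powerset_univ, ← Finset.insert_erase (Finset.mem_univ i),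
      Finset.sum_powerset_insert (Finset.notMem_erase i _)]
    rw [Finset.sum_eq_zero, zero_add]
    · have h4 : ∀ S ∈ ((Finset.univ : Finset (Fin (p + 2))).erase i).powerset,
          (if i ∈ insert i S then (-1 : ℝ) ^ (insert i S).card else 0) =
            -(-1 : ℝ) ^ S.card := by
        intro S hS
        have h5 : i ∉ S := fun h => Finset.notMem_erase i _ (Finset.mem_powerset.1 hS h)
        rw [if_pos (Finset.mem_insert_self i S), Finset.card_insert_of_notMem h5, pow_succ]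
        ring
      rw [Finset.sum_congr rfl h4, Finset.sum_neg_distrib, h3, neg_zero]
    · intro S hS
      have h5 : i ∉ S := fun h => Finset.notMem_erase i _ (Finset.mem_powerset.1 hS h)
      rw [if_neg h5]
  have h2 : ∀ S : Finset (Fin (p + 2)), (-1 : ℝ) ^ S.card * (u + ∑ i ∈ S, lam i) =
      (-1 : ℝ) ^ S.card * u + ∑ i, lam i * (if i ∈ S then (-1 : ℝ) ^ S.card else 0) := by
    intro S
    rw [mul_add, Finset.mul_sum]
    congr 1
    rw [← Finset.sum_filter_add_sum_filter_not Finset.univ (fun i => i ∈ S)]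
    have e1 : ∑ i ∈ Finset.univ.filter (fun i => i ∉ S),
        lam i * (if i ∈ S then (-1 : ℝ) ^ S.card else 0) = 0 := by
      refine Finset.sum_eq_zero fun i hi => ?_
      rw [if_neg (Finset.mem_filter.1 hi).2, mul_zero]
    have e2 : Finset.univ.filter (fun i => i ∈ S) = S := by
      ext i
      simp
    rw [e1, add_zero, e2]
    refine Finset.sum_congr rfl fun i hi => ?_
    rw [if_pos hi, mul_comm]
  rw [Finset.sum_congr rfl fun S _ => h2 S, Finset.sum_add_distrib, ← Finset.sum_mul, cw_f_signs,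
    zero_mul, zero_add, Finset.sum_comm]
  refine Finset.sum_eq_zero fun i _ => ?_
  rw [← Finset.mul_sum, h1, mul_zero]

/-- the alternating sum of the times -/
theorem cw_f_times (p L : ℕ) (t : Finset (Fin (p + 2)) → ℝ)
    (hc : IsCube (fun S => fl1 L (t S))) :
    |∑ S : Finset (Fin (p + 2)), (-1 : ℝ) ^ S.card * t S| ≤ 2 ^ (p + 2) * (1 / 2) ^ L := by
  obtain ⟨u₀, lam, h⟩ := hc
  have h2 : (0 : ℝ) < 2 ^ L := by positivity
  have h0 := cw_f_cube p (u₀ : ℝ) (fun i => (lam i : ℝ))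
  have h3 : ∀ S : Finset (Fin (p + 2)), |2 ^ L * t S - (u₀ + ∑ i ∈ S, (lam i : ℝ))| ≤ 1 := by
    intro S
    have h4 := h S
    have h5 := Int.floor_le ((2 : ℝ) ^ L * t S)
    have h6 := Int.lt_floor_add_one ((2 : ℝ) ^ L * t S)
    have h7 : ((⌊(2 : ℝ) ^ L * t S⌋ : ℤ) : ℝ) = u₀ + ∑ i ∈ S, (lam i : ℝ) := by
      have h8 : ⌊(2 : ℝ) ^ L * t S⌋ = u₀ + ∑ i ∈ S, (lam i : ℤ) := h4
      rw [h8]
      push_cast
      rfl
    rw [← h7, abs_le]
    constructor <;> linarith only [h5, h6]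
  have h4 : ∑ S : Finset (Fin (p + 2)), (-1 : ℝ) ^ S.card * t S =
      (∑ S : Finset (Fin (p + 2)), (-1 : ℝ) ^ S.card *
        (2 ^ L * t S - (u₀ + ∑ i ∈ S, (lam i : ℝ)))) * (1 / 2) ^ L := by
    have e : ∑ S : Finset (Fin (p + 2)), (-1 : ℝ) ^ S.card *
        (2 ^ L * t S - (u₀ + ∑ i ∈ S, (lam i : ℝ))) =
        2 ^ L * ∑ S : Finset (Fin (p + 2)), (-1 : ℝ) ^ S.card * t S := by
      have e1 : ∀ S : Finset (Fin (p + 2)), (-1 : ℝ) ^ S.card *
          (2 ^ L * t S - (u₀ + ∑ i ∈ S, (lam i : ℝ))) =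
          2 ^ L * ((-1 : ℝ) ^ S.card * t S) -
            (-1 : ℝ) ^ S.card * (u₀ + ∑ i ∈ S, (lam i : ℝ)) := fun S => by ring
      rw [Finset.sum_congr rfl fun S _ => e1 S, Finset.sum_sub_distrib, h0, sub_zero,
        ← Finset.mul_sum]
    rw [e, mul_right_comm, ← mul_pow]
    norm_num
  rw [h4, abs_mul, abs_of_pos (by positivity : (0 : ℝ) < (1 / 2) ^ L)]
  refine mul_le_mul_of_nonneg_right ?_ (by positivity)
  refine (Finset.abs_sum_le_sum_abs _ _).trans ?_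
  calc _ ≤ ∑ S : Finset (Fin (p + 2)), (1 : ℝ) := by
        refine Finset.sum_le_sum fun S _ => ?_
        rw [abs_mul, abs_pow, abs_neg, abs_one, one_pow, one_mul]
        exact h3 S
    _ = 2 ^ (p + 2) := by
        rw [Finset.sum_const, Finset.card_univ, Fintype.card_finset, Fintype.card_fin]
        simp

/-- cells of `[0, 1)` -/
theorem cw_f_cell (n : ℕ) {x y : ℝ} (hx : 0 ≤ x ∧ x < 1) (hy : 0 ≤ y ∧ y < 1) :
    |((⌊(2 : ℝ) ^ n * y⌋ : ℤ) : ℝ) / 2 ^ n - ((⌊(2 : ℝ) ^ n * x⌋ : ℤ) : ℝ) / 2 ^ n| ≤ 1 := by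
  have h2 : (0 : ℝ) < 2 ^ n := by positivity
  have key : ∀ z : ℝ, 0 ≤ z ∧ z < 1 → 0 ≤ ((⌊(2 : ℝ) ^ n * z⌋ : ℤ) : ℝ) ∧
      ((⌊(2 : ℝ) ^ n * z⌋ : ℤ) : ℝ) ≤ 2 ^ n := by
    intro z hz
    constructor
    · have : (0 : ℤ) ≤ ⌊(2 : ℝ) ^ n * z⌋ := Int.floor_nonneg.2 (mul_nonneg h2.le hz.1)
      exact_mod_cast this
    · refine (Int.floor_le _).trans ?_
      exact mul_le_of_le_one_right h2.le hz.2.le
  obtain ⟨a1, a2⟩ := key x hx
  obtain ⟨b1, b2⟩ := key y hy
  rw [← sub_div, abs_le]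
  constructor
  · rw [le_div_iff₀ h2]
    linarith only [a2, b1]
  · rw [div_le_iff₀ h2]
    linarith only [a1, b2]

/-- difference of two floors -/
theorem cw_f_floor (A B : ℝ) : |((⌊A⌋ - ⌊B⌋ : ℤ) : ℝ) - (A - B)| ≤ 1 := by
  have h1 := Int.floor_le A
  have h2 := Int.lt_floor_add_one A
  have h3 := Int.floor_le B
  have h4 := Int.lt_floor_add_one B
  push_cast
  rw [abs_le]
  constructor <;> linarith only [h1, h2, h3, h4]

/-- the numerical inequality -/
theorem cw_f_num (κ k a w N L : ℕ) (hN : N + w + 2 * k + 4 + 2 * κ ≤ (k + 2) * a)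
    (hL : (k + 2) * a + k * w + 4 * k + 8 + 4 * κ ≤ L) :
    (2 : ℝ) ^ N * (2 ^ (k + 2) * (1 / 2) ^ L + κ * (2 ^ (k + 2) * (1 / 2) ^ a *
      (2 ^ w * (1 / 2) ^ ((k + 1) * a)) +
        2 ^ (k + 2) * ((k + 1) ^ 2 * 2 ^ (k + 1) * 3 ^ κ * 2 ^ (k * w) * (1 / 2) ^ L))) ≤
      2 ^ (k + 2) := by
  have hk1 : ((k : ℝ) + 1) ≤ 2 ^ k := by
    have : k + 1 ≤ 2 ^ k := Nat.lt_two_pow_self
    exact_mod_cast this
  have hκ1 : (κ : ℝ) ≤ 2 ^ κ := by
    have : κ ≤ 2 ^ κ := Nat.lt_two_pow_self.le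
    exact_mod_cast this
  have h3 : (3 : ℝ) ^ κ ≤ 2 ^ (2 * κ) := by
    rw [pow_mul]
    exact pow_le_pow_left₀ (by norm_num) (by norm_num) _
  -- first term
  have t1 : (2 : ℝ) ^ N * (1 / 2) ^ L ≤ 1 / 8 := by
    have e : N + 3 ≤ L := by
      have : 0 ≤ k * w := Nat.zero_le _
      omega
    calc (2 : ℝ) ^ N * (1 / 2) ^ L ≤ (2 : ℝ) ^ N * (1 / 2) ^ (N + 3) :=
          mul_le_mul_of_nonneg_left (pow_le_pow_of_le_one (by norm_num) (by norm_num) e)
            (by positivity)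
      _ = (2 * (1 / 2)) ^ N * (1 / 2) ^ 3 := by rw [mul_pow, pow_add]; ring
      _ = 1 / 8 := by norm_num
  -- second term
  have t2 : (2 : ℝ) ^ N * (κ * ((1 / 2) ^ a * (2 ^ w * (1 / 2) ^ ((k + 1) * a)))) ≤ 1 / 8 := by
    have e : N + w + κ + 3 ≤ a + (k + 1) * a := by
      have : a + (k + 1) * a = (k + 2) * a := by ring
      omega
    calc (2 : ℝ) ^ N * (κ * ((1 / 2) ^ a * (2 ^ w * (1 / 2) ^ ((k + 1) * a))))
        = κ * (2 ^ (N + w) * (1 / 2) ^ (a + (k + 1) * a)) := by rw [pow_add, pow_add]; ring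
      _ ≤ 2 ^ κ * (2 ^ (N + w) * (1 / 2) ^ (N + w + κ + 3)) := by
          refine mul_le_mul hκ1 (mul_le_mul_of_nonneg_left
            (pow_le_pow_of_le_one (by norm_num) (by norm_num) e) (by positivity))
            (by positivity) (by positivity)
      _ = (2 * (1 / 2)) ^ (N + w + κ) * (1 / 2) ^ 3 := by
          rw [mul_pow, pow_add _ (N + w) κ, pow_add _ (N + w + κ) 3, pow_add _ (N + w) κ]; ring
      _ = 1 / 8 := by norm_num
  -- third term
  have t3 : (2 : ℝ) ^ N * (κ * ((k + 1) ^ 2 * 2 ^ (k + 1) * 3 ^ κ * 2 ^ (k * w) *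
      (1 / 2) ^ L)) ≤ 1 / 8 := by
    have e : N + (κ + (2 * k + (k + 1) + 2 * κ + k * w)) + 3 ≤ L := by
      omega
    calc (2 : ℝ) ^ N * (κ * ((k + 1) ^ 2 * 2 ^ (k + 1) * 3 ^ κ * 2 ^ (k * w) * (1 / 2) ^ L))
        ≤ 2 ^ N * (2 ^ κ * ((2 ^ k) ^ 2 * 2 ^ (k + 1) * 2 ^ (2 * κ) * 2 ^ (k * w) *
          (1 / 2) ^ (N + (κ + (2 * k + (k + 1) + 2 * κ + k * w)) + 3))) := by
          have p1 : ((k : ℝ) + 1) ^ 2 ≤ (2 ^ k) ^ 2 :=
            pow_le_pow_left₀ (by positivity) hk1 2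
          have p2 : ((k : ℝ) + 1) ^ 2 * 2 ^ (k + 1) ≤ (2 ^ k) ^ 2 * 2 ^ (k + 1) :=
            mul_le_mul_of_nonneg_right p1 (by positivity)
          have p3 : ((k : ℝ) + 1) ^ 2 * 2 ^ (k + 1) * 3 ^ κ ≤
              (2 ^ k) ^ 2 * 2 ^ (k + 1) * 2 ^ (2 * κ) :=
            mul_le_mul p2 h3 (by positivity) (by positivity)
          have p4 : ((k : ℝ) + 1) ^ 2 * 2 ^ (k + 1) * 3 ^ κ * 2 ^ (k * w) ≤
              (2 ^ k) ^ 2 * 2 ^ (k + 1) * 2 ^ (2 * κ) * 2 ^ (k * w) :=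
            mul_le_mul_of_nonneg_right p3 (by positivity)
          have p5 : (1 / 2 : ℝ) ^ L ≤
              (1 / 2) ^ (N + (κ + (2 * k + (k + 1) + 2 * κ + k * w)) + 3) :=
            pow_le_pow_of_le_one (by norm_num) (by norm_num) e
          have p6 := mul_le_mul p4 p5 (by positivity) (by positivity)
          exact mul_le_mul_of_nonneg_left (mul_le_mul hκ1 p6 (by positivity) (by positivity))
            (by positivity)
      _ = 2 ^ N * 2 ^ (κ + (2 * k + (k + 1) + 2 * κ + k * w)) *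
          (1 / 2) ^ (N + (κ + (2 * k + (k + 1) + 2 * κ + k * w)) + 3) := by
          rw [pow_add 2 κ, pow_add 2 (2 * k + (k + 1) + 2 * κ), pow_add 2 (2 * k + (k + 1)),
            pow_add 2 (2 * k), pow_mul 2 2 k, pow_right_comm 2 2 k]
          ring
      _ = (2 * (1 / 2)) ^ (N + (κ + (2 * k + (k + 1) + 2 * κ + k * w))) * (1 / 2) ^ 3 := by
          rw [mul_pow, pow_add _ _ 3, pow_add 2 N]
          ring
      _ = 1 / 8 := by norm_num
  have hpos : (0 : ℝ) < 2 ^ (k + 2) := by positivity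
  have h := mul_le_mul_of_nonneg_left (add_le_add (add_le_add t1 t2) t3) hpos.le
  refine le_trans (le_of_eq ?_) (h.trans ?_)
  · ring
  · linarith only [hpos]

/-- the algebraic identity -/
theorem cw_f_alg {p : ℕ} (J : Finset (Fin m)) (G : Finset (Fin (p + 1)) → Fin m → ℝ)
    (t : Finset (Fin (p + 1)) → ℝ) (t0 : ℝ) (u v : Fin m → ℝ) (i : Fin m) :
    ∑ S : Finset (Fin (p + 1)), (-1 : ℝ) ^ S.card *
        ((u i + t S * v i) - ∑ j ∈ J, G S j * (u j + t S * v j)) +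
      ∑ j ∈ J, (∑ S : Finset (Fin (p + 1)), (-1 : ℝ) ^ S.card * G S j) * (u j + t0 * v j) =
    v i * ∑ S : Finset (Fin (p + 1)), (-1 : ℝ) ^ S.card * t S -
      ∑ j ∈ J, v j * ∑ S : Finset (Fin (p + 1)), (-1 : ℝ) ^ S.card * (t S - t0) * G S j := by
  have e1 : ∀ S : Finset (Fin (p + 1)), (-1 : ℝ) ^ S.card *
        ((u i + t S * v i) - ∑ j ∈ J, G S j * (u j + t S * v j)) =
      (-1 : ℝ) ^ S.card * u i + v i * ((-1 : ℝ) ^ S.card * t S) -
        ∑ j ∈ J, (-1 : ℝ) ^ S.card * (G S j * (u j + t S * v j)) := by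
    intro S
    rw [← Finset.mul_sum]
    ring
  rw [Finset.sum_congr rfl fun S _ => e1 S, Finset.sum_sub_distrib, Finset.sum_add_distrib,
    ← Finset.sum_mul, cw_f_signs, zero_mul, zero_add, ← Finset.mul_sum, Finset.sum_comm]
  rw [sub_add, sub_right_inj, ← Finset.sum_sub_distrib]
  refine Finset.sum_congr rfl fun j _ => ?_
  rw [Finset.sum_mul, Finset.mul_sum, ← Finset.sum_sub_distrib]
  refine Finset.sum_congr rfl fun S _ => ?_
  ring

/-- the formula for `W` -/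
theorem cW_formula (a w n N L : ℕ) (c : Cf Ω m) (o : Ob Ω m κ) (π : CI k → Ω' → Ω) (ω ω1 ω2 : Ω')
    (hx : ∀ ω i, 0 ≤ c.x ω i ∧ c.x ω i < 1) (hy : ∀ ω i, 0 ≤ c.y ω i ∧ c.y ω i < 1)
    (h01 : ∀ ω, 0 ≤ c.t ω ∧ c.t ω < 1)
    (hk : ∀ i j, key c a (π i ω) = key c a (π j ω))
    (hc : IsCube (fun S => fl1 L (c.t (π (Sum.inl S) ω)))) (ht : CTyp a w c o π ω)
    (hN : N + w + 2 * k + 4 + 2 * κ ≤ (k + 2) * a)
    (hL : (k + 2) * a + k * w + 4 * k + 8 + 4 * κ ≤ L)
    (i : Fin m) :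
    (i ∉ o.J → |((∑ S : Finset (Fin (k + 2)), (-1 : ℤ) ^ S.card *
        (cphi n N c o S (cB n c o π ω) (cq n c π ω2) i -
          cphi n N c o S (cB n c o π ω) (cq n c π ω1) i) : ℤ) : ℝ) +
      2 ^ N * ∑ j ∈ o.J, cE c o (cB n c o π ω) i j *
        (cC n c o (cB n c o π ω) (cq n c π ω2) j - cC n c o (cB n c o π ω) (cq n c π ω1) j)| ≤
      2 ^ (k + 3)) ∧
    (i ∈ o.J → (∑ S : Finset (Fin (k + 2)), (-1 : ℤ) ^ S.card *
        (cphi n N c o S (cB n c o π ω) (cq n c π ω2) i -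
          cphi n N c o S (cB n c o π ω) (cq n c π ω1) i)) = 0) := by
  constructor
  · intro hi
    have haL : a ≤ L := by
      have h1 : a ≤ (k + 2) * a := Nat.le_mul_of_pos_left a (by omega)
      omega
    have hkey : ∀ i j, fl1 a (c.t (π i ω)) = fl1 a (c.t (π j ω)) := by
      intro i j
      exact congrArg (fun z => z.2.2.2) (hk i j)
    have hI := fun j hj => cube_interp a w L c o π ω h01 hkey hc haL ht i j hi hj
    -- names
    set t : Finset (Fin (k + 2)) → ℝ := fun S => c.t (π (Sum.inl S) ω) with ht'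
    set G : Finset (Fin (k + 2)) → Fin m → ℝ := fun S j => o.Γ (π (Sum.inl S) ω) i j with hG
    set u : Fin m → ℝ := fun j => ((cq n c π ω2).1 j : ℝ) / 2 ^ n -
      ((cq n c π ω1).1 j : ℝ) / 2 ^ n with hu
    set v : Fin m → ℝ := fun j => ((cq n c π ω2).2 j : ℝ) / 2 ^ n -
      ((cq n c π ω1).2 j : ℝ) / 2 ^ n with hv
    have hv1 : ∀ j, |v j| ≤ 1 := fun j => cw_f_cell n (hy _ j) (hy _ j)
    -- the value of `linF`
    set lf : Finset (Fin (k + 2)) → ((Fin m → ℤ) × (Fin m → ℤ)) → ℝ := fun S q =>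
      linF o.J (o.Gh ((cB n c o π ω).1 (Sum.inl S)).2) ((cB n c o π ω).1 (Sum.inl S)).1
        (fun i => q.1 i / 2 ^ n) (fun i => q.2 i / 2 ^ n) i with hlf
    have hlin : ∀ (S : Finset (Fin (k + 2))) (q : (Fin m → ℤ) × (Fin m → ℤ)),
        lf S q = ((q.1 i : ℝ) / 2 ^ n + t S * ((q.2 i : ℝ) / 2 ^ n)) -
          ∑ j ∈ o.J, G S j * ((q.1 j : ℝ) / 2 ^ n + t S * ((q.2 j : ℝ) / 2 ^ n)) := by
      intro S q
      have e : o.Gh ((cB n c o π ω).1 (Sum.inl S)).2 = o.Γ (π (Sum.inl S) ω) := o.Gh_G _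
      simp only [hlf]
      rw [e]
      unfold linF
      rw [if_neg hi]
      rfl
    have hcphi : ∀ (S : Finset (Fin (k + 2))) (q : (Fin m → ℤ) × (Fin m → ℤ)),
        cphi n N c o S (cB n c o π ω) q i = ⌊(2 : ℝ) ^ N * (lf S q - lf ∅ q)⌋ :=
      fun _ _ => rfl
    have hlinu : ∀ S : Finset (Fin (k + 2)),
        (u i + t S * v i) - ∑ j ∈ o.J, G S j * (u j + t S * v j) =
          lf S (cq n c π ω2) - lf S (cq n c π ω1) := by
      intro S
      rw [hlin, hlin, sub_sub_sub_comm, ← Finset.sum_sub_distrib]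
      congr 1
      · simp only [hu, hv]
        ring
      · refine Finset.sum_congr rfl fun j _ => ?_
        simp only [hu, hv]
        ring
    -- one vertex
    have hone : ∀ S : Finset (Fin (k + 2)),
        |((cphi n N c o S (cB n c o π ω) (cq n c π ω2) i -
          cphi n N c o S (cB n c o π ω) (cq n c π ω1) i : ℤ) : ℝ) -
          2 ^ N * (((u i + t S * v i) - ∑ j ∈ o.J, G S j * (u j + t S * v j)) -
            ((u i + t ∅ * v i) - ∑ j ∈ o.J, G ∅ j * (u j + t ∅ * v j)))| ≤ 1 := by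
      intro S
      rw [hcphi, hcphi, hlinu S, hlinu ∅]
      have h := cw_f_floor ((2 : ℝ) ^ N * (lf S (cq n c π ω2) - lf ∅ (cq n c π ω2)))
        ((2 : ℝ) ^ N * (lf S (cq n c π ω1) - lf ∅ (cq n c π ω1)))
      have e : (2 : ℝ) ^ N * (lf S (cq n c π ω2) - lf ∅ (cq n c π ω2)) -
          (2 : ℝ) ^ N * (lf S (cq n c π ω1) - lf ∅ (cq n c π ω1)) =
          2 ^ N * (lf S (cq n c π ω2) - lf S (cq n c π ω1) -
            (lf ∅ (cq n c π ω2) - lf ∅ (cq n c π ω1))) := by ring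
      rw [e] at h
      exact h
    have hcard : ∀ S : Finset (Fin (k + 2)), |(-1 : ℝ) ^ S.card| = 1 := fun S => by
      rw [abs_pow, abs_neg, abs_one, one_pow]
    -- the sum over the vertices
    have hsum : |((∑ S : Finset (Fin (k + 2)), (-1 : ℤ) ^ S.card *
        (cphi n N c o S (cB n c o π ω) (cq n c π ω2) i -
          cphi n N c o S (cB n c o π ω) (cq n c π ω1) i) : ℤ) : ℝ) -
        2 ^ N * ∑ S : Finset (Fin (k + 2)), (-1 : ℝ) ^ S.card *
          ((u i + t S * v i) - ∑ j ∈ o.J, G S j * (u j + t S * v j))| ≤ 2 ^ (k + 2) := by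
      have e1 : ((∑ S : Finset (Fin (k + 2)), (-1 : ℤ) ^ S.card *
          (cphi n N c o S (cB n c o π ω) (cq n c π ω2) i -
          cphi n N c o S (cB n c o π ω) (cq n c π ω1) i) : ℤ) : ℝ) -
          2 ^ N * ∑ S : Finset (Fin (k + 2)), (-1 : ℝ) ^ S.card *
          ((u i + t S * v i) - ∑ j ∈ o.J, G S j * (u j + t S * v j)) =
          ∑ S : Finset (Fin (k + 2)), (-1 : ℝ) ^ S.card *
          (((cphi n N c o S (cB n c o π ω) (cq n c π ω2) i -
          cphi n N c o S (cB n c o π ω) (cq n c π ω1) i : ℤ) : ℝ) -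
          2 ^ N * (((u i + t S * v i) - ∑ j ∈ o.J, G S j * (u j + t S * v j)) -
            ((u i + t ∅ * v i) - ∑ j ∈ o.J, G ∅ j * (u j + t ∅ * v j)))) := by
        have e2 : ∑ S : Finset (Fin (k + 2)), (-1 : ℝ) ^ S.card *
            (2 ^ N * ((u i + t ∅ * v i) - ∑ j ∈ o.J, G ∅ j * (u j + t ∅ * v j))) = 0 := by
          rw [← Finset.sum_mul, cw_f_signs, zero_mul]
        rw [← add_zero (_ - 2 ^ N * _), ← e2, Finset.mul_sum]
        push_cast
        rw [← Finset.sum_sub_distrib, ← Finset.sum_add_distrib]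
        refine Finset.sum_congr rfl fun S _ => ?_
        ring
      rw [e1]
      refine (Finset.abs_sum_le_sum_abs _ _).trans ?_
      calc _ ≤ ∑ S : Finset (Fin (k + 2)), (1 : ℝ) := by
            refine Finset.sum_le_sum fun S _ => ?_
            rw [abs_mul, hcard, one_mul]
            exact hone S
        _ = 2 ^ (k + 2) := by
            rw [Finset.sum_const, Finset.card_univ, Fintype.card_finset, Fintype.card_fin]
            simp
    -- the cube sum and the cell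
    have hE : ∀ j, cE c o (cB n c o π ω) i j =
        ∑ S : Finset (Fin (k + 2)), (-1 : ℝ) ^ S.card * G S j := by
      intro j
      unfold cE
      refine Finset.sum_congr rfl fun S _ => ?_
      have e : o.Gh ((cB n c o π ω).1 (Sum.inl S)).2 = o.Γ (π (Sum.inl S) ω) := o.Gh_G _
      rw [e]
    have hC : ∀ j, cC n c o (cB n c o π ω) (cq n c π ω2) j -
        cC n c o (cB n c o π ω) (cq n c π ω1) j = u j + t ∅ * v j := by
      intro j
      have e : ((cB n c o π ω).1 (vb k)).1 = t ∅ := rfl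
      unfold cC
      rw [e]
      simp only [hu, hv]
      ring
    have halg := cw_f_alg o.J G t (t ∅) u v i
    have hrest : |v i * ∑ S : Finset (Fin (k + 2)), (-1 : ℝ) ^ S.card * t S -
        ∑ j ∈ o.J, v j * ∑ S : Finset (Fin (k + 2)), (-1 : ℝ) ^ S.card * (t S - t ∅) * G S j| ≤
        2 ^ (k + 2) * (1 / 2) ^ L + κ * (2 ^ (k + 2) * (1 / 2) ^ a *
          (2 ^ w * (1 / 2) ^ ((k + 1) * a)) +
          2 ^ (k + 2) * ((k + 1) ^ 2 * 2 ^ (k + 1) * 3 ^ κ * 2 ^ (k * w) * (1 / 2) ^ L)) := by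
      have hT : |∑ S : Finset (Fin (k + 2)), (-1 : ℝ) ^ S.card * t S| ≤
          2 ^ (k + 2) * (1 / 2) ^ L := cw_f_times k L t hc
      have h1 : |v i * ∑ S : Finset (Fin (k + 2)), (-1 : ℝ) ^ S.card * t S| ≤
          2 ^ (k + 2) * (1 / 2) ^ L := by
        rw [abs_mul]
        calc _ ≤ 1 * (2 ^ (k + 2) * (1 / 2) ^ L) :=
              mul_le_mul (hv1 i) hT (abs_nonneg _) zero_le_one
          _ = _ := one_mul _
      have h2 : |∑ j ∈ o.J, v j * ∑ S : Finset (Fin (k + 2)),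
          (-1 : ℝ) ^ S.card * (t S - t ∅) * G S j| ≤
          κ * (2 ^ (k + 2) * (1 / 2) ^ a * (2 ^ w * (1 / 2) ^ ((k + 1) * a)) +
          2 ^ (k + 2) * ((k + 1) ^ 2 * 2 ^ (k + 1) * 3 ^ κ * 2 ^ (k * w) * (1 / 2) ^ L)) := by
        refine (Finset.abs_sum_le_sum_abs _ _).trans ?_
        calc _ ≤ ∑ j ∈ o.J, (2 ^ (k + 2) * (1 / 2) ^ a * (2 ^ w * (1 / 2) ^ ((k + 1) * a)) +
              2 ^ (k + 2) * ((k + 1) ^ 2 * 2 ^ (k + 1) * 3 ^ κ * 2 ^ (k * w) *
                (1 / 2 : ℝ) ^ L)) := by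
              refine Finset.sum_le_sum fun j hj => ?_
              rw [abs_mul]
              calc _ ≤ 1 * _ := mul_le_mul (hv1 j) (hI j hj).2.1 (abs_nonneg _) zero_le_one
                _ = _ := one_mul _
          _ = _ := by rw [Finset.sum_const, o.card, nsmul_eq_mul]
      exact (abs_sub _ _).trans (add_le_add h1 h2)
    have hnum := cw_f_num κ k a w N L hN hL
    have hcell : ∑ j ∈ o.J, cE c o (cB n c o π ω) i j *
        (cC n c o (cB n c o π ω) (cq n c π ω2) j - cC n c o (cB n c o π ω) (cq n c π ω1) j) =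
        ∑ j ∈ o.J, (∑ S : Finset (Fin (k + 2)), (-1 : ℝ) ^ S.card * G S j) *
          (u j + t ∅ * v j) := Finset.sum_congr rfl fun j _ => by rw [hE, hC]
    rw [hcell]
    have h2N : (0 : ℝ) < 2 ^ N := by positivity
    have hfin : |2 ^ N * (∑ S : Finset (Fin (k + 2)), (-1 : ℝ) ^ S.card *
          ((u i + t S * v i) - ∑ j ∈ o.J, G S j * (u j + t S * v j)) +
        ∑ j ∈ o.J, (∑ S : Finset (Fin (k + 2)), (-1 : ℝ) ^ S.card * G S j) *
          (u j + t ∅ * v j))| ≤ 2 ^ (k + 2) := by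
      rw [halg, abs_mul, abs_of_pos h2N]
      exact (mul_le_mul_of_nonneg_left hrest h2N.le).trans hnum
    have h5 := abs_add_le _ _ |>.trans (add_le_add hsum hfin)
    refine le_trans (le_of_eq ?_) (h5.trans (le_of_eq ?_))
    · congr 1
      ring
    · ring
  · intro hi
    have h0 : ∀ (S : Finset (Fin (k + 2))) (q : (Fin m → ℤ) × (Fin m → ℤ)),
        cphi n N c o S (cB n c o π ω) q i = 0 := by
      intro S q
      unfold cphi linF
      rw [if_pos hi, if_pos hi]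
      simp
    simp [h0]

end det

end Vale.Agent.P127.Stk
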