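import Vale.Agent.P127.Stk.AbsBridge
import Vale.Agent.P127.Stk.CInterp
import Vale.Agent.P127.Stk.CNoise
import Vale.Agent.P127.Stk.CWform
import Vale.Agent.P127.Stk.CDisp
import Vale.Agent.P127.Stk.CFamE

/-!
# P127 / Stk : the core of the step for `Γ` (PROOF.md, section 8)
-/

namespace Vale.Agent.P127.Stk

open Finset Vale.Agent.P127

section aux

variable {Ω Ω' : Type} [Fintype Ω] [Fintype Ω'] {m κ k : ℕ}

/-- the digits of integers are the integers -/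
theorem cc_fl_div (N : ℕ) {ι : Type} (z : ι → ℤ) : fl N (fun i => (z i : ℝ) / 2 ^ N) = z := by
  funext i
  have h : (2 : ℝ) ^ N * ((z i : ℝ) / 2 ^ N) = z i := by
    field_simp
  simp only [fl, h, Int.floor_intCast]

theorem cc_linF_close {J : Finset (Fin m)} (hJ : J.card = κ) {Γ : Fin m → Fin m → ℝ}
    (hΓ : ∀ i j, |Γ i j| ≤ 3 ^ κ) {t : ℝ} (ht : 0 ≤ t ∧ t < 1) {x y x' y' : Fin m → ℝ} {e : ℝ}
    (he : 0 ≤ e) (hx : ∀ i, |x i - x' i| ≤ e) (hy : ∀ i, |y i - y' i| ≤ e) (i : Fin m) :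
    |linF J Γ t x y i - linF J Γ t x' y' i| ≤ 2 * (1 + κ * 3 ^ κ) * e := by
  have h1 : ∀ j, |(x j + t * y j) - (x' j + t * y' j)| ≤ 2 * e := by
    intro j
    have e1 : (x j + t * y j) - (x' j + t * y' j) = (x j - x' j) + t * (y j - y' j) := by ring
    rw [e1]
    refine (abs_add_le _ _).trans ?_
    rw [abs_mul, abs_of_nonneg ht.1]
    have := hx j
    have h2 := hy j
    have h3 := abs_nonneg (y j - y' j)
    nlinarith [ht.2]
  unfold linF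
  split_ifs with hi
  · simp only [sub_self, abs_zero]
    positivity
  · have e2 : ((x i + t * y i) - ∑ j ∈ J, Γ i j * (x j + t * y j)) -
        ((x' i + t * y' i) - ∑ j ∈ J, Γ i j * (x' j + t * y' j)) =
        ((x i + t * y i) - (x' i + t * y' i)) -
          ∑ j ∈ J, Γ i j * ((x j + t * y j) - (x' j + t * y' j)) := by
      simp only [mul_sub, Finset.sum_sub_distrib]
      ring
    rw [e2]
    have h2 : |∑ j ∈ J, Γ i j * ((x j + t * y j) - (x' j + t * y' j))| ≤ κ * (3 ^ κ * (2 * e)) := by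
      refine (Finset.abs_sum_le_sum_abs _ _).trans ?_
      calc ∑ j ∈ J, |Γ i j * ((x j + t * y j) - (x' j + t * y' j))|
          ≤ ∑ _j ∈ J, (3 : ℝ) ^ κ * (2 * e) := by
            refine Finset.sum_le_sum fun j _ => ?_
            rw [abs_mul]
            exact mul_le_mul (hΓ i j) (h1 j) (abs_nonneg _) (by positivity)
        _ = κ * (3 ^ κ * (2 * e)) := by rw [Finset.sum_const, hJ, nsmul_eq_mul]
    have h3 := abs_sub ((x i + t * y i) - (x' i + t * y' i))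
      (∑ j ∈ J, Γ i j * ((x j + t * y j) - (x' j + t * y' j)))
    have h4 := h1 i
    nlinarith

theorem cc_fl_dist (s : ℕ) {ι : Type} (v : ι → ℝ) (i : ι) :
    |v i - (fl s v i : ℝ) / 2 ^ s| ≤ (1 / 2 : ℝ) ^ s := by
  have h0 : (0 : ℝ) < 2 ^ s := by positivity
  have h1 := Int.floor_le ((2 : ℝ) ^ s * v i)
  have h2 := Int.lt_floor_add_one ((2 : ℝ) ^ s * v i)
  have e1 : v i - (fl s v i : ℝ) / 2 ^ s = ((2 : ℝ) ^ s * v i - fl s v i) / 2 ^ s := by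
    field_simp
  rw [e1, abs_div, abs_of_pos h0, div_le_iff₀ h0, one_div, inv_pow, inv_mul_cancel₀ h0.ne']
  unfold fl
  rw [abs_of_nonneg (by linarith)]
  linarith

/-- the projected points are almost determined by the cell of the line and the data -/
theorem cc_flF {a : ℕ} {K cost : ℝ} {P : Law Ω} {c : Cf Ω m} {o : Ob Ω m κ} {Q : Law Ω'}
    {π : CI k → Ω' → Ω} (hf : CubeFam a k K cost P c o Q π)
    (h01 : ∀ ω, 0 ≤ c.t ω ∧ c.t ω < 1) (S : Finset (Fin (k + 2))) (s : ℕ) {T : Type}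
    (Z : Ω' → T) :
    hc Q (fun ω => fl s (cF c o π S ω))
      (fun ω => (fl s (c.x (π (vb k) ω)), fl s (c.y (π (vb k) ω)), TT c o π ω, Z ω)) ≤
      m * Real.log (2 * (2 * (1 + κ * 3 ^ κ)) + 3) := by
  classical
  -- the approximate point
  set v' : Ω' → Fin m → ℝ := fun ω => linF o.J (o.Gh (TT c o π ω (Sum.inl S)).2)
    (TT c o π ω (Sum.inl S)).1 (fun i => (fl s (c.x (π (vb k) ω)) i : ℝ) / 2 ^ s)
    (fun i => (fl s (c.y (π (vb k) ω)) i : ℝ) / 2 ^ s) with hv'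
  have hclose : ∀ ω, 0 < Q.w ω → ∀ i, |cF c o π S ω i - v' ω i| ≤
      ((2 * (1 + κ * 3 ^ κ) : ℕ) : ℝ) * (1 / 2 : ℝ) ^ s := by
    intro ω hω i
    have hk := hf.keys ω hω (Sum.inl S) (vb k)
    unfold key at hk
    simp only [Prod.mk.injEq] at hk
    have e1 : cF c o π S ω = linF o.J (o.Gh (TT c o π ω (Sum.inl S)).2)
        (TT c o π ω (Sum.inl S)).1 (c.x (π (vb k) ω)) (c.y (π (vb k) ω)) := by
      unfold cF TT
      simp only
      rw [F_eq_linF, o.Gh_G, hk.1, hk.2.1]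
    rw [e1, hv']
    have h2 := cc_linF_close (κ := κ) o.card (Γ := o.Gh (TT c o π ω (Sum.inl S)).2)
      (by
        intro i j
        unfold TT
        simp only
        rw [o.Gh_G]
        exact o.bd _ i j) (t := (TT c o π ω (Sum.inl S)).1) (h01 _)
      (x := c.x (π (vb k) ω)) (y := c.y (π (vb k) ω))
      (x' := fun i => (fl s (c.x (π (vb k) ω)) i : ℝ) / 2 ^ s)
      (y' := fun i => (fl s (c.y (π (vb k) ω)) i : ℝ) / 2 ^ s)
      (e := (1 / 2 : ℝ) ^ s) (by positivity) (fun i => cc_fl_dist s _ i)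
      (fun i => cc_fl_dist s _ i) i
    refine h2.trans (le_of_eq ?_)
    push_cast
    ring
  have h1 := hc_fl_close Q (s := s) (2 * (1 + κ * 3 ^ κ)) (cF c o π S) v'
    (fun ω => (fl s (c.x (π (vb k) ω)), fl s (c.y (π (vb k) ω)), TT c o π ω, Z ω)) hclose
  have h2 : hc Q (fun ω => fl s (cF c o π S ω))
      (fun ω => (fl s (c.x (π (vb k) ω)), fl s (c.y (π (vb k) ω)), TT c o π ω, Z ω)) ≤
      hc Q (fun ω => fl s (cF c o π S ω))
      (fun ω => (fl s (v' ω), fl s (c.x (π (vb k) ω)), fl s (c.y (π (vb k) ω)), TT c o π ω,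
        Z ω)) := by
    refine hc_mono_right Q _ ?_
    intro ω ω' _ _ h
    simp only [Prod.mk.injEq] at h ⊢
    obtain ⟨hx, hy, hT, hZ⟩ := h
    refine ⟨?_, hx, hy, hT, hZ⟩
    simp only [hv', hx, hy, hT]
  refine h2.trans (h1.trans (le_of_eq ?_))
  rw [Fintype.card_fin]
  push_cast
  ring

/-- the determinism of the projected points for the family -/
theorem cc_hR {a n : ℕ} {K cost x : ℝ} {P : Law Ω} {c : Cf Ω m} {o : Ob Ω m κ} {Q : Law Ω'}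
    {π : CI k → Ω' → Ω} (hf : CubeFam a k K cost P c o Q π)
    (hRK : ∀ Q2 : Law (Fin 2 → Ω), (∀ w, Q2.w w = cw P (key c a) 1 w) →
      hc Q2 (fun w => fl n (o.F c (w 1)))
        (fun w => (fl n (o.F c (w 0)), (fun i => (c.t (w i), o.G (w i))), c.A (w 0))) ≤ x)
    (S : Finset (Fin (k + 2))) :
    hc Q (fun ω => fl n (cF c o π S ω))
      (fun ω => (fl n (cF c o π ∅ ω), TT c o π ω, c.A (π (vb k) ω))) ≤ K * x := by
  classical
  have hK1 : 1 ≤ K := (hf.dom (vb k)).one_le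
  obtain ⟨Q2, hQ2⟩ := cw_exists P (key c a) 1
  have hx := hRK Q2 hQ2
  have hx0 : 0 ≤ x := (hc_nonneg Q2 _ _).trans hx
  by_cases hS : S = ∅
  · subst hS
    rw [hc_zero Q (X := fun ω => fl n (cF c o π ∅ ω))]
    · positivity
    · intro ω ω' _ _ h
      simp only [Prod.mk.injEq] at h
      exact h.1
  · have hdom : Dom Q (fun ω => ![π (Sum.inl ∅) ω, π (Sum.inl S) ω]) Q2 K := by
      intro w
      rw [hQ2]
      exact hf.pair S hS w
    have h1 := hdom.hc_le (fun w => fl n (o.F c (w 1)))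
      (fun w => (fl n (o.F c (w 0)), (fun i => (c.t (w i), o.G (w i))), c.A (w 0)))
    have h2 : hc Q (fun ω => fl n (cF c o π S ω))
        (fun ω => (fl n (cF c o π ∅ ω), TT c o π ω, c.A (π (vb k) ω))) ≤
        hc Q ((fun w : Fin 2 → Ω => fl n (o.F c (w 1))) ∘
          (fun ω => ![π (Sum.inl ∅) ω, π (Sum.inl S) ω]))
        ((fun w : Fin 2 → Ω => (fl n (o.F c (w 0)), (fun i => (c.t (w i), o.G (w i))),
          c.A (w 0))) ∘ (fun ω => ![π (Sum.inl ∅) ω, π (Sum.inl S) ω])) := by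
      refine hc_mono_right Q _ ?_
      intro ω ω' _ _ h
      simp only [Prod.mk.injEq] at h
      obtain ⟨h1, h2, h3⟩ := h
      simp only [Function.comp_apply, Matrix.cons_val_zero, Prod.mk.injEq]
      refine ⟨h1, ?_, h3⟩
      funext i
      have e0 := congrFun h2 (Sum.inl ∅)
      have e1 := congrFun h2 (Sum.inl S)
      unfold TT at e0 e1
      fin_cases i
      · simpa using e0
      · simpa using e1
    have hK0 : 0 ≤ K := by linarith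
    exact h2.trans (h1.trans (mul_le_mul_of_nonneg_left hx hK0))

/-- the cube sum is small enough -/
theorem cc_beta {a w β : ℕ} {i0 j0 : Fin m} {c : Cf Ω m} {o : Ob Ω m κ} {π : CI k → Ω' → Ω}
    {ω : Ω'} (h01 : ∀ ω, 0 ≤ c.t ω ∧ c.t ω < 1)
    (hk : ∀ i j, key c a (π i ω) = key c a (π j ω))
    (hc : IsCube (fun S => fl1 ((κ + 4) * a) (c.t (π (Sum.inl S) ω))))
    (ht : CTyp a w c o π ω) (hb : CBin β w i0 j0 o π ω) (hkκ : k ≤ κ)
    (hw : 3 * k + 6 + 2 * κ ≤ w) (hwa : k * w ≤ a) :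
    (k + 1) * a ≤ β + 3 * w := by
  have hk' : ∀ i j, fl1 a (c.t (π i ω)) = fl1 a (c.t (π j ω)) := by
    intro i j
    have := hk i j
    unfold key at this
    simp only [Prod.mk.injEq] at this
    exact this.2.2.2
  have haL : a ≤ (κ + 4) * a := Nat.le_mul_of_pos_left a (by omega)
  have h3 := (cube_interp a w ((κ + 4) * a) c o π ω h01 hk' hc haL ht i0 j0 hb.i0J hb.j0J).2.2
  have hlo := hb.lo
  -- the second term is smaller than the first one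
  have h4 : ((k : ℝ) + 1) ^ 2 * 2 ^ (k + 1) * 3 ^ κ * 2 ^ (k * w) * 2 ^ a *
      (1 / 2) ^ ((κ + 4) * a) ≤ 2 ^ w * (1 / 2) ^ ((k + 1) * a) := by
    have e1 : ((k : ℝ) + 1) ^ 2 ≤ 2 ^ (2 * k) := by
      have h5 : ((k : ℝ) + 1) ≤ 2 ^ k := by
        have := Nat.lt_two_pow_self (n := k)
        exact_mod_cast this
      calc ((k : ℝ) + 1) ^ 2 ≤ (2 ^ k) ^ 2 := by gcongr
        _ = 2 ^ (2 * k) := by rw [← pow_mul, mul_comm]
    have e2 : (3 : ℝ) ^ κ ≤ 2 ^ (2 * κ) := by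
      rw [pow_mul]
      gcongr
      norm_num
    have e3 : (1 / 2 : ℝ) ^ ((κ + 4) * a) = (1 / 2) ^ ((k + 1) * a) *
        (1 / 2) ^ ((κ + 4) * a - (k + 1) * a) := by
      rw [← pow_add]
      congr 1
      have : (k + 1) * a ≤ (κ + 4) * a := Nat.mul_le_mul_right a (by omega)
      omega
    have e4 : 2 * a + a ≤ (κ + 4) * a - (k + 1) * a := by
      rw [← Nat.sub_mul]
      calc 2 * a + a = 3 * a := by ring
        _ ≤ (κ + 4 - (k + 1)) * a := Nat.mul_le_mul_right a (by omega)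
    have e5 : (1 / 2 : ℝ) ^ ((κ + 4) * a - (k + 1) * a) ≤ (1 / 2) ^ (2 * a + a) :=
      pow_le_pow_of_le_one (by norm_num) (by norm_num) e4
    calc ((k : ℝ) + 1) ^ 2 * 2 ^ (k + 1) * 3 ^ κ * 2 ^ (k * w) * 2 ^ a *
        (1 / 2) ^ ((κ + 4) * a)
        ≤ 2 ^ (2 * k) * 2 ^ (k + 1) * 2 ^ (2 * κ) * 2 ^ a * 2 ^ a *
          ((1 / 2) ^ ((k + 1) * a) * (1 / 2) ^ (2 * a + a)) := by
          rw [e3]
          have e6 : (2 : ℝ) ^ (k * w) ≤ 2 ^ a := pow_le_pow_right₀ (by norm_num) hwa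
          gcongr
      _ = 2 ^ (3 * k + 1 + 2 * κ) * (1 / 2) ^ ((k + 1) * a) *
          (2 ^ (2 * a) * (1 / 2) ^ (2 * a + a)) := by ring
      _ ≤ 2 ^ w * (1 / 2) ^ ((k + 1) * a) * 1 := by
          have e7 : (2 : ℝ) ^ (2 * a) * (1 / 2) ^ (2 * a + a) ≤ 1 := by
            rw [pow_add, ← mul_assoc, ← mul_pow]
            norm_num
            exact pow_le_one₀ (by norm_num) (by norm_num)
          have e8 : (2 : ℝ) ^ (3 * k + 1 + 2 * κ) ≤ 2 ^ w :=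
            pow_le_pow_right₀ (by norm_num) (by omega)
          gcongr
      _ = _ := by ring
  have h5 : |cS o π ω i0 j0| ≤ 2 ^ (k + 3) * (2 ^ w * (1 / 2) ^ ((k + 1) * a)) := by
    refine h3.trans ?_
    have : (2 : ℝ) ^ (k + 2) * (2 ^ w * (1 / 2) ^ ((k + 1) * a)) + 2 ^ (k + 2) *
        (2 ^ w * (1 / 2) ^ ((k + 1) * a)) = 2 ^ (k + 3) * (2 ^ w * (1 / 2) ^ ((k + 1) * a)) := by
      ring
    rw [← this]
    gcongr
  by_contra hcon
  rw [not_le] at hcon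
  have h6 : (2 : ℝ) ^ (β + w) * |cS o π ω i0 j0| ≤ 1 := by
    calc (2 : ℝ) ^ (β + w) * |cS o π ω i0 j0|
        ≤ 2 ^ (β + w) * (2 ^ (k + 3) * (2 ^ w * (1 / 2) ^ ((k + 1) * a))) := by gcongr
      _ = 2 ^ (β + w + (k + 3) + w) * (1 / 2) ^ ((k + 1) * a) := by ring
      _ ≤ 2 ^ ((k + 1) * a) * (1 / 2) ^ ((k + 1) * a) := by
          have : (2 : ℝ) ^ (β + w + (k + 3) + w) ≤ 2 ^ ((k + 1) * a) :=
            pow_le_pow_right₀ (by norm_num) (by omega)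
          gcongr
      _ = 1 := by
          rw [← mul_pow]
          norm_num
  linarith

theorem cc_cE (n : ℕ) (c : Cf Ω m) (o : Ob Ω m κ) (π : CI k → Ω' → Ω) (ω : Ω') (i j : Fin m) :
    cE c o (cB n c o π ω) i j = cS o π ω i j := by
  unfold cE cS cB TT
  simp only [o.Gh_G]

theorem cc_kill_mi {a : ℕ} {K cost : ℝ} {P : Law Ω} {c : Cf Ω m} {o : Ob Ω m κ} {Q : Law Ω'}
    {π : CI k → Ω' → Ω} (hf : CubeFam a k K cost P c o Q π) (r : ℕ) :
    mi Q (fun ω => (c.x (π (vb k) ω), c.y (π (vb k) ω))) (TT c o π)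
      (fun ω => (c.t (π (vb k) ω), c.A (π (vb k) ω), fl r (c.x (π (vb k) ω)),
        fl r (c.y (π (vb k) ω)))) ≤ cost := by
  refine le_trans ?_ hf.cost
  set l : Ω' → (Fin m → ℝ) × (Fin m → ℝ) := fun ω => (c.x (π (vb k) ω), c.y (π (vb k) ω)) with hl
  set A : Ω' → c.α := fun ω => c.A (π (vb k) ω) with hA
  -- move the digits of the line
  have h1 : mi Q l (TT c o π) (fun ω => ((fl r (c.x (π (vb k) ω)), fl r (c.y (π (vb k) ω))), A ω)) ≤
      mi Q l (TT c o π) A := by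
    refine mi_cond_le Q (TT c o π) A ?_
    intro ω ω' _ _ h
    simp only [hl, Prod.mk.injEq] at h
    simp only [h.1.1, h.1.2]
  -- move the time
  have h2 : mi Q (TT c o π) l (fun ω => (c.t (π (vb k) ω),
      ((fl r (c.x (π (vb k) ω)), fl r (c.y (π (vb k) ω))), A ω))) ≤
      mi Q (TT c o π) l (fun ω => ((fl r (c.x (π (vb k) ω)), fl r (c.y (π (vb k) ω))), A ω)) := by
    refine mi_cond_le Q l _ ?_
    intro ω ω' _ _ h
    simp only [Prod.mk.injEq] at h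
    have := congrFun h.1 (vb k)
    unfold TT at this
    simp only [Prod.mk.injEq] at this
    exact this.1
  have h3 : mi Q l (TT c o π) (fun ω => (c.t (π (vb k) ω), c.A (π (vb k) ω),
      fl r (c.x (π (vb k) ω)), fl r (c.y (π (vb k) ω)))) =
      mi Q l (TT c o π) (fun ω => (c.t (π (vb k) ω),
      ((fl r (c.x (π (vb k) ω)), fl r (c.y (π (vb k) ω))), A ω))) := by
    refine mi_congr_cond Q l _ ?_ ?_
    · intro ω ω' _ _ h
      simp only [hA, Prod.mk.injEq] at h ⊢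
      exact ⟨h.1, h.2.2, h.2.1⟩
    · intro ω ω' _ _ h
      simp only [hA, Prod.mk.injEq] at h ⊢
      exact ⟨h.1, h.2.2, h.2.1⟩
  rw [h3, mi_symm Q l]
  refine h2.trans ?_
  rw [mi_symm Q (TT c o π) l]
  exact h1

theorem cc_kill_hc {a n N r : ℕ} {K cost : ℝ} {P : Law Ω} {c : Cf Ω m} {o : Ob Ω m κ}
    {Q : Law Ω'} {π : CI k → Ω' → Ω} (hf : CubeFam a k K cost P c o Q π)
    (h01 : ∀ ω, 0 ≤ c.t ω ∧ c.t ω < 1) (hnr : n ≤ r) (hrN : r ≤ N) (i0 j0 : Fin m)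
    (hi0 : i0 ∉ o.J) (hj0 : j0 ∈ o.J)
    (hmax : ∀ ω, 0 < Q.w ω → ∀ i, i ∉ o.J → |cS o π ω i j0| ≤ |cS o π ω i0 j0|) :
    hc Q (fun ω => fl N (fun i => cF c o π ∅ ω i - cF c o π ∅ ω i0 *
        (if i ∈ o.J then 0 else cS o π ω i j0 / cS o π ω i0 j0)))
      (fun ω => (fl r (c.x (π (vb k) ω)), fl r (c.y (π (vb k) ω)), c.t (π (vb k) ω), TT c o π ω,
        c.A (π (vb k) ω))) ≤
    hc Q (fun ω => fl N (fun i => (cX N c o π ∅ ω i : ℝ) / 2 ^ N - (cX N c o π ∅ ω i0 : ℝ) / 2 ^ N *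
        (if i ∈ o.J then 0 else cE c o (cB n c o π ω) i j0 / cE c o (cB n c o π ω) i0 j0)))
      (fun ω => (fl r (fun i => (cX N c o π ∅ ω i : ℝ) / 2 ^ N), cq n c π ω, cB n c o π ω)) +
      (m * Real.log 7 + (2 ^ (k + 2) + 1) * (m * Real.log (2 * (2 * (1 + κ * 3 ^ κ)) + 3))) := by
  classical
  set Cond := (fun ω => (fl r (c.x (π (vb k) ω)), fl r (c.y (π (vb k) ω)), c.t (π (vb k) ω),
    TT c o π ω, c.A (π (vb k) ω))) with hCond
  set v : Ω' → Fin m → ℝ := fun ω i => if i ∈ o.J then 0 else cS o π ω i j0 / cS o π ω i0 j0 with hv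
  set V1 : Ω' → Fin m → ℝ := fun ω i => cF c o π ∅ ω i - cF c o π ∅ ω i0 * v ω i with hV1
  set V2 : Ω' → Fin m → ℝ := fun ω i => (cX N c o π ∅ ω i : ℝ) / 2 ^ N -
    (cX N c o π ∅ ω i0 : ℝ) / 2 ^ N * v ω i with hV2
  have hvE : ∀ ω i, (if i ∈ o.J then (0 : ℝ) else cE c o (cB n c o π ω) i j0 /
      cE c o (cB n c o π ω) i0 j0) = v ω i := by
    intro ω i
    simp only [hv, cc_cE]
  simp only [hvE]
  change hc Q (fun ω => fl N (V1 ω)) Cond ≤ hc Q (fun ω => fl N (V2 ω)) _ + _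
  have hv1 : ∀ ω, 0 < Q.w ω → ∀ i, |v ω i| ≤ 1 := by
    intro ω hω i
    simp only [hv]
    split_ifs with hi
    · simp
    · rw [abs_div]
      exact div_le_one_of_le₀ (hmax ω hω i hi) (abs_nonneg _)
  -- (1) replace `V1` by `V2`
  have hclose : ∀ ω, 0 < Q.w ω → ∀ i, |V1 ω i - V2 ω i| ≤ ((2 : ℕ) : ℝ) * (1 / 2 : ℝ) ^ N := by
    intro ω hω i
    have e1 : V1 ω i - V2 ω i = (cF c o π ∅ ω i - (cX N c o π ∅ ω i : ℝ) / 2 ^ N) -
        (cF c o π ∅ ω i0 - (cX N c o π ∅ ω i0 : ℝ) / 2 ^ N) * v ω i := by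
      simp only [hV1, hV2]
      ring
    have h1 := cc_fl_dist N (cF c o π ∅ ω) i
    have h2 := cc_fl_dist N (cF c o π ∅ ω) i0
    rw [e1]
    refine (abs_sub _ _).trans ?_
    rw [abs_mul]
    have h3 := hv1 ω hω i
    have h4 := abs_nonneg (cF c o π ∅ ω i0 - (cX N c o π ∅ ω i0 : ℝ) / 2 ^ N)
    have h5 : |cF c o π ∅ ω i - (cX N c o π ∅ ω i : ℝ) / 2 ^ N| ≤ (1 / 2 : ℝ) ^ N := h1
    have h6 : |cF c o π ∅ ω i0 - (cX N c o π ∅ ω i0 : ℝ) / 2 ^ N| ≤ (1 / 2 : ℝ) ^ N := h2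
    push_cast
    nlinarith [abs_nonneg (v ω i)]
  have s1 : hc Q (fun ω => fl N (V1 ω)) Cond ≤ hc Q (fun ω => fl N (V2 ω)) Cond +
      m * Real.log 7 := by
    have h1 := hc_le_add Q (fun ω => fl N (V1 ω)) (fun ω => fl N (V2 ω)) Cond
    have h2 := hc_fl_close Q (s := N) 2 V1 V2 Cond hclose
    rw [Fintype.card_fin] at h2
    have e : ((2 : ℝ) * ((2 : ℕ) : ℝ) + 3) = 7 := by norm_num
    rw [e] at h2
    linarith
  -- (2) the condition
  set R : Ω' → (Fin m → ℤ) × (Finset (Fin (k + 2)) → Fin m → ℤ) := fun ω =>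
    (fl r (cF c o π ∅ ω), fun S => fl n (cF c o π S ω)) with hR
  have s2 : hc Q (fun ω => fl N (V2 ω)) Cond ≤
      hc Q (fun ω => fl N (V2 ω)) (fun ω => (R ω, Cond ω)) + hc Q R Cond :=
    hc_le_add' Q _ R Cond
  have s3 : hc Q (fun ω => fl N (V2 ω)) (fun ω => (R ω, Cond ω)) ≤
      hc Q (fun ω => fl N (V2 ω))
      (fun ω => (fl r (fun i => (cX N c o π ∅ ω i : ℝ) / 2 ^ N), cq n c π ω, cB n c o π ω)) := by
    refine hc_mono_right Q _ ?_
    intro ω ω' _ _ h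
    simp only [hR, hCond, Prod.mk.injEq] at h
    obtain ⟨⟨h1, h2⟩, h3, h4, h5, h6, h7⟩ := h
    simp only [Prod.mk.injEq]
    refine ⟨?_, ?_, ?_⟩
    · -- digits of the digits
      have key : ∀ ω, fl r (fun i => (cX N c o π ∅ ω i : ℝ) / 2 ^ N) = fl r (cF c o π ∅ ω) := by
        intro ω
        refine fl_of_fl hrN _ _ ?_
        exact cc_fl_div N (cX N c o π ∅ ω)
      rw [key, key]
      exact h1
    · unfold cq
      rw [fl_of_fl hnr _ _ h3, fl_of_fl hnr _ _ h4]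
    · unfold cB
      simp only [Prod.mk.injEq]
      exact ⟨h6, h7, h2⟩
  have s4 : hc Q R Cond ≤
      (2 ^ (k + 2) + 1) * (m * Real.log (2 * (2 * (1 + κ * 3 ^ κ)) + 3)) := by
    set Λ : ℝ := m * Real.log (2 * (2 * (1 + κ * 3 ^ κ)) + 3) with hΛ
    have hΛ0 : 0 ≤ Λ := by
      rw [hΛ]
      have : 0 ≤ Real.log (2 * (2 * (1 + κ * 3 ^ κ)) + 3) := by
        refine Real.log_nonneg ?_
        have : (0 : ℝ) ≤ κ * 3 ^ κ := by positivity
        linarith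
      positivity
    have hS : ∀ S, ∀ s ≤ r, ∀ {T : Type} (Z : Ω' → T), hc Q (fun ω => fl s (cF c o π S ω))
        (fun ω => (Z ω, Cond ω)) ≤ Λ := by
      intro S s hs T Z
      refine le_trans ?_ (cc_flF hf h01 S s Z)
      refine hc_mono_right Q _ ?_
      intro ω ω' _ _ h
      simp only [hCond, Prod.mk.injEq] at h ⊢
      obtain ⟨h1, h3, h4, h5, h6, h7⟩ := h
      exact ⟨fl_of_fl hs _ _ h3, fl_of_fl hs _ _ h4, h6, h1⟩
    -- the family of the digits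
    have hfam : ∀ (F : Finset (Finset (Fin (k + 2)))), hc Q
        (fun ω => (fun S : {S // S ∈ F} => fl n (cF c o π S ω)))
        (fun ω => (fl r (cF c o π ∅ ω), Cond ω)) ≤ F.card * Λ := by
      intro F
      induction F using Finset.induction_on with
      | empty =>
        rw [hc_zero Q]
        · simp
        · intro ω ω' _ _ _
          funext S
          exact absurd S.2 (Finset.notMem_empty _)
      | insert S F hSF ih =>
        have h1 : hc Q (fun ω => (fun S' : {S' // S' ∈ insert S F} => fl n (cF c o π S' ω)))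
            (fun ω => (fl r (cF c o π ∅ ω), Cond ω)) ≤
            hc Q (fun ω => ((fun S' : {S' // S' ∈ F} => fl n (cF c o π S' ω)),
              fl n (cF c o π S ω))) (fun ω => (fl r (cF c o π ∅ ω), Cond ω)) := by
          refine hc_mono_left Q ?_
          intro ω ω' _ _ h
          simp only [Prod.mk.injEq] at h
          obtain ⟨⟨h1, h2⟩, _⟩ := h
          funext S'
          rcases Finset.mem_insert.1 S'.2 with h3 | h3
          · have : (S' : Finset (Fin (k + 2))) = S := h3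
            simp only [this]
            exact h2
          · exact congrFun h1 ⟨S'.1, h3⟩
        refine h1.trans ?_
        rw [hc_pair]
        have h2 := hS S n hnr (fun ω => ((fun S' : {S' // S' ∈ F} => fl n (cF c o π S' ω)),
          fl r (cF c o π ∅ ω)))
        have h3 : hc Q (fun ω => fl n (cF c o π S ω))
            (fun ω => ((fun S' : {S' // S' ∈ F} => fl n (cF c o π S' ω)),
              fl r (cF c o π ∅ ω), Cond ω)) ≤ Λ := by
          refine le_trans (le_of_eq ?_) h2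
          refine hc_congr Q ?_ ?_ ?_ ?_
          · intro ω ω' _ _ h; exact (Prod.mk.inj h).1
          · intro ω ω' _ _ h; exact (Prod.mk.inj h).1
          · intro ω ω' _ _ h
            simp only [Prod.mk.injEq] at h ⊢
            exact ⟨h.1.1, h.1.2, h.2⟩
          · intro ω ω' _ _ h
            simp only [Prod.mk.injEq] at h ⊢
            exact ⟨⟨h.1, h.2.1⟩, h.2.2⟩
        rw [Finset.card_insert_of_notMem hSF]
        push_cast
        linarith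
    have h1 := hc_pair Q (fun ω => fl r (cF c o π ∅ ω)) (fun ω => fun S => fl n (cF c o π S ω)) Cond
    have h2 : hc Q (fun ω => fl r (cF c o π ∅ ω)) Cond ≤ Λ := by
      have h3 := hS ∅ r le_rfl (fun _ => ())
      refine le_trans (le_of_eq ?_) h3
      refine hc_congr Q ?_ ?_ ?_ ?_
      · intro ω ω' _ _ h; exact (Prod.mk.inj h).1
      · intro ω ω' _ _ h; exact (Prod.mk.inj h).1
      · intro ω ω' _ _ h; exact (Prod.mk.inj h).2
      · intro ω ω' _ _ h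
        simp only [Prod.mk.injEq, true_and]
        exact h
    have h3 : hc Q (fun ω => fun S => fl n (cF c o π S ω))
        (fun ω => (fl r (cF c o π ∅ ω), Cond ω)) ≤ 2 ^ (k + 2) * Λ := by
      have h4 := hfam Finset.univ
      rw [Finset.card_univ, Fintype.card_finset, Fintype.card_fin] at h4
      push_cast at h4
      refine le_trans ?_ h4
      refine hc_mono_left Q ?_
      intro ω ω' _ _ h
      simp only [Prod.mk.injEq] at h
      funext S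
      exact congrFun h.1 ⟨S, Finset.mem_univ S⟩
    have h5 : hc Q R Cond = hc Q (fun ω => (fl r (cF c o π ∅ ω), fun S => fl n (cF c o π S ω)))
      Cond := rfl
    rw [h5, h1]
    linarith
  linarith

/-- the number of digits is large -/
theorem cc_big (R : Gr) (g : R.G) (X : ℝ) : ∃ n : ℕ, ∀ (L : ℕ) (e C : ℝ), R.ok g n L e C →
    X ≤ L := by
  obtain ⟨n, hn⟩ := R.small g (1 / (|X| + 1)) (by positivity)
  refine ⟨n, fun L e C h => ?_⟩
  have h1 := (hn L e C h).1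
  have h2 : 0 < |X| + 1 := by positivity
  rw [one_div, inv_mul_eq_div, le_div_iff₀ h2] at h1
  linarith [le_abs_self X]

theorem cc_hyp_mono {h : ℝ} {a : ℕ} {ι ι' εu εu' e C : ℝ} {P : Law Ω} {c : Cf Ω m}
    {o : Ob Ω m κ} (hH : Hyp h κ a ι εu e C P c o) (h1 : ι ≤ ι') (h2 : εu ≤ εu') :
    Hyp h κ a ι' εu' e C P c o := by
  refine ⟨hH.good, ?_, ?_, ?_⟩
  · refine hH.cost.trans ?_
    gcongr
  · refine hH.rate.trans ?_
    have h3 : (0 : ℝ) ≤ Real.log 2 := Real.log_nonneg (by norm_num)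
    have h4 : (0 : ℝ) ≤ ((κ + 4) * a : ℕ) := by positivity
    have h5 : (h - κ + ι) ≤ (h - κ + ι') := by linarith
    exact mul_le_mul_of_nonneg_right (mul_le_mul_of_nonneg_right h5 h4) h3
  · have := hH.unif
    linarith

theorem cc_pos (Q : Law Ω') : ∃ ω, 0 < Q.w ω := by
  by_contra hcon
  push Not at hcon
  have h1 : ∑ ω, Q.w ω ≤ 0 := Finset.sum_nonpos fun ω _ => hcon ω
  rw [Q.sum_one] at h1
  linarith

/-- the points of the cells -/
theorem cc_C01 {n : ℕ} {c : Cf Ω m} {o : Ob Ω m κ} {π : CI k → Ω' → Ω}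
    (hx : ∀ ω i, 0 ≤ c.x ω i ∧ c.x ω i < 1) (hy : ∀ ω i, 0 ≤ c.y ω i ∧ c.y ω i < 1)
    (h01 : ∀ ω, 0 ≤ c.t ω ∧ c.t ω < 1) (ω ω1 : Ω') (j : Fin m) :
    0 ≤ cC n c o (cB n c o π ω) (cq n c π ω1) j ∧
      cC n c o (cB n c o π ω) (cq n c π ω1) j ≤ 2 := by
  have h2 : (0 : ℝ) < 2 ^ n := by positivity
  have ht : (cB n c o π ω).1 (vb k) = (c.t (π (vb k) ω), o.G (π (vb k) ω)) := rfl
  have hd : ∀ v : ℝ, 0 ≤ v ∧ v < 1 → (0 : ℝ) ≤ (⌊(2 : ℝ) ^ n * v⌋ : ℝ) / 2 ^ n ∧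
      (⌊(2 : ℝ) ^ n * v⌋ : ℝ) / 2 ^ n ≤ 1 := by
    intro v hv
    have h3 : (0 : ℝ) ≤ (2 : ℝ) ^ n * v := mul_nonneg h2.le hv.1
    have h4 : (0 : ℤ) ≤ ⌊(2 : ℝ) ^ n * v⌋ := Int.floor_nonneg.mpr h3
    have h5 := Int.floor_le ((2 : ℝ) ^ n * v)
    refine ⟨div_nonneg (by exact_mod_cast h4) h2.le, ?_⟩
    rw [div_le_one h2]
    nlinarith [hv.2]
  have hX := hd _ (hx (π (vb k) ω1) j)
  have hY := hd _ (hy (π (vb k) ω1) j)
  have hT := h01 (π (vb k) ω)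
  have e1 : cC n c o (cB n c o π ω) (cq n c π ω1) j =
      (⌊(2 : ℝ) ^ n * c.x (π (vb k) ω1) j⌋ : ℝ) / 2 ^ n +
        c.t (π (vb k) ω) * ((⌊(2 : ℝ) ^ n * c.y (π (vb k) ω1) j⌋ : ℝ) / 2 ^ n) := rfl
  rw [e1]
  constructor
  · have := mul_nonneg hT.1 hY.1
    linarith [hX.1]
  · have := mul_le_mul hT.2.le hY.2 hY.1 (by norm_num)
    linarith [hX.2]

/-- absorption and displacement -/
theorem cc_disp {a n N β w : ℕ} {h K cost e1 e2 e3 : ℝ} {i0 j0 : Fin m} {P : Law Ω}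
    {c : Cf Ω m} {o : Ob Ω m κ} {Q : Law Ω'} {π : CI k → Ω' → Ω}
    (hf : CubeFam a k K cost P c o Q π)
    (hx : ∀ ω i, 0 ≤ c.x ω i ∧ c.x ω i < 1) (hy : ∀ ω i, 0 ≤ c.y ω i ∧ c.y ω i < 1)
    (h01 : ∀ ω, 0 ≤ c.t ω ∧ c.t ω < 1)
    (htyp : ∀ ω, 0 < Q.w ω → CTyp a w c o π ω ∧ CBin β w i0 j0 o π ω)
    (hnβ : n ≤ β) (hβN : β ≤ N) (he1 : 0 ≤ e1)
    (hN1 : N + w + 2 * k + 4 + 2 * κ ≤ (k + 2) * a)
    (hL1 : (k + 2) * a + k * w + 4 * k + 8 + 4 * κ ≤ (κ + 4) * a)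
    {Ω'' ζ : Type} [Fintype Ω''] {P' : Law Ω''} {Z : Ω'' → ζ} {π' π1 π2 : Ω'' → Ω'}
    (hA : AbsOut Q P' (cB n c o π) (cq n c π) (cX N c o π ∅) Z π' π1 π2 e1)
    (hmain : hc P' (fun ω i => cX N c o π ∅ (π' ω) i +
          ∑ S : Finset (Fin (k + 2)), (-1 : ℤ) ^ S.card *
            (cphi n N c o S (cB n c o π (π' ω)) (cq n c π (π2 ω)) i -
              cphi n N c o S (cB n c o π (π' ω)) (cq n c π (π1 ω)) i))
        (fun ω => (cq n c π (π' ω), cB n c o π (π' ω), Z ω)) ≤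
        (h - κ) * ((N : ℝ) - n) * Real.log 2 + e1)
    (H2 : (h - κ) * ((β : ℝ) - n) * Real.log 2 - e2 ≤
      hc Q (fun ω => fl β (fun i => (cX N c o π ∅ ω i : ℝ) / 2 ^ N))
        (fun ω => (cq n c π ω, cB n c o π ω)))
    (H3 : (κ : ℝ) * (N - β : ℕ) * Real.log 2 - e3 ≤
      hc Q (fun ω => fl (N - β) (fun j : {j // j ∈ o.J} =>
        cC n c o (cB n c o π ω) (cq n c π ω) j)) (fun ω => (cX N c o π ∅ ω, cB n c o π ω))) :
    hc Q (fun ω => fl N (fun i => (cX N c o π ∅ ω i : ℝ) / 2 ^ N -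
        (cX N c o π ∅ ω i0 : ℝ) / 2 ^ N *
        (if i ∈ o.J then 0 else cE c o (cB n c o π ω) i j0 / cE c o (cB n c o π ω) i0 j0)))
      (fun ω => (fl β (fun i => (cX N c o π ∅ ω i : ℝ) / 2 ^ N), cq n c π ω, cB n c o π ω)) ≤
      (h - κ - 1) * ((N : ℝ) - β) * Real.log 2 + 4 * e1 + e2 + e3 + w * Real.log 2 +
        (4 * m + 8) * Real.log (8 * m + 8 * (2 ^ (k + 3) : ℕ) + 8) := by
  classical
  obtain ⟨ω0, hω0⟩ := cc_pos Q
  have hi0 := (htyp ω0 hω0).2.i0J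
  have hj0 := (htyp ω0 hω0).2.j0J
  have hsupp : ∀ ω, 0 < P'.w ω → 0 < Q.w (π' ω) := by
    intro ω hω
    rw [← hA.law]
    unfold Law.pr
    exact lt_of_lt_of_le hω (Finset.single_le_sum (f := fun ω => P'.w ω)
      (fun ω _ => P'.nn ω) (Finset.mem_filter.mpr ⟨Finset.mem_univ _, rfl⟩))
  have hkey : ∀ ω, 0 < Q.w ω → ∀ i j, key c a (π i ω) = key c a (π j ω) := hf.keys
  have hdisp := disp hA o.J (fun b q j => cC n c o b q j) (fun b i j => cE c o b i j)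
    (fun ω i => ∑ S : Finset (Fin (k + 2)), (-1 : ℤ) ^ S.card *
            (cphi n N c o S (cB n c o π (π' ω)) (cq n c π (π2 ω)) i -
              cphi n N c o S (cB n c o π (π' ω)) (cq n c π (π1 ω)) i))
    i0 j0 hi0 hj0 (h - κ) e2 e3 n β N w (2 ^ (k + 3)) hnβ hβN he1
    (by
      intro ω hω
      have hb := (htyp ω hω).2
      simp only [cc_cE]
      exact ⟨fun i j hi hj => hb.le i j hi hj, hb.up, hb.lo⟩)
    (by
      intro ω hω
      have hq := hsupp ω hω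
      have hW := cW_formula a w n N ((κ + 4) * a) c o π (π' ω) (π1 ω) (π2 ω) hx hy h01
        (hkey _ hq) (hf.cube _ hq) (htyp _ hq).1 hN1 hL1
      refine ⟨fun i hi => ?_, fun i hi => (hW i).2 hi⟩
      have := (hW i).1 hi
      push_cast at this ⊢
      exact this)
    (by
      intro ω hω j hj
      have h1 := cc_C01 (n := n) (o := o) (π := π) hx hy h01 (π' ω) (π1 ω) j
      have h2 := cc_C01 (n := n) (o := o) (π := π) hx hy h01 (π' ω) (π2 ω) j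
      rw [abs_le]
      constructor <;> linarith [h1.1, h1.2, h2.1, h2.2])
    hmain H2
    (by
      rw [o.card]
      exact H3)
  refine hdisp.trans (le_of_eq ?_)
  push_cast
  ring

/-- the hypotheses of the absorption lemma -/
theorem cc_abs {a n N w : ℕ} {h K cost εr εA : ℝ} {i0 j0 : Fin m} {β : ℕ} {P : Law Ω}
    {c : Cf Ω m} {o : Ob Ω m κ} {Q : Law Ω'} {π : CI k → Ω' → Ω}
    (hf : CubeFam a k K cost P c o Q π)
    (hx : ∀ ω i, 0 ≤ c.x ω i ∧ c.x ω i < 1) (hy : ∀ ω i, 0 ≤ c.y ω i ∧ c.y ω i < 1)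
    (h01 : ∀ ω, 0 ≤ c.t ω ∧ c.t ω < 1)
    (htyp : ∀ ω, 0 < Q.w ω → CTyp a w c o π ω ∧ CBin β w i0 j0 o π ω)
    (hnN : n ≤ N) (hN : N + 2 * w ≤ n + a) (hw : 1 + 2 * κ + κ * 3 ^ κ ≤ 2 ^ w)
    (hε : 3 * εr * ((κ + 4) * a : ℕ) ≤ εA * (N - n : ℕ)) (hε0 : 0 ≤ εr)
    (hi : ∀ S, hc Q (cX N c o π S) (cB n c o π) ≤
      (h - κ) * ((N : ℝ) - n) * Real.log 2 + εr * ((κ + 4) * a : ℕ))
    (hii : ∀ r : ℕ, n ≤ r → r ≤ N → (h - κ) * ((r : ℝ) - n) * Real.log 2 -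
        3 * εr * ((κ + 4) * a : ℕ) ≤
      hc Q (fun ω => fl r (fun i => (cX N c o π ∅ ω i : ℝ) / 2 ^ N))
        (fun ω => (cq n c π ω, cB n c o π ω))) :
    (∀ (v : Finset (Fin (k + 2))) ω, 0 < Q.w ω → ∀ i, |cX N c o π v ω i - cX N c o π ∅ ω i -
      cphi n N c o v (cB n c o π ω) (cq n c π ω) i| ≤ (4 : ℕ)) ∧
    (∀ (v : Finset (Fin (k + 2))) ω ω', 0 < Q.w ω → 0 < Q.w ω' →
      cB n c o π ω = cB n c o π ω' → ∀ i, |cX N c o π v ω i - cX N c o π v ω' i| ≤ 2 ^ (N - n)) ∧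
    (∀ v, hc Q (cX N c o π v) (cB n c o π) ≤
      (h - κ) * ((N : ℝ) - n) * Real.log 2 + εA * (N - n : ℕ)) ∧
    (h - κ) * ((N : ℝ) - n) * Real.log 2 - εA * (N - n : ℕ) ≤
      hc Q (cX N c o π ∅) (fun ω => (cq n c π ω, cB n c o π ω)) := by
  refine ⟨?_, ?_, ?_, ?_⟩
  · intro v ω hω i
    exact cphi_noise a w n N c o π ω hx hy h01 (hf.keys ω hω) (htyp ω hω).1 hN hw v i
  · intro v ω ω' _ _ hB i
    have h1 : fl n (cF c o π v ω) = fl n (cF c o π v ω') := by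
      unfold cB at hB
      simp only [Prod.mk.injEq] at hB
      exact congrFun hB.2.2 v
    exact fl_digits hnN h1 i
  · intro v
    refine (hi v).trans ?_
    have h1 : εr * ((κ + 4) * a : ℕ) ≤ 3 * εr * ((κ + 4) * a : ℕ) := by
      have : 0 ≤ εr * ((κ + 4) * a : ℕ) := by positivity
      linarith
    linarith
  · have h1 := hii N hnN le_rfl
    simp only [cc_fl_div] at h1
    linarith

/-- the scales -/
structure CSc (κ k a w β n N θ0 : ℕ) : Prop where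
  nβ : n ≤ β
  βN : β ≤ N
  nN : n ≤ N
  NL : N ≤ (κ + 4) * a
  th : θ0 ≤ N - n
  Nβ : N - β ≤ n
  N2 : N + 2 * w ≤ n + a
  N1 : N + w + 2 * k + 4 + 2 * κ ≤ (k + 2) * a
  L1 : (k + 2) * a + k * w + 4 * k + 8 + 4 * κ ≤ (κ + 4) * a
  n3 : n + 3 * w = (k + 1) * a
  N6 : N + 6 * w = (k + 2) * a
  w4 : 12 * w ≤ a

theorem cc_sc {κ k a w β θ0 : ℕ} (hkκ : k ≤ κ) (hW : 20 * κ + 30 + θ0 ≤ w)
    (hwa : 12 * (κ + 1) * w ≤ a) (hβn : (k + 1) * a ≤ β + 3 * w)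
    (hβN : β + 6 * w ≤ (k + 2) * a) : ∃ n N, CSc κ k a w β n N θ0 := by
  have hwa' : 12 * w ≤ a := by
    refine le_trans ?_ hwa
    exact Nat.mul_le_mul_right w (by omega)
  have hkwa : k * w ≤ a := by
    refine le_trans ?_ hwa
    exact Nat.mul_le_mul_right w (by omega)
  have hka1 : (k + 1) * a = k * a + a := by ring
  have hka2 : (k + 2) * a = k * a + 2 * a := by ring
  have hκa : (κ + 4) * a = κ * a + 4 * a := by ring
  have hkκa : k * a ≤ κ * a := Nat.mul_le_mul_right a hkκ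
  refine ⟨(k + 1) * a - 3 * w, (k + 2) * a - 6 * w, ?_⟩
  constructor <;> omega

theorem CSc.thr {κ k a w β n N θ0 : ℕ} (h : CSc κ k a w β n N θ0) :
    3 / 4 * (a : ℝ) ≤ ((N - n : ℕ) : ℝ) ∧ ((N - n : ℕ) : ℝ) ≤ a := by
  have h1 : (k + 2) * a = (k + 1) * a + a := by ring
  have h2 : N - n + 3 * w = a := by
    have := h.n3
    have := h.N6
    have := h.nN
    omega
  have h3 : ((N - n : ℕ) : ℝ) + 3 * w = a := by exact_mod_cast h2
  have h4 : 12 * (w : ℝ) ≤ a := by exact_mod_cast h.w4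
  have : (0 : ℝ) ≤ w := Nat.cast_nonneg w
  constructor <;> linarith

/-- absorption, displacement, entropy of the projection along the direction -/
theorem cc_bound {a n N w β θ0 : ℕ} {h K cost εr εA ε' : ℝ} {i0 j0 : Fin m} {P : Law Ω}
    {c : Cf Ω m} {o : Ob Ω m κ} {Q : Law Ω'} {π : CI k → Ω' → Ω}
    (hf : CubeFam a k K cost P c o Q π) (hG : ∀ ω i, 0 ≤ c.x ω i ∧ c.x ω i < 1)
    (hy : ∀ ω i, 0 ≤ c.y ω i ∧ c.y ω i < 1) (h01 : ∀ ω, 0 ≤ c.t ω ∧ c.t ω < 1)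
    (htyp : ∀ ω, 0 < Q.w ω → CTyp a w c o π ω ∧ CBin β w i0 j0 o π ω)
    (hS : CSc κ k a w β n N θ0) (hwpow : 1 + 2 * κ + κ * 3 ^ κ ≤ 2 ^ w)
    (hr : ∀ S, Rates h ((κ + 4) * a) εr c o Q (π (Sum.inl S)))
    (hR : ∀ S, hc Q (fun ω => fl n (cF c o π S ω))
      (fun ω => (fl n (cF c o π ∅ ω), TT c o π ω, c.A (π (vb k) ω))) ≤
        εr * ((κ + 4) * a : ℕ))
    (hcost : cost ≤ εr * ((κ + 4) * a : ℕ))
    (hbig : 2 ^ (k + 3) * (m + 1) * Real.log (4 * 3 ^ κ * (κ + 1) + 10) ≤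
      εr * ((κ + 4) * a : ℕ))
    (hεr : 0 ≤ εr) (hεA : 0 < εA) (hε' : 0 ≤ ε') (hεrA : εr * (12 * (κ + 4)) ≤ εA)
    (hAbs : ∀ (Ω β γ : Type) [Fintype Ω] (P : Law Ω) (B : Ω → β) (q : Ω → γ)
      (X : Finset (Fin (k + 2)) → Ω → Fin m → ℤ)
      (φ : Finset (Fin (k + 2)) → β → γ → Fin m → ℤ) (b : Finset (Fin (k + 2)) → ℤ) (ρ : ℝ),
      (∀ v, b v = 1 ∨ b v = -1) →
      (∀ v ω, 0 < P.w ω → ∀ i, |X v ω i - X ∅ ω i - φ v (B ω) (q ω) i| ≤ (4 : ℕ)) →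
      (∀ v ω ω', 0 < P.w ω → 0 < P.w ω' → B ω = B ω' → ∀ i,
        |X v ω i - X v ω' i| ≤ 2 ^ (N - n)) →
      (∀ v, hc P (X v) B ≤ ρ + εA * (N - n : ℕ)) →
      ρ - εA * (N - n : ℕ) ≤ hc P (X ∅) (fun ω => (q ω, B ω)) →
      ∃ (Ω' ζ : Type) (_ : Fintype Ω') (P' : Law Ω') (Z : Ω' → ζ) (π π1 π2 : Ω' → Ω),
      (∀ ω, P'.pr π ω = P.w ω) ∧
      (∀ ω, 0 < P'.w ω → B (π1 ω) = B (π ω) ∧ B (π2 ω) = B (π ω) ∧
        X ∅ (π1 ω) = X ∅ (π2 ω)) ∧
      (∀ z ω, P'.pr (fun ω' => (Z ω', π1 ω')) (z, ω) = P'.pr (fun ω' => (Z ω', π ω')) (z, ω)) ∧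
      (∀ z ω, P'.pr (fun ω' => (Z ω', π2 ω')) (z, ω) = P'.pr (fun ω' => (Z ω', π ω')) (z, ω)) ∧
      mi P' π1 π2 (fun ω => (X ∅ (π1 ω), B (π ω), Z ω)) = 0 ∧
      mi P' π (fun ω => (π1 ω, π2 ω)) (fun ω => (B (π ω), Z ω)) = 0 ∧
      mi P' (fun ω => (q (π ω), X ∅ (π ω))) Z (fun ω => B (π ω)) ≤ ε' * (N - n : ℕ) ∧
      hc P' (fun ω i => X ∅ (π ω) i +
          ∑ v, b v * (φ v (B (π ω)) (q (π2 ω)) i - φ v (B (π ω)) (q (π1 ω)) i))
        (fun ω => (q (π ω), B (π ω), Z ω)) ≤ ρ + ε' * (N - n : ℕ)) :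
    hc Q (fun ω => fl N (fun i => cF c o π ∅ ω i - cF c o π ∅ ω i0 *
        (if i ∈ o.J then 0 else cS o π ω i j0 / cS o π ω i0 j0)))
      (fun ω => (fl β (c.x (π (vb k) ω)), fl β (c.y (π (vb k) ω)), c.t (π (vb k) ω), TT c o π ω,
        c.A (π (vb k) ω))) ≤
      (h - κ - 1) * ((N : ℝ) - β) * Real.log 2 + 4 * (ε' * (N - n : ℕ)) +
        3 * εr * ((κ + 4) * a : ℕ) + 2 ^ (k + 4) * εr * ((κ + 4) * a : ℕ) + w * Real.log 2 +
      ((4 * m + 8) * Real.log (8 * m + 8 * (2 ^ (k + 3) : ℕ) + 8) +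
      (m * Real.log 7 + (2 ^ (k + 2) + 1) * (m * Real.log (2 * (2 * (1 + κ * 3 ^ κ)) + 3)))) := by
  obtain ⟨hE1, hE2, hE3⟩ := cube_ent (n := n) (N := N) hf hG hy h01 hr hR hcost hS.nN
    hS.NL hbig
  have hεA3 : 3 * εr * ((κ + 4) * a : ℕ) ≤ εA * (N - n : ℕ) := by
    have h1 : 3 * εr * (((κ + 4) * a : ℕ) : ℝ) = (εr * (12 * (κ + 4))) * (a / 4) := by
      push_cast
      ring
    rw [h1]
    have h2 : (εr * (12 * (κ + 4))) * ((a : ℝ) / 4) ≤ εA * (a / 4) :=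
      mul_le_mul_of_nonneg_right hεrA (by positivity)
    have h3 : εA * ((a : ℝ) / 4) ≤ εA * (N - n : ℕ) := by
      refine mul_le_mul_of_nonneg_left ?_ hεA.le
      have := hS.thr.1
      have h4 : (0 : ℝ) ≤ a := Nat.cast_nonneg a
      linarith
    linarith
  obtain ⟨a1, a2, a3, a4⟩ := cc_abs (h := h) hf hG hy h01 htyp hS.nN hS.N2 hwpow hεA3 hεr
    hE1 hE2
  obtain ⟨Ω'', ζ, _, P', Z, π', π1, π2, b1, b2, b3, b4, b5, b6, b7, b8⟩ :=
    hAbs Ω' _ _ Q (cB n c o π) (cq n c π) (cX N c o π)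
      (fun S b q => cphi n N c o S b q) (fun S => (-1) ^ S.card)
      ((h - κ) * ((N : ℝ) - n) * Real.log 2)
      (fun S => neg_one_pow_eq_or ℤ S.card) a1 a2 a3 a4
  have hA : AbsOut Q P' (cB n c o π) (cq n c π) (cX N c o π ∅) Z π' π1 π2
      (ε' * (N - n : ℕ)) := ⟨b1, b2, b3, b4, b5, b6, b7⟩
  have hD := cc_disp (n := n) (N := N) (e2 := 3 * εr * ((κ + 4) * a : ℕ))
    (e3 := 2 ^ (k + 4) * εr * ((κ + 4) * a : ℕ)) hf hG hy h01 htyp hS.nβ hS.βN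
    (mul_nonneg hε' (Nat.cast_nonneg _))
    hS.N1 hS.L1 hA b8 (hE2 β hS.nβ hS.βN) (hE3 (N - β) hS.Nβ)
  obtain ⟨ω0, hω0⟩ := cc_pos Q
  have hi0 := (htyp ω0 hω0).2.i0J
  have hj0 := (htyp ω0 hω0).2.j0J
  have hKh := cc_kill_hc hf h01 hS.nβ hS.βN i0 j0 hi0 hj0
    (fun ω hω i hi => (htyp ω hω).2.le i j0 hi hj0)
  linarith

/-- the killing lemma for the family -/
theorem cc_kill {a N w β : ℕ} {h K cost η δ : ℝ} {i0 j0 : Fin m} {P : Law Ω}
    {c : Cf Ω m} {o : Ob Ω m κ} {Q : Law Ω'} {π : CI k → Ω' → Ω}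
    (hf : CubeFam a k K cost P c o Q π) {L : ℕ} {e C : ℝ} (hG : Good P c L e C)
    (htyp : ∀ ω, 0 < Q.w ω → CTyp a w c o π ω ∧ CBin β w i0 j0 o π ω)
    (hβN : β ≤ N) (hNL : N ≤ L) (hηL : η * L ≤ (N : ℝ) - β) (hcost : cost ≤ δ * L)
    (hKill : ∀ (Ω Ω' D : Type) [Fintype Ω] [Fintype Ω'] (P : Law Ω) (c : Cf Ω m) (o : Ob Ω m κ)
      (Q : Law Ω') (π : Ω' → Ω) (Dt : Ω' → D) (r r' : ℕ) (i0 : Fin m) (v : Ω' → Fin m → ℝ),
      Good P c L e C → Dom Q π P K → r ≤ r' → r' ≤ L → η * L ≤ (r' : ℝ) - r →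
      i0 ∉ o.J → Fn Q (fun ω => o.Γ (π ω)) Dt → Fn Q v Dt →
      (∀ ω, 0 < Q.w ω → v ω i0 = 1 ∧ (∀ i, |v ω i| ≤ 1) ∧ ∀ j ∈ o.J, v ω j = 0) →
      mi Q (fun ω => (c.x (π ω), c.y (π ω))) Dt
        (fun ω => (c.t (π ω), c.A (π ω), fl r (c.x (π ω)), fl r (c.y (π ω)))) ≤ δ * L →
      hc Q (fun ω => fl r' (fun i => o.F c (π ω) i - o.F c (π ω) i0 * v ω i))
        (fun ω => (fl r (c.x (π ω)), fl r (c.y (π ω)), c.t (π ω), Dt ω, c.A (π ω))) ≤
        (h - κ - 1) * ((r' : ℝ) - r) * Real.log 2 + δ * L → False)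
    (hb : hc Q (fun ω => fl N (fun i => cF c o π ∅ ω i - cF c o π ∅ ω i0 *
        (if i ∈ o.J then 0 else cS o π ω i j0 / cS o π ω i0 j0)))
      (fun ω => (fl β (c.x (π (vb k) ω)), fl β (c.y (π (vb k) ω)), c.t (π (vb k) ω), TT c o π ω,
        c.A (π (vb k) ω))) ≤ (h - κ - 1) * ((N : ℝ) - β) * Real.log 2 + δ * L) : False := by
  obtain ⟨ω0, hω0⟩ := cc_pos Q
  have hi0 := (htyp ω0 hω0).2.i0J
  have hj0 := (htyp ω0 hω0).2.j0J
  refine hKill Ω Ω' _ P c o Q (π (vb k)) (TT c o π) β N i0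
    (fun ω i => if i ∈ o.J then 0 else cS o π ω i j0 / cS o π ω i0 j0) hG (hf.dom _) hβN
    hNL hηL hi0 ?_ ?_ ?_ ((cc_kill_mi hf β).trans hcost) hb
  · intro ω ω' _ _ hT
    have h1 := congrFun hT (vb k)
    unfold TT at h1
    simp only [Prod.mk.injEq] at h1
    exact o.fn _ _ h1.2
  · intro ω ω' _ _ hT
    have h1 : ∀ i j, cS o π ω i j = cS o π ω' i j := by
      intro i j
      unfold cS
      refine Finset.sum_congr rfl fun S _ => ?_
      have h2 := congrFun hT (Sum.inl S)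
      unfold TT at h2
      simp only [Prod.mk.injEq] at h2
      rw [o.fn _ _ h2.2]
    funext i
    simp only [h1]
  · intro ω hω
    have hb := (htyp ω hω).2
    have hne : cS o π ω i0 j0 ≠ 0 := by
      intro h0
      have := hb.lo
      rw [h0] at this
      simp at this
      linarith
    refine ⟨?_, fun i => ?_, fun j hj => ?_⟩
    · simp only [if_neg hi0, div_self hne]
    · split_ifs with hi
      · simp
      · rw [abs_div]
        exact div_le_one_of_le₀ (hb.le i j0 hi hj0) (abs_nonneg _)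
    · simp only [if_pos hj]

end aux

/-- the errors are small -/
theorem cc_err {δ εr g L θ w B2 : ℝ} {k : ℕ} (hδ : 0 < δ) (hεr : 0 < εr)
    (hεrδ : εr * (16 * 2 ^ (k + 4)) ≤ δ) (hgδ : g ≤ δ / 8) (hw2 : w ≤ g * L) (hw0 : 0 ≤ w)
    (hL0 : 0 ≤ L) (hθ : θ ≤ L) (hB2 : B2 ≤ δ / 2 * L) (X : ℝ) :
    X + 4 * (δ / 32 * θ) + 3 * εr * L + 2 ^ (k + 4) * εr * L + w * Real.log 2 + B2 ≤
      X + δ * L := by
  have hlog : Real.log 2 ≤ 1 := by
    have := Real.log_two_lt_d9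
    linarith
  have hlog0 : 0 ≤ Real.log 2 := Real.log_nonneg (by norm_num)
  have c1 : 4 * (δ / 32 * θ) ≤ δ / 8 * L := by
    have : δ / 8 * θ ≤ δ / 8 * L := mul_le_mul_of_nonneg_left hθ (by positivity)
    linarith
  have c2 : 3 * εr * L ≤ δ / 16 * L := by
    have h2 : 3 * εr ≤ δ / 16 := by
      have h3 : (16 : ℝ) ≤ 2 ^ (k + 4) := by
        calc (16 : ℝ) = 2 ^ 4 := by norm_num
          _ ≤ 2 ^ (k + 4) := pow_le_pow_right₀ (by norm_num) (by omega)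
      have h4 : εr * (16 * 16) ≤ εr * (16 * 2 ^ (k + 4)) :=
        mul_le_mul_of_nonneg_left (by linarith) hεr.le
      linarith
    exact mul_le_mul_of_nonneg_right h2 hL0
  have c3 : 2 ^ (k + 4) * εr * L ≤ δ / 16 * L := by
    have h2 : 2 ^ (k + 4) * εr ≤ δ / 16 := by linarith
    exact mul_le_mul_of_nonneg_right h2 hL0
  have c4 : w * Real.log 2 ≤ δ / 8 * L := by
    have h1 : w * Real.log 2 ≤ w * 1 := mul_le_mul_of_nonneg_left hlog hw0
    have h2 : g * L ≤ δ / 8 * L := mul_le_mul_of_nonneg_right hgδ hL0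
    linarith
  have hδL : 0 ≤ δ * L := by positivity
  linarith

theorem pccore (R : Gr) (habs : AbsB.PAbsV) (hkill : PKill R) (hrates : PRates R) :
    PCCore R := by
  intro m h κ k hkκ hLB hNK hRK η hη
  obtain ⟨δ, hδ, hKill⟩ := hkill m h κ hNK η hη
  have hκ0 : (0 : ℝ) ≤ κ := Nat.cast_nonneg κ
  refine ⟨min (δ / 8) (1 / (12 * (κ + 4) * (κ + 1))), by positivity, fun g hg hg0 K => ?_⟩
  have hgδ : g ≤ δ / 8 := hg0.trans (min_le_left _ _)
  have hgκ : g ≤ 1 / (12 * (κ + 4) * (κ + 1)) := hg0.trans (min_le_right _ _)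
  -- absorption
  obtain ⟨εA, hεA, θ0, hAbs⟩ := habs m 4 (Finset (Fin (k + 2))) ∅ (δ / 32) (by positivity)
  obtain ⟨εr, hεr, hεrA, hεrδ⟩ : ∃ εr : ℝ, 0 < εr ∧ εr * (12 * (κ + 4)) ≤ εA ∧
      εr * (16 * 2 ^ (k + 4)) ≤ δ := by
    refine ⟨min (εA / (12 * (κ + 4))) (δ / (16 * 2 ^ (k + 4))), by positivity, ?_, ?_⟩
    · rw [← le_div_iff₀ (by positivity)]
      exact min_le_left _ _
    · rw [← le_div_iff₀ (by positivity)]
      exact min_le_right _ _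
  -- rates
  obtain ⟨ιr, hιr, hRates⟩ := hrates m h κ hLB εr K hεr
  -- determinism
  obtain ⟨εR, hεR, hεRg, hεRK⟩ : ∃ εR : ℝ, 0 < εR ∧ εR ≤ g ∧ |K| * εR ≤ εr := by
    refine ⟨min g (εr / (|K| + 1)), by positivity, min_le_left _ _, ?_⟩
    have h1 : min g (εr / (|K| + 1)) ≤ εr / (|K| + 1) := min_le_right _ _
    have h2 : |K| * (εr / (|K| + 1)) ≤ εr := by
      rw [mul_div_assoc', div_le_iff₀ (by positivity)]
      have := abs_nonneg K
      nlinarith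
    exact (mul_le_mul_of_nonneg_left h1 (abs_nonneg K)).trans h2
  obtain ⟨ιR, hιR, εu, hεu, hRK'⟩ := hRK εR hεR
  refine ⟨εr, hεr, min ιr ιR, by positivity, εu, hεu, fun gr => ?_⟩
  obtain ⟨n1, hn1⟩ := hRates gr
  obtain ⟨n2, hn2⟩ := hRK' gr
  obtain ⟨n3, hn3⟩ := hKill K gr
  -- large constants
  obtain ⟨n4, hn4⟩ := cc_big R gr
    (((1 + 2 * κ + κ * 3 ^ κ + (20 * κ + 30 + θ0) : ℕ) : ℝ) / (g / 2))
  obtain ⟨n5, hn5⟩ := cc_big R gr
    ((2 ^ (k + 3) * (m + 1) * Real.log (4 * 3 ^ κ * (κ + 1) + 10)) / εr)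
  obtain ⟨n6, hn6⟩ := cc_big R gr
    (((4 * m + 8) * Real.log (8 * m + 8 * (2 ^ (k + 3) : ℕ) + 8) +
    (m * Real.log 7 + (2 ^ (k + 2) + 1) * (m * Real.log (2 * (2 * (1 + κ * 3 ^ κ)) + 3)))) /
      (δ / 2))
  refine ⟨max (max n1 n2) (max (max n3 n4) (max n5 n6)), fun a e C hok => ?_⟩
  have ok1 := R.anti gr n1 _ _ e C (by omega) hok
  have ok2 := R.anti gr n2 _ _ e C (by omega) hok
  have ok3 := R.anti gr n3 _ _ e C (by omega) hok
  have hb4 := hn4 _ e C (R.anti gr n4 _ _ e C (by omega) hok)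
  have hb5 := hn5 _ e C (R.anti gr n5 _ _ e C (by omega) hok)
  have hb6 := hn6 _ e C (R.anti gr n6 _ _ e C (by omega) hok)
  intro Ω Ω' _ _ P c o Q π w β i0 j0 hH hf hw1 hw2 htyp hβ
  have hLr : (((κ + 4) * a : ℕ) : ℝ) = (κ + 4) * a := by push_cast; ring
  have hL0 : (0 : ℝ) ≤ (((κ + 4) * a : ℕ) : ℝ) := Nat.cast_nonneg _
  rw [div_le_iff₀ (by positivity)] at hb4
  rw [div_le_iff₀ hεr] at hb5
  rw [div_le_iff₀ (by positivity)] at hb6
  -- size of `w`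
  have hwW : 1 + 2 * κ + κ * 3 ^ κ + (20 * κ + 30 + θ0) ≤ w := by
    have : ((1 + 2 * κ + κ * 3 ^ κ + (20 * κ + 30 + θ0) : ℕ) : ℝ) ≤ w := by linarith
    exact_mod_cast this
  have hwa : 12 * (κ + 1) * w ≤ a := by
    have h1 : (w : ℝ) ≤ 1 / (12 * (κ + 4) * (κ + 1)) * (((κ + 4) * a : ℕ) : ℝ) :=
      hw2.trans (mul_le_mul_of_nonneg_right hgκ hL0)
    rw [hLr, one_div, inv_mul_eq_div, le_div_iff₀ (by positivity)] at h1
    have h2 : (κ + 4 : ℝ) * (12 * (κ + 1) * w) ≤ (κ + 4) * a := by linarith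
    have h3 := le_of_mul_le_mul_left h2 (by positivity)
    exact_mod_cast h3
  have hkwa : k * w ≤ a := by
    refine le_trans ?_ hwa
    exact Nat.mul_le_mul_right w (by omega)
  have h01 := hH.good.t01
  obtain ⟨ω0, hω0⟩ := cc_pos Q
  -- scales
  have hβn : (k + 1) * a ≤ β + 3 * w :=
    cc_beta h01 (hf.keys ω0 hω0) (hf.cube ω0 hω0) (htyp ω0 hω0).1 (htyp ω0 hω0).2 hkκ
      (by omega) hkwa
  have hηL : 0 ≤ η * (((κ + 4) * a : ℕ) : ℝ) := mul_nonneg hη.le hL0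
  have hβN : β + 6 * w ≤ (k + 2) * a := by
    have hβ' : (β : ℝ) + 6 * w ≤ (k + 2) * a := by linarith
    exact_mod_cast hβ'
  obtain ⟨n, N, hS⟩ := cc_sc (θ0 := θ0) hkκ (by omega) hwa hβn hβN
  have hHr := cc_hyp_mono hH (min_le_left ιr ιR) le_rfl
  have hr : ∀ S, Rates h ((κ + 4) * a) εr c o Q (π (Sum.inl S)) := fun S =>
    hn1 _ e C ok1 Ω Ω' P c o Q _ hHr.good hHr.cost hHr.rate (hf.dom _)
  have hR : ∀ S, hc Q (fun ω => fl n (cF c o π S ω))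
      (fun ω => (fl n (cF c o π ∅ ω), TT c o π ω, c.A (π (vb k) ω))) ≤
        εr * ((κ + 4) * a : ℕ) := by
    intro S
    have h1 := hn2 a e C ok2 Ω P c o (cc_hyp_mono hH (min_le_right ιr ιR) le_rfl)
    have h3 : εR * (((κ + 4) * a : ℕ) : ℝ) ≤ g * (((κ + 4) * a : ℕ) : ℝ) :=
      mul_le_mul_of_nonneg_right hεRg hL0
    have h4 : (n : ℝ) + 3 * w = (k + 1) * a := by exact_mod_cast hS.n3
    have h6 : (0 : ℝ) ≤ w := Nat.cast_nonneg w
    have h7 : (n : ℝ) + εR * (((κ + 4) * a : ℕ) : ℝ) ≤ ((k + 1 : ℕ) : ℝ) * a := by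
      push_cast at h3 hw1 ⊢
      linarith
    have h2 := cc_hR (n := n) (x := εR * (((κ + 4) * a : ℕ) : ℝ)) hf
      (fun Q2 hQ2 => h1 Q2 hQ2 n h7) S
    refine h2.trans ?_
    have h5 : K * εR ≤ εr := (mul_le_mul_of_nonneg_right (le_abs_self K) hεR.le).trans hεRK
    have h8 := mul_le_mul_of_nonneg_right h5 hL0
    rw [mul_assoc] at h8
    exact h8
  have hwpow : 1 + 2 * κ + κ * 3 ^ κ ≤ 2 ^ w := by
    have : w < 2 ^ w := Nat.lt_two_pow_self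
    omega
  have hB := cc_bound hf hH.good.x01 hH.good.y01 h01 htyp hS hwpow hr hR le_rfl (by linarith)
    hεr.le hεA (by positivity) hεrA (hAbs (N - n) hS.th)
  have hNr : (N : ℝ) + 6 * w = (k + 2) * a := by exact_mod_cast hS.N6
  refine cc_kill hf hH.good htyp hS.βN hS.NL (by linarith) ?_ (hn3 _ e C ok3) (hB.trans ?_)
  · refine mul_le_mul_of_nonneg_right ?_ hL0
    have h2 : (1 : ℝ) ≤ 16 * 2 ^ (k + 4) := by
      have : (1 : ℝ) ≤ 2 ^ (k + 4) := one_le_pow₀ (by norm_num)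
      linarith
    have h3 := mul_le_mul_of_nonneg_left h2 hεr.le
    linarith
  · have haL : (a : ℝ) ≤ (((κ + 4) * a : ℕ) : ℝ) := by
      have : a ≤ (κ + 4) * a := Nat.le_mul_of_pos_left a (by omega)
      exact_mod_cast this
    exact cc_err hδ hεr hεrδ hgδ hw2 (Nat.cast_nonneg w) hL0 (hS.thr.2.trans haL)
      (by linarith) _

end Vale.Agent.P127.Stk
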