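import Vale.Agent.P127.Stk.CDefs

/-!
# P127 / Stk : the end of the step for `Γ` (PROOF.md, section 8)
-/

namespace Vale.Agent.P127.Stk

open Finset Vale.Agent.P127

section cf

variable {Ω Ω' : Type} {m κ k : ℕ}

theorem cz_hyp_mono [Fintype Ω] {h : ℝ} {a : ℕ} {ι ι' εu εu' e C : ℝ} {P : Law Ω} {c : Cf Ω m}
    {o : Ob Ω m κ} (hH : Hyp h κ a ι εu e C P c o) (h1 : ι ≤ ι') (h2 : εu ≤ εu') :
    Hyp h κ a ι' εu' e C P c o where
  good := hH.good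
  cost := hH.cost.trans (by gcongr)
  rate := hH.rate.trans (by
    have hb : 0 ≤ Real.log 2 := Real.log_nonneg (by norm_num)
    gcongr)
  unif := by
    have := hH.unif
    linarith

theorem cz_fam_mono [Fintype Ω] [Fintype Ω'] {a : ℕ} {K cost cost' : ℝ} {P : Law Ω} {c : Cf Ω m}
    {o : Ob Ω m κ} {Q : Law Ω'} {π : CI k → Ω' → Ω} (h : CubeFam a k K cost P c o Q π)
    (h1 : cost ≤ cost') : CubeFam a k K cost' P c o Q π where
  keys := h.keys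
  dom := h.dom
  pair := h.pair
  node := h.node
  cost := h.cost.trans h1
  cube := h.cube

end cf

theorem stepC_of (R : Gr) (hp : PInterp R) (hl : PCLaw) (hm : PCMain R) : PStepC R := by
  classical
  intro m h κ k1 hk1 hk2 hLB hNK hC0 hRK hCK
  obtain ⟨k, rfl⟩ : ∃ k, k1 = k + 1 := ⟨k1 - 1, by omega⟩
  have hk : k ≤ κ := by omega
  rw [Nat.add_sub_cancel] at hCK
  refine hp m h κ (k + 1) hk2 ?_
  intro ε hε
  obtain ⟨K0, hK0, a1, εu0, hεu0, hlaw⟩ := hl κ k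
  obtain ⟨ι1, hι1, ι2, hι2, εu2, hεu2, hmain⟩ := hm m h κ k hk hLB hNK hC0 hRK hCK K0 ε hε
  refine ⟨min ι2 (ι1 / (4 * K0)), lt_min hι2 (by positivity), min εu2 εu0, lt_min hεu2 hεu0,
    fun g => ?_⟩
  obtain ⟨n1, hn1⟩ := hmain g
  obtain ⟨n2, hn2⟩ := R.small g (min (ι1 / (4 * K0)) (1 / ((κ + 4) * (a1 + 1))))
    (lt_min (by positivity) (by positivity))
  refine ⟨max n1 n2, fun a e C hok Ω _ P c o hH Q hQ => ?_⟩
  obtain ⟨Z, hZ, hQZ⟩ := hQ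
  have hok1 := R.anti g n1 _ _ _ _ (le_max_left n1 n2) hok
  have hok2 := R.anti g n2 _ _ _ _ (le_max_right n1 n2) hok
  obtain ⟨hs1, -, hs3⟩ := hn2 _ _ _ hok2
  have hK04 : (0 : ℝ) < (κ + 4) * (a1 + 1) := by positivity
  have hL0 : (0 : ℝ) ≤ (((κ + 4) * a : ℕ) : ℝ) := Nat.cast_nonneg _
  have ha : a1 + 1 ≤ a := by
    have e1 : 1 ≤ 1 / (((κ : ℝ) + 4) * (a1 + 1)) * (((κ + 4) * a : ℕ) : ℝ) :=
      hs1.trans (mul_le_mul_of_nonneg_right (min_le_right _ _) hL0)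
    rw [one_div, inv_mul_eq_div, le_div_iff₀ hK04, one_mul] at e1
    have e2 : (κ + 4) * (a1 + 1) ≤ (κ + 4) * a := by exact_mod_cast e1
    exact Nat.le_of_mul_le_mul_left e2 (by omega)
  obtain ⟨Ω', _, Q', π, hfam, hthr⟩ := hlaw m h _ _ e C a Ω P c o Q Z (by omega)
    (min_le_right _ _) hH hZ hQZ
  have hcost : K0 * (C + min ι2 (ι1 / (4 * K0)) * (((κ + 4) * a : ℕ) : ℝ) + 1) ≤
      ι1 * (((κ + 4) * a : ℕ) : ℝ) := by
    have e1 : C ≤ ι1 / (4 * K0) * (((κ + 4) * a : ℕ) : ℝ) :=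
      hs3.trans (mul_le_mul_of_nonneg_right (min_le_left _ _) hL0)
    have e2 : 1 ≤ ι1 / (4 * K0) * (((κ + 4) * a : ℕ) : ℝ) :=
      hs1.trans (mul_le_mul_of_nonneg_right (min_le_left _ _) hL0)
    have e3 : min ι2 (ι1 / (4 * K0)) * (((κ + 4) * a : ℕ) : ℝ) ≤
        ι1 / (4 * K0) * (((κ + 4) * a : ℕ) : ℝ) :=
      mul_le_mul_of_nonneg_right (min_le_right _ _) hL0
    calc K0 * (C + min ι2 (ι1 / (4 * K0)) * (((κ + 4) * a : ℕ) : ℝ) + 1)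
        ≤ K0 * (3 * (ι1 / (4 * K0) * (((κ + 4) * a : ℕ) : ℝ))) := by gcongr; linarith
      _ = 3 / 4 * (ι1 * (((κ + 4) * a : ℕ) : ℝ)) := by field_simp
      _ ≤ ι1 * (((κ + 4) * a : ℕ) : ℝ) := by
          have : 0 ≤ ι1 * (((κ + 4) * a : ℕ) : ℝ) := mul_nonneg hι1.le hL0
          linarith
  exact (hthr _).trans (hn1 a e C hok1 Ω Ω' P c o Q' π
    (cz_hyp_mono hH (min_le_left _ _) (min_le_left _ _)) (cz_fam_mono hfam hcost))

end Vale.Agent.P127.Stk
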