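import Vale.Agent.P127.Stk.CDefs

/-!
# P127 / Stk : CKtv (PROOF.md, section 8) : the laws of the digits, separation of copies
-/

namespace Vale.Agent.P127.Stk

open Finset Vale.Agent.P127

section kt

variable {Ω : Type} [Fintype Ω] {m κ : ℕ}

/-- the pointwise inequality -/
theorem kt_point {x : ℝ} (hx : 0 ≤ x) :
    (Real.sqrt x - 1) ^ 2 ≤ x * Real.log x - x + 1 := by
  rcases hx.eq_or_lt with h0 | h0
  · rw [← h0]; simp
  · have hs : 0 < Real.sqrt x := Real.sqrt_pos.2 h0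
    have h1 := Real.one_sub_inv_le_log_of_pos hs
    have h2 : Real.log x = 2 * Real.log (Real.sqrt x) := by
      rw [Real.log_sqrt h0.le]; ring
    have h3 : x = Real.sqrt x ^ 2 := (Real.sq_sqrt h0.le).symm
    rw [h2]
    set s := Real.sqrt x with hsdef
    rw [h3]
    have h4 : s ^ 2 * (1 - s⁻¹) ≤ s ^ 2 * Real.log s :=
      mul_le_mul_of_nonneg_left h1 (by positivity)
    have h5 : s ^ 2 * (1 - s⁻¹) = s ^ 2 - s := by field_simp
    nlinarith [h4, h5]

/-- the total mass and the entropy as sums over the digits -/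
theorem kt_sums (P : Law Ω) (X : Ω → ℤ) (M : ℕ) (hX : ∀ ω, 0 ≤ X ω ∧ X ω < M) :
    ∑ v ∈ range M, P.pr X (v : ℤ) = 1 ∧
    P.H X = - ∑ v ∈ range M, P.pr X (v : ℤ) * Real.log (P.pr X (v : ℤ)) := by
  classical
  have hsub : ∀ g : ℤ → ℝ, (∀ x, P.pr X x = 0 → g x = 0) →
      ∑ x ∈ img X, g x = ∑ v ∈ range M, g (v : ℤ) := by
    intro g hg
    have h1 : ∑ v ∈ range M, g (v : ℤ) = ∑ x ∈ (range M).image (fun v : ℕ => (v : ℤ)), g x := by
      rw [Finset.sum_image]
      intro a _ b _ hab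
      have hab' : (a : ℤ) = (b : ℤ) := hab
      exact_mod_cast hab'
    rw [h1]
    refine Finset.sum_subset ?_ ?_
    · intro x hx
      rw [mem_img] at hx
      obtain ⟨ω, rfl⟩ := hx
      rw [Finset.mem_image]
      refine ⟨(X ω).toNat, ?_, ?_⟩
      · rw [Finset.mem_range]
        have := hX ω
        omega
      · have := hX ω
        omega
    · intro x _ hx
      refine hg x ?_
      unfold Law.pr
      refine Finset.sum_eq_zero fun ω hω => ?_
      have hω' : X ω = x := by simpa using hω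
      exact absurd (mem_img.2 ⟨ω, hω'⟩) hx
  constructor
  · rw [← hsub (fun x => P.pr X x) (fun x h => h)]
    exact P.sum_pr_image X
  · have h2 : P.H X = ∑ x ∈ img X, P.pr X x * (-Real.log (P.pr X x)) :=
      P.ex_comp X (fun x => -Real.log (P.pr X x))
    rw [h2, hsub (fun x => P.pr X x * (-Real.log (P.pr X x))) (fun x h => by
      show P.pr X x * _ = 0
      rw [h, zero_mul])]
    rw [← Finset.sum_neg_distrib]
    refine Finset.sum_congr rfl fun v _ => ?_
    ring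

/-- total variation and entropy -/
theorem kt_pinsker (P : Law Ω) (X : Ω → ℤ) (M : ℕ) (hM : 0 < M)
    (hX : ∀ ω, 0 ≤ X ω ∧ X ω < M) :
    0 ≤ Real.log M - P.H X ∧
    ∑ v ∈ range M, |P.pr X (v : ℤ) - 1 / M| ≤ 2 * Real.sqrt (Real.log M - P.H X) := by
  obtain ⟨hs1, hs2⟩ := kt_sums P X M hX
  have hM0 : (0 : ℝ) < M := by exact_mod_cast hM
  set ρ : ℕ → ℝ := fun v => P.pr X (v : ℤ) with hρ
  have hρ0 : ∀ v, 0 ≤ ρ v := fun v => P.pr_nonneg X _
  have key1 : ∑ v ∈ range M, (Real.sqrt (ρ v) - Real.sqrt (1 / M)) ^ 2 ≤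
      Real.log M - P.H X := by
    have h1 : ∀ v ∈ range M, (Real.sqrt (ρ v) - Real.sqrt (1 / M)) ^ 2 ≤
        ρ v * Real.log M + ρ v * Real.log (ρ v) - ρ v + 1 / M := by
      intro v _
      have h2 := kt_point (x := M * ρ v) (by have := hρ0 v; positivity)
      have h3 : (Real.sqrt (ρ v) - Real.sqrt (1 / M)) ^ 2 =
          1 / M * (Real.sqrt (M * ρ v) - 1) ^ 2 := by
        have h4 : Real.sqrt (ρ v) - Real.sqrt (1 / M) =
            Real.sqrt (1 / M) * (Real.sqrt (M * ρ v) - 1) := by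
          have h5 : 1 / (M : ℝ) * (M * ρ v) = ρ v := by field_simp
          rw [mul_sub, mul_one, ← Real.sqrt_mul (by positivity), h5]
        rw [h4, mul_pow, Real.sq_sqrt (by positivity)]
      rw [h3]
      have h5 : 1 / M * (Real.sqrt (M * ρ v) - 1) ^ 2 ≤
          1 / M * (M * ρ v * Real.log (M * ρ v) - M * ρ v + 1) :=
        mul_le_mul_of_nonneg_left h2 (by positivity)
      refine h5.trans (le_of_eq ?_)
      rcases (hρ0 v).eq_or_lt with h0 | h0
      · rw [← h0]; simp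
      · rw [Real.log_mul hM0.ne' h0.ne']
        field_simp
    refine (Finset.sum_le_sum h1).trans (le_of_eq ?_)
    rw [hs2]
    simp only [Finset.sum_add_distrib, Finset.sum_sub_distrib, ← Finset.sum_mul]
    have h6 : ∑ v ∈ range M, ρ v = 1 := hs1
    rw [h6]
    simp only [Finset.sum_const, Finset.card_range, nsmul_eq_mul]
    have h7 : (M : ℝ) * (1 / M) = 1 := by field_simp
    rw [h7]
    ring
  have key0 : 0 ≤ Real.log M - P.H X :=
    (Finset.sum_nonneg fun v _ => sq_nonneg _).trans key1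
  refine ⟨key0, ?_⟩
  have key2 : ∑ v ∈ range M, (Real.sqrt (ρ v) + Real.sqrt (1 / M)) ^ 2 ≤ 4 := by
    have h1 : ∀ v ∈ range M, (Real.sqrt (ρ v) + Real.sqrt (1 / M)) ^ 2 ≤
        2 * ρ v + 2 * (1 / M) := by
      intro v _
      have e1 := Real.sq_sqrt (hρ0 v)
      have e2 := Real.sq_sqrt (show (0 : ℝ) ≤ 1 / M by positivity)
      nlinarith [sq_nonneg (Real.sqrt (ρ v) - Real.sqrt (1 / M))]
    refine (Finset.sum_le_sum h1).trans (le_of_eq ?_)
    rw [Finset.sum_add_distrib, ← Finset.mul_sum]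
    have h6 : ∑ v ∈ range M, ρ v = 1 := hs1
    rw [h6]
    simp only [Finset.sum_const, Finset.card_range, nsmul_eq_mul]
    field_simp
    norm_num
  have h8 : ∀ v ∈ range M, |P.pr X (v : ℤ) - 1 / M| =
      |Real.sqrt (ρ v) - Real.sqrt (1 / M)| * (Real.sqrt (ρ v) + Real.sqrt (1 / M)) := by
    intro v _
    have e1 := Real.sq_sqrt (hρ0 v)
    have e2 := Real.sq_sqrt (show (0 : ℝ) ≤ 1 / M by positivity)
    have e3 : P.pr X (v : ℤ) - 1 / M =
        (Real.sqrt (ρ v) - Real.sqrt (1 / M)) * (Real.sqrt (ρ v) + Real.sqrt (1 / M)) := by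
      have : P.pr X (v : ℤ) = ρ v := rfl
      rw [this]
      nlinarith
    rw [e3, abs_mul]
    congr 1
    exact abs_of_nonneg (by positivity)
  rw [Finset.sum_congr rfl h8]
  have h9 := Finset.sum_mul_sq_le_sq_mul_sq (range M)
    (fun v => |Real.sqrt (ρ v) - Real.sqrt (1 / M)|)
    (fun v => Real.sqrt (ρ v) + Real.sqrt (1 / M))
  simp only [sq_abs] at h9
  have h10 : (∑ v ∈ range M, |Real.sqrt (ρ v) - Real.sqrt (1 / M)| *
      (Real.sqrt (ρ v) + Real.sqrt (1 / M))) ^ 2 ≤ (Real.log M - P.H X) * 4 := by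
    refine h9.trans ?_
    exact mul_le_mul key1 key2 (Finset.sum_nonneg fun v _ => sq_nonneg _) key0
  have h11 : Real.sqrt ((Real.log M - P.H X) * 4) = 2 * Real.sqrt (Real.log M - P.H X) := by
    rw [mul_comm, Real.sqrt_mul (by norm_num)]
    congr 1
    rw [show (4 : ℝ) = 2 ^ 2 by norm_num, Real.sqrt_sq (by norm_num)]
  rw [← h11]
  exact Real.le_sqrt_of_sq_le h10

omit [Fintype Ω] in
theorem kt_floor (c : Cf Ω m) (a : ℕ) (ω : Ω) :
    ⌊(2 : ℝ) ^ ((κ + 4) * a) * c.t ω⌋ =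
      ⌊tau c κ a ω⌋ + 2 ^ ((κ + 3) * a) * fl1 a (c.t ω) := by
  have h : (2 : ℝ) ^ ((κ + 4) * a) * c.t ω =
      tau c κ a ω + ((2 ^ ((κ + 3) * a) * fl1 a (c.t ω) : ℤ) : ℝ) := by
    unfold tau
    push_cast
    ring
  rw [h, Int.floor_add_intCast]

omit [Fintype Ω] in
theorem kt_range (c : Cf Ω m) (a : ℕ) (ω : Ω) :
    0 ≤ tau c κ a ω ∧ tau c κ a ω < 2 ^ ((κ + 3) * a) := by
  have h1 := Int.floor_le ((2 : ℝ) ^ a * c.t ω)
  have h2 := Int.lt_floor_add_one ((2 : ℝ) ^ a * c.t ω)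
  have h3 : (2 : ℝ) ^ ((κ + 4) * a) = 2 ^ ((κ + 3) * a) * 2 ^ a := by
    rw [← pow_add]; congr 1; ring
  have h4 : (0 : ℝ) < 2 ^ ((κ + 3) * a) := by positivity
  unfold tau fl1
  rw [h3]
  constructor
  · nlinarith
  · nlinarith

omit [Fintype Ω] in
theorem kt_range' (c : Cf Ω m) (a : ℕ) (ω : Ω) :
    0 ≤ ⌊tau c κ a ω⌋ ∧ ⌊tau c κ a ω⌋ < ((2 ^ ((κ + 3) * a) : ℕ) : ℤ) := by
  obtain ⟨h1, h2⟩ := kt_range (κ := κ) c a ω
  refine ⟨Int.floor_nonneg.2 h1, ?_⟩
  rw [Int.floor_lt]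
  push_cast
  exact h2

/-- the laws of the digits are close to uniform on average -/
theorem ktv_sum {h ι εu e0 C : ℝ} {a : ℕ} {P : Law Ω} {c : Cf Ω m} {o : Ob Ω m κ}
    (hH : Hyp h κ a ι εu e0 C P c o) :
    0 ≤ εu ∧ ∑ s ∈ img (key c a), P.pr (key c a) s * ktv P c κ a s ≤ 2 * Real.sqrt εu := by
  classical
  set M : ℕ := 2 ^ ((κ + 3) * a) with hMdef
  have hM : 0 < M := by positivity
  have hMr : (M : ℝ) = 2 ^ ((κ + 3) * a) := by rw [hMdef]; push_cast; rfl
  have hu := hH.unif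
  have h1 : hc P (fun ω => fl1 ((κ + 4) * a) (c.t ω))
      (fun ω => (fl1 a (c.t ω), c.x ω, c.y ω, c.A ω)) =
      hc P (fun ω => ⌊tau c κ a ω⌋) (key c a) := by
    refine hc_congr P ?_ ?_ ?_ ?_
    · intro ω ω' _ _ e
      have e1 : ⌊tau c κ a ω⌋ = ⌊tau c κ a ω'⌋ := congrArg Prod.fst e
      have e2 : fl1 a (c.t ω) = fl1 a (c.t ω') := congrArg (fun z => z.2.1) e
      show ⌊(2 : ℝ) ^ ((κ + 4) * a) * c.t ω⌋ = ⌊(2 : ℝ) ^ ((κ + 4) * a) * c.t ω'⌋
      rw [kt_floor, kt_floor, e1, e2]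
    · intro ω ω' _ _ e
      have e1 : ⌊(2 : ℝ) ^ ((κ + 4) * a) * c.t ω⌋ = ⌊(2 : ℝ) ^ ((κ + 4) * a) * c.t ω'⌋ :=
        congrArg Prod.fst e
      have e2 : fl1 a (c.t ω) = fl1 a (c.t ω') := congrArg (fun z => z.2.1) e
      rw [kt_floor, kt_floor, e2] at e1
      show ⌊tau c κ a ω⌋ = ⌊tau c κ a ω'⌋
      linarith
    · intro ω ω' _ _ e
      have e' : (c.x ω, c.y ω, c.A ω, fl1 a (c.t ω)) =
        (c.x ω', c.y ω', c.A ω', fl1 a (c.t ω')) := e
      simp only [Prod.mk.injEq] at e' ⊢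
      tauto
    · intro ω ω' _ _ e
      have e' : (fl1 a (c.t ω), c.x ω, c.y ω, c.A ω) =
        (fl1 a (c.t ω'), c.x ω', c.y ω', c.A ω') := e
      show (c.x ω, c.y ω, c.A ω, fl1 a (c.t ω)) = (c.x ω', c.y ω', c.A ω', fl1 a (c.t ω'))
      simp only [Prod.mk.injEq] at e' ⊢
      tauto
  have h2 : (((κ + 4) * a : ℕ) - (a : ℝ)) * Real.log 2 = Real.log M := by
    rw [hMr, Real.log_pow]
    push_cast
    ring
  rw [h1, h2] at hu
  have h3 : hc P (fun ω => ⌊tau c κ a ω⌋) (key c a) =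
      ∑ s ∈ img (key c a), P.pr (key c a) s *
        (P.cond (key c a) s).H (fun ω => ⌊tau c κ a ω⌋) := P.H_cond_eq _ _
  rw [h3] at hu
  set D : ((Fin m → ℝ) × (Fin m → ℝ) × c.α × ℤ) → ℝ := fun s =>
    Real.log M - (P.cond (key c a) s).H (fun ω => ⌊tau c κ a ω⌋) with hD
  have hp : ∀ s, 0 ≤ D s ∧ ktv P c κ a s ≤ 2 * Real.sqrt (D s) := by
    intro s
    have := kt_pinsker (P.cond (key c a) s) (fun ω => ⌊tau c κ a ω⌋) M hM
      (fun ω => kt_range' c a ω)
    refine ⟨this.1, ?_⟩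
    show ∑ v ∈ range M, |(P.cond (key c a) s).pr (fun ω => ⌊tau c κ a ω⌋) (v : ℤ) -
      1 / 2 ^ ((κ + 3) * a)| ≤ _
    rw [← hMr]
    exact this.2
  have hsum : ∑ s ∈ img (key c a), P.pr (key c a) s * D s ≤ εu := by
    have h5 : ∑ s ∈ img (key c a), P.pr (key c a) s * D s =
        Real.log M - ∑ s ∈ img (key c a), P.pr (key c a) s *
          (P.cond (key c a) s).H (fun ω => ⌊tau c κ a ω⌋) := by
      simp only [hD, mul_sub, Finset.sum_sub_distrib, ← Finset.sum_mul]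
      rw [P.sum_pr_image, one_mul]
    rw [h5]
    linarith
  have hsum0 : 0 ≤ ∑ s ∈ img (key c a), P.pr (key c a) s * D s :=
    Finset.sum_nonneg fun s _ => mul_nonneg (P.pr_nonneg _ _) (hp s).1
  refine ⟨hsum0.trans hsum, ?_⟩
  have h6 : ∑ s ∈ img (key c a), P.pr (key c a) s * ktv P c κ a s ≤
      2 * ∑ s ∈ img (key c a), Real.sqrt (P.pr (key c a) s) *
        Real.sqrt (P.pr (key c a) s * D s) := by
    rw [Finset.mul_sum]
    refine Finset.sum_le_sum fun s _ => ?_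
    have h7 : Real.sqrt (P.pr (key c a) s) * Real.sqrt (P.pr (key c a) s * D s) =
        P.pr (key c a) s * Real.sqrt (D s) := by
      rw [Real.sqrt_mul (P.pr_nonneg _ _), ← mul_assoc, Real.mul_self_sqrt (P.pr_nonneg _ _)]
    rw [h7]
    have := mul_le_mul_of_nonneg_left (hp s).2 (P.pr_nonneg (key c a) s)
    linarith
  refine h6.trans ?_
  have h8 := Finset.sum_mul_sq_le_sq_mul_sq (img (key c a))
    (fun s => Real.sqrt (P.pr (key c a) s)) (fun s => Real.sqrt (P.pr (key c a) s * D s))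
  have h9 : ∑ s ∈ img (key c a), Real.sqrt (P.pr (key c a) s) ^ 2 = 1 := by
    rw [← P.sum_pr_image (key c a)]
    exact Finset.sum_congr rfl fun s _ => Real.sq_sqrt (P.pr_nonneg _ _)
  have h10 : ∑ s ∈ img (key c a), Real.sqrt (P.pr (key c a) s * D s) ^ 2 =
      ∑ s ∈ img (key c a), P.pr (key c a) s * D s :=
    Finset.sum_congr rfl fun s _ => Real.sq_sqrt (mul_nonneg (P.pr_nonneg _ _) (hp s).1)
  rw [h9, h10, one_mul] at h8
  have h11 := Real.le_sqrt_of_sq_le (h8.trans hsum)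
  linarith

/-- the conditional probability of a short interval of digits -/
theorem kt_inner {a : ℕ} (P : Law Ω) (c : Cf Ω m) (w : ℕ) (hw : w ≤ (κ + 3) * a)
    (s : (Fin m → ℝ) × (Fin m → ℝ) × c.α × ℤ) (y : ℤ) :
    prE (P.cond (key c a) s) (fun ω => |⌊tau c κ a ω⌋ - y| ≤ (2 ^ ((κ + 3) * a - w) : ℤ)) ≤
      3 / 2 ^ w + ktv P c κ a s := by
  classical
  set M : ℕ := 2 ^ ((κ + 3) * a) with hMdef
  have hMr : (M : ℝ) = 2 ^ ((κ + 3) * a) := by rw [hMdef]; push_cast; rfl
  set N : ℕ := 2 ^ ((κ + 3) * a - w) with hNdef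
  set R := P.cond (key c a) s with hR
  set X : Ω → ℤ := fun ω => ⌊tau c κ a ω⌋ with hX
  set F : Finset ℕ := (range M).filter (fun v => |(v : ℤ) - y| ≤ N) with hF
  have hNz : ((2 : ℤ) ^ ((κ + 3) * a - w)) = (N : ℤ) := by rw [hNdef]; push_cast; rfl
  have h1 : prE R (fun ω => |X ω - y| ≤ ((2 : ℤ) ^ ((κ + 3) * a - w))) ≤
      ∑ v ∈ F, R.pr X (v : ℤ) := by
    rw [hNz]
    have h20 : prE R (fun ω => |X ω - y| ≤ (N : ℤ)) = ∑ ω with |X ω - y| ≤ (N : ℤ), R.w ω := by
      unfold prE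
      exact Finset.sum_congr (by ext; simp) fun _ _ => rfl
    rw [h20]
    unfold Law.pr
    have h2 : ∑ ω with |X ω - y| ≤ (N : ℤ), R.w ω =
        ∑ v ∈ F, ∑ ω ∈ (univ.filter (fun ω => |X ω - y| ≤ (N : ℤ))).filter
          (fun ω => (X ω).toNat = v), R.w ω := by
      rw [Finset.sum_fiberwise_of_maps_to]
      intro ω hω
      simp only [mem_filter, mem_univ, true_and] at hω
      have h3 := kt_range' (κ := κ) c a ω
      rw [hF, mem_filter, mem_range]
      have h4 : ((X ω).toNat : ℤ) = X ω := Int.toNat_of_nonneg h3.1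
      refine ⟨?_, ?_⟩
      · have h5 : ((X ω).toNat : ℤ) < (M : ℤ) := by rw [h4]; exact h3.2
        exact_mod_cast h5
      · rw [h4]; exact hω
    rw [h2]
    refine Finset.sum_le_sum fun v _ => ?_
    refine Finset.sum_le_sum_of_subset_of_nonneg ?_ fun ω _ _ => R.nn ω
    intro ω hω
    simp only [mem_filter, mem_univ, true_and] at hω ⊢
    have h3 := kt_range' (κ := κ) c a ω
    have h4 : ((X ω).toNat : ℤ) = X ω := Int.toNat_of_nonneg h3.1
    rw [← hω.2, h4]
  refine h1.trans ?_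
  have h5 : ∑ v ∈ F, R.pr X (v : ℤ) ≤
      ∑ v ∈ F, (1 / (M : ℝ)) + ∑ v ∈ range M, |R.pr X (v : ℤ) - 1 / M| := by
    have h6 : ∑ v ∈ F, |R.pr X (v : ℤ) - 1 / M| ≤ ∑ v ∈ range M, |R.pr X (v : ℤ) - 1 / M| :=
      Finset.sum_le_sum_of_subset_of_nonneg (Finset.filter_subset _ _) fun _ _ _ => abs_nonneg _
    have h7 : ∑ v ∈ F, R.pr X (v : ℤ) ≤
        ∑ v ∈ F, (1 / (M : ℝ)) + ∑ v ∈ F, |R.pr X (v : ℤ) - 1 / M| := by
      rw [← Finset.sum_add_distrib]
      refine Finset.sum_le_sum fun v _ => ?_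
      have := le_abs_self (R.pr X (v : ℤ) - 1 / M)
      linarith
    linarith
  refine h5.trans ?_
  have h8 : ∑ v ∈ range M, |R.pr X (v : ℤ) - 1 / M| = ktv P c κ a s := by
    unfold ktv
    rw [hMr]
  rw [h8]
  have hcard : F.card ≤ 2 * N + 1 := by
    have h9 : (F.image (fun v : ℕ => (v : ℤ))) ⊆ Finset.Icc (y - N) (y + N) := by
      intro z hz
      rw [Finset.mem_image] at hz
      obtain ⟨v, hv, rfl⟩ := hz
      rw [hF, mem_filter] at hv
      have := abs_le.1 hv.2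
      rw [Finset.mem_Icc]
      omega
    have h10 := Finset.card_le_card h9
    rw [Finset.card_image_of_injective _ Nat.cast_injective, Int.card_Icc] at h10
    omega
  have hN1 : 1 ≤ N := Nat.one_le_two_pow
  have hcard' : (F.card : ℝ) ≤ 3 * N := by
    have : F.card ≤ 3 * N := by omega
    exact_mod_cast this
  have hMN : (M : ℝ) = N * 2 ^ w := by
    rw [hMr, hNdef]
    push_cast
    rw [← pow_add]
    congr 1
    omega
  have hN0 : (0 : ℝ) < N := by exact_mod_cast hN1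
  have h11 : ∑ v ∈ F, (1 / (M : ℝ)) ≤ 3 / 2 ^ w := by
    rw [Finset.sum_const, nsmul_eq_mul, hMN]
    rw [mul_one_div, div_le_div_iff₀ (by positivity) (by positivity)]
    have : (0 : ℝ) < 2 ^ w := by positivity
    nlinarith
  linarith

/-- the times of two copies are separated -/
theorem copies_sep {h ι εu e0 C : ℝ} {a : ℕ} {P : Law Ω} {c : Cf Ω m} {o : Ob Ω m κ}
    (hH : Hyp h κ a ι εu e0 C P c o) (w : ℕ) (hw : w ≤ (κ + 3) * a) (Q2 : Law (Fin 2 → Ω))
    (hQ2 : ∀ v, Q2.w v = cw P (key c a) 1 v) :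
    prE Q2 (fun v => (2 : ℝ) ^ (a + w) * |c.t (v 0) - c.t (v 1)| < 1) ≤
      3 / 2 ^ w + 2 * Real.sqrt εu := by
  classical
  have h0 := (ktv_sum hH).2
  have h1 : prE Q2 (fun v => (2 : ℝ) ^ (a + w) * |c.t (v 0) - c.t (v 1)| < 1) ≤
      P.ex (fun ω => 3 / 2 ^ w + ktv P c κ a (key c a ω)) := by
    unfold prE
    rw [Finset.sum_filter]
    have h2 : ∑ v : Fin 2 → Ω, (if (2 : ℝ) ^ (a + w) * |c.t (v 0) - c.t (v 1)| < 1 then
        Q2.w v else 0) = ∑ ω0, ∑ ω1,
          (if (2 : ℝ) ^ (a + w) * |c.t ω0 - c.t ω1| < 1 then cw P (key c a) 1 ![ω0, ω1] else 0) := by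
      rw [← Finset.sum_product']
      refine Finset.sum_nbij' (fun v => (v 0, v 1)) (fun z => ![z.1, z.2]) ?_ ?_ ?_ ?_ ?_
      · intro v _; simp
      · intro z _; simp
      · intro v _
        funext i
        fin_cases i <;> rfl
      · intro z _; rfl
      · intro v _
        have : (![v 0, v 1] : Fin 2 → Ω) = v := by
          funext i
          fin_cases i <;> rfl
        show _ = if (2 : ℝ) ^ (a + w) * |c.t (v 0) - c.t (v 1)| < 1 then
          cw P (key c a) 1 ![v 0, v 1] else 0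
        rw [this, hQ2]
    rw [h2]
    unfold Law.ex
    refine Finset.sum_le_sum fun ω0 _ => ?_
    rcases (P.nn ω0).eq_or_lt with hz | hz
    · rw [← hz, zero_mul]
      refine (Finset.sum_eq_zero fun ω1 _ => ?_).le
      unfold cw
      rw [Fin.prod_univ_two]
      simp [← hz]
    · have hpr : 0 < P.pr (key c a) (key c a ω0) := P.pr_pos _ hz
      have h3 := kt_inner P c w hw (key c a ω0) ⌊tau c κ a ω0⌋
      refine le_trans ?_ (mul_le_mul_of_nonneg_left h3 hz.le)
      unfold prE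
      rw [Finset.sum_filter, Finset.mul_sum]
      refine Finset.sum_le_sum fun ω1 _ => ?_
      rw [P.cond_w _ _ hpr]
      have hcw : cw P (key c a) 1 ![ω0, ω1] = if key c a ω1 = key c a ω0 then
          P.w ω0 * P.w ω1 / P.pr (key c a) (key c a ω0) else 0 := by
        unfold cw
        simp [Fin.forall_fin_two, Fin.prod_univ_two]
      rw [hcw]
      by_cases hk : key c a ω1 = key c a ω0
      · rw [if_pos hk, if_pos hk]
        by_cases ht : (2 : ℝ) ^ (a + w) * |c.t ω0 - c.t ω1| < 1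
        · rw [if_pos ht]
          have hc : |⌊tau c κ a ω1⌋ - ⌊tau c κ a ω0⌋| ≤ (2 ^ ((κ + 3) * a - w) : ℤ) := by
            have hfl : fl1 a (c.t ω1) = fl1 a (c.t ω0) := congrArg (fun z => z.2.2.2) hk
            have hd : tau c κ a ω1 - tau c κ a ω0 =
                (2 : ℝ) ^ ((κ + 4) * a) * (c.t ω1 - c.t ω0) := by
              unfold tau
              rw [hfl]
              ring
            have hpw : (2 : ℝ) ^ ((κ + 4) * a) = 2 ^ ((κ + 3) * a - w) * 2 ^ (a + w) := by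
              rw [← pow_add]
              congr 1
              have : (κ + 4) * a = (κ + 3) * a + a := by ring
              omega
            have hd2 : |tau c κ a ω1 - tau c κ a ω0| < 2 ^ ((κ + 3) * a - w) := by
              rw [hd, abs_mul, abs_of_pos (by positivity), hpw, mul_assoc, abs_sub_comm]
              have h5 : (0 : ℝ) < 2 ^ ((κ + 3) * a - w) := by positivity
              nlinarith
            rw [abs_lt] at hd2
            have f1 := Int.floor_le (tau c κ a ω1)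
            have f2 := Int.lt_floor_add_one (tau c κ a ω1)
            have f3 := Int.floor_le (tau c κ a ω0)
            have f4 := Int.lt_floor_add_one (tau c κ a ω0)
            rw [abs_le]
            constructor
            · have : ((-(2 ^ ((κ + 3) * a - w) : ℤ) : ℤ) : ℝ) <
                  ((⌊tau c κ a ω1⌋ - ⌊tau c κ a ω0⌋ + 1 : ℤ) : ℝ) := by
                push_cast
                linarith [hd2.1]
              have := Int.cast_lt.1 this
              omega
            · have : ((⌊tau c κ a ω1⌋ - ⌊tau c κ a ω0⌋ : ℤ) : ℝ) <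
                  (((2 ^ ((κ + 3) * a - w) : ℤ) + 1 : ℤ) : ℝ) := by
                push_cast
                linarith [hd2.2]
              have := Int.cast_lt.1 this
              omega
          rw [if_pos hc]
          apply le_of_eq
          ring
        · rw [if_neg ht]
          have := P.nn ω1
          split_ifs <;> positivity
      · rw [if_neg hk, if_neg hk]
        simp
  refine h1.trans ?_
  rw [P.ex_add, P.ex_const]
  have h4 : P.ex (fun ω => ktv P c κ a (key c a ω)) =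
      ∑ s ∈ img (key c a), P.pr (key c a) s * ktv P c κ a s :=
    P.ex_comp (key c a) (fun s => ktv P c κ a s)
  rw [h4]
  linarith

end kt

end Vale.Agent.P127.Stk
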