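import Vale.Agent.P127.Stk.CFamA
import Vale.Agent.P127.Stk.CKtv

/-!
# P127 / Stk : main part of the step for `Γ` (PROOF.md, section 8): typical events and bins
-/

set_option autoImplicit false

namespace Vale.Agent.P127.Stk

open Finset Vale.Agent.P127

section gen

variable {Ω Ω' : Type} [Fintype Ω] [Fintype Ω']

theorem cm_prE_mono (Q : Law Ω) {E F : Ω → Prop} (h : ∀ ω, 0 < Q.w ω → E ω → F ω) :
    prE Q E ≤ prE Q F := by
  classical
  unfold prE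
  rw [Finset.sum_filter, Finset.sum_filter]
  refine Finset.sum_le_sum fun ω _ => ?_
  rcases (Q.nn ω).eq_or_lt with h0 | h0
  · rw [← h0]
    simp
  · by_cases hE : E ω
    · rw [if_pos hE, if_pos (h ω h0 hE)]
    · rw [if_neg hE]
      split_ifs
      · exact h0.le
      · exact le_rfl

theorem cm_prE_or (Q : Law Ω) (E F : Ω → Prop) :
    prE Q (fun ω => E ω ∨ F ω) ≤ prE Q E + prE Q F := by
  classical
  unfold prE
  rw [Finset.sum_filter, Finset.sum_filter, Finset.sum_filter, ← Finset.sum_add_distrib]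
  refine Finset.sum_le_sum fun ω _ => ?_
  have := Q.nn ω
  by_cases hE : E ω <;> by_cases hF : F ω <;> simp [hE, hF, this]

theorem cm_prE_exists {ι : Type} [Fintype ι] (Q : Law Ω) (E : ι → Ω → Prop) :
    prE Q (fun ω => ∃ i, E i ω) ≤ ∑ i, prE Q (E i) := by
  classical
  unfold prE
  simp only [Finset.sum_filter]
  rw [Finset.sum_comm]
  refine Finset.sum_le_sum fun ω _ => ?_
  have h0 := Q.nn ω
  split_ifs with h
  · obtain ⟨i, hi⟩ := h
    have h1 : (if E i ω then Q.w ω else 0) ≤ ∑ i, if E i ω then Q.w ω else 0 :=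
      Finset.single_le_sum (f := fun i => if E i ω then Q.w ω else 0)
        (fun j _ => by split_ifs <;> simp [h0]) (Finset.mem_univ i)
    rwa [if_pos hi] at h1
  · exact Finset.sum_nonneg fun j _ => by split_ifs <;> simp [h0]

theorem cm_prE_dom (Q : Law Ω') (Q2 : Law Ω) (φ : Ω' → Ω) (K : ℝ)
    (h : ∀ v, Q.pr φ v ≤ K * Q2.w v) (B : Ω → Prop) :
    prE Q (fun ω => B (φ ω)) ≤ K * prE Q2 B := by
  classical
  unfold prE
  rw [Finset.mul_sum, Finset.sum_filter, Finset.sum_filter]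
  have h1 : ∑ ω, (if B (φ ω) then Q.w ω else 0) =
      ∑ v, ∑ ω with φ ω = v, (if B (φ ω) then Q.w ω else 0) :=
    (Finset.sum_fiberwise_of_maps_to (fun _ _ => Finset.mem_univ _) _).symm
  rw [h1]
  refine Finset.sum_le_sum fun v _ => ?_
  by_cases hB : B v
  · rw [if_pos hB]
    refine le_trans (le_of_eq ?_) (h v)
    unfold Law.pr
    refine Finset.sum_congr (by ext ω; simp) fun ω hω => ?_
    have h2 : φ ω = v := by simpa using hω
    rw [if_pos (h2 ▸ hB)]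
  · rw [if_neg hB]
    refine le_of_eq (Finset.sum_eq_zero fun ω hω => ?_)
    have h2 : φ ω = v := by simpa using hω
    rw [if_neg (fun h3 => hB (h2 ▸ h3))]

end gen

section fam

variable {Ω Ω' : Type} [Fintype Ω] [Fintype Ω'] {m κ k : ℕ}

theorem cm_cost_mono {a : ℕ} {K cost cost' : ℝ} {P : Law Ω} {c : Cf Ω m} {o : Ob Ω m κ}
    {Q : Law Ω'} {π : CI k → Ω' → Ω} (h : CubeFam a k K cost P c o Q π) (hc : cost ≤ cost') :
    CubeFam a k K cost' P c o Q π :=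
  ⟨h.keys, h.dom, h.pair, h.node, h.cost.trans hc, h.cube⟩

theorem cm_K_mono {a : ℕ} {K K' cost : ℝ} {P : Law Ω} {c : Cf Ω m} {o : Ob Ω m κ}
    {Q : Law Ω'} {π : CI k → Ω' → Ω} (h : CubeFam a k K cost P c o Q π) (hK : K ≤ K') :
    CubeFam a k K' cost P c o Q π :=
  ⟨h.keys, fun i => (h.dom i).mono hK,
    fun S hS w => (h.pair S hS w).trans (mul_le_mul_of_nonneg_right hK (cw_nn_aux _ _ _ _)),
    fun S w => (h.node S w).trans (mul_le_mul_of_nonneg_right hK (cw_nn_aux _ _ _ _)),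
    h.cost, h.cube⟩

theorem cm_hyp_mono {h : ℝ} {a : ℕ} {ι εu ι' εu' e C : ℝ} {P : Law Ω} {c : Cf Ω m}
    {o : Ob Ω m κ} (hH : Hyp h κ a ι εu e C P c o) (h1 : ι ≤ ι') (h2 : εu ≤ εu') :
    Hyp h κ a ι' εu' e C P c o where
  good := hH.good
  cost := hH.cost.trans (mul_le_mul_of_nonneg_right h1 (Nat.cast_nonneg _))
  rate := by
    refine hH.rate.trans ?_
    refine mul_le_mul_of_nonneg_right (mul_le_mul_of_nonneg_right (by linarith)
      (Nat.cast_nonneg _)) (Real.log_nonneg (by norm_num))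
  unif := by
    have := hH.unif
    linarith

/-- the alternating sum of the sizes -/
theorem cm_alt (p : ℕ) (hp : 0 < p) : ∑ S : Finset (Fin p), (-1 : ℝ) ^ S.card = 0 := by
  have : Nonempty (Fin p) := ⟨⟨0, hp⟩⟩
  have h := Finset.sum_powerset_neg_one_pow_card_of_nonempty
    (Finset.univ_nonempty (α := Fin p))
  rw [Finset.powerset_univ] at h
  exact_mod_cast h

theorem cm_cS_le {a w : ℕ} {c : Cf Ω m} {o : Ob Ω m κ} {π : CI k → Ω' → Ω} {ω : Ω'}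
    (ht : CTyp a w c o π ω) (hw : w + (k + 2) ≤ a) {i j : Fin m} (hi : i ∉ o.J)
    (hj : j ∈ o.J) : |cS o π ω i j| ≤ 1 := by
  have h1 : cS o π ω i j = ∑ S : Finset (Fin (k + 2)), (-1 : ℝ) ^ S.card *
      (o.Γ (π (Sum.inl S) ω) i j - o.Γ (π (vb k) ω) i j) := by
    unfold cS
    simp only [mul_sub, Finset.sum_sub_distrib]
    rw [← Finset.sum_mul, cm_alt (k + 2) (by omega)]
    ring
  rw [h1]
  refine (Finset.abs_sum_le_sum_abs _ _).trans ?_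
  have h2 : ∀ S : Finset (Fin (k + 2)), |(-1 : ℝ) ^ S.card *
      (o.Γ (π (Sum.inl S) ω) i j - o.Γ (π (vb k) ω) i j)| ≤ (1 / 2) ^ (k + 2) := by
    intro S
    rw [abs_mul, abs_pow, abs_neg, abs_one, one_pow, one_mul]
    have h3 := ht.gam S i j hi hj
    have h4 : (2 : ℝ) ^ (k + 2) * 2 ^ w ≤ 2 ^ a := by
      rw [← pow_add]
      exact pow_le_pow_right₀ (by norm_num) (by omega)
    have h5 : (0 : ℝ) < 2 ^ w := by positivity
    have h6 : (0 : ℝ) < 2 ^ (k + 2) := by positivity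
    have h7 := abs_nonneg (o.Γ (π (Sum.inl S) ω) i j - o.Γ (π (vb k) ω) i j)
    rw [one_div, inv_pow, ← one_div, le_div_iff₀ h6]
    have h8 : 2 ^ w * (|o.Γ (π (Sum.inl S) ω) i j - o.Γ (π (vb k) ω) i j| * 2 ^ (k + 2)) ≤
        2 ^ w * 1 := by
      calc 2 ^ w * (|o.Γ (π (Sum.inl S) ω) i j - o.Γ (π (vb k) ω) i j| * 2 ^ (k + 2))
          = (2 ^ (k + 2) * 2 ^ w) * |o.Γ (π (Sum.inl S) ω) i j - o.Γ (π (vb k) ω) i j| := by
            ring
        _ ≤ 2 ^ a * |o.Γ (π (Sum.inl S) ω) i j - o.Γ (π (vb k) ω) i j| :=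
            mul_le_mul_of_nonneg_right h4 h7
        _ ≤ 2 ^ w * 1 := by rw [mul_one]; exact h3
    exact le_of_mul_le_mul_left h8 h5
  refine (Finset.sum_le_sum fun S _ => h2 S).trans ?_
  rw [Finset.sum_const, Finset.card_univ, Fintype.card_finset, Fintype.card_fin, nsmul_eq_mul]
  push_cast
  rw [← mul_pow]
  norm_num

/-- the bin of a bad point -/
theorem cm_bin {a w : ℕ} {c : Cf Ω m} {o : Ob Ω m κ} {π : CI k → Ω' → Ω} {ω : Ω'}
    (ht : CTyp a w c o π ω) (hw : w + (k + 2) ≤ a) (hw0 : 0 < w) {v : ℝ}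
    (hb : cBad o π ((2 : ℝ) ^ (-v)) ω) :
    ∃ (b : ℕ) (i0 j0 : Fin m), CBin (w * b) w i0 j0 o π ω ∧ ((w * b : ℕ) : ℝ) ≤ v := by
  classical
  obtain ⟨i, hi, j, hj, hij⟩ := hb
  set s : Finset (Fin m × Fin m) := univ.filter fun p => p.1 ∉ o.J ∧ p.2 ∈ o.J with hs
  obtain ⟨p, hp, hmax⟩ := s.exists_max_image (fun p => |cS o π ω p.1 p.2|)
    ⟨(i, j), by simp [hs, hi, hj]⟩
  have hp' : p.1 ∉ o.J ∧ p.2 ∈ o.J := by simpa [hs] using hp
  set M := |cS o π ω p.1 p.2| with hM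
  have h1 : (2 : ℝ) ^ (-v) < M := hij.trans_le (hmax (i, j) (by simp [hs, hi, hj]))
  have hM0 : 0 < M := (Real.rpow_pos_of_pos (by norm_num) _).trans h1
  have hM1 : M ≤ 1 := cm_cS_le ht hw hp'.1 hp'.2
  -- the logarithm
  set u : ℝ := -Real.logb 2 M with hu
  have hu0 : 0 ≤ u := by
    rw [hu, neg_nonneg]
    exact Real.logb_nonpos (by norm_num) hM0.le hM1
  have huM : (2 : ℝ) ^ u = M⁻¹ := by
    rw [hu, Real.rpow_neg (by norm_num), Real.rpow_logb (by norm_num) (by norm_num) hM0]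
  have huv : u < v := by
    by_contra hcon
    push Not at hcon
    have h2 : (2 : ℝ) ^ v ≤ M⁻¹ := by
      rw [← huM]
      exact Real.rpow_le_rpow_of_exponent_le (by norm_num) hcon
    have h3 : M ≤ (2 : ℝ) ^ (-v) := by
      rw [Real.rpow_neg (by norm_num)]
      exact (le_inv_comm₀ (Real.rpow_pos_of_pos (by norm_num) _) hM0).1 h2
    linarith
  have hw0' : (0 : ℝ) < w := by exact_mod_cast hw0
  set b : ℕ := ⌊u / w⌋₊ with hb
  have hb1 : ((w * b : ℕ) : ℝ) ≤ u := by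
    have := Nat.floor_le (div_nonneg hu0 hw0'.le)
    rw [← hb, le_div_iff₀ hw0'] at this
    push_cast
    linarith
  have hb2 : u < ((w * b + w : ℕ) : ℝ) := by
    have := Nat.lt_floor_add_one (u / w)
    rw [← hb, div_lt_iff₀ hw0'] at this
    push_cast
    linarith
  refine ⟨b, p.1, p.2, ⟨hp'.1, hp'.2, ?_, ?_, ?_⟩, hb1.trans huv.le⟩
  · intro i j hi hj
    exact hmax (i, j) (by simp [hs, hi, hj])
  · have h2 : (2 : ℝ) ^ (w * b) ≤ M⁻¹ := by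
      rw [← huM, ← Real.rpow_natCast]
      exact Real.rpow_le_rpow_of_exponent_le (by norm_num) hb1
    calc (2 : ℝ) ^ (w * b) * |cS o π ω p.1 p.2| ≤ M⁻¹ * M :=
          mul_le_mul_of_nonneg_right h2 hM0.le
      _ = 1 := inv_mul_cancel₀ hM0.ne'
  · have h2 : M⁻¹ < (2 : ℝ) ^ (w * b + w) := by
      rw [← huM, ← Real.rpow_natCast]
      exact Real.rpow_lt_rpow_of_exponent_lt (by norm_num) hb2
    calc (1 : ℝ) = M⁻¹ * M := (inv_mul_cancel₀ hM0.ne').symm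
      _ < (2 : ℝ) ^ (w * b + w) * |cS o π ω p.1 p.2| := mul_lt_mul_of_pos_right h2 hM0

/-- the conclusion of `CK` -/
def cmE (k : ℕ) (ε : ℝ) (a : ℕ) (Ω : Type) [Fintype Ω] (P : Law Ω) (c : Cf Ω m)
    (o : Ob Ω m κ) : Prop :=
  ∀ Q : Law (Fin (k + 2) → Ω), (∀ w, Q.w w = cw P (key c a) (k + 1) w) →
    prE Q (fun w => ∃ i, i ∉ o.J ∧ ∃ j ∈ o.J,
          (2 : ℝ) ^ (-(((k + 1) * a : ℕ) : ℝ) + ε * ((κ + 4) * a : ℕ)) <
            |o.Γ (w (Fin.last (k + 1))) i j -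
              ∑ l : Fin (k + 1), lag c.t w l * o.Γ (w l.castSucc) i j|) ≤ ε

theorem cm_CK {R : Gr} {h : ℝ} (hC : CK R m h κ k) :
    Ev R m h κ (fun ε a Ω _ P c o => cmE k ε a Ω P c o) := by
  intro ε hε
  obtain ⟨ι, h1, εu, h2, h3⟩ := hC ε hε
  refine ⟨ι, h1, εu, h2, fun g => ?_⟩
  obtain ⟨n, hn⟩ := h3 g
  refine ⟨n, fun a e C hok Ω _ P c o hH Q hQ => ?_⟩
  have h4 := hn a e C hok Ω P c o hH Q hQ
  unfold prE
  convert h4

/-- powers -/
theorem cm_pow {a w : ℕ} {ε L x : ℝ} (hw : ε * L ≤ w) (hx : (2 : ℝ) ^ w < 2 ^ a * x) :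
    (2 : ℝ) ^ (-(a : ℝ) + ε * L) < x := by
  have h1 : (2 : ℝ) ^ (-(a : ℝ) + ε * L) ≤ (2 : ℝ) ^ (-(a : ℝ)) * 2 ^ w := by
    rw [Real.rpow_add (by norm_num)]
    refine mul_le_mul_of_nonneg_left ?_ (Real.rpow_pos_of_pos (by norm_num) _).le
    rw [← Real.rpow_natCast]
    exact Real.rpow_le_rpow_of_exponent_le (by norm_num) hw
  refine h1.trans_lt ?_
  rw [Real.rpow_neg (by norm_num), Real.rpow_natCast, inv_mul_lt_iff₀ (by positivity)]
  exact hx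

theorem cm_gam {a w : ℕ} {K cost ε0 : ℝ} {P : Law Ω} {c : Cf Ω m} {o : Ob Ω m κ} {Q : Law Ω'}
    {π : CI k → Ω' → Ω} (hf : CubeFam a k K cost P c o Q π) (hK : 0 ≤ K)
    (hC : cmE 0 ε0 a Ω P c o) (hw : ε0 * ((κ + 4) * a : ℕ) ≤ w) (S : Finset (Fin (k + 2)))
    (hS : S ≠ ∅) :
    prE Q (fun ω => ∃ i, i ∉ o.J ∧ ∃ j ∈ o.J, (2 : ℝ) ^ w <
      2 ^ a * |o.Γ (π (Sum.inl S) ω) i j - o.Γ (π (vb k) ω) i j|) ≤ K * ε0 := by
  obtain ⟨Q2, hQ2⟩ := cw_exists P (key c a) (0 + 1)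
  have h1 := hC Q2 hQ2
  have h2 := cm_prE_dom Q Q2 (fun ω => ![π (vb k) ω, π (Sum.inl S) ω]) K
    (fun v => by rw [hQ2]; exact hf.pair S hS v)
    (fun w => ∃ i, i ∉ o.J ∧ ∃ j ∈ o.J,
          (2 : ℝ) ^ (-(((0 + 1) * a : ℕ) : ℝ) + ε0 * ((κ + 4) * a : ℕ)) <
            |o.Γ (w (Fin.last (0 + 1))) i j -
              ∑ l : Fin (0 + 1), lag c.t w l * o.Γ (w l.castSucc) i j|)
  refine le_trans (cm_prE_mono Q ?_) (h2.trans (mul_le_mul_of_nonneg_left h1 hK))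
  rintro ω _ ⟨i, hi, j, hj, hij⟩
  refine ⟨i, hi, j, hj, ?_⟩
  have h3 := cm_pow (ε := ε0) (L := ((κ + 4) * a : ℕ)) hw hij
  have e1 : (0 + 1) * a = a := by ring
  rw [e1]
  refine h3.trans_le (le_of_eq ?_)
  rw [Fin.sum_univ_one]
  have h4 : ∀ t : Ω → ℝ, ∀ w : Fin (0 + 2) → Ω, lag t w 0 = 1 := by
    intro t w
    unfold lag
    rw [Finset.prod_eq_one]
    intro l hl
    exact absurd (Subsingleton.elim (α := Fin 1) _ _) (Finset.mem_erase.1 hl).1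
  rw [h4, one_mul]
  rfl

theorem cm_pol {a w : ℕ} {K cost ε0 : ℝ} {P : Law Ω} {c : Cf Ω m} {o : Ob Ω m κ} {Q : Law Ω'}
    {π : CI k → Ω' → Ω} (hf : CubeFam a k K cost P c o Q π) (hK : 0 ≤ K)
    (hC : cmE k ε0 a Ω P c o) (hw : ε0 * ((κ + 4) * a : ℕ) ≤ w) (S : Finset (Fin (k + 2))) :
    prE Q (fun ω => ∃ i, i ∉ o.J ∧ ∃ j ∈ o.J, (2 : ℝ) ^ w <
      2 ^ ((k + 1) * a) * |o.Γ (π (Sum.inl S) ω) i j - cg c o π ω S i j|) ≤ K * ε0 := by
  obtain ⟨Q2, hQ2⟩ := cw_exists P (key c a) (k + 1)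
  have h1 := hC Q2 hQ2
  have h2 := cm_prE_dom Q Q2
    (fun ω => (Fin.snoc (fun l => π (Sum.inr l) ω) (π (Sum.inl S) ω) : Fin (k + 2) → Ω)) K
    (fun v => by rw [hQ2]; exact hf.node S v)
    (fun w => ∃ i, i ∉ o.J ∧ ∃ j ∈ o.J,
          (2 : ℝ) ^ (-(((k + 1) * a : ℕ) : ℝ) + ε0 * ((κ + 4) * a : ℕ)) <
            |o.Γ (w (Fin.last (k + 1))) i j -
              ∑ l : Fin (k + 1), lag c.t w l * o.Γ (w l.castSucc) i j|)
  refine le_trans (cm_prE_mono Q ?_) (h2.trans (mul_le_mul_of_nonneg_left h1 hK))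
  rintro ω _ ⟨i, hi, j, hj, hij⟩
  refine ⟨i, hi, j, hj, ?_⟩
  refine (cm_pow (ε := ε0) (L := ((κ + 4) * a : ℕ)) hw hij).trans_le (le_of_eq ?_)
  unfold cg lag
  simp only [Fin.snoc_last, Fin.snoc_castSucc]

/-- separation of the nodes, from the separation of two copies -/
theorem cm_sep {a w : ℕ} {K cost B : ℝ} {P : Law Ω} {c : Cf Ω m} {o : Ob Ω m κ} {Q : Law Ω'}
    {π : CI k → Ω' → Ω} (hf : CubeFam a k K cost P c o Q π) (hK : 0 ≤ K)
    (hB : ∀ Q2 : Law (Fin 2 → Ω), (∀ v, Q2.w v = cw P (key c a) 1 v) →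
      prE Q2 (fun v => (2 : ℝ) ^ (a + w) * |c.t (v 0) - c.t (v 1)| < 1) ≤ B)
    (l l' : Fin (k + 1)) (hl : l ≠ l') :
    prE Q (fun ω => (2 : ℝ) ^ (a + w) * |c.t (π (Sum.inr l) ω) - c.t (π (Sum.inr l') ω)| < 1) ≤
      K * B := by
  obtain ⟨Q2, hQ2⟩ := cw_exists P (key c a) (k + 1)
  obtain ⟨Q3, hQ3⟩ := cw_exists P (key c a) 1
  have h1 := hB Q3 hQ3
  have he : Function.Injective (![l.castSucc, l'.castSucc] : Fin 2 → Fin (k + 2)) := by
    intro x y hxy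
    fin_cases x <;> fin_cases y
    · rfl
    · exact absurd (Fin.castSucc_injective _ hxy) hl
    · exact absurd (Fin.castSucc_injective _ hxy) hl.symm
    · rfl
  have h2 := cm_prE_dom Q Q2
    (fun ω => (Fin.snoc (fun l => π (Sum.inr l) ω) (π (Sum.inl ∅) ω) : Fin (k + 2) → Ω)) K
    (fun v => by rw [hQ2]; exact hf.node ∅ v)
    (fun v => (2 : ℝ) ^ (a + w) * |c.t (v l.castSucc) - c.t (v l'.castSucc)| < 1)
  have h3 := cm_prE_dom Q2 Q3 (fun v => v ∘ (![l.castSucc, l'.castSucc] : Fin 2 → Fin (k + 2))) 1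
    (fun v => by rw [hQ3, one_mul]; exact (cw_sub hQ2 _ he v).le)
    (fun v => (2 : ℝ) ^ (a + w) * |c.t (v 0) - c.t (v 1)| < 1)
  rw [one_mul] at h3
  simp only [Fin.snoc_castSucc] at h2
  exact h2.trans (mul_le_mul_of_nonneg_left (h3.trans h1) hK)

theorem cm_typ {a w : ℕ} {K cost ε0 B : ℝ} {P : Law Ω} {c : Cf Ω m} {o : Ob Ω m κ}
    {Q : Law Ω'} {π : CI k → Ω' → Ω} (hf : CubeFam a k K cost P c o Q π) (hK : 0 ≤ K)
    (hC0 : cmE 0 ε0 a Ω P c o) (hC : cmE k ε0 a Ω P c o)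
    (hw : ε0 * ((κ + 4) * a : ℕ) ≤ w) (hε0 : 0 ≤ ε0) (hB0 : 0 ≤ B)
    (hB : ∀ Q2 : Law (Fin 2 → Ω), (∀ v, Q2.w v = cw P (key c a) 1 v) →
      prE Q2 (fun v => (2 : ℝ) ^ (a + w) * |c.t (v 0) - c.t (v 1)| < 1) ≤ B) :
    prE Q (fun ω => ¬ CTyp a w c o π ω) ≤
      (k + 1) ^ 2 * (K * B) + 2 * (2 ^ (k + 2) * (K * ε0)) := by
  classical
  -- the three kinds of violations
  have hKB : 0 ≤ K * B := mul_nonneg hK hB0
  have hKe : 0 ≤ K * ε0 := mul_nonneg hK hε0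
  have h1 : prE Q (fun ω => ∃ l : Fin (k + 1) × Fin (k + 1), l.1 ≠ l.2 ∧
      (2 : ℝ) ^ (a + w) * |c.t (π (Sum.inr l.1) ω) - c.t (π (Sum.inr l.2) ω)| < 1) ≤
      (k + 1) ^ 2 * (K * B) := by
    refine (cm_prE_exists Q _).trans ?_
    have h2 : ∀ l : Fin (k + 1) × Fin (k + 1), prE Q (fun ω => l.1 ≠ l.2 ∧
      (2 : ℝ) ^ (a + w) * |c.t (π (Sum.inr l.1) ω) - c.t (π (Sum.inr l.2) ω)| < 1) ≤ K * B := by
      intro l
      by_cases hl : l.1 = l.2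
      · refine le_trans (cm_prE_mono Q (F := fun _ => False) ?_) ?_
        · intro ω _ h
          exact h.1 hl
        · unfold prE
          simpa using hKB
      · exact (cm_prE_mono Q fun ω _ h => h.2).trans (cm_sep hf hK hB l.1 l.2 hl)
    refine (Finset.sum_le_sum fun l _ => h2 l).trans (le_of_eq ?_)
    rw [Finset.sum_const, Finset.card_univ, Fintype.card_prod, Fintype.card_fin, nsmul_eq_mul]
    push_cast
    ring
  have h3 : prE Q (fun ω => ∃ S : Finset (Fin (k + 2)), ∃ i, i ∉ o.J ∧ ∃ j ∈ o.J,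
      (2 : ℝ) ^ w < 2 ^ a * |o.Γ (π (Sum.inl S) ω) i j - o.Γ (π (vb k) ω) i j|) ≤
      2 ^ (k + 2) * (K * ε0) := by
    refine (cm_prE_exists Q _).trans ?_
    have h2 : ∀ S : Finset (Fin (k + 2)), prE Q (fun ω => ∃ i, i ∉ o.J ∧ ∃ j ∈ o.J,
      (2 : ℝ) ^ w < 2 ^ a * |o.Γ (π (Sum.inl S) ω) i j - o.Γ (π (vb k) ω) i j|) ≤ K * ε0 := by
      intro S
      by_cases hS : S = ∅
      · refine le_trans (cm_prE_mono Q (F := fun _ => False) ?_) ?_
        · rintro ω _ ⟨i, _, j, _, h⟩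
          rw [hS] at h
          have h4 : (0 : ℝ) < 2 ^ w := by positivity
          have h5 : o.Γ (π (Sum.inl ∅) ω) i j - o.Γ (π (vb k) ω) i j = 0 := sub_self _
          rw [h5, abs_zero, mul_zero] at h
          linarith
        · unfold prE
          simpa using hKe
      · exact cm_gam hf hK hC0 hw S hS
    refine (Finset.sum_le_sum fun l _ => h2 l).trans (le_of_eq ?_)
    rw [Finset.sum_const, Finset.card_univ, Fintype.card_finset, Fintype.card_fin, nsmul_eq_mul]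
    push_cast
    ring
  have h5 : prE Q (fun ω => ∃ S : Finset (Fin (k + 2)), ∃ i, i ∉ o.J ∧ ∃ j ∈ o.J,
      (2 : ℝ) ^ w < 2 ^ ((k + 1) * a) * |o.Γ (π (Sum.inl S) ω) i j - cg c o π ω S i j|) ≤
      2 ^ (k + 2) * (K * ε0) := by
    refine (cm_prE_exists Q _).trans ?_
    refine (Finset.sum_le_sum fun S _ => cm_pol hf hK hC hw S).trans (le_of_eq ?_)
    rw [Finset.sum_const, Finset.card_univ, Fintype.card_finset, Fintype.card_fin, nsmul_eq_mul]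
    push_cast
    ring
  refine le_trans (cm_prE_mono Q (F := fun ω =>
    (∃ l : Fin (k + 1) × Fin (k + 1), l.1 ≠ l.2 ∧
      (2 : ℝ) ^ (a + w) * |c.t (π (Sum.inr l.1) ω) - c.t (π (Sum.inr l.2) ω)| < 1) ∨
    ((∃ S : Finset (Fin (k + 2)), ∃ i, i ∉ o.J ∧ ∃ j ∈ o.J,
      (2 : ℝ) ^ w < 2 ^ a * |o.Γ (π (Sum.inl S) ω) i j - o.Γ (π (vb k) ω) i j|) ∨
    (∃ S : Finset (Fin (k + 2)), ∃ i, i ∉ o.J ∧ ∃ j ∈ o.J,
      (2 : ℝ) ^ w < 2 ^ ((k + 1) * a) * |o.Γ (π (Sum.inl S) ω) i j - cg c o π ω S i j|))) ?_) ?_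
  · intro ω _ hω
    by_contra hcon
    push Not at hcon
    obtain ⟨c1, c2, c3⟩ := hcon
    exact hω ⟨fun l l' hl => c1 (l, l') hl, fun S i j hi hj => c2 S i hi j hj,
      fun S i j hi hj => c3 S i hi j hj⟩
  · have h6 := cm_prE_or Q (fun ω => ∃ l : Fin (k + 1) × Fin (k + 1), l.1 ≠ l.2 ∧
      (2 : ℝ) ^ (a + w) * |c.t (π (Sum.inr l.1) ω) - c.t (π (Sum.inr l.2) ω)| < 1)
      (fun ω => (∃ S : Finset (Fin (k + 2)), ∃ i, i ∉ o.J ∧ ∃ j ∈ o.J,
        (2 : ℝ) ^ w < 2 ^ a * |o.Γ (π (Sum.inl S) ω) i j - o.Γ (π (vb k) ω) i j|) ∨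
      (∃ S : Finset (Fin (k + 2)), ∃ i, i ∉ o.J ∧ ∃ j ∈ o.J,
        (2 : ℝ) ^ w < 2 ^ ((k + 1) * a) * |o.Γ (π (Sum.inl S) ω) i j - cg c o π ω S i j|))
    have h7 := cm_prE_or Q (fun ω => ∃ S : Finset (Fin (k + 2)), ∃ i, i ∉ o.J ∧ ∃ j ∈ o.J,
        (2 : ℝ) ^ w < 2 ^ a * |o.Γ (π (Sum.inl S) ω) i j - o.Γ (π (vb k) ω) i j|)
      (fun ω => ∃ S : Finset (Fin (k + 2)), ∃ i, i ∉ o.J ∧ ∃ j ∈ o.J,
        (2 : ℝ) ^ w < 2 ^ ((k + 1) * a) * |o.Γ (π (Sum.inl S) ω) i j - cg c o π ω S i j|)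
    linarith

/-- pigeonhole over the bins -/
theorem cm_pigeon {ι : Type} [Fintype ι] (Q : Law Ω) (E : ι → Ω → Prop) {x y : ℝ}
    (hx : x < prE Q (fun ω => ∃ i, E i ω)) (hy : (Fintype.card ι : ℝ) * y ≤ x) :
    ∃ i, y ≤ prE Q (E i) := by
  by_contra hcon
  push Not at hcon
  have h1 := cm_prE_exists Q E
  have h2 : ∑ i, prE Q (E i) ≤ (Fintype.card ι : ℝ) * y := by
    refine (Finset.sum_le_sum fun i _ => (hcon i).le).trans (le_of_eq ?_)
    rw [Finset.sum_const, Finset.card_univ, nsmul_eq_mul]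
  linarith

/-- the event of bad typical points contains a large bin -/
theorem cm_find {a w Nb : ℕ} {c : Cf Ω m} {o : Ob Ω m κ} {Q : Law Ω'} {π : CI k → Ω' → Ω}
    {v ε1 q : ℝ} (hw : w + (k + 2) ≤ a) (hw0 : 0 < w) (hNb : v < (w : ℝ) * Nb)
    (hq : prE Q (fun ω => ¬ CTyp a w c o π ω) ≤ q)
    (hb : ε1 + q < prE Q (cBad o π ((2 : ℝ) ^ (-v)))) (hε1 : 0 < ε1) :
    ∃ (b : ℕ) (i0 j0 : Fin m), ((w * b : ℕ) : ℝ) ≤ v ∧
      ε1 / (Nb * (m * m) + 1) ≤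
        prE Q (fun ω => CTyp a w c o π ω ∧ CBin (w * b) w i0 j0 o π ω) := by
  have h1 : ε1 < prE Q (fun ω => ∃ p : Fin Nb × (Fin m × Fin m), ((w * p.1.val : ℕ) : ℝ) ≤ v ∧
      (CTyp a w c o π ω ∧ CBin (w * p.1.val) w p.2.1 p.2.2 o π ω)) := by
    have h2 : prE Q (cBad o π ((2 : ℝ) ^ (-v))) ≤
        prE Q (fun ω => (∃ p : Fin Nb × (Fin m × Fin m), ((w * p.1.val : ℕ) : ℝ) ≤ v ∧
          (CTyp a w c o π ω ∧ CBin (w * p.1.val) w p.2.1 p.2.2 o π ω)) ∨ ¬ CTyp a w c o π ω) := by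
      refine cm_prE_mono Q fun ω _ hω => ?_
      by_cases ht : CTyp a w c o π ω
      · left
        obtain ⟨b, i0, j0, h3, h4⟩ := cm_bin ht hw hw0 hω
        have hw0' : (0 : ℝ) < w := by exact_mod_cast hw0
        have h5 : b < Nb := by
          have h6 : (w : ℝ) * b < w * Nb := by
            have : ((w * b : ℕ) : ℝ) = w * b := by push_cast; ring
            linarith
          exact_mod_cast lt_of_mul_lt_mul_left h6 hw0'.le
        exact ⟨(⟨b, h5⟩, (i0, j0)), h4, ht, h3⟩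
      · exact Or.inr ht
    have h3 := cm_prE_or Q (fun ω => ∃ p : Fin Nb × (Fin m × Fin m),
      ((w * p.1.val : ℕ) : ℝ) ≤ v ∧
          (CTyp a w c o π ω ∧ CBin (w * p.1.val) w p.2.1 p.2.2 o π ω))
      (fun ω => ¬ CTyp a w c o π ω)
    linarith
  have hd : (0 : ℝ) < Nb * (m * m) + 1 := by positivity
  obtain ⟨p, hp⟩ := cm_pigeon Q _ (y := ε1 / (Nb * (m * m) + 1)) h1 (by
    rw [Fintype.card_prod, Fintype.card_prod, Fintype.card_fin, Fintype.card_fin]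
    push_cast
    rw [← mul_div_assoc, div_le_iff₀ hd]
    nlinarith)
  have hy : 0 < ε1 / (Nb * (m * m) + 1) := div_pos hε1 hd
  have hv : ((w * p.1.val : ℕ) : ℝ) ≤ v := by
    by_contra hcon
    have h4 : prE Q (fun ω => ((w * p.1.val : ℕ) : ℝ) ≤ v ∧
      (CTyp a w c o π ω ∧ CBin (w * p.1.val) w p.2.1 p.2.2 o π ω)) ≤ 0 := by
      refine le_trans (cm_prE_mono Q (F := fun _ => False) fun ω _ h => hcon h.1) ?_
      unfold prE
      simp
    linarith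
  exact ⟨p.1.val, p.2.1, p.2.2, hv, hp.trans (cm_prE_mono Q fun ω _ h => h.2)⟩

end fam

section main

/-- choice of the slack -/
theorem cm_slack {κ k a : ℕ} {g : ℝ} (hkκ : k ≤ κ) (hg : 0 < g) (hg1 : g ≤ 1 / (8 * (κ + 4)))
    (hL : 1 ≤ g / 2 * ((κ + 4) * a : ℕ))
    (hL2 : (1 : ℝ) ≤ 1 / (2 * (κ + 4) * (κ + 2)) * ((κ + 4) * a : ℕ)) :
    ∃ w : ℕ, 0 < w ∧ g / 2 * ((κ + 4) * a : ℕ) ≤ w ∧ (w : ℝ) ≤ g * ((κ + 4) * a : ℕ) ∧
      w + (k + 2) ≤ a ∧ g * ((κ + 4) * a : ℕ) < w + 1 := by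
  set L : ℝ := (((κ + 4) * a : ℕ) : ℝ) with hLd
  have hL0 : 0 ≤ L := Nat.cast_nonneg _
  have hκ : (0 : ℝ) ≤ κ := Nat.cast_nonneg _
  have h1 : (⌊g * L⌋₊ : ℝ) ≤ g * L := Nat.floor_le (by positivity)
  have h2 : g * L < ⌊g * L⌋₊ + 1 := Nat.lt_floor_add_one _
  have h3 : g / 2 * L ≤ ⌊g * L⌋₊ := by linarith
  have h4 : (0 : ℝ) < ⌊g * L⌋₊ := by linarith
  have hLa : L = (κ + 4) * a := by rw [hLd]; push_cast; ring
  refine ⟨⌊g * L⌋₊, by exact_mod_cast h4, h3, h1, ?_, h2⟩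
  have h5 : g * L ≤ a / 8 := by
    rw [hLa]
    calc g * ((κ + 4) * a) ≤ 1 / (8 * (κ + 4)) * ((κ + 4) * a) := by
          refine mul_le_mul_of_nonneg_right hg1 (by positivity)
      _ = a / 8 := by
          field_simp
  have h6 : (2 : ℝ) * (κ + 2) ≤ a := by
    rw [hLa] at hL2
    have h7 : 1 / (2 * ((κ : ℝ) + 4) * (κ + 2)) * ((κ + 4) * a) = a / (2 * (κ + 2)) := by
      field_simp
    rw [h7, le_div_iff₀ (by positivity)] at hL2
    linarith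
  have h8 : (k : ℝ) ≤ κ := by exact_mod_cast hkκ
  have h9 : ((⌊g * L⌋₊ + (k + 2) : ℕ) : ℝ) ≤ a := by
    push_cast
    linarith
  exact_mod_cast h9

theorem pcmain {R : Gr} (hcore : PCCore R) : PCMain R := by
  intro m h κ k hkκ hLB hNK hC0 hR hCk K0 ε1 hε1
  have hκ : (0 : ℝ) ≤ κ := Nat.cast_nonneg _
  have hk : (0 : ℝ) ≤ k := Nat.cast_nonneg _
  -- parameters
  obtain ⟨g0, hg0, hcore⟩ := hcore m h κ k hkκ hLB hNK hR (ε1 / 2) (by positivity)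
  obtain ⟨g, hg, hgg0, hgε, hgκ⟩ : ∃ g : ℝ, 0 < g ∧ g ≤ g0 ∧ g ≤ ε1 / 12 ∧
      g ≤ 1 / (8 * (κ + 4)) :=
    ⟨min g0 (min (ε1 / 12) (1 / (8 * (κ + 4)))), by positivity, min_le_left _ _,
      (min_le_right _ _).trans (min_le_left _ _), (min_le_right _ _).trans (min_le_right _ _)⟩
  set Nb : ℕ := ⌈2 / g⌉₊ + 1 with hNb
  set p0 : ℝ := ε1 / 2 / (Nb * (m * m) + 1) with hp0d
  have hp0 : 0 < p0 := by positivity
  obtain ⟨ι1', hι1', ι', hι', εu', hεu', hcore⟩ := hcore g hg hgg0 (K0 / p0)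
  set K1 : ℝ := max K0 1 with hK1d
  have hK1 : 1 ≤ K1 := le_max_right _ _
  set ε0 : ℝ := min (g / 2) (ε1 / (12 * (2 ^ (k + 2) * K1))) with hε0d
  have hε0 : 0 < ε0 := by positivity
  have hε0g : ε0 ≤ g / 2 := min_le_left _ _
  have hε01 : 2 * (2 ^ (k + 2) * (K1 * ε0)) ≤ ε1 / 6 := by
    have h1 : ε0 ≤ ε1 / (12 * (2 ^ (k + 2) * K1)) := min_le_right _ _
    rw [le_div_iff₀ (by positivity)] at h1
    linarith
  obtain ⟨ιa, hιa, εa, hεa, hCa⟩ := cm_CK hC0 ε0 hε0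
  obtain ⟨ιb, hιb, εb, hεb, hCb⟩ := cm_CK hCk ε0 hε0
  set T : ℝ := (k + 1) ^ 2 * K1 with hT
  have hT0 : 0 < T := by positivity
  set εc : ℝ := (ε1 / (24 * T)) ^ 2 with hεc
  have hεc0 : 0 < εc := by positivity
  refine ⟨ι1' * p0 / 2, by positivity, min ι' (min ιa ιb), by positivity,
    min εu' (min εa (min εb εc)), by positivity, fun gr => ?_⟩
  obtain ⟨n1, hn1⟩ := hcore gr
  obtain ⟨n2, hn2⟩ := hCa gr
  obtain ⟨n3, hn3⟩ := hCb gr
  obtain ⟨n4, hn4⟩ := R.small gr (g / 2) (by positivity)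
  obtain ⟨n5, hn5⟩ := R.small gr (1 / (2 * (κ + 4) * (κ + 2))) (by positivity)
  obtain ⟨n6, hn6⟩ := R.small gr (g * ε1 / (36 * T)) (by positivity)
  obtain ⟨n7, hn7⟩ := R.small gr (ι1' * p0 / 2 / Real.log 2) (by
    have : 0 < Real.log 2 := Real.log_pos (by norm_num)
    positivity)
  refine ⟨max n1 (max n2 (max n3 (max n4 (max n5 (max n6 n7))))), ?_⟩
  intro a e C hok Ω Ω' _ _ P c o Q π hH hf
  have hok1 := R.anti _ _ _ _ _ _ (le_max_left _ _) hok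
  have hok' := R.anti _ _ _ _ _ _ (le_max_right _ _) hok
  have hok2 := R.anti _ _ _ _ _ _ (le_max_left _ _) hok'
  have hok'' := R.anti _ _ _ _ _ _ (le_max_right _ _) hok'
  have hok3 := R.anti _ _ _ _ _ _ (le_max_left _ _) hok''
  have hok3' := R.anti _ _ _ _ _ _ (le_max_right _ _) hok''
  have hok4 := R.anti _ _ _ _ _ _ (le_max_left _ _) hok3'
  have hok4' := R.anti _ _ _ _ _ _ (le_max_right _ _) hok3'
  have hok5 := R.anti _ _ _ _ _ _ (le_max_left _ _) hok4'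
  have hok5' := R.anti _ _ _ _ _ _ (le_max_right _ _) hok4'
  have hok6 := R.anti _ _ _ _ _ _ (le_max_left _ _) hok5'
  have hok7 := R.anti _ _ _ _ _ _ (le_max_right _ _) hok5'
  have hs4 := (hn4 _ _ _ hok4).1
  have hs5 := (hn5 _ _ _ hok5).1
  have hs6 := (hn6 _ _ _ hok6).1
  have hs7 := (hn7 _ _ _ hok7).1
  obtain ⟨w, hw0, hw1, hw2, hw3, hw4⟩ := cm_slack hkκ hg hgκ hs4 hs5
  set L : ℝ := (((κ + 4) * a : ℕ) : ℝ) with hLd
  have hLa : L = (κ + 4) * a := by rw [hLd]; push_cast; ring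
  have hL0 : 0 < L := by
    by_contra hcon
    push Not at hcon
    have := mul_nonpos_of_nonneg_of_nonpos (by positivity : (0 : ℝ) ≤ g / 2) hcon
    linarith
  have hfK : CubeFam a k K1 (ι1' * p0 / 2 * L) P c o Q π := cm_K_mono hf (le_max_left _ _)
  -- typical points
  have hsep : ∀ Q2 : Law (Fin 2 → Ω), (∀ v, Q2.w v = cw P (key c a) 1 v) →
      prE Q2 (fun v => (2 : ℝ) ^ (a + w) * |c.t (v 0) - c.t (v 1)| < 1) ≤
        3 / 2 ^ w + 2 * Real.sqrt (min εu' (min εa (min εb εc))) := by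
    intro Q2 hQ2
    refine copies_sep hH w ?_ Q2 hQ2
    have h1 : a ≤ (κ + 3) * a := Nat.le_mul_of_pos_left a (by omega)
    omega
  have htyp := cm_typ hfK (by positivity)
    (hn2 a e C hok2 Ω P c o (cm_hyp_mono hH ((min_le_right _ _).trans (min_le_left _ _))
      ((min_le_right _ _).trans (min_le_left _ _))))
    (hn3 a e C hok3 Ω P c o (cm_hyp_mono hH ((min_le_right _ _).trans (min_le_right _ _))
      ((min_le_right _ _).trans ((min_le_right _ _).trans (min_le_left _ _)))))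
    ((mul_le_mul_of_nonneg_right hε0g hL0.le).trans hw1) hε0.le (by positivity) hsep
  have hsq : 2 * Real.sqrt (min εu' (min εa (min εb εc))) ≤ ε1 / (12 * T) := by
    have h1 : Real.sqrt (min εu' (min εa (min εb εc))) ≤ ε1 / (24 * T) := by
      rw [Real.sqrt_le_left (by positivity)]
      exact (min_le_right _ _).trans ((min_le_right _ _).trans (min_le_right _ _))
    have h2 : 2 * (ε1 / (24 * T)) = ε1 / (12 * T) := by
      field_simp
      norm_num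
    linarith
  have h3w : 3 / 2 ^ w ≤ ε1 / (12 * T) := by
    have h1 : (w : ℝ) + 1 ≤ 2 ^ w := by
      have : w + 1 ≤ 2 ^ w := Nat.lt_two_pow_self
      exact_mod_cast this
    have h2 : 36 * T ≤ g * L * ε1 := by
      have h3 : g * ε1 / (36 * T) * L = g * L * ε1 / (36 * T) := by ring
      rw [h3, le_div_iff₀ (by positivity)] at hs6
      linarith
    rw [div_le_div_iff₀ (by positivity) (by positivity)]
    have h4 : g * L ≤ 2 ^ w := by linarith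
    have h5 : g * L * ε1 ≤ 2 ^ w * ε1 := mul_le_mul_of_nonneg_right h4 hε1.le
    linarith
  have hq : prE Q (fun ω => ¬ CTyp a w c o π ω) ≤ ε1 / 2 := by
    refine htyp.trans ?_
    have h1 : ((k : ℝ) + 1) ^ 2 * (K1 * (3 / 2 ^ w + 2 * Real.sqrt (min εu' (min εa (min εb εc)))))
        = T * (3 / 2 ^ w + 2 * Real.sqrt (min εu' (min εa (min εb εc)))) := by
      rw [hT]; ring
    rw [h1]
    have h2 : T * (3 / 2 ^ w + 2 * Real.sqrt (min εu' (min εa (min εb εc)))) ≤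
        T * (ε1 / (12 * T) + ε1 / (12 * T)) :=
      mul_le_mul_of_nonneg_left (by linarith) hT0.le
    have h3 : T * (ε1 / (12 * T) + ε1 / (12 * T)) = ε1 / 6 := by
      field_simp
      norm_num
    linarith
  -- suppose the cube sums are large
  by_contra hcon
  push Not at hcon
  set v : ℝ := ((k + 2) * a : ℕ) - ε1 * L with hv
  have hv' : -(((k + 2) * a : ℕ) : ℝ) + ε1 * L = -v := by rw [hv]; ring
  rw [hv'] at hcon
  have hkκ' : (k : ℝ) ≤ κ := by exact_mod_cast hkκ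
  have hvNb : v < w * Nb := by
    have h1 : v < (κ + 4) * a := by
      rw [hv]
      push_cast
      have h2 : 0 < ε1 * L := by positivity
      have h3 : ((k : ℝ) + 2) * a ≤ (κ + 4) * a :=
        mul_le_mul_of_nonneg_right (by linarith) (Nat.cast_nonneg _)
      linarith
    have h4 : L ≤ w * (2 / g) := by
      rw [← mul_div_assoc, le_div_iff₀ hg]
      linarith
    have h5 : (2 / g : ℝ) ≤ ⌈2 / g⌉₊ := Nat.le_ceil _
    have h6 : (w : ℝ) * (2 / g) ≤ w * Nb := by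
      refine mul_le_mul_of_nonneg_left ?_ (Nat.cast_nonneg _)
      rw [hNb]
      push_cast
      linarith
    rw [← hLa] at h1
    linarith
  obtain ⟨b, i0, j0, hb1, hb2⟩ := cm_find (ε1 := ε1 / 2) hw3 hw0 hvNb hq (by linarith)
    (by positivity)
  refine hn1 a e C hok1 Ω Ω' P c o
    (on Q (fun ω => CTyp a w c o π ω ∧ CBin (w * b) w i0 j0 o π ω)) π w (w * b) i0 j0
    (cm_hyp_mono hH (min_le_left _ _) (min_le_left _ _))
    (cm_cost_mono (hf.on hp0 hb2) ?_) hw1 hw2 ?_ ?_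
  · rw [div_le_iff₀ hp0]
    have h1 : Real.log 2 ≤ ι1' * p0 / 2 * L := by
      have h2 : 0 < Real.log 2 := Real.log_pos (by norm_num)
      have h3 : ι1' * p0 / 2 / Real.log 2 * L = ι1' * p0 / 2 * L / Real.log 2 := by ring
      rw [h3, le_div_iff₀ h2] at hs7
      linarith
    linarith
  · intro ω hω
    exact (on_pos (hp0.trans_le hb2) hω).1
  · have h1 : 6 * (w : ℝ) ≤ ε1 / 2 * L := by
      have h2 : g * L ≤ ε1 / 12 * L := mul_le_mul_of_nonneg_right hgε hL0.le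
      linarith
    have h3 : v = (k + 2) * a - ε1 * L := by rw [hv]; push_cast; ring
    linarith

end main

end Vale.Agent.P127.Stk
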