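import Vale.Agent.P127.Stk.CNodes

/-!
# P127 / Stk / CFam : the family of a progression law (helper662)
-/

namespace Vale.Agent.P127.Stk

open Finset Vale.Agent.P127

/-- probabilities under a law with given marginal -/
theorem pr_of_marg {Ω₁ Ω₂ : Type} [Fintype Ω₁] [Fintype Ω₂] {T : Type*} (P₁ : Law Ω₁)
    (P₂ : Law Ω₂) (π : Ω₁ → Ω₂) (h : ∀ ω, P₁.pr π ω = P₂.w ω) (X : Ω₂ → T) (t : T) :
    P₁.pr (fun x => X (π x)) t = P₂.pr X t := by
  classical
  have h1 : P₁.pr (fun x => X (π x)) t = P₁.ex (fun x => (fun ω => if X ω = t then 1 else 0)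
      (π x)) := by
    rw [pr_ite]
    unfold Law.ex
    exact Finset.sum_congr rfl fun x _ => by simp
  rw [h1, claw_ex_pull P₁ π (fun ω => if X ω = t then 1 else 0), pr_ite]
  exact Finset.sum_congr rfl fun ω _ => by rw [h]; simp

/-- the family of a progression law with `n` extra samples over the key -/
theorem ap_family (p n : ℕ) (c0 : ℝ) (hp : 1 ≤ p) (hc0 : 0 < c0) : ∃ K : ℝ, 1 ≤ K ∧
    ∀ (Ω S T T' V S' : Type) [Fintype Ω] (P : Law Ω) (W : Ω → S) (U : Ω → ℤ) (M : ℕ)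
      (Q0 : Law (Fin (p + 1) → Ω)) (Z : ℝ) (l : Ω → T) (A : Ω → T') (B : Ω → V) (I : Ω → S'),
      1 ≤ M → (∀ ω, 0 < P.w ω → 0 ≤ U ω ∧ U ω < M) →
      (∀ w, Q0.w w = apw P W U M p w / Z) → 0 < Z → c0 / (M : ℝ) ^ (p - 1) ≤ Z →
      Fn P I B → Fn P U B →
      Fn P W (fun ω => (l ω, A ω, I ω)) → Fn P (fun ω => (l ω, A ω, I ω)) W →
      ∃ (Ω₁ : Type) (_ : Fintype Ω₁) (Q : Law Ω₁) (π : Fin (p + 1) ⊕ Fin n → Ω₁ → Ω),
        (∀ v, Q.pr (fun x j => π (Sum.inl j) x) v = Q0.w v) ∧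
        (∀ x, 0 < Q.w x → ∀ i, W (π i x) = W (π (Sum.inl 0) x) ∧ 0 < P.w (π i x)) ∧
        (∀ x, 0 < Q.w x → ∃ μ : ℤ, ∀ j : Fin (p + 1),
          U (π (Sum.inl j) x) = U (π (Sum.inl 0) x) + (j : ℕ) * μ) ∧
        (∀ i, Dom Q (π i) P K) ∧
        (∀ i j, i ≠ j → ∀ v, Q.pr (fun x => ![π (Sum.inl i) x, π (Sum.inl j) x]) v ≤
          K * cw P W 1 v) ∧
        (∀ j v, Q.pr (fun x => (Fin.snoc (fun l => π (Sum.inr l) x) (π (Sum.inl j) x) :
          Fin (n + 1) → Ω)) v ≤ K * cw P W n v) ∧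
        mi Q (fun x => l (π (Sum.inl 0) x)) (fun x i => B (π i x))
          (fun x => A (π (Sum.inl 0) x)) ≤ K * (mi P l B A + 1) := by
  classical
  set K1 : ℝ := 8 / c0 with hK1
  have hK10 : 0 < K1 := by positivity
  refine ⟨1 + |Real.log (1 / c0)| + (p + 2) * K1 + n * K1 + K1, ?_, ?_⟩
  · have h1 := abs_nonneg (Real.log (1 / c0))
    have h2 : 0 ≤ ((p : ℝ) + 2) * K1 := by positivity
    have h3 : 0 ≤ (n : ℝ) * K1 := by positivity
    linarith
  intro Ω S T T' V S' _ P W U M Q0 Z l A B I hM hU hQ hZ hcZ hI hUB hW hW'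
  set K : ℝ := 1 + |Real.log (1 / c0)| + (p + 2) * K1 + n * K1 + K1 with hK
  have hK1K : K1 ≤ K := by
    have h1 := abs_nonneg (Real.log (1 / c0))
    have h2 : 0 ≤ ((p : ℝ) + 2) * K1 := by positivity
    have h3 : 0 ≤ (n : ℝ) * K1 := by positivity
    linarith
  have hd : ∀ j, Dom Q0 (fun w => w j) P K1 := fun j =>
    ap_dom1 hM hp hU hQ hZ hcZ hc0 j
  have hsup : ∀ w, 0 < Q0.w w → (∀ j, W (w j) = W (w 0)) ∧
      (∃ μ : ℤ, ∀ j : Fin (p + 1), U (w j) = U (w 0) + (j : ℕ) * μ) ∧ ∀ j, 0 < P.w (w j) := by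
    intro w hw
    rw [hQ] at hw
    exact clw_pos hM ((div_pos_iff_of_pos_right hZ).1 hw)
  have hπ : ∀ w, 0 < Q0.w w → 0 < P.w (w 0) := fun w hw => (hsup w hw).2.2 0
  obtain ⟨Q, hQ'⟩ := nodes_exists P W Q0 (fun w => w 0) n hπ
  have hfst := nodes_fst hQ' hπ
  refine ⟨(Fin (p + 1) → Ω) × (Fin n → Ω), inferInstance, Q,
    fun i x => Sum.elim (fun j => x.1 j) (fun k => x.2 k) i, ?_, ?_, ?_, ?_, ?_, ?_, ?_⟩
  · intro v
    exact hfst v
  · intro x hx i
    obtain ⟨g1, g2⟩ := nodes_supp hQ' hx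
    obtain ⟨k1, _, k3⟩ := hsup x.1 g1
    rcases i with j | k
    · exact ⟨k1 j, k3 j⟩
    · exact g2 k
  · intro x hx
    obtain ⟨g1, _⟩ := nodes_supp hQ' hx
    exact (hsup x.1 g1).2.1
  · intro i
    rcases i with j | k
    · have h1 : Dom Q Prod.fst Q0 1 := fun w => by rw [hfst w, one_mul]
      have h2 := h1.comp (hd j)
      rw [one_mul] at h2
      exact h2.mono hK1K
    · exact (nodes_dom1 hQ' (hd 0) k).mono hK1K
  · intro i j hij v
    have h1 := ap_dom2 hM hp hU hQ hZ hcZ hc0 hij v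
    have h2 : Q.pr (fun x => ![x.1 i, x.1 j]) v = Q0.pr (fun w => ![w i, w j]) v :=
      pr_of_marg Q Q0 Prod.fst hfst (fun w => ![w i, w j]) v
    have h3 : 0 ≤ cw P W 1 v := by
      unfold cw
      split_ifs
      · exact div_nonneg (Finset.prod_nonneg fun _ _ => P.nn _)
          (pow_nonneg (P.pr_nonneg _ _) _)
      · exact le_rfl
    have h4 : 4 / c0 ≤ K := by
      refine le_trans ?_ hK1K
      rw [hK1]
      exact div_le_div_of_nonneg_right (by norm_num) hc0.le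
    show Q.pr (fun x => ![x.1 i, x.1 j]) v ≤ _
    rw [h2]
    exact h1.trans (mul_le_mul_of_nonneg_right h4 h3)
  · intro j v
    have h1 := nodes_dom hQ' (fun w => w j) (fun w hw => (hsup w hw).1 j) (hd j) v
    have h3 : 0 ≤ cw P W n v := by
      unfold cw
      split_ifs
      · exact div_nonneg (Finset.prod_nonneg fun _ _ => P.nn _)
          (pow_nonneg (P.pr_nonneg _ _) _)
      · exact le_rfl
    exact h1.trans (mul_le_mul_of_nonneg_right hK1K h3)
  · have h1 := nodes_cost hQ' (hd 0) l A B I (fun w j => B (w j)) hI hW hW' (by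
      intro w w' g1 g2 he
      have e0 : B (w 0) = B (w' 0) := congrFun he 0
      exact hI _ _ (hπ w g1) (hπ w' g2) e0)
    have h2 := ap_cost hM hp hU hQ hZ hcZ hc0 l A B I hI hUB hW hW'
    have h3 : mi Q (fun x => l (x.1 0)) (fun x i => B (Sum.elim (fun j => x.1 j)
        (fun k => x.2 k) i)) (fun x => A (x.1 0)) ≤
        mi Q (fun x => l (x.1 0)) (fun x => ((fun j => B (x.1 j)), fun k => B (x.2 k)))
        (fun x => A (x.1 0)) := by
      refine mi_mono_right Q (fun x => l (x.1 0)) ?_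
      intro x x' _ _ he
      simp only [Prod.mk.injEq] at he
      funext i
      rcases i with j | k
      · exact congrFun he.1.1 j
      · exact congrFun he.1.2 k
    have h4 := mi_nonneg P l B A
    have h5 := le_abs_self (Real.log (1 / c0))
    have h6 := abs_nonneg (Real.log (1 / c0))
    have h7 : |Real.log (1 / c0)| ≤ |Real.log (1 / c0)| * (mi P l B A + 1) := by
      nlinarith
    have h8 : 0 ≤ (1 + K1) * (mi P l B A + 1) := by positivity
    show mi Q (fun x => l (x.1 0)) (fun x i => B (Sum.elim (fun j => x.1 j)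
        (fun k => x.2 k) i)) (fun x => A (x.1 0)) ≤ _
    have h9 : K * (mi P l B A + 1) = (1 + K1) * (mi P l B A + 1) +
        |Real.log (1 / c0)| * (mi P l B A + 1) + (p + 2) * (K1 * (mi P l B A + 1)) +
        n * (K1 * (mi P l B A + 1)) := by
      rw [hK]
      ring
    rw [h9]
    linarith

end Vale.Agent.P127.Stk
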