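import Vale.Agent.P127.Stk.CWrap
import Vale.Agent.P127.Stk.CFam

/-!
# P127 / Stk / CPclaw : existence of the family of progressions (helper662, helper692)
-/

namespace Vale.Agent.P127.Stk

theorem pclaw : PCLaw := pclaw_of ap_family

end Vale.Agent.P127.Stk
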