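import Vale.Agent.P127.Stk.RatesUp

/-!
# P127 / Stk : rates (sections 1 and 2), final statements
-/

namespace Vale.Agent.P127.Stk

open Finset Vale.Agent.P127

/-! ### The rates -/

theorem Rate.mono {Ω : Type} [Fintype Ω] {m κ : ℕ} {Q : Law Ω} {c : Cf Ω m} {o : Ob Ω m κ}
    {L : ℕ} {h e e' : ℝ} (H : Rate Q c o L h e) (he : e ≤ e') : Rate Q c o L h e' := by
  have h0 := H.nn
  refine ⟨H.x01, H.y01, H.t01, h0.trans he, H.cost.trans he, ?_, ?_, ?_, ?_, ?_, ?_, ?_, ?_, ?_,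
    ?_, ?_, ?_⟩
  · intro s hs
    have := H.q_up s hs
    linarith
  · intro s hs
    have := H.y_lo s hs
    linarith
  · intro s hs
    have := H.q_y s hs
    linarith
  · intro s s' hs hL
    have := H.pt s s' hs hL
    linarith
  · intro s s' hs hL
    have := H.lo s s' hs hL
    linarith
  · intro s hL
    have := H.lo0 s hL
    linarith
  · intro s hL
    have := H.up0 s hL
    linarith
  · intro s s' hs hL
    have := H.lo' s s' hs hL
    linarith
  · intro s s' hs hL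
    have := H.up s s' hs hL
    linarith
  · intro s s' hs hL
    have := H.cJ s s' hs hL
    linarith
  · intro s s' hs hL
    have := H.q_lo' s s' hs hL
    linarith
  · intro s s' hs hL
    have := H.q_up' s s' hs hL
    linarith

theorem Good.e_nn {Ω : Type} [Fintype Ω] {m : ℕ} {P : Law Ω} {c : Cf Ω m} {L : ℕ} {e C : ℝ}
    (h : Good P c L e C) : 0 ≤ e := by
  have h1 := h.lin 0 (Nat.zero_le _)
  have h2 := hc_nonneg P (fun ω => (fl 0 (c.x ω), fl 0 (c.y ω))) c.A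
  have h3 : ((m : ℝ) * ((0 : ℕ) : ℝ)) * Real.log 2 = 0 := by simp
  linarith

theorem Good.C_nn {Ω : Type} [Fintype Ω] {m : ℕ} {P : Law Ω} {c : Cf Ω m} {L : ℕ} {e C : ℝ}
    (h : Good P c L e C) : 0 ≤ C :=
  (mi_nonneg P _ _ _).trans h.ind

theorem pre_exists (R : Gr) {m : ℕ} {h : ℝ} (κ : ℕ) (hLB : LB R m h) (ε K : ℝ) (hε : 0 < ε)
    (hK : 2 ≤ K) : ∀ g : R.G, ∃ n : ℕ, ∀ (L : ℕ) (e C : ℝ), R.ok g n L e C →
      2 * (K * Real.log 2) ≤ ε * L ∧
      ∀ (Ω Ω' : Type) [Fintype Ω] [Fintype Ω'] (P : Law Ω) (c : Cf Ω m)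
        (Q : Law Ω') (π : Ω' → Ω), Good P c L e C → Dom Q π P K → ∀ o : Ob Ω' m κ,
        mi Q (fun ω => (c.x (π ω), c.y (π ω))) o.G (fun ω => (c.t (π ω), c.A (π ω))) ≤ ε * L →
        Pre Q (c.comp π) o L h (ε * L) := by
  intro g
  have hb : 0 < Real.log 2 := Real.log_pos (by norm_num)
  have hb1 : Real.log 2 ≤ 1 := by
    have := Real.log_le_sub_one_of_pos (show (0 : ℝ) < 2 by norm_num)
    linarith
  obtain ⟨g1, hg1⟩ := R.dom g (8 * K) (by linarith)
  have hη : 0 < ε / (|h| + 1) := by positivity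
  obtain ⟨g2, hg2⟩ := R.sub g1 (ε / (|h| + 1)) hη
  obtain ⟨n2, hn2⟩ := hLB ε hε g2
  obtain ⟨n1, hn1⟩ := hg2 n2
  obtain ⟨na, hna⟩ := hg1 n1
  obtain ⟨n3, hn3⟩ := R.small g1 ε hε
  obtain ⟨nb, hnb⟩ := hg1 n3
  set M : ℝ := |cst m κ| + |cst m 0| + κ * Real.log 7 + 2 * (K * Real.log 2) + 1 with hM
  have h7 : (0 : ℝ) ≤ κ * Real.log 7 :=
    mul_nonneg (Nat.cast_nonneg _) (Real.log_nonneg (by norm_num))
  have hKb : 0 ≤ K * Real.log 2 := by positivity
  have hM0 : 0 < M := by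
    have := abs_nonneg (cst m κ)
    have := abs_nonneg (cst m 0)
    linarith
  obtain ⟨nc, hnc⟩ := R.small g (ε / M) (by positivity)
  refine ⟨max na (max nb nc), ?_⟩
  intro L e C hok
  have oka := hna L e C (R.anti g na _ L e C (le_max_left _ _) hok)
  have okb := hnb L e C (R.anti g nb _ L e C ((le_max_left _ _).trans (le_max_right _ _)) hok)
  have okc := R.anti g nc _ L e C ((le_max_right _ _).trans (le_max_right _ _)) hok
  have hML : M ≤ ε * L := by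
    have h1 := (hnc L e C okc).1
    rw [div_mul_eq_mul_div, le_div_iff₀ hM0] at h1
    linarith
  have hs1 := hn3 L _ _ okb
  have hL0 : (0 : ℝ) ≤ L := Nat.cast_nonneg _
  refine ⟨?_, ?_⟩
  · have := abs_nonneg (cst m κ)
    have := abs_nonneg (cst m 0)
    linarith
  intro Ω Ω' _ _ P c Q π hG hD o ho
  have he := hG.e_nn
  have hC := hG.C_nn
  have hG1 := hG.comp hK hD
  have m1 : 4 * K * (e + 1) ≤ 8 * K * (e + 1) := by
    have : 0 ≤ K * (e + 1) := mul_nonneg (by linarith) (by linarith)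
    linarith
  have m2 : 2 * K * (C + 1) ≤ 8 * K * (C + 1) := by
    have : 0 ≤ K * (C + 1) := mul_nonneg (by linarith) (by linarith)
    linarith
  refine ⟨hG1.mono le_rfl (m1.trans hs1.2.1) (m2.trans hs1.2.2), ?_, ho, ?_, ?_, ?_⟩
  · intro s s' hs hL
    have hcast : ((s' - s : ℕ) : ℝ) = (s' : ℝ) - s := Nat.cast_sub hs
    have hle : ((s' - s : ℕ) : ℝ) ≤ L := by exact_mod_cast (Nat.sub_le s' s).trans hL
    by_cases hη2 : ε / (|h| + 1) * L ≤ ((s' - s : ℕ) : ℝ)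
    · have ok2 := hn1 L (s' - s) _ _ oka hη2 ((Nat.sub_le s' s).trans hL)
      have hG2 := (hG1.sub s (s' - s) (by omega)).mono (le_refl (s' - s))
        (e' := 8 * K * (e + 1)) (C' := 8 * K * (C + 1)) (by linarith) (by linarith)
      have h1 := hn2 (s' - s) _ _ ok2 Ω' Q ((c.comp π).sub s) hG2
      have h2 : (h - ε) * ((s' - s : ℕ) : ℝ) * Real.log 2 ≤
        hc Q (fun ω => fl (s' - s) (((c.comp π).sub s).pt ω))
          (fun ω => ((c.comp π).t ω, ((c.comp π).sub s).A ω)) := h1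
      have h3 : h * ((s' : ℝ) - s) * Real.log 2 - ε * L ≤
          (h - ε) * ((s' - s : ℕ) : ℝ) * Real.log 2 := by
        rw [hcast] at hle ⊢
        have h4 : 0 ≤ (s' : ℝ) - s := by
          have : (s : ℝ) ≤ s' := by exact_mod_cast hs
          linarith
        have h5 : ε * ((s' : ℝ) - s) * Real.log 2 ≤ ε * L * 1 :=
          mul_le_mul (mul_le_mul_of_nonneg_left hle hε.le) hb1 hb.le (by positivity)
        have h6 : (h - ε) * ((s' : ℝ) - s) * Real.log 2 =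
          h * ((s' : ℝ) - s) * Real.log 2 - ε * ((s' : ℝ) - s) * Real.log 2 := by ring
        linarith
      exact h3.trans h2
    · push Not at hη2
      have h0 := hc_nonneg Q (fun ω => fl (s' - s) (((c.comp π).sub s).pt ω))
          (fun ω => ((c.comp π).t ω, ((c.comp π).sub s).A ω))
      refine le_trans ?_ h0
      rw [hcast] at hη2
      have h4 : 0 ≤ (s' : ℝ) - s := by
        have : (s : ℝ) ≤ s' := by exact_mod_cast hs
        linarith
      have h5 : h * ((s' : ℝ) - s) * Real.log 2 ≤ |h| * ((s' : ℝ) - s) * Real.log 2 :=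
        mul_le_mul_of_nonneg_right (mul_le_mul_of_nonneg_right (le_abs_self h) h4) hb.le
      have h6 : |h| * ((s' : ℝ) - s) * Real.log 2 ≤ (|h| + 1) * (ε / (|h| + 1) * L) * 1 :=
        mul_le_mul (mul_le_mul (by linarith) hη2.le h4 (by positivity)) hb1 hb.le (by positivity)
      have h7 : (|h| + 1) * (ε / (|h| + 1) * L) * 1 = ε * L := by
        field_simp
      linarith
  · have := le_abs_self (cst m κ)
    have := abs_nonneg (cst m 0)
    linarith
  · have := abs_nonneg (cst m κ)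
    have := le_abs_self (cst m 0)
    linarith
  · have := abs_nonneg (cst m κ)
    have := abs_nonneg (cst m 0)
    linarith

/-- the rates of the extremal pairs (PROOF.md, section 2) -/
theorem rates_main (R : Gr) {m : ℕ} {h : ℝ} {κ : ℕ} (hLB : LB R m h) (ε K : ℝ) (hε : 0 < ε) :
    ∃ ι : ℝ, 0 < ι ∧ ∀ g : R.G, ∃ n : ℕ, ∀ (L : ℕ) (e C : ℝ), R.ok g n L e C →
      ∀ (Ω Ω' : Type) [Fintype Ω] [Fintype Ω'] (P : Law Ω) (c : Cf Ω m) (o : Ob Ω m κ)
        (Q : Law Ω') (π : Ω' → Ω), Good P c L e C →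
        mi P (fun ω => (c.x ω, c.y ω)) o.G (fun ω => (c.t ω, c.A ω)) ≤ ι * L →
        hc P (fun ω => fl L (o.F c ω)) (fun ω => (c.t ω, o.G ω, c.A ω)) ≤
          (h - κ + ι) * L * Real.log 2 →
        Dom Q π P K → Rate Q (c.comp π) (o.comp π) L h (ε * L) := by
  have hb : 0 < Real.log 2 := Real.log_pos (by norm_num)
  have hb1 : Real.log 2 ≤ 1 := by
    have := Real.log_le_sub_one_of_pos (show (0 : ℝ) < 2 by norm_num)
    linarith
  set K1 : ℝ := max K 2 with hK1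
  have hK2 : 2 ≤ K1 := le_max_right _ _
  have hKK : K ≤ K1 := le_max_left _ _
  set ε1 : ℝ := ε / (2 * (5 * K1 + 18)) with hε1
  have hε1p : 0 < ε1 := by positivity
  have hε1e : ε1 * (5 * K1 + 18) = ε / 2 := by
    rw [hε1]
    field_simp
  refine ⟨min (ε / (4 * K1)) (ε1 / (2 * K1)), by positivity, ?_⟩
  intro g
  obtain ⟨n, hn⟩ := pre_exists R κ hLB ε1 K1 hε1p hK2 g
  refine ⟨n, ?_⟩
  intro L e C hok Ω Ω' _ _ P c o Q π hG hcost hrate hD
  set ι : ℝ := min (ε / (4 * K1)) (ε1 / (2 * K1)) with hι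
  have hι1 : K1 * ι ≤ ε / 4 := by
    have h1 : ι ≤ ε / (4 * K1) := min_le_left _ _
    calc K1 * ι ≤ K1 * (ε / (4 * K1)) := mul_le_mul_of_nonneg_left h1 (by linarith)
      _ = ε / 4 := by field_simp
  have hι2 : K1 * ι ≤ ε1 / 2 := by
    have h1 : ι ≤ ε1 / (2 * K1) := min_le_right _ _
    calc K1 * ι ≤ K1 * (ε1 / (2 * K1)) := mul_le_mul_of_nonneg_left h1 (by linarith)
      _ = ε1 / 2 := by field_simp
  have hι0 : 0 < ι := by positivity
  have hL0 : (0 : ℝ) ≤ L := Nat.cast_nonneg _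
  obtain ⟨hKL, hpre⟩ := hn L e C hok
  have hD1 : Dom Q π P K1 := hD.mono hKK
  have hc1 : mi Q (fun ω => (c.x (π ω), c.y (π ω))) (o.comp π).G
      (fun ω => (c.t (π ω), c.A (π ω))) ≤ ε1 * L := by
    have h1 := hD1.mi_le (fun ω => (c.x ω, c.y ω)) o.G (fun ω => (c.t ω, c.A ω))
    have h2 : mi Q (fun ω => (c.x (π ω), c.y (π ω))) (o.comp π).G
      (fun ω => (c.t (π ω), c.A (π ω))) ≤
        K1 * (mi P (fun ω => (c.x ω, c.y ω)) o.G (fun ω => (c.t ω, c.A ω)) + Real.log 2) := h1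
    have h3 : K1 * mi P (fun ω => (c.x ω, c.y ω)) o.G (fun ω => (c.t ω, c.A ω)) ≤
        K1 * (ι * L) := mul_le_mul_of_nonneg_left hcost (by linarith)
    have h4 : K1 * (ι * L) ≤ ε1 / 2 * L := by
      rw [← mul_assoc]
      exact mul_le_mul_of_nonneg_right hι2 hL0
    linarith
  have hp := hpre Ω Ω' P c Q π hG hD1 (o.comp π) hc1
  -- the complementary law
  obtain ⟨R', hR', hmix⟩ := Dom.split hK2 hD1
  have hR1 : Dom R' id P K1 := hR'.mono hK2
  have hc2 : mi R' (fun ω => (c.x (id ω), c.y (id ω))) o.G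
      (fun ω => (c.t (id ω), c.A (id ω))) ≤ ε1 * L := by
    have h1 := hR1.mi_le (fun ω => (c.x ω, c.y ω)) o.G (fun ω => (c.t ω, c.A ω))
    have h2 : mi R' (fun ω => (c.x (id ω), c.y (id ω))) o.G
      (fun ω => (c.t (id ω), c.A (id ω))) ≤
        K1 * (mi P (fun ω => (c.x ω, c.y ω)) o.G (fun ω => (c.t ω, c.A ω)) + Real.log 2) := h1
    have h3 : K1 * mi P (fun ω => (c.x ω, c.y ω)) o.G (fun ω => (c.t ω, c.A ω)) ≤
        K1 * (ι * L) := mul_le_mul_of_nonneg_left hcost (by linarith)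
    have h4 : K1 * (ι * L) ≤ ε1 / 2 * L := by
      rw [← mul_assoc]
      exact mul_le_mul_of_nonneg_right hι2 hL0
    linarith
  have hpR := hpre Ω Ω P c R' id hG hR1 o hc2
  have hloR : (h - κ) * L * Real.log 2 - 5 * (ε1 * L) ≤
      hc R' (fun ω => fl L (o.F c ω)) (fun ω => (c.t ω, o.G ω, c.A ω)) := hpR.lo0 le_rfl
  have hm := (mix_hc (a := 1 / K1) (by positivity) (by
    rw [div_le_one (by linarith)]
    linarith) hmix (fun ω => fl L (o.F c ω)) (fun ω => (c.t ω, o.G ω, c.A ω))).1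
  have hm' : 1 / K1 * hc Q (fun ω => fl L ((o.comp π).F (c.comp π) ω))
      (fun ω => ((c.comp π).t ω, (o.comp π).G ω, (c.comp π).A ω)) +
      (1 - 1 / K1) * hc R' (fun ω => fl L (o.F c ω)) (fun ω => (c.t ω, o.G ω, c.A ω)) ≤
      hc P (fun ω => fl L (o.F c ω)) (fun ω => (c.t ω, o.G ω, c.A ω)) := hm
  set XQ := hc Q (fun ω => fl L ((o.comp π).F (c.comp π) ω))
      (fun ω => ((c.comp π).t ω, (o.comp π).G ω, (c.comp π).A ω)) with hXQ
  set XR := hc R' (fun ω => fl L (o.F c ω)) (fun ω => (c.t ω, o.G ω, c.A ω)) with hXR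
  set XP := hc P (fun ω => fl L (o.F c ω)) (fun ω => (c.t ω, o.G ω, c.A ω)) with hXP
  have hKpos : 0 < K1 := by linarith
  have h1K : 0 ≤ 1 - 1 / K1 := by
    rw [sub_nonneg, div_le_one hKpos]
    linarith
  have hu : XQ ≤ (h - κ) * L * Real.log 2 + (K1 * ι * L + 5 * K1 * (ε1 * L)) := by
    have h1 : (1 - 1 / K1) * ((h - κ) * L * Real.log 2 - 5 * (ε1 * L)) ≤ (1 - 1 / K1) * XR :=
      mul_le_mul_of_nonneg_left hloR h1K
    have h2 : 1 / K1 * XQ ≤ (h - κ + ι) * L * Real.log 2 -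
        (1 - 1 / K1) * ((h - κ) * L * Real.log 2 - 5 * (ε1 * L)) := by linarith
    have h3 : XQ ≤ K1 * ((h - κ + ι) * L * Real.log 2 -
        (1 - 1 / K1) * ((h - κ) * L * Real.log 2 - 5 * (ε1 * L))) := by
      have h4 := mul_le_mul_of_nonneg_left h2 hKpos.le
      have h5 : K1 * (1 / K1 * XQ) = XQ := by field_simp
      linarith
    have h4 : K1 * ((h - κ + ι) * L * Real.log 2 -
        (1 - 1 / K1) * ((h - κ) * L * Real.log 2 - 5 * (ε1 * L))) =
        (h - κ) * L * Real.log 2 + K1 * ι * L * Real.log 2 + 5 * (K1 - 1) * (ε1 * L) := by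
      field_simp
      ring
    have h5 : K1 * ι * L * Real.log 2 ≤ K1 * ι * L * 1 :=
      mul_le_mul_of_nonneg_left hb1 (by positivity)
    have h6 : 0 ≤ ε1 * L := by positivity
    linarith
  have hfin := hp.rate (u := K1 * ι * L + 5 * K1 * (ε1 * L)) (by positivity) hu
  refine hfin.mono ?_
  have h1 : K1 * ι * L ≤ ε / 4 * L := mul_le_mul_of_nonneg_right hι1 hL0
  have h2 : 5 * K1 * (ε1 * L) + 18 * (ε1 * L) = (ε1 * (5 * K1 + 18)) * L := by ring
  rw [hε1e] at h2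
  have h3 : 0 ≤ ε * L := by positivity
  linarith

/-- the entropy of the time (R6) for a dominated law -/
theorem tim_dom {Ω Ω' : Type} [Fintype Ω] [Fintype Ω'] {m : ℕ} {P : Law Ω} {c : Cf Ω m} {L : ℕ}
    {e C K : ℝ} {Q : Law Ω'} {π : Ω' → Ω} (hG : Good P c L e C) (hK : 2 ≤ K)
    (hQ : Dom Q π P K) {s s' : ℕ} (hs : s ≤ s') (hL : s' ≤ L) :
    ((s' : ℝ) - s) * Real.log 2 - 4 * K * (C + 1) ≤
      hc Q (fun ω => fl1 s' (c.t (π ω)))
        (fun ω => (fl1 s (c.t (π ω)), c.x (π ω), c.y (π ω), c.A (π ω))) := by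
  have hG1 := hG.comp hK hQ
  have h1 : (s' : ℝ) * Real.log 2 - 2 * K * (C + 1) ≤
    hc Q (fun ω => fl1 s' (c.t (π ω))) (fun ω => c.A (π ω)) := hG1.tim s' hL
  have h2 : mi Q (fun ω => (c.x (π ω), c.y (π ω))) (fun ω => c.t (π ω)) (fun ω => c.A (π ω)) ≤
    2 * K * (C + 1) := hG1.ind
  have h3 : mi Q (fun ω => fl1 s' (c.t (π ω))) (fun ω => (c.x (π ω), c.y (π ω)))
      (fun ω => c.A (π ω)) ≤
      mi Q (fun ω => (c.x (π ω), c.y (π ω))) (fun ω => c.t (π ω)) (fun ω => c.A (π ω)) := by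
    rw [mi_symm Q (fun ω => (c.x (π ω), c.y (π ω)))]
    refine mi_mono_left Q _ ?_
    intro ω ω' _ _ h
    simp only [Prod.mk.injEq] at h
    show fl1 s' (c.t (π ω)) = fl1 s' (c.t (π ω'))
    rw [h.1]
  have h4 := hc_ge_of Q (X := fun ω => fl1 s' (c.t (π ω))) (B := fun ω => c.A (π ω))
    (D := fun ω => (c.x (π ω), c.y (π ω))) (W := fun _ => ())
    (Y := fun ω => (c.x (π ω), c.y (π ω), c.A (π ω))) (e1 := 2 * K * (C + 1)) (e2 := 0)
    (by
      intro ω ω' _ _ h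
      simp only [Prod.mk.injEq] at h ⊢
      tauto) (h3.trans h2)
    (by
      rw [hc_zero]
      intro ω ω' _ _ _
      rfl)
  have h5 := hc_le_add Q (fun ω => fl1 s' (c.t (π ω))) (fun ω => fl1 s (c.t (π ω)))
    (fun ω => (c.x (π ω), c.y (π ω), c.A (π ω)))
  have h6 := hc_fl1_le Q s (fun ω => c.t (π ω)) (fun ω => (c.x (π ω), c.y (π ω), c.A (π ω)))
    (fun ω _ => hG.t01 (π ω))
  have e1 : ((s' : ℝ) - s) * Real.log 2 = s' * Real.log 2 - s * Real.log 2 := by ring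
  linarith

/-- the entropy of the time under the uniformity hypothesis for a dominated law -/
theorem unif_dom {Ω Ω' : Type} [Fintype Ω] [Fintype Ω'] {m : ℕ} {P : Law Ω} {c : Cf Ω m} {L a : ℕ}
    {εu K : ℝ} {Q : Law Ω'} {π : Ω' → Ω}
    (hu : ((L : ℝ) - a) * Real.log 2 - εu ≤ hc P (fun ω => fl1 L (c.t ω))
      (fun ω => (fl1 a (c.t ω), c.x ω, c.y ω, c.A ω)))
    (hQ : Dom Q π P K) {s s' : ℕ} (ha : a ≤ s) (hs : s ≤ s') (hL : s' ≤ L) :
    ((s' : ℝ) - s) * Real.log 2 - 2 * K * (εu + Real.log 2) ≤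
      hc Q (fun ω => fl1 s' (c.t (π ω)))
        (fun ω => (fl1 s (c.t (π ω)), c.x (π ω), c.y (π ω), c.A (π ω))) := by
  have hdet : ∀ (r r' : ℕ), r ≤ r' → ∀ u v : ℝ, fl1 r' u = fl1 r' v → fl1 r u = fl1 r v := by
    intro r r' hr u v huv
    have := fl_of_fl (ι := Unit) hr (fun _ => u) (fun _ => v) (by
      funext _
      exact huv)
    exact congrFun this ()
  have hP : ((s' : ℝ) - s) * Real.log 2 - εu ≤ hc P (fun ω => fl1 s' (c.t ω))
      (fun ω => (fl1 s (c.t ω), c.x ω, c.y ω, c.A ω)) := by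
    set Z : Ω → _ := fun ω => (c.x ω, c.y ω, c.A ω) with hZ
    have h1 := hc_le_add P (fun ω => fl1 L (c.t ω)) (fun ω => fl1 s' (c.t ω))
      (fun ω => (fl1 a (c.t ω), Z ω))
    have h2 := hc_le_add P (fun ω => fl1 s' (c.t ω)) (fun ω => fl1 s (c.t ω))
      (fun ω => (fl1 a (c.t ω), Z ω))
    have h3 := hc_fl1_digits_le P hL (fun ω => c.t ω) (fun ω => (fl1 a (c.t ω), Z ω))
    have h4 := hc_fl1_digits_le P ha (fun ω => c.t ω) Z
    have h5 := hc_mono_right P (fun ω => fl1 s' (c.t ω)) (Y := fun ω => (fl1 s (c.t ω), Z ω))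
      (Y' := fun ω => (fl1 s (c.t ω), fl1 a (c.t ω), Z ω)) (by
        intro ω ω' _ _ h
        simp only [Prod.mk.injEq, hZ] at h ⊢
        tauto)
    rw [Nat.cast_sub hL] at h3
    rw [Nat.cast_sub ha] at h4
    have h6 : hc P (fun ω => fl1 L (c.t ω)) (fun ω => (fl1 a (c.t ω), Z ω)) =
      hc P (fun ω => fl1 L (c.t ω)) (fun ω => (fl1 a (c.t ω), c.x ω, c.y ω, c.A ω)) := rfl
    have h7 : hc P (fun ω => fl1 s' (c.t ω)) (fun ω => (fl1 s (c.t ω), Z ω)) =
      hc P (fun ω => fl1 s' (c.t ω)) (fun ω => (fl1 s (c.t ω), c.x ω, c.y ω, c.A ω)) := rfl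
    have h8 : hc P (fun ω => fl1 s' (c.t ω)) (fun ω => (fl1 s (c.t ω), fl1 a (c.t ω), Z ω)) ≤
      hc P (fun ω => fl1 s' (c.t ω)) (fun ω => (fl1 s (c.t ω), Z ω)) := by
      refine hc_mono_right P _ ?_
      intro ω ω' _ _ h
      simp only [Prod.mk.injEq] at h ⊢
      tauto
    have e1 : ((L : ℝ) - a) * Real.log 2 = ((L : ℝ) - s') * Real.log 2 +
      (((s' : ℝ) - s) * Real.log 2 + ((s : ℝ) - a) * Real.log 2) := by ring
    linarith
  have h1 := hQ.le_hc (fun ω => fl1 s' (c.t ω)) (fun ω => (fl1 s (c.t ω), c.x ω, c.y ω, c.A ω))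
    (((s' : ℝ) - s) * Real.log 2) (by
      intro R _
      have := hc_fl1_digits_le R hs (fun ω => c.t ω) (fun ω => (c.x ω, c.y ω, c.A ω))
      rw [Nat.cast_sub hs] at this
      exact this)
  have h2 : hc Q ((fun ω => fl1 s' (c.t ω)) ∘ π)
      ((fun ω => (fl1 s (c.t ω), c.x ω, c.y ω, c.A ω)) ∘ π) =
      hc Q (fun ω => fl1 s' (c.t (π ω)))
        (fun ω => (fl1 s (c.t (π ω)), c.x (π ω), c.y (π ω), c.A (π ω))) := rfl
  have hK1 : 0 ≤ K := by
    have := hQ.one_le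
    linarith
  have h3 : 2 * K * (((s' : ℝ) - s) * Real.log 2 - hc P (fun ω => fl1 s' (c.t ω))
      (fun ω => (fl1 s (c.t ω), c.x ω, c.y ω, c.A ω)) + Real.log 2) ≤
      2 * K * (εu + Real.log 2) := mul_le_mul_of_nonneg_left (by linarith) (by linarith)
  linarith

end Vale.Agent.P127.Stk
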