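import Vale.Agent.P127.Stk.EndFin
import Vale.Agent.P127.Stk.Rates

set_option linter.all false

/-!
# P127 / Stk / END : `PEnd`
-/

namespace Vale.Agent.P127.Stk

open Finset Vale.Agent.P127

namespace EndP

theorem r5L (R : Gr) (m : ℕ) (h : ℝ) (κ : ℕ) (hLB : LB R m h) : R5L R m h κ := by
  intro ε hε
  obtain ⟨ι, hι, H⟩ := rates_main R (κ := κ) hLB ε 1 hε
  refine ⟨ι, hι, fun g => ?_⟩
  obtain ⟨n, hn⟩ := H g
  refine ⟨n, fun L e C hok Ω _ P c o hG hcost hrate s s' hs hs' => ?_⟩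
  exact (hn L e C hok Ω Ω P c o P id hG hcost hrate (Dom.refl P)).q_lo' s s' hs hs'

theorem r5U (R : Gr) (m : ℕ) (h : ℝ) (κ : ℕ) (hLB : LB R m h) : R5U R m h κ := by
  intro ε hε K
  obtain ⟨ι, hι, H⟩ := rates_main R (κ := κ) hLB ε K hε
  refine ⟨ι, hι, fun g => ?_⟩
  obtain ⟨n, hn⟩ := H g
  refine ⟨n, fun L e C hok Ω _ P c o hG hcost hrate Ω' _ Q π hD s s' hs hs' => ?_⟩
  exact (hn L e C hok Ω Ω' P c o Q π hG hcost hrate hD).q_up' s s' hs hs'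

end EndP

/-- the end of the proof (section 10) -/
theorem pEnd (R : Gr) : PEnd R :=
  EndP.pEnd_of R (fun m h κ _ hLB => EndP.r5L R m h κ hLB) (fun m h κ _ hLB => EndP.r5U R m h κ hLB)

end Vale.Agent.P127.Stk
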