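import Vale.Agent.P127.Stk.Kill

/-!
# P127 / Stk / Kill: the killing lemma in the form of the interface of StepC
-/

namespace Vale.Agent.P127.Stk

open Finset Vale.Agent.P127

theorem kill_flat (R : Gr) {m : ℕ} {h : ℝ} {κ : ℕ} (hN : NK R m h (κ + 1)) {η : ℝ}
    (hη : 0 < η) : ∃ δ : ℝ, 0 < δ ∧ ∀ (K : ℝ) (g : R.G), ∃ n : ℕ, ∀ (L : ℕ) (e C : ℝ),
    R.ok g n L e C →
  ∀ (Ω Ω' D : Type) [Fintype Ω] [Fintype Ω'] (P : Law Ω) (c : Cf Ω m) (o : Ob Ω m κ)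
    (Q : Law Ω') (π : Ω' → Ω) (Dt : Ω' → D) (r r' : ℕ) (i0 : Fin m) (v : Ω' → Fin m → ℝ),
    Good P c L e C → Dom Q π P K → r ≤ r' → r' ≤ L → η * L ≤ (r' : ℝ) - r →
    i0 ∉ o.J → Fn Q (fun ω => o.Γ (π ω)) Dt → Fn Q v Dt →
    (∀ ω, 0 < Q.w ω → v ω i0 = 1 ∧ (∀ i, |v ω i| ≤ 1) ∧ ∀ j ∈ o.J, v ω j = 0) →
    mi Q (fun ω => (c.x (π ω), c.y (π ω))) Dt
      (fun ω => (c.t (π ω), c.A (π ω), fl r (c.x (π ω)), fl r (c.y (π ω)))) ≤ δ * L →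
    hc Q (fun ω => fl r' (fun i => o.F c (π ω) i - o.F c (π ω) i0 * v ω i))
      (fun ω => (fl r (c.x (π ω)), fl r (c.y (π ω)), c.t (π ω), Dt ω, c.A (π ω))) ≤
      (h - κ - 1) * ((r' : ℝ) - r) * Real.log 2 + δ * L → False := by
  obtain ⟨δ, hδ, H⟩ := kill R hN hη
  refine ⟨δ, hδ, fun K g => ?_⟩
  obtain ⟨n, hn⟩ := H K g
  refine ⟨n, fun L e C hok => ?_⟩
  intro Ω Ω' D _ _ P c o Q π Dt r r' i0 v hG hQ h1 h2 h3 h4 h5 h6 h7 h8 h9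
  have h10 := hn L e C hok Ω P c o hG Ω' Q π hQ D Dt r r' v i0 h1 h2 h3 h4 h5 h6
    (fun ω hω => ⟨(h7 ω hω).2.2, (h7 ω hω).1, (h7 ω hω).2.1⟩) h8
  have h11 : hc Q (fun ω => fl r' (fun i => o.F c (π ω) i - o.F c (π ω) i0 * v ω i))
      (fun ω => ((fl r (c.x (π ω)), fl r (c.y (π ω))), c.t (π ω), Dt ω, c.A (π ω))) ≤
      hc Q (fun ω => fl r' (fun i => o.F c (π ω) i - o.F c (π ω) i0 * v ω i))
      (fun ω => (fl r (c.x (π ω)), fl r (c.y (π ω)), c.t (π ω), Dt ω, c.A (π ω))) :=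
    kl_hc_right Q _ fun ω ω' _ _ he => by
      simp only [Prod.mk.injEq] at he ⊢
      exact ⟨he.1.1, he.1.2, he.2.1, he.2.2.1, he.2.2.2⟩
  linarith

end Vale.Agent.P127.Stk
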