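import Vale.Agent.P127.Stk.LibEnt

/-!
# P127 / Stk : conditionally independent copies
-/

namespace Vale.Agent.P127.Stk

open Finset Vale.Agent.P127

section copies

variable {Ω : Type} [Fintype Ω] {S S' T U V : Type*}

/-! ### entropies depend only on the law -/

lemma ex_law_aux {Ω₁ Ω₂ : Type} [Fintype Ω₁] [Fintype Ω₂] (P₁ : Law Ω₁) (P₂ : Law Ω₂)
    (π : Ω₁ → Ω₂) (h : ∀ ω, P₁.pr π ω = P₂.w ω) (f : Ω₂ → ℝ) :
    P₁.ex (fun ω => f (π ω)) = P₂.ex f := by
  classical
  rw [P₁.ex_comp π f]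
  unfold Law.ex
  rw [← Finset.sum_subset (Finset.subset_univ (img π))]
  · exact Finset.sum_congr rfl fun x _ => by rw [h]
  · intro x _ hx
    have h1 : P₁.pr π x = 0 := by
      unfold Law.pr
      refine Finset.sum_eq_zero fun ω hω => ?_
      exact absurd (mem_img.2 ⟨ω, (Finset.mem_filter.1 hω).2⟩) hx
    rw [← h x, h1, zero_mul]

lemma pr_law_aux {Ω₁ Ω₂ : Type} [Fintype Ω₁] [Fintype Ω₂] (P₁ : Law Ω₁) (P₂ : Law Ω₂)
    (π : Ω₁ → Ω₂) (h : ∀ ω, P₁.pr π ω = P₂.w ω) (X : Ω₂ → T) (x : T) :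
    P₁.pr (X ∘ π) x = P₂.pr X x := by
  rw [Law.pr_eq_ex, Law.pr_eq_ex]
  exact ex_law_aux P₁ P₂ π h (fun ω => Law.ind (X ω = x))

lemma H_law_aux {Ω₁ Ω₂ : Type} [Fintype Ω₁] [Fintype Ω₂] (P₁ : Law Ω₁) (P₂ : Law Ω₂)
    (π : Ω₁ → Ω₂) (h : ∀ ω, P₁.pr π ω = P₂.w ω) (X : Ω₂ → T) : P₁.H (X ∘ π) = P₂.H X := by
  unfold Law.H
  simp only [pr_law_aux P₁ P₂ π h]
  exact ex_law_aux P₁ P₂ π h (fun ω => -Real.log (P₂.pr X (X ω)))

/-- entropies depend only on the law -/
theorem hc_of_law {Ω₁ Ω₂ : Type} [Fintype Ω₁] [Fintype Ω₂] (P₁ : Law Ω₁) (P₂ : Law Ω₂)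
    (π : Ω₁ → Ω₂) (h : ∀ ω, P₁.pr π ω = P₂.w ω) (X : Ω₂ → T) (Y : Ω₂ → U) :
    hc P₁ (X ∘ π) (Y ∘ π) = hc P₂ X Y := by
  unfold hc
  rw [← H_law_aux P₁ P₂ π h Y, ← H_law_aux P₁ P₂ π h (fun ω => (X ω, Y ω))]
  rfl

/-! ### the weights -/

open Classical in
/-- the part of the weight over `s` -/
noncomputable def pw_aux (P : Law Ω) (W : Ω → S) (s : S) (ω : Ω) : ℝ :=
  if W ω = s then P.w ω else 0

lemma sum_pw_aux (P : Law Ω) (W : Ω → S) (s : S) : ∑ ω, pw_aux P W s ω = P.pr W s := by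
  classical
  unfold pw_aux Law.pr
  rw [Finset.sum_filter]

lemma pw_le_aux (P : Law Ω) (W : Ω → S) (s : S) (ω : Ω) : pw_aux P W s ω ≤ P.pr W s := by
  classical
  unfold pw_aux
  split_ifs with h
  · rw [← h]; exact P.w_le_pr W ω
  · exact P.pr_nonneg W s

lemma pw_nn_aux (P : Law Ω) (W : Ω → S) (s : S) (ω : Ω) : 0 ≤ pw_aux P W s ω := by
  classical
  unfold pw_aux
  split_ifs
  · exact P.nn ω
  · exact le_rfl

lemma cw_eq_aux (P : Law Ω) (W : Ω → S) (N : ℕ) (w : Fin (N + 1) → Ω) :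
    cw P W N w = ∑ s ∈ img W, (∏ i, pw_aux P W s (w i)) / (P.pr W s) ^ N := by
  classical
  rw [Finset.sum_eq_single (W (w 0))]
  · unfold cw
    split_ifs with h
    · congr 1
      refine Finset.prod_congr rfl fun i _ => ?_
      unfold pw_aux
      rw [if_pos (h i)]
    · push Not at h
      obtain ⟨i, hi⟩ := h
      rw [Finset.prod_eq_zero (Finset.mem_univ i), zero_div]
      unfold pw_aux
      rw [if_neg hi]
  · intro s _ hs
    rw [Finset.prod_eq_zero (Finset.mem_univ 0), zero_div]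
    unfold pw_aux
    rw [if_neg (Ne.symm hs)]
  · intro h
    exact absurd (mem_img.2 ⟨w 0, rfl⟩) h

lemma sum_prod_aux {N : ℕ} (g : Fin (N + 1) → Ω → ℝ) :
    ∑ w : Fin (N + 1) → Ω, ∏ i, g i (w i) = ∏ i, ∑ ω, g i ω := by
  classical
  rw [Finset.prod_univ_sum, Fintype.piFinset_univ]

lemma cw_nn_aux (P : Law Ω) (W : Ω → S) (N : ℕ) (w : Fin (N + 1) → Ω) : 0 ≤ cw P W N w := by
  rw [cw_eq_aux]
  refine Finset.sum_nonneg fun s _ => ?_
  exact div_nonneg (Finset.prod_nonneg fun i _ => pw_nn_aux P W s _)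
    (pow_nonneg (P.pr_nonneg W s) N)

theorem cw_exists (P : Law Ω) (W : Ω → S) (N : ℕ) :
    ∃ Q : Law (Fin (N + 1) → Ω), ∀ w, Q.w w = cw P W N w := by
  classical
  refine ⟨⟨fun w => cw P W N w, fun w => cw_nn_aux P W N w, ?_⟩, fun _ => rfl⟩
  simp only [cw_eq_aux]
  rw [Finset.sum_comm, ← P.sum_pr_image W]
  refine Finset.sum_congr rfl fun s _ => ?_
  rw [← Finset.sum_div, sum_prod_aux (fun _ ω => pw_aux P W s ω)]
  simp only [sum_pw_aux]
  rw [Finset.prod_const, Finset.card_univ, Fintype.card_fin]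
  rcases (P.pr_nonneg W s).eq_or_lt with h0 | h0
  · rw [← h0]; simp
  · rw [pow_succ, mul_comm, mul_div_assoc, div_self (pow_pos h0 N).ne', mul_one]

theorem cw_supp {P : Law Ω} {W : Ω → S} {N : ℕ} {Q : Law (Fin (N + 1) → Ω)}
    (hQ : ∀ w, Q.w w = cw P W N w) {w : Fin (N + 1) → Ω} (hw : 0 < Q.w w) :
    (∀ i, W (w i) = W (w 0)) ∧ ∀ i, 0 < P.w (w i) := by
  classical
  rw [hQ] at hw
  unfold cw at hw
  split_ifs at hw with h
  · refine ⟨h, fun i => ?_⟩
    rcases (P.nn (w i)).eq_or_lt with h0 | h0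
    · rw [Finset.prod_eq_zero (Finset.mem_univ i) h0.symm, zero_div] at hw
      exact absurd hw (lt_irrefl _)
    · exact h0
  · exact absurd hw (lt_irrefl _)

/-- sub-families of copies are copies (`e` injective) -/
theorem cw_sub {P : Law Ω} {W : Ω → S} {N M : ℕ} {Q : Law (Fin (N + 1) → Ω)}
    (hQ : ∀ w, Q.w w = cw P W N w) (e : Fin (M + 1) → Fin (N + 1)) (he : Function.Injective e)
    (v : Fin (M + 1) → Ω) : Q.pr (fun w => w ∘ e) v = cw P W M v := by
  classical
  -- the indicators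
  set δ : Fin (N + 1) → Ω → ℝ := fun i ω => if ∃ j, e j = i ∧ v j ≠ ω then 0 else 1 with hδ
  have h1 : ∀ w : Fin (N + 1) → Ω, (if w ∘ e = v then (1 : ℝ) else 0) = ∏ i, δ i (w i) := by
    intro w
    split_ifs with h
    · rw [Finset.prod_eq_one]
      intro i _
      simp only [hδ]
      rw [if_neg]
      rintro ⟨j, hj, hne⟩
      apply hne
      rw [← h, ← hj]
      rfl
    · obtain ⟨j, hj⟩ : ∃ j, (w ∘ e) j ≠ v j := by
        by_contra hcon
        push Not at hcon
        exact h (funext hcon)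
      rw [Finset.prod_eq_zero (Finset.mem_univ (e j))]
      simp only [hδ]
      rw [if_pos ⟨j, rfl, fun h => hj h.symm⟩]
  have h2 : Q.pr (fun w => w ∘ e) v = ∑ w : Fin (N + 1) → Ω, (∏ i, δ i (w i)) * cw P W N w := by
    unfold Law.pr
    rw [Finset.sum_filter]
    refine Finset.sum_congr rfl fun w _ => ?_
    rw [← h1 w, hQ w]
    split_ifs
    · rw [one_mul]
    · rw [zero_mul]
  rw [h2, cw_eq_aux P W M v]
  simp only [cw_eq_aux P W N, Finset.mul_sum]
  rw [Finset.sum_comm]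
  refine Finset.sum_congr rfl fun s _ => ?_
  have h3 : ∀ w : Fin (N + 1) → Ω, (∏ i, δ i (w i)) * ((∏ i, pw_aux P W s (w i)) / P.pr W s ^ N) =
      (∏ i, (δ i (w i) * pw_aux P W s (w i))) / P.pr W s ^ N := by
    intro w
    rw [Finset.prod_mul_distrib, mul_div_assoc]
  simp only [h3]
  rw [← Finset.sum_div, sum_prod_aux (fun i ω => δ i ω * pw_aux P W s ω)]
  -- the coordinates
  have h4 : ∀ j, ∑ ω, δ (e j) ω * pw_aux P W s ω = pw_aux P W s (v j) := by
    intro j
    rw [Finset.sum_eq_single (v j)]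
    · have : δ (e j) (v j) = 1 := by
        simp only [hδ]
        rw [if_neg]
        rintro ⟨j', hj', hne⟩
        rw [he hj'] at hne
        exact hne rfl
      rw [this, one_mul]
    · intro ω _ hω
      have : δ (e j) ω = 0 := by
        simp only [hδ]
        rw [if_pos ⟨j, rfl, fun h => hω h.symm⟩]
      rw [this, zero_mul]
    · intro h; exact absurd (Finset.mem_univ _) h
  have h5 : ∀ i, i ∉ univ.image e → ∑ ω, δ i ω * pw_aux P W s ω = P.pr W s := by
    intro i hi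
    rw [← sum_pw_aux]
    refine Finset.sum_congr rfl fun ω _ => ?_
    have : δ i ω = 1 := by
      simp only [hδ]
      rw [if_neg]
      rintro ⟨j, hj, _⟩
      exact hi (Finset.mem_image.2 ⟨j, Finset.mem_univ j, hj⟩)
    rw [this, one_mul]
  have h6 : ∏ i, ∑ ω, δ i ω * pw_aux P W s ω =
      (∏ j, pw_aux P W s (v j)) * P.pr W s ^ (N - M) := by
    rw [← Finset.prod_mul_prod_compl (univ.image e)]
    congr 1
    · rw [Finset.prod_image fun a _ b _ h => he h]
      exact Finset.prod_congr rfl fun j _ => h4 j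
    · rw [Finset.prod_congr rfl fun i hi => h5 i (Finset.mem_compl.1 hi), Finset.prod_const,
        Finset.card_compl, Finset.card_image_of_injective _ he, Finset.card_univ,
        Fintype.card_fin, Fintype.card_fin]
      congr 1
      omega
  rw [h6]
  have hMN : M ≤ N := by
    have := Fintype.card_le_of_injective e he
    simp only [Fintype.card_fin] at this
    omega
  rcases (P.pr_nonneg W s).eq_or_lt with h0 | h0
  · have h7 : ∏ j, pw_aux P W s (v j) = 0 := by
      rw [Finset.prod_eq_zero (Finset.mem_univ 0)]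
      exact le_antisymm ((pw_le_aux P W s (v 0)).trans h0.symm.le) (pw_nn_aux P W s _)
    rw [h7, zero_mul, zero_div, zero_div]
  · rw [div_eq_div_iff (pow_pos h0 N).ne' (pow_pos h0 M).ne', mul_assoc, ← pow_add,
      Nat.sub_add_cancel hMN]

theorem cw_marg {P : Law Ω} {W : Ω → S} {N : ℕ} {Q : Law (Fin (N + 1) → Ω)}
    (hQ : ∀ w, Q.w w = cw P W N w) (i : Fin (N + 1)) (ω : Ω) :
    Q.pr (fun w => w i) ω = P.w ω := by
  classical
  have h1 := cw_sub hQ (M := 0) (fun _ => i) (fun a b _ => Fin.ext (by omega)) (fun _ => ω)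
  have h2 : Q.pr (fun w => w i) ω = Q.pr (fun w => w ∘ fun _ : Fin 1 => i) (fun _ => ω) := by
    unfold Law.pr
    refine Finset.sum_congr ?_ fun _ _ => rfl
    ext w
    simp only [Finset.mem_filter, Finset.mem_univ, true_and]
    constructor
    · intro h
      funext j
      exact h
    · intro h
      exact congrFun h 0
  rw [h2, h1]
  unfold cw
  simp

theorem cw_hc {P : Law Ω} {W : Ω → S} {N : ℕ} {Q : Law (Fin (N + 1) → Ω)}
    (hQ : ∀ w, Q.w w = cw P W N w) (i : Fin (N + 1)) (X : Ω → T) (Y : Ω → U) :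
    hc Q (fun w => X (w i)) (fun w => Y (w i)) = hc P X Y :=
  hc_of_law Q P (fun w => w i) (cw_marg hQ i) X Y

/-! ### conditional independence -/

lemma pr_key_aux {Ω' : Type} [Fintype Ω'] (P : Law Ω) (Q : Law Ω') (π : Ω' → Ω) (W : Ω → S)
    (Y : Ω' → U) (K : S → U → ℝ)
    (h : ∀ ω y, Q.pr (fun a => (π a, Y a)) (ω, y) = P.w ω * K (W ω) y) {R : Type*}
    (f : Ω → R) (r : R) (y : U) (s : S) (hs : ∀ ω, f ω = r → W ω = s) :
    Q.pr (fun a => (f (π a), Y a)) (r, y) = P.pr f r * K s y := by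
  classical
  rw [Law.pr_eq_ex Q, Law.pr_eq_ex P]
  unfold Law.ex
  have h1 : ∀ a, Law.ind ((f (π a), Y a) = (r, y)) =
      ∑ ω, Law.ind (f ω = r) * Law.ind ((π a, Y a) = (ω, y)) := by
    intro a
    rw [Finset.sum_eq_single (π a)]
    · by_cases h2 : f (π a) = r
      · by_cases h3 : Y a = y
        · rw [Law.ind_of (by rw [h2, h3]), Law.ind_of h2, Law.ind_of (by rw [h3]), mul_one]
        · rw [Law.ind_not (fun h4 => h3 (Prod.mk.inj h4).2),
            Law.ind_not (p := (π a, Y a) = (π a, y)) (fun h4 => h3 (Prod.mk.inj h4).2), mul_zero]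
      · rw [Law.ind_not (fun h4 => h2 (Prod.mk.inj h4).1), Law.ind_not h2, zero_mul]
    · intro ω _ hω
      rw [Law.ind_not (p := (π a, Y a) = (ω, y)) (fun h4 => hω (Prod.mk.inj h4).1.symm), mul_zero]
    · intro h; exact absurd (Finset.mem_univ _) h
  simp only [h1, Finset.mul_sum]
  rw [Finset.sum_comm, Finset.sum_mul]
  refine Finset.sum_congr rfl fun ω _ => ?_
  have h2 : ∑ a, Q.w a * (Law.ind (f ω = r) * Law.ind ((π a, Y a) = (ω, y))) =
      Law.ind (f ω = r) * Q.pr (fun a => (π a, Y a)) (ω, y) := by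
    rw [Law.pr_eq_ex Q]
    unfold Law.ex
    rw [Finset.mul_sum]
    exact Finset.sum_congr rfl fun a _ => by ring
  rw [h2, h]
  by_cases h3 : f ω = r
  · rw [hs ω h3]; ring
  · rw [Law.ind_not h3]; ring

lemma indep_aux {Ω' : Type} [Fintype Ω'] (P : Law Ω) (Q : Law Ω') (π : Ω' → Ω) (W : Ω → S)
    (Y : Ω' → U) (K : S → U → ℝ) (hπ : ∀ ω, Q.pr π ω = P.w ω)
    (h : ∀ ω y, Q.pr (fun a => (π a, Y a)) (ω, y) = P.w ω * K (W ω) y) (X : Ω → T) :
    hc Q (fun a => X (π a)) (fun a => (Y a, W (π a))) = hc P X W := by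
  classical
  have e1 : ∀ a, Q.pr (fun a => (X (π a), (Y a, W (π a)))) (X (π a), (Y a, W (π a))) =
      P.pr (fun ω => (X ω, W ω)) (X (π a), W (π a)) * K (W (π a)) (Y a) := by
    intro a
    rw [← pr_key_aux P Q π W Y K h (fun ω => (X ω, W ω)) (X (π a), W (π a)) (Y a) (W (π a))
      (fun ω hω => (Prod.mk.inj hω).2)]
    unfold Law.pr
    refine Finset.sum_congr ?_ fun _ _ => rfl
    ext b
    simp only [Finset.mem_filter, Finset.mem_univ, true_and, Prod.mk.injEq]
    tauto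
  have e2 : ∀ a, Q.pr (fun a => (Y a, W (π a))) (Y a, W (π a)) =
      P.pr W (W (π a)) * K (W (π a)) (Y a) := by
    intro a
    rw [← pr_key_aux P Q π W Y K h W (W (π a)) (Y a) (W (π a)) (fun ω hω => hω)]
    unfold Law.pr
    refine Finset.sum_congr ?_ fun _ _ => rfl
    ext b
    simp only [Finset.mem_filter, Finset.mem_univ, true_and, Prod.mk.injEq]
    tauto
  unfold hc
  have m1 := ex_law_aux Q P π hπ
    (fun ω => -Real.log (P.pr (fun ω => (X ω, W ω)) (X ω, W ω)))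
  have m2 := ex_law_aux Q P π hπ (fun ω => -Real.log (P.pr W (W ω)))
  have g1 : P.H (fun ω => (X ω, W ω)) - P.H W =
      Q.ex (fun a => -Real.log (P.pr (fun ω => (X ω, W ω)) (X (π a), W (π a))) -
        -Real.log (P.pr W (W (π a)))) := by
    rw [Law.ex_sub]
    unfold Law.H
    rw [← m1, ← m2]
  rw [g1]
  unfold Law.H
  rw [← Law.ex_sub]
  refine Law.ex_congr _ fun a ha => ?_
  have p1 := Q.pr_pos (fun a => (X (π a), (Y a, W (π a)))) ha
  have p2 := Q.pr_pos (fun a => (Y a, W (π a))) ha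
  simp only [e1, e2]
  rw [e1] at p1
  rw [e2] at p2
  have q1 : P.pr (fun ω => (X ω, W ω)) (X (π a), W (π a)) ≠ 0 := fun h0 => by
    rw [h0, zero_mul] at p1
    exact lt_irrefl _ p1
  have q2 : P.pr W (W (π a)) ≠ 0 := fun h0 => by
    rw [h0, zero_mul] at p2
    exact lt_irrefl _ p2
  have q3 : K (W (π a)) (Y a) ≠ 0 := fun h0 => by
    rw [h0, mul_zero] at p2
    exact lt_irrefl _ p2
  rw [Real.log_mul q1 q3, Real.log_mul q2 q3]
  ring

open Classical in
/-- the kernel of the other copies -/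
noncomputable def ck_aux (P : Law Ω) (W : Ω → S) (N : ℕ) (s : S) (v : Fin N → Ω) : ℝ :=
  if ∀ j, W (v j) = s then (∏ j, P.w (v j)) / (P.pr W s) ^ N else 0

lemma cw_insert_aux (P : Law Ω) (W : Ω → S) (N : ℕ) (i : Fin (N + 1)) (ω : Ω) (v : Fin N → Ω) :
    cw P W N (i.insertNth ω v : Fin (N + 1) → Ω) = P.w ω * ck_aux P W N (W ω) v := by
  classical
  set w : Fin (N + 1) → Ω := i.insertNth ω v with hw
  have hi : w i = ω := by rw [hw]; exact Fin.insertNth_apply_same (α := fun _ => Ω) i ω v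
  have hj : ∀ j, w (i.succAbove j) = v j := fun j => by
    rw [hw]; exact Fin.insertNth_apply_succAbove (α := fun _ => Ω) i ω v j
  have h1 : (∀ k, W (w k) = W (w 0)) ↔ ∀ j, W (v j) = W ω := by
    constructor
    · intro h j
      rw [← hj j, ← hi, h (i.succAbove j), h i]
    · intro h
      have h2 : ∀ k, W (w k) = W ω := by
        intro k
        rcases Fin.eq_self_or_eq_succAbove i k with hk | ⟨j, hk⟩
        · rw [hk, hi]
        · rw [hk, hj, h j]
      intro k
      rw [h2 k, h2 0]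
  unfold cw ck_aux
  by_cases h : ∀ j, W (v j) = W ω
  · rw [if_pos (h1.2 h), if_pos h, Fin.prod_univ_succAbove _ i, hi]
    simp only [hj]
    have h3 : W (w 0) = W ω := by
      have := (h1.2 h) i
      rw [hi] at this
      exact this.symm
    rw [h3, mul_div_assoc]
  · rw [if_neg (fun hh => h (h1.1 hh)), if_neg h, mul_zero]

/-- conditional independence -/
theorem cw_indep {P : Law Ω} {W : Ω → S} {N : ℕ} {Q : Law (Fin (N + 1) → Ω)}
    (hQ : ∀ w, Q.w w = cw P W N w) (i : Fin (N + 1)) (X : Ω → T) (Y : (Fin (N + 1) → Ω) → U)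
    (hY : ∀ w w', (∀ j, j ≠ i → w j = w' j) → Y w = Y w') :
    hc Q (fun w => X (w i)) (fun w => (Y w, W (w i))) = hc P X W := by
  classical
  have hne : Nonempty Ω := by
    by_contra hcon
    rw [not_nonempty_iff] at hcon
    have := P.sum_one
    simp at this
  obtain ⟨ω₀⟩ := hne
  set K : S → U → ℝ := fun s y => ∑ v : Fin N → Ω,
    ck_aux P W N s v * Law.ind (Y (i.insertNth ω₀ v : Fin (N + 1) → Ω) = y) with hK
  refine indep_aux P Q (fun w => w i) W Y K (cw_marg hQ i) (fun ω y => ?_) X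
  rw [Law.pr_eq_ex]
  unfold Law.ex
  rw [← Fintype.sum_equiv (Fin.insertNthEquiv (fun _ => Ω) i)
    (fun p : Ω × (Fin N → Ω) => Q.w (i.insertNth p.1 p.2 : Fin (N + 1) → Ω) *
      Law.ind (((i.insertNth p.1 p.2 : Fin (N + 1) → Ω) i,
        Y (i.insertNth p.1 p.2 : Fin (N + 1) → Ω)) = (ω, y))) _ (fun p => rfl)]
  rw [Fintype.sum_prod_type, Finset.sum_eq_single ω]
  · simp only [hK]
    rw [Finset.mul_sum]
    refine Finset.sum_congr rfl fun v _ => ?_
    rw [hQ, cw_insert_aux, mul_assoc]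
    congr 2
    have hY' : Y (i.insertNth ω v : Fin (N + 1) → Ω) = Y (i.insertNth ω₀ v : Fin (N + 1) → Ω) := by
      refine hY _ _ fun k hk => ?_
      rcases Fin.eq_self_or_eq_succAbove i k with h1 | ⟨j, h1⟩
      · exact absurd h1 hk
      · rw [h1, Fin.insertNth_apply_succAbove, Fin.insertNth_apply_succAbove]
    rw [hY', Fin.insertNth_apply_same]
    by_cases h2 : Y (i.insertNth ω₀ v : Fin (N + 1) → Ω) = y
    · rw [Law.ind_of h2, Law.ind_of (by rw [h2])]
    · rw [Law.ind_not h2, Law.ind_not (fun h3 => h2 (Prod.mk.inj h3).2)]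
  · intro ω' _ hω'
    refine Finset.sum_eq_zero fun v _ => ?_
    rw [Law.ind_not, mul_zero]
    intro h3
    have h4 := (Prod.mk.inj h3).1
    rw [Fin.insertNth_apply_same] at h4
    exact hω' h4
  · intro h; exact absurd (Finset.mem_univ _) h

/-! ### the cost of copies -/

/-- the first `k` variables -/
def tk_aux {N : ℕ} (B : Ω → V) (k : ℕ) (w : Fin (N + 1) → Ω) : Fin (N + 1) → Option V :=
  fun j => if (j : ℕ) < k then some (B (w j)) else none

lemma tk_succ_aux {N : ℕ} (Q : Law (Fin (N + 1) → Ω)) (B : Ω → V) (k : ℕ) (hk : k < N + 1)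
    (Z : (Fin (N + 1) → Ω) → U) :
    hc Q (tk_aux B (k + 1)) Z = hc Q (tk_aux B k) Z +
      hc Q (fun w => B (w ⟨k, hk⟩)) (fun w => (tk_aux B k w, Z w)) := by
  rw [← hc_pair Q (tk_aux B k) (fun w => B (w ⟨k, hk⟩)) Z]
  refine hc_congr Q ?_ ?_ (fun _ _ _ _ h => h) (fun _ _ _ _ h => h)
  · intro w w' _ _ h
    simp only [Prod.mk.injEq] at h
    obtain ⟨⟨h1, h2⟩, -⟩ := h
    funext j
    have h3 := congrFun h1 j
    simp only [tk_aux] at h3 ⊢
    by_cases hj : (j : ℕ) < k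
    · rw [if_pos hj, if_pos hj] at h3
      rw [if_pos (by omega), if_pos (by omega)]
      exact h3
    · by_cases hj' : (j : ℕ) = k
      · have : j = ⟨k, hk⟩ := Fin.ext hj'
        rw [if_pos (by omega), if_pos (by omega), this, h2]
      · rw [if_neg (by omega), if_neg (by omega)]
  · intro w w' _ _ h
    simp only [Prod.mk.injEq] at h
    obtain ⟨h1, -⟩ := h
    refine Prod.ext ?_ ?_
    · funext j
      have h3 := congrFun h1 j
      simp only [tk_aux] at h3 ⊢
      by_cases hj : (j : ℕ) < k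
      · rw [if_pos (by omega), if_pos (by omega)] at h3
        rw [if_pos hj, if_pos hj]
        exact h3
      · rw [if_neg hj, if_neg hj]
    · have h3 := congrFun h1 ⟨k, hk⟩
      simp only [tk_aux] at h3
      rw [if_pos (Nat.lt_succ_self k), if_pos (Nat.lt_succ_self k)] at h3
      exact Option.some.inj h3

lemma tk_zero_aux {N : ℕ} (Q : Law (Fin (N + 1) → Ω)) (B : Ω → V) (Z : (Fin (N + 1) → Ω) → U) :
    hc Q (tk_aux B 0) Z = 0 :=
  hc_zero Q (fun w w' _ _ _ => by funext j; simp [tk_aux])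

lemma tk_last_aux {N : ℕ} (Q : Law (Fin (N + 1) → Ω)) (B : Ω → V) (Z : (Fin (N + 1) → Ω) → U) :
    hc Q (tk_aux B (N + 1)) Z = hc Q (fun w j => B (w j)) Z := by
  refine hc_congr Q ?_ ?_ (fun _ _ _ _ h => h) (fun _ _ _ _ h => h)
  · intro w w' _ _ h
    have h1 := (Prod.mk.inj h).1
    funext j
    simp only [tk_aux]
    rw [congrFun h1 j]
  · intro w w' _ _ h
    have h1 := (Prod.mk.inj h).1
    funext j
    have h3 := congrFun h1 j
    simp only [tk_aux] at h3
    rw [if_pos j.2, if_pos j.2] at h3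
    exact Option.some.inj h3

/-- the cost of copies over the key `(l, A, I)`, where `I` is a function of `B` -/
theorem cw_cost {P : Law Ω} {W : Ω → S} {N : ℕ} {Q : Law (Fin (N + 1) → Ω)}
    (hQ : ∀ w, Q.w w = cw P W N w) (l : Ω → T) (A : Ω → U) (B : Ω → V) (I : Ω → S')
    (hI : Fn P I B) (hW : Fn P W (fun ω => (l ω, A ω, I ω)))
    (hW' : Fn P (fun ω => (l ω, A ω, I ω)) W) (i : Fin (N + 1)) :
    mi Q (fun w => l (w i)) (fun w j => B (w j)) (fun w => A (w i)) ≤
      (N + 2) * mi P l B A := by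
  -- the key is common on the support
  have hsupp : ∀ w, 0 < Q.w w → (∀ j, W (w j) = W (w i)) ∧ ∀ j, 0 < P.w (w j) := fun w hw => by
    obtain ⟨h1, h2⟩ := cw_supp hQ hw
    exact ⟨fun j => by rw [h1 j, h1 i], h2⟩
  have hkey : ∀ w, 0 < Q.w w → ∀ j, (l (w j), A (w j), I (w j)) = (l (w i), A (w i), I (w i)) :=
    fun w hw j => hW' _ _ ((hsupp w hw).2 j) ((hsupp w hw).2 i) ((hsupp w hw).1 j)
  -- the variables given the full key
  have hA : ∀ k, k ≤ N + 1 → hc Q (tk_aux B k) (fun w => W (w i)) = k * hc P B W := by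
    intro k
    induction k with
    | zero => intro _; rw [tk_zero_aux]; simp
    | succ k ih =>
      intro hk
      rw [tk_succ_aux Q B k (by omega), ih (by omega)]
      have h1 : hc Q (fun w => B (w ⟨k, by omega⟩))
          (fun w => (tk_aux B k w, W (w i))) =
          hc Q (fun w => B (w ⟨k, by omega⟩))
          (fun w => (tk_aux B k w, W (w ⟨k, by omega⟩))) := by
        refine hc_congr Q (fun _ _ _ _ h => (Prod.mk.inj h).1) (fun _ _ _ _ h => (Prod.mk.inj h).1)
          ?_ ?_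
        · intro w w' hw hw' h
          simp only [Prod.mk.injEq] at h ⊢
          refine ⟨h.1, ?_⟩
          rw [← (hsupp w hw).1 ⟨k, by omega⟩, ← (hsupp w' hw').1 ⟨k, by omega⟩, h.2]
        · intro w w' hw hw' h
          simp only [Prod.mk.injEq] at h ⊢
          refine ⟨h.1, ?_⟩
          rw [(hsupp w hw).1 ⟨k, by omega⟩, (hsupp w' hw').1 ⟨k, by omega⟩, h.2]
      rw [h1, cw_indep hQ ⟨k, by omega⟩ B (tk_aux B k) (fun w w' h => by
        funext j
        simp only [tk_aux]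
        by_cases hj : (j : ℕ) < k
        · rw [if_pos hj, if_pos hj, h j (fun hh => by rw [hh] at hj; exact lt_irrefl _ hj)]
        · rw [if_neg hj, if_neg hj])]
      push_cast
      ring
  have hB : ∀ k, k ≤ N + 1 → hc Q (tk_aux B k) (fun w => (I (w i), A (w i))) ≤
      k * hc P B (fun ω => (I ω, A ω)) := by
    intro k
    induction k with
    | zero => intro _; rw [tk_zero_aux]; simp
    | succ k ih =>
      intro hk
      rw [tk_succ_aux Q B k (by omega)]
      have h1 : hc Q (fun w => B (w ⟨k, by omega⟩))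
          (fun w => (tk_aux B k w, (I (w i), A (w i)))) ≤
          hc Q (fun w => B (w ⟨k, by omega⟩))
          (fun w => (I (w ⟨k, by omega⟩), A (w ⟨k, by omega⟩))) := by
        refine hc_mono_right Q _ ?_
        intro w w' hw hw' h
        simp only [Prod.mk.injEq] at h ⊢
        have e1 := hkey w hw ⟨k, by omega⟩
        have e2 := hkey w' hw' ⟨k, by omega⟩
        simp only [Prod.mk.injEq] at e1 e2
        exact ⟨by rw [e1.2.2, e2.2.2, h.2.1], by rw [e1.2.1, e2.2.1, h.2.2]⟩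
      rw [cw_hc hQ ⟨k, by omega⟩ B (fun ω => (I ω, A ω))] at h1
      have h2 := ih (by omega)
      push_cast
      linarith
  have hA' := hA (N + 1) le_rfl
  have hB' := hB (N + 1) le_rfl
  rw [tk_last_aux] at hA' hB'
  -- the information given `I`
  have h1 : mi Q (fun w => l (w i)) (fun w j => B (w j)) (fun w => (I (w i), A (w i))) ≤
      (N + 1) * mi P l B (fun ω => (I ω, A ω)) := by
    rw [mi_symm Q, mi_symm P]
    unfold mi
    have e1 : hc Q (fun w j => B (w j)) (fun w => (l (w i), (I (w i), A (w i)))) =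
        hc Q (fun w j => B (w j)) (fun w => W (w i)) := by
      refine hc_congr Q (fun _ _ _ _ h => (Prod.mk.inj h).1) (fun _ _ _ _ h => (Prod.mk.inj h).1)
        ?_ ?_
      · intro w w' hw hw' h
        have := hW' _ _ ((hsupp w hw).2 i) ((hsupp w' hw').2 i) h
        simp only [Prod.mk.injEq] at this ⊢
        tauto
      · intro w w' hw hw' h
        refine hW _ _ ((hsupp w hw).2 i) ((hsupp w' hw').2 i) ?_
        simp only [Prod.mk.injEq] at h ⊢
        tauto
    have e2 : hc P B (fun ω => (l ω, (I ω, A ω))) = hc P B W := by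
      refine hc_congr P (fun _ _ _ _ h => (Prod.mk.inj h).1) (fun _ _ _ _ h => (Prod.mk.inj h).1)
        ?_ ?_
      · intro w w' hw hw' h
        have := hW' _ _ hw hw' h
        simp only [Prod.mk.injEq] at this ⊢
        tauto
      · intro w w' hw hw' h
        refine hW _ _ hw hw' ?_
        simp only [Prod.mk.injEq] at h ⊢
        tauto
    rw [e1, e2, hA']
    push_cast at hB' ⊢
    linarith
  -- adding `I`
  have hFI : Fn Q (fun w => I (w i)) (fun w j => B (w j)) := fun w w' hw hw' h =>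
    hI _ _ ((hsupp w hw).2 i) ((hsupp w' hw').2 i) (congrFun h i)
  have h2 : mi Q (fun w => l (w i)) (fun w j => B (w j)) (fun w => A (w i)) ≤
      mi Q (fun w => l (w i)) (fun w => I (w i)) (fun w => A (w i)) +
      mi Q (fun w => l (w i)) (fun w j => B (w j)) (fun w => (I (w i), A (w i))) := by
    rw [← mi_pair]
    exact mi_mono_right Q _ (fun _ _ _ _ h => (Prod.mk.inj (Prod.mk.inj h).1).2)
  have h3 : mi Q (fun w => l (w i)) (fun w => I (w i)) (fun w => A (w i)) = mi P l I A := by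
    unfold mi
    rw [cw_hc hQ i l A, cw_hc hQ i l (fun ω => (I ω, A ω))]
  have h4 : mi P l I A + mi P l B (fun ω => (I ω, A ω)) ≤ mi P l B A := by
    rw [← mi_pair]
    exact mi_mono_right P _ (fun ω ω' hω hω' h => by
      have := (Prod.mk.inj h).1
      exact Prod.ext (hI ω ω' hω hω' this) this)
  have h5 := mi_nonneg P l I A
  have h6 := mi_nonneg P l B (fun ω => (I ω, A ω))
  have h7 : mi P l I A ≤ mi P l B A := by linarith
  have h8 : mi P l B (fun ω => (I ω, A ω)) ≤ mi P l B A := by linarith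
  have h9 : ((N : ℝ) + 1) * mi P l B (fun ω => (I ω, A ω)) ≤ (N + 1) * mi P l B A :=
    mul_le_mul_of_nonneg_left h8 (by positivity)
  linarith

/-! ### gluing -/

/-- gluing of two laws -/
theorem glue_exists {Ω₁ Ω₂ : Type} [Fintype Ω₁] [Fintype Ω₂] (P₁ : Law Ω₁) (P₂ : Law Ω₂)
    (W₁ : Ω₁ → S) (W₂ : Ω₂ → S) (h : ∀ s, P₁.pr W₁ s = P₂.pr W₂ s) :
    ∃ (Ω' : Type) (_ : Fintype Ω') (Q : Law Ω') (π₁ : Ω' → Ω₁) (π₂ : Ω' → Ω₂),
      (∀ ω, W₁ (π₁ ω) = W₂ (π₂ ω)) ∧ (∀ ω, Q.pr π₁ ω = P₁.w ω) ∧ (∀ ω, Q.pr π₂ ω = P₂.w ω) ∧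
      (∀ {T U : Type} (X : Ω₁ → T) (Y : Ω₂ → U),
        hc Q (X ∘ π₁) (fun ω => (Y (π₂ ω), W₁ (π₁ ω))) = hc P₁ X W₁ ∧
        hc Q (Y ∘ π₂) (fun ω => (X (π₁ ω), W₁ (π₁ ω))) = hc P₂ Y W₂) := by
  classical
  have hid : ∀ {Ω₀ : Type} [Fintype Ω₀] (P : Law Ω₀) (ω : Ω₀), P.pr (fun a => a) ω = P.w ω := by
    intro Ω₀ _ P ω
    unfold Law.pr
    rw [Finset.sum_filter, Finset.sum_ite_eq' univ ω]
    simp
  refine ⟨Law.GT W₁ W₂, inferInstance, Law.glue P₁ P₂ W₁ W₂ h, fun p => p.fst, fun p => p.snd,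
    fun p => p.eq, fun ω => ?_, fun ω => ?_, ?_⟩
  · rw [Law.glue_pr h (fun a => a) ω, hid]
  · rw [Law.glue_pr' h (fun a => a) ω, hid]
  · intro T U X Y
    have h1 := Law.glue_indep h X Y
    have h2 : (Law.glue P₁ P₂ W₁ W₂ h).H (fun p => (Y p.snd, W₁ p.fst)) =
        P₂.H (fun b => (Y b, W₂ b)) := by
      rw [← Law.glue_H' h (fun b => (Y b, W₂ b))]
      congr 1
      funext p
      rw [p.eq]
    have h3 : (Law.glue P₁ P₂ W₁ W₂ h).H (fun p => (X p.fst, W₁ p.fst)) =
        P₁.H (fun b => (X b, W₁ b)) := Law.glue_H h (fun b => (X b, W₁ b))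
    have h4 : P₁.H W₁ = P₂.H W₂ := by
      rw [← Law.glue_H h W₁, ← Law.glue_H' h W₂]
      congr 1
      funext p
      exact p.eq
    have h5 : (Law.glue P₁ P₂ W₁ W₂ h).H (fun p => (Y p.snd, (X p.fst, W₁ p.fst))) =
        (Law.glue P₁ P₂ W₁ W₂ h).H (fun p => (X p.fst, Y p.snd, W₁ p.fst)) := by
      refine Law.H_congr _ fun p p' => ?_
      simp only [Prod.mk.injEq]
      tauto
    unfold hc
    simp only [Function.comp_def]
    constructor
    · linarith
    · linarith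

end copies

end Vale.Agent.P127.Stk
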