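import Vale.Agent.P127.Stk.LibEnt

/-!
# P127 / Stk : floors

Estimates for the binary digits of vectors and for their conditional entropies.
-/

namespace Vale.Agent.P127.Stk

open Finset Vale.Agent.P127

section floors

variable {Ω : Type} [Fintype Ω] {ι : Type} [Fintype ι] {T : Type*}

theorem toNat_pow_aux (n : ℕ) : ((2 : ℤ) ^ n).toNat = 2 ^ n := by
  have h : ((2 : ℤ) ^ n) = ((2 ^ n : ℕ) : ℤ) := by push_cast; rfl
  rw [h, Int.toNat_natCast]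

/-- dropping digits is a function of the digits -/
theorem floor_pow_aux {s s' : ℕ} (h : s ≤ s') (x : ℝ) :
    ⌊(2 : ℝ) ^ s * x⌋ = ⌊(2 : ℝ) ^ s' * x⌋ / ((2 ^ (s' - s) : ℕ) : ℤ) := by
  rw [← Int.floor_div_natCast]
  congr 1
  have h2 : (2 : ℝ) ^ s' = (2 : ℝ) ^ s * (2 : ℝ) ^ (s' - s) := by
    rw [← pow_add, Nat.add_sub_cancel' h]
  rw [h2]
  push_cast
  field_simp

theorem fl_of_fl {s s' : ℕ} (h : s ≤ s') (v w : ι → ℝ) (hv : fl s' v = fl s' w) :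
    fl s v = fl s w := by
  funext i
  have hi : ⌊(2 : ℝ) ^ s' * v i⌋ = ⌊(2 : ℝ) ^ s' * w i⌋ := congrFun hv i
  show ⌊(2 : ℝ) ^ s * v i⌋ = ⌊(2 : ℝ) ^ s * w i⌋
  rw [floor_pow_aux h, floor_pow_aux h (w i), hi]

theorem fl_fract (r s : ℕ) (v : ι → ℝ) (i : ι) :
    fl s (fun i => Int.fract ((2 : ℝ) ^ r * v i)) i = fl (r + s) v i - 2 ^ s * fl r v i := by
  show ⌊(2 : ℝ) ^ s * Int.fract ((2 : ℝ) ^ r * v i)⌋ =
    ⌊(2 : ℝ) ^ (r + s) * v i⌋ - 2 ^ s * ⌊(2 : ℝ) ^ r * v i⌋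
  have h1 : (2 : ℝ) ^ s * Int.fract ((2 : ℝ) ^ r * v i) =
      (2 : ℝ) ^ (r + s) * v i - ((2 ^ s * ⌊(2 : ℝ) ^ r * v i⌋ : ℤ) : ℝ) := by
    rw [Int.fract]
    push_cast
    rw [pow_add]
    ring
  rw [h1, Int.floor_sub_intCast]

theorem fl_lt {s : ℕ} {v : ι → ℝ} (h : ∀ i, 0 ≤ v i ∧ v i < 1) (i : ι) :
    0 ≤ fl s v i ∧ fl s v i < 2 ^ s := by
  have h2 : (0 : ℝ) < 2 ^ s := by positivity
  constructor
  · exact Int.floor_nonneg.mpr (mul_nonneg h2.le (h i).1)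
  · refine Int.floor_lt.mpr ?_
    push_cast
    nlinarith [(h i).2]

/-- floors of close numbers are close -/
theorem floor_close_aux {x y : ℝ} {N : ℕ} (h : |x - y| ≤ N) : |⌊x⌋ - ⌊y⌋| ≤ (N : ℤ) + 1 := by
  obtain ⟨h1, h2⟩ := abs_le.mp h
  have a1 := Int.floor_le x
  have a2 := Int.lt_floor_add_one x
  have b1 := Int.floor_le y
  have b2 := Int.lt_floor_add_one y
  rw [abs_le]
  constructor
  · have : (-((N : ℤ) + 1) - 1 : ℝ) < ((⌊x⌋ - ⌊y⌋ : ℤ) : ℝ) := by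
      push_cast
      linarith
    have h3 : (-((N : ℤ) + 1) - 1 : ℤ) < ⌊x⌋ - ⌊y⌋ := by
      exact_mod_cast this
    omega
  · have : ((⌊x⌋ - ⌊y⌋ : ℤ) : ℝ) < ((N : ℤ) + 1 : ℝ) := by
      push_cast
      linarith
    have h3 : ⌊x⌋ - ⌊y⌋ < (N : ℤ) + 1 := by
      exact_mod_cast this
    omega

theorem fl_sub_le {s : ℕ} {v w : ι → ℝ} {N : ℕ} (h : ∀ i, |v i - w i| ≤ N * (1 / 2 : ℝ) ^ s)
    (i : ι) : |fl s v i - fl s w i| ≤ N + 1 := by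
  show |⌊(2 : ℝ) ^ s * v i⌋ - ⌊(2 : ℝ) ^ s * w i⌋| ≤ (N : ℤ) + 1
  apply floor_close_aux
  have h2 : (0 : ℝ) < 2 ^ s := by positivity
  rw [← mul_sub, abs_mul, abs_of_pos h2]
  calc (2 : ℝ) ^ s * |v i - w i| ≤ 2 ^ s * (N * (1 / 2 : ℝ) ^ s) :=
        mul_le_mul_of_nonneg_left (h i) h2.le
    _ = N := by
        rw [one_div, inv_pow]
        field_simp

theorem fl_digits {s s' : ℕ} (h : s ≤ s') {v w : ι → ℝ} (hv : fl s v = fl s w) (i : ι) :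
    |fl s' v i - fl s' w i| ≤ 2 ^ (s' - s) := by
  have hi : ⌊(2 : ℝ) ^ s * v i⌋ = ⌊(2 : ℝ) ^ s * w i⌋ := congrFun hv i
  show |⌊(2 : ℝ) ^ s' * v i⌋ - ⌊(2 : ℝ) ^ s' * w i⌋| ≤ 2 ^ (s' - s)
  rw [floor_pow_aux h, floor_pow_aux h (w i)] at hi
  set a := ⌊(2 : ℝ) ^ s' * v i⌋
  set b := ⌊(2 : ℝ) ^ s' * w i⌋
  have hN : (0 : ℤ) < ((2 ^ (s' - s) : ℕ) : ℤ) := by positivity
  have ea := Int.emod_add_mul_ediv a ((2 ^ (s' - s) : ℕ) : ℤ)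
  have eb := Int.emod_add_mul_ediv b ((2 ^ (s' - s) : ℕ) : ℤ)
  rw [hi] at ea
  have a1 := Int.emod_nonneg a hN.ne'
  have a2 := Int.emod_lt_of_pos a hN
  have b1 := Int.emod_nonneg b hN.ne'
  have b2 := Int.emod_lt_of_pos b hN
  have h2 : ((2 ^ (s' - s) : ℕ) : ℤ) = 2 ^ (s' - s) := by push_cast; rfl
  rw [h2] at ea eb a1 a2 b1 b2
  rw [abs_le]
  constructor <;> linarith

/-- close vectors have almost the same digits -/
theorem hc_fl_close (P : Law Ω) {s : ℕ} (N : ℕ) (v w : Ω → ι → ℝ) (Z : Ω → T)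
    (h : ∀ ω, 0 < P.w ω → ∀ i, |v ω i - w ω i| ≤ N * (1 / 2 : ℝ) ^ s) :
    hc P (fun ω => fl s (v ω)) (fun ω => (fl s (w ω), Z ω)) ≤
      Fintype.card ι * Real.log (2 * N + 3) := by
  have h1 := hc_sub_le P (fun ω => fl s (v ω)) (fun ω => fl s (w ω))
    (fun ω => (fl s (w ω), Z ω)) (N + 1) (fun ω hω i => by
      have := fl_sub_le (h ω hω) i
      push_cast
      exact this)
  have h2 : hc P (fun ω => fl s (w ω)) (fun ω => (fl s (w ω), Z ω)) = 0 := by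
    apply hc_zero
    intro ω ω' _ _ he
    exact (Prod.ext_iff.mp he).1
  rw [h2, zero_add] at h1
  refine h1.trans (le_of_eq ?_)
  congr 2
  push_cast
  ring

open Classical in
theorem hc_fl_le (P : Law Ω) (s : ℕ) (v : Ω → ι → ℝ) (Z : Ω → T)
    (h : ∀ ω, 0 < P.w ω → ∀ i, 0 ≤ v ω i ∧ v ω i < 1) :
    hc P (fun ω => fl s (v ω)) Z ≤ Fintype.card ι * s * Real.log 2 := by
  have h1 := hc_le_log P (fun ω => fl s (v ω)) Z ((2 ^ s) ^ Fintype.card ι) (fun ω _ => by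
    refine ⟨Fintype.piFinset fun _ : ι => Finset.Ico (0 : ℤ) (2 ^ s), ?_, ?_⟩
    · rw [Fintype.card_piFinset]
      simp [toNat_pow_aux]
    · intro ω' hω' _
      rw [Fintype.mem_piFinset]
      intro i
      rw [Finset.mem_Ico]
      exact fl_lt (h ω' hω') i)
  refine h1.trans (le_of_eq ?_)
  push_cast
  rw [Real.log_pow, Real.log_pow]
  ring

theorem hc_fl1_le (P : Law Ω) (s : ℕ) (v : Ω → ℝ) (Z : Ω → T)
    (h : ∀ ω, 0 < P.w ω → 0 ≤ v ω ∧ v ω < 1) :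
    hc P (fun ω => fl1 s (v ω)) Z ≤ s * Real.log 2 := by
  have h1 := hc_le_log P (fun ω => fl1 s (v ω)) Z (2 ^ s) (fun ω _ => by
    refine ⟨Finset.Ico (0 : ℤ) (2 ^ s), by simp, ?_⟩
    intro ω' hω' _
    rw [Finset.mem_Ico]
    exact fl_lt (ι := Unit) (v := fun _ => v ω') (s := s) (fun _ => h ω' hω') ())
  refine h1.trans (le_of_eq ?_)
  push_cast
  rw [Real.log_pow]

/-- the values of the later digits, given the earlier ones -/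
theorem floor_mem_aux {s s' : ℕ} (h : s ≤ s') {x y : ℝ}
    (hv : ⌊(2 : ℝ) ^ s * x⌋ = ⌊(2 : ℝ) ^ s * y⌋) :
    ⌊(2 : ℝ) ^ s' * x⌋ ∈ Finset.Ico (⌊(2 : ℝ) ^ s * y⌋ * 2 ^ (s' - s))
      (⌊(2 : ℝ) ^ s * y⌋ * 2 ^ (s' - s) + 2 ^ (s' - s)) := by
  rw [floor_pow_aux h x] at hv
  rw [← hv]
  set a := ⌊(2 : ℝ) ^ s' * x⌋
  have hN : (0 : ℤ) < ((2 ^ (s' - s) : ℕ) : ℤ) := by positivity
  have ea := Int.emod_add_mul_ediv a ((2 ^ (s' - s) : ℕ) : ℤ)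
  have a1 := Int.emod_nonneg a hN.ne'
  have a2 := Int.emod_lt_of_pos a hN
  have h2 : ((2 ^ (s' - s) : ℕ) : ℤ) = 2 ^ (s' - s) := by push_cast; rfl
  rw [h2] at ea a1 a2 ⊢
  rw [Finset.mem_Ico]
  constructor <;> linarith

open Classical in
/-- digits `s..s'` -/
theorem hc_fl_digits_le (P : Law Ω) {s s' : ℕ} (h : s ≤ s') (v : Ω → ι → ℝ) (Z : Ω → T) :
    hc P (fun ω => fl s' (v ω)) (fun ω => (fl s (v ω), Z ω)) ≤
      Fintype.card ι * ((s' - s : ℕ) : ℝ) * Real.log 2 := by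
  have h1 := hc_le_log P (fun ω => fl s' (v ω)) (fun ω => (fl s (v ω), Z ω))
    ((2 ^ (s' - s)) ^ Fintype.card ι) (fun ω _ => by
    refine ⟨Fintype.piFinset fun i : ι => Finset.Ico (⌊(2 : ℝ) ^ s * v ω i⌋ * 2 ^ (s' - s))
      (⌊(2 : ℝ) ^ s * v ω i⌋ * 2 ^ (s' - s) + 2 ^ (s' - s)), ?_, ?_⟩
    · rw [Fintype.card_piFinset]
      simp [toNat_pow_aux]
    · intro ω' _ he
      rw [Fintype.mem_piFinset]
      intro i
      have hi : ⌊(2 : ℝ) ^ s * v ω' i⌋ = ⌊(2 : ℝ) ^ s * v ω i⌋ :=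
        congrFun (Prod.ext_iff.mp he).1 i
      exact floor_mem_aux h hi)
  refine h1.trans (le_of_eq ?_)
  push_cast
  rw [Real.log_pow, Real.log_pow]
  ring

theorem hc_fl1_digits_le (P : Law Ω) {s s' : ℕ} (h : s ≤ s') (v : Ω → ℝ) (Z : Ω → T) :
    hc P (fun ω => fl1 s' (v ω)) (fun ω => (fl1 s (v ω), Z ω)) ≤
      ((s' - s : ℕ) : ℝ) * Real.log 2 := by
  have h1 := hc_le_log P (fun ω => fl1 s' (v ω)) (fun ω => (fl1 s (v ω), Z ω))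
    (2 ^ (s' - s)) (fun ω _ => by
    refine ⟨Finset.Ico (⌊(2 : ℝ) ^ s * v ω⌋ * 2 ^ (s' - s))
      (⌊(2 : ℝ) ^ s * v ω⌋ * 2 ^ (s' - s) + 2 ^ (s' - s)), by simp, ?_⟩
    intro ω' _ he
    have hi : ⌊(2 : ℝ) ^ s * v ω'⌋ = ⌊(2 : ℝ) ^ s * v ω⌋ := (Prod.ext_iff.mp he).1
    exact floor_mem_aux h hi)
  refine h1.trans (le_of_eq ?_)
  push_cast
  rw [Real.log_pow]

end floors

section good

variable {Ω Ω' : Type} [Fintype Ω] [Fintype Ω'] {m : ℕ}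

/-- G3 -/
theorem pt_sub (c : Cf Ω m) (r : ℕ) (ω : Ω) (i : Fin m) :
    (2 : ℝ) ^ r * c.pt ω i =
      (fl r (c.x ω) i + c.t ω * fl r (c.y ω) i) + (c.sub r).pt ω i := by
  show (2 : ℝ) ^ r * (c.x ω i + c.t ω * c.y ω i) =
    ((⌊(2 : ℝ) ^ r * c.x ω i⌋ : ℝ) + c.t ω * (⌊(2 : ℝ) ^ r * c.y ω i⌋ : ℝ)) +
      (Int.fract ((2 : ℝ) ^ r * c.x ω i) + c.t ω * Int.fract ((2 : ℝ) ^ r * c.y ω i))
  rw [Int.fract, Int.fract]
  ring

end good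

end Vale.Agent.P127.Stk
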