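import Vale.Agent.P127.Stk.LibDom
import Vale.Agent.P127.Stk.LibFloors

/-!
# P127 / Stk : closure properties of the class of good configurations
-/

namespace Vale.Agent.P127.Stk

open Finset Vale.Agent.P127

section good

variable {Ω Ω' : Type} [Fintype Ω] [Fintype Ω'] {m : ℕ}

theorem Good.C_nonneg {P : Law Ω} {c : Cf Ω m} {L : ℕ} {e C : ℝ} (h : Good P c L e C) :
    0 ≤ C := (mi_nonneg P _ _ _).trans h.ind

theorem Good.e_nonneg {P : Law Ω} {c : Cf Ω m} {L : ℕ} {e C : ℝ} (h : Good P c L e C) :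
    0 ≤ e := by
  have h1 := h.lin 0 (Nat.zero_le _)
  have h2 := hc_nonneg P (fun ω => (fl 0 (c.x ω), fl 0 (c.y ω))) c.A
  simp only [Nat.cast_zero, mul_zero, zero_mul, zero_add] at h1
  linarith

theorem Good.mono {P : Law Ω} {c : Cf Ω m} {L L' : ℕ} {e C e' C' : ℝ} (h : Good P c L e C)
    (h1 : L' ≤ L) (h2 : e ≤ e') (h3 : C ≤ C') : Good P c L' e' C' where
  x01 := h.x01
  y01 := h.y01
  t01 := h.t01
  ind := h.ind.trans h3
  dir s hs := by
    have := h.dir s (hs.trans h1)
    linarith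
  lin s hs := by
    have := h.lin s (hs.trans h1)
    linarith
  tim s hs := by
    have := h.tim s (hs.trans h1)
    linarith

/-- G1 -/
theorem Good.comp {P : Law Ω} {c : Cf Ω m} {L : ℕ} {e C : ℝ} (h : Good P c L e C)
    {Q : Law Ω'} {π : Ω' → Ω} {K : ℝ} (hK : 2 ≤ K) (hQ : Dom Q π P K) :
    Good Q (c.comp π) L (4 * K * (e + 1)) (2 * K * (C + 1)) := by
  have hC := h.C_nonneg
  have he := h.e_nonneg
  have hb0 : 0 < Real.log 2 := Real.log_pos (by norm_num)
  have hb1 : Real.log 2 ≤ 1 := by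
    have := Real.log_two_lt_d9
    linarith
  have hK0 : 0 < K := by linarith
  refine ⟨fun ω i => h.x01 (π ω) i, fun ω i => h.y01 (π ω) i, fun ω => h.t01 (π ω), ?_, ?_, ?_,
    ?_⟩
  · have h1 : mi Q (fun ω => ((c.comp π).x ω, (c.comp π).y ω)) (c.comp π).t (c.comp π).A ≤
        K * (mi P (fun ω => (c.x ω, c.y ω)) c.t c.A + Real.log 2) :=
      hQ.mi_le (fun ω => (c.x ω, c.y ω)) c.t c.A
    refine h1.trans ?_
    have h2 : mi P (fun ω => (c.x ω, c.y ω)) c.t c.A + Real.log 2 ≤ C + 1 := by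
      have := h.ind
      linarith
    nlinarith [mul_le_mul_of_nonneg_left h2 hK0.le]
  · intro s hs
    have h1 : (m * s : ℝ) * Real.log 2 - 2 * K * ((m * s : ℝ) * Real.log 2 -
        hc P (fun ω => fl s (c.y ω)) c.A + Real.log 2) ≤
        hc Q (fun ω => fl s ((c.comp π).y ω)) (c.comp π).A := by
      refine hQ.le_hc (fun ω => fl s (c.y ω)) c.A _ fun R _ => ?_
      have := hc_fl_le R s c.y c.A fun ω _ => h.y01 ω
      simpa using this
    refine le_trans ?_ h1
    have h2 := h.dir s hs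
    nlinarith
  · intro s hs
    obtain ⟨R, hR, hw⟩ := hQ.split hK
    have ha : 1 / K ≤ 1 := (div_le_one hK0).2 (by linarith)
    have ha0 : 0 < 1 / K := by positivity
    have h1 := (mix_hc ha0.le ha hw (fun ω => (fl s (c.x ω), fl s (c.y ω))) c.A).1
    have h2 := (mix_hc ha0.le ha hw (fun ω => fl s (c.y ω)) c.A).2
    have h3 := h.lin s hs
    have h4 := h.dir s hs
    have h5 : hc R (fun ω => fl s (c.y ω)) c.A ≤ hc R (fun ω => (fl s (c.x ω), fl s (c.y ω))) c.A := by
      refine hc_mono_left R ?_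
      intro ω ω' _ _ e
      simp only [Prod.mk.injEq] at e
      exact e.1.2
    have h6 : hc Q ((fun ω => fl s (c.y ω)) ∘ π) (c.A ∘ π) ≤ (m * s : ℝ) * Real.log 2 := by
      have h61 := hc_fl_le Q s (c.y ∘ π) (c.A ∘ π) fun ω _ => h.y01 (π ω)
      rw [Fintype.card_fin] at h61
      exact h61
    have h7 := mul_le_mul_of_nonneg_left h5 (show 0 ≤ 1 - 1 / K by linarith)
    have h8 := mul_le_mul_of_nonneg_left h6 ha0.le
    have h9 : 1 / K * hc Q ((fun ω => (fl s (c.x ω), fl s (c.y ω))) ∘ π) (c.A ∘ π) ≤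
        1 / K * ((m * s : ℝ) * Real.log 2) + (2 * e + Real.log 2) := by linarith
    have h10 := mul_le_mul_of_nonneg_left h9 hK0.le
    have e1 : K * (1 / K * hc Q ((fun ω => (fl s (c.x ω), fl s (c.y ω))) ∘ π) (c.A ∘ π)) =
        hc Q ((fun ω => (fl s (c.x ω), fl s (c.y ω))) ∘ π) (c.A ∘ π) := by
      field_simp
    have e2 : K * (1 / K * ((m * s : ℝ) * Real.log 2) + (2 * e + Real.log 2)) =
        (m * s : ℝ) * Real.log 2 + K * (2 * e + Real.log 2) := by
      field_simp
    rw [e1, e2] at h10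
    have e3 : hc Q (fun ω => (fl s ((c.comp π).x ω), fl s ((c.comp π).y ω))) (c.comp π).A =
        hc Q ((fun ω => (fl s (c.x ω), fl s (c.y ω))) ∘ π) (c.A ∘ π) := rfl
    rw [e3]
    nlinarith
  · intro s hs
    have h1 : (s : ℝ) * Real.log 2 - 2 * K * ((s : ℝ) * Real.log 2 -
        hc P (fun ω => fl1 s (c.t ω)) c.A + Real.log 2) ≤
        hc Q (fun ω => fl1 s ((c.comp π).t ω)) (c.comp π).A :=
      hQ.le_hc (fun ω => fl1 s (c.t ω)) c.A _ fun R _ => hc_fl1_le R s c.t c.A fun ω _ => h.t01 ω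
    refine le_trans ?_ h1
    have h2 := h.tim s hs
    nlinarith

/-- G2 -/
theorem Good.sub {P : Law Ω} {c : Cf Ω m} {L : ℕ} {e C : ℝ} (h : Good P c L e C)
    (r L' : ℕ) (hr : r + L' ≤ L) : Good P (c.sub r) L' (2 * e) (2 * C) := by
  have hC := h.C_nonneg
  have hA : ∀ {T : Type} (X : Ω → T), hc P X (c.sub r).A =
      hc P X (fun ω => ((fl r (c.x ω), fl r (c.y ω)), c.A ω)) := by
    intro T X
    refine hc_congr P (fun ω ω' _ _ e => congrArg Prod.fst e)
      (fun ω ω' _ _ e => congrArg Prod.fst e) ?_ ?_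
    · intro ω ω' _ _ e
      simp only [Prod.mk.injEq] at e
      simp only [Cf.sub, Prod.mk.injEq]
      exact ⟨e.2, e.1.1, e.1.2⟩
    · intro ω ω' _ _ e
      simp only [Cf.sub, Prod.mk.injEq] at e
      simp only [Prod.mk.injEq]
      exact ⟨⟨e.2.1, e.2.2⟩, e.1⟩
  have hW : ∀ s, r + s ≤ L → ∀ {T : Type} (X : Ω → T),
      hc P (fun ω => ((fl r (c.x ω), fl r (c.y ω)), X ω)) c.A =
        hc P (fun ω => (fl r (c.x ω), fl r (c.y ω))) c.A + hc P X (c.sub r).A := by
    intro s _ T X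
    rw [hA, hc_pair]
  refine ⟨fun ω i => ⟨Int.fract_nonneg _, Int.fract_lt_one _⟩,
    fun ω i => ⟨Int.fract_nonneg _, Int.fract_lt_one _⟩, h.t01, ?_, ?_, ?_, ?_⟩
  · have h1 : mi P (fun ω => ((c.sub r).x ω, (c.sub r).y ω)) (c.sub r).t (c.sub r).A =
        mi P (fun ω => ((c.sub r).x ω, (c.sub r).y ω)) c.t
          (fun ω => ((fl r (c.x ω), fl r (c.y ω)), c.A ω)) := by
      refine mi_congr_cond P _ _ ?_ ?_
      · intro ω ω' _ _ e
        simp only [Prod.mk.injEq] at e
        simp only [Cf.sub, Prod.mk.injEq]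
        exact ⟨e.2, e.1.1, e.1.2⟩
      · intro ω ω' _ _ e
        simp only [Cf.sub, Prod.mk.injEq] at e
        simp only [Prod.mk.injEq]
        exact ⟨⟨e.2.1, e.2.2⟩, e.1⟩
    rw [h1]
    have h2 : mi P (fun ω => ((c.sub r).x ω, (c.sub r).y ω)) c.t
        (fun ω => ((fl r (c.x ω), fl r (c.y ω)), c.A ω)) ≤
        mi P (fun ω => (c.x ω, c.y ω)) c.t
          (fun ω => ((fl r (c.x ω), fl r (c.y ω)), c.A ω)) := by
      refine mi_mono_left P _ ?_
      intro ω ω' _ _ e
      simp only [Prod.mk.injEq] at e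
      simp only [Cf.sub, Prod.mk.injEq]
      rw [e.1.1, e.1.2]
      exact ⟨rfl, rfl⟩
    have h3 : mi P (fun ω => (c.x ω, c.y ω)) c.t
          (fun ω => ((fl r (c.x ω), fl r (c.y ω)), c.A ω)) ≤
        mi P (fun ω => (c.x ω, c.y ω)) c.t c.A := by
      refine mi_cond_le P c.t c.A ?_
      intro ω ω' _ _ e
      simp only [Prod.mk.injEq] at e ⊢
      rw [e.1.1, e.1.2]
      exact ⟨rfl, rfl⟩
    have := h.ind
    linarith
  · intro s hs
    have h1 : hc P (fun ω => fl (r + s) (c.y ω)) (c.sub r).A ≤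
        hc P (fun ω => fl s ((c.sub r).y ω)) (c.sub r).A := by
      refine hc_mono_left P ?_
      intro ω ω' _ _ e
      simp only [Cf.sub, Prod.mk.injEq] at e
      funext i
      have e1 := congrFun e.1 i
      rw [fl_fract, fl_fract, congrFun e.2.2.2 i] at e1
      linarith
    have h2 := hW s (by omega) (fun ω => fl (r + s) (c.y ω))
    have h3 : hc P (fun ω => fl (r + s) (c.y ω)) c.A ≤
        hc P (fun ω => ((fl r (c.x ω), fl r (c.y ω)), fl (r + s) (c.y ω))) c.A := by
      refine hc_mono_left P ?_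
      intro ω ω' _ _ e
      simp only [Prod.mk.injEq] at e
      exact e.1.2
    have h4 := h.dir (r + s) (by omega)
    have h5 := h.lin r (by omega)
    push_cast at h4
    nlinarith
  · intro s hs
    have h1 : hc P (fun ω => (fl s ((c.sub r).x ω), fl s ((c.sub r).y ω))) (c.sub r).A ≤
        hc P (fun ω => (fl (r + s) (c.x ω), fl (r + s) (c.y ω))) (c.sub r).A := by
      refine hc_mono_left P ?_
      intro ω ω' _ _ e
      simp only [Cf.sub, Prod.mk.injEq] at e
      simp only [Cf.sub, Prod.mk.injEq]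
      constructor
      · funext i
        rw [fl_fract, fl_fract, congrFun e.1.1 i, congrFun e.2.2.1 i]
      · funext i
        rw [fl_fract, fl_fract, congrFun e.1.2 i, congrFun e.2.2.2 i]
    have h2 := hW s (by omega) (fun ω => (fl (r + s) (c.x ω), fl (r + s) (c.y ω)))
    have h3 : hc P (fun ω => ((fl r (c.x ω), fl r (c.y ω)),
        (fl (r + s) (c.x ω), fl (r + s) (c.y ω)))) c.A ≤
        hc P (fun ω => (fl (r + s) (c.x ω), fl (r + s) (c.y ω))) c.A := by
      refine hc_mono_left P ?_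
      intro ω ω' _ _ e
      simp only [Prod.mk.injEq] at e
      simp only [Prod.mk.injEq]
      exact ⟨⟨fl_of_fl (Nat.le_add_right r s) _ _ e.1.1, fl_of_fl (Nat.le_add_right r s) _ _ e.1.2⟩,
        e.1.1, e.1.2⟩
    have h4 : hc P (fun ω => fl r (c.y ω)) c.A ≤
        hc P (fun ω => (fl r (c.x ω), fl r (c.y ω))) c.A := by
      refine hc_mono_left P ?_
      intro ω ω' _ _ e
      simp only [Prod.mk.injEq] at e
      exact e.1.2
    have h5 := h.lin (r + s) (by omega)
    have h6 := h.dir r (by omega)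
    push_cast at h5
    nlinarith
  · intro s hs
    have h1 := h.tim s (by omega)
    have h2 : hc P (fun ω => fl1 s ((c.sub r).t ω)) (c.sub r).A =
        hc P (fun ω => fl1 s (c.t ω)) (fun ω => ((fl r (c.x ω), fl r (c.y ω)), c.A ω)) :=
      hA (fun ω => fl1 s (c.t ω))
    rw [h2]
    have h3 : mi P (fun ω => fl1 s (c.t ω)) (fun ω => (fl r (c.x ω), fl r (c.y ω))) c.A ≤ C := by
      refine le_trans ?_ h.ind
      rw [mi_symm P (fun ω => (c.x ω, c.y ω))]
      refine (mi_mono_left P _ ?_).trans (mi_mono_right P _ ?_)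
      · intro ω ω' _ _ e
        simp only [Prod.mk.injEq] at e
        simp only [e.1]
      · intro ω ω' _ _ e
        simp only [Prod.mk.injEq] at e ⊢
        rw [e.1.1, e.1.2]
        exact ⟨rfl, rfl⟩
    unfold mi at h3
    linarith

end good

end Vale.Agent.P127.Stk
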