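import Vale.Agent.P127.Stk.LibEnt
import Vale.Agent.P127.Stk.LibDom
import Vale.Agent.P127.Stk.LibFloors
import Vale.Agent.P127.Stk.LibGood
import Vale.Agent.P127.Stk.LibCopies

/-!
# P127 / Stk : entropy calculus

All sections are proved: `ent` (LibEnt), `dom` (LibDom), `floors` (LibFloors), `good` (LibGood),
`copies` (LibCopies).
-/
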