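import Vale.Agent.P127.Stk.PolyDefs

/-!
# P127 / Stk : from entropy to near-uniformity
-/

namespace Vale.Agent.P127.Stk

open Finset Vale.Agent.P127

/-- distance of the law of `U` given `W = s` from the uniform law on `[0, M)` -/
noncomputable def l1 {Ω : Type} [Fintype Ω] {S : Type*} (P : Law Ω) (W : Ω → S) (U : Ω → ℤ)
    (M : ℕ) (s : S) : ℝ :=
  ∑ u ∈ Ico (0 : ℤ) M, |P.pr (fun ω => (W ω, U ω)) (s, u) / P.pr W s - 1 / M|

section unif

variable {Ω : Type} [Fintype Ω] {S : Type*}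

theorem un_swap {T : Type*} (P : Law Ω) (W : Ω → S) (U : Ω → T) (s : S) (u : T) :
    P.pr (fun ω => (W ω, U ω)) (s, u) = P.pr (fun ω => (U ω, W ω)) (u, s) := by
  classical
  unfold Law.pr
  refine Finset.sum_congr ?_ fun _ _ => rfl
  ext ω
  simp [and_comm]

/-- `∑_u P(s,u) ≤ P(s)` -/
theorem un_sum_le {T : Type*} (P : Law Ω) (W : Ω → S) (U : Ω → T) (s : S) (F : Finset T) :
    ∑ u ∈ F, P.pr (fun ω => (W ω, U ω)) (s, u) ≤ P.pr W s := by
  have h := P.sum_pr_pair_le U W s F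
  simpa only [un_swap P W U] using h

/-- lower bound for the affinity in terms of the entropy -/
theorem un_aff {T : Type*} (P : Law Ω) (W : Ω → S) (U : Ω → T) (M : ℕ) (hM : 1 ≤ M) :
    2 - 2 * P.ex (fun ω => (Real.sqrt (M * (P.pr (fun ω => (W ω, U ω)) (W ω, U ω) /
      P.pr W (W ω))))⁻¹) ≤ Real.log M - hc P U W := by
  have hM0 : (0 : ℝ) < M := by exact_mod_cast hM
  have h1 : P.ex (fun ω => 2 - 2 * (Real.sqrt (M * (P.pr (fun ω => (W ω, U ω)) (W ω, U ω) /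
      P.pr W (W ω))))⁻¹) ≤ P.ex (fun ω => Real.log M - (-Real.log (P.pr (fun ω => (U ω, W ω))
        (U ω, W ω)) - (-Real.log (P.pr W (W ω))))) := by
    refine P.ex_mono fun ω hω => ?_
    have hW : 0 < P.pr W (W ω) := P.pr_pos W hω
    have hWU : 0 < P.pr (fun ω => (W ω, U ω)) (W ω, U ω) := P.pr_pos (fun ω => (W ω, U ω)) hω
    set x : ℝ := M * (P.pr (fun ω => (W ω, U ω)) (W ω, U ω) / P.pr W (W ω)) with hx
    have hx0 : 0 < x := by positivity
    have hs : 0 < Real.sqrt x := Real.sqrt_pos.2 hx0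
    have h2 := Real.log_le_sub_one_of_pos (inv_pos.2 hs)
    rw [Real.log_inv, Real.log_sqrt hx0.le] at h2
    have h3 : Real.log x = Real.log M + (Real.log (P.pr (fun ω => (W ω, U ω)) (W ω, U ω)) -
        Real.log (P.pr W (W ω))) := by
      rw [hx, Real.log_mul hM0.ne' (div_pos hWU hW).ne', Real.log_div hWU.ne' hW.ne']
    have h4 := un_swap P W U (W ω) (U ω)
    rw [← h4]
    linarith
  rw [P.ex_sub, P.ex_const, P.ex_const_mul, P.ex_sub, P.ex_const, P.ex_sub] at h1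
  exact h1

/-- Pinsker's inequality on average -/
theorem unif_l1 (P : Law Ω) (W : Ω → S) (U : Ω → ℤ) (M : ℕ)
    (hM : 1 ≤ M) (hU : ∀ ω, 0 < P.w ω → 0 ≤ U ω ∧ U ω < M) (e : ℝ) (he : 0 ≤ e)
    (h : Real.log M - e ≤ hc P U W) : P.ex (fun ω => l1 P W U M (W ω)) ≤ 2 * Real.sqrt e := by
  classical
  have hM0 : (0 : ℝ) < M := by exact_mod_cast hM
  -- conditional probabilities
  set ρ : S → ℤ → ℝ := fun s u => P.pr (fun ω => (W ω, U ω)) (s, u) / P.pr W s with hρ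
  have hρ0 : ∀ s u, 0 ≤ ρ s u := fun s u => div_nonneg (P.pr_nonneg _ _) (P.pr_nonneg _ _)
  have hPρ : ∀ s u, P.pr W s * ρ s u ≤ P.pr (fun ω => (W ω, U ω)) (s, u) := by
    intro s u
    rcases (P.pr_nonneg W s).eq_or_lt with h0 | h0
    · rw [← h0, zero_mul]
      exact P.pr_nonneg _ _
    · rw [hρ]
      simp only
      rw [mul_div_cancel₀ _ h0.ne']
  have hsum : ∀ s, P.pr W s * ∑ u ∈ Ico (0 : ℤ) M, ρ s u ≤ P.pr W s := by
    intro s
    rw [Finset.mul_sum]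
    exact (Finset.sum_le_sum fun u _ => hPρ s u).trans (un_sum_le P W U s _)
  have hcard : ∑ _u ∈ Ico (0 : ℤ) M, (1 / M : ℝ) = 1 := by
    rw [Finset.sum_const, Int.card_Ico, sub_zero, Int.toNat_natCast, nsmul_eq_mul]
    field_simp
  have h1 : P.ex (fun ω => l1 P W U M (W ω)) =
      ∑ s ∈ img W, ∑ u ∈ Ico (0 : ℤ) M, P.pr W s * |ρ s u - 1 / M| := by
    rw [P.ex_comp W (fun s => l1 P W U M s)]
    refine Finset.sum_congr rfl fun s _ => ?_
    unfold l1
    rw [Finset.mul_sum]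
  -- the affinity
  have haff := un_aff P W U M hM
  have h2 : P.ex (fun ω => (Real.sqrt (M * (P.pr (fun ω => (W ω, U ω)) (W ω, U ω) /
      P.pr W (W ω))))⁻¹) ≤
      ∑ s ∈ img W, ∑ u ∈ Ico (0 : ℤ) M, P.pr W s * (Real.sqrt (ρ s u) * Real.sqrt (1 / M)) := by
    rw [P.ex_comp (fun ω => (W ω, U ω)) (fun z => (Real.sqrt (M * (P.pr (fun ω => (W ω, U ω)) z /
      P.pr W z.1)))⁻¹)]
    have h3 : ∀ z ∈ img (fun ω => (W ω, U ω)), P.pr (fun ω => (W ω, U ω)) z *
        (Real.sqrt (M * (P.pr (fun ω => (W ω, U ω)) z / P.pr W z.1)))⁻¹ =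
        P.pr W z.1 * (Real.sqrt (ρ z.1 z.2) * Real.sqrt (1 / M)) := by
      rintro ⟨s, u⟩ _
      have hle : P.pr (fun ω => (W ω, U ω)) (s, u) ≤ P.pr W s := by
        have := un_sum_le P W U s {u}
        simpa using this
      rcases (P.pr_nonneg (fun ω => (W ω, U ω)) (s, u)).eq_or_lt with h0 | h0
      · simp [hρ, ← h0]
      · have hs : 0 < P.pr W s := h0.trans_le hle
        have hρs : 0 < ρ s u := div_pos h0 hs
        have e1 : P.pr (fun ω => (W ω, U ω)) (s, u) = P.pr W s * ρ s u := by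
          rw [hρ]
          simp only
          rw [mul_div_cancel₀ _ hs.ne']
        have e2 : P.pr (fun ω => (W ω, U ω)) (s, u) / P.pr W s = ρ s u := rfl
        simp only
        rw [e2, e1]
        have e3 : Real.sqrt (M * ρ s u) = Real.sqrt M * Real.sqrt (ρ s u) :=
          Real.sqrt_mul hM0.le _
        have e4 : Real.sqrt (1 / M : ℝ) = (Real.sqrt M)⁻¹ := by
          rw [one_div, Real.sqrt_inv]
        have e5 : Real.sqrt (ρ s u) * Real.sqrt (ρ s u) = ρ s u := Real.mul_self_sqrt hρs.le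
        have e6 : 0 < Real.sqrt (ρ s u) := Real.sqrt_pos.2 hρs
        have e7 : 0 < Real.sqrt (M : ℝ) := Real.sqrt_pos.2 hM0
        rw [e3, e4]
        field_simp
        nlinarith [e5]
    rw [Finset.sum_congr rfl h3]
    -- restrict to the support
    have h4 : ∑ z ∈ img (fun ω => (W ω, U ω)),
        P.pr W z.1 * (Real.sqrt (ρ z.1 z.2) * Real.sqrt (1 / M)) =
        ∑ z ∈ (img (fun ω => (W ω, U ω))).filter (fun z => 0 < P.pr (fun ω => (W ω, U ω)) z),
          P.pr W z.1 * (Real.sqrt (ρ z.1 z.2) * Real.sqrt (1 / M)) := by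
      symm
      refine Finset.sum_subset (Finset.filter_subset _ _) ?_
      rintro ⟨s, u⟩ hz hz'
      simp only [Finset.mem_filter, hz, true_and, not_lt] at hz'
      have h0 : P.pr (fun ω => (W ω, U ω)) (s, u) = 0 := le_antisymm hz' (P.pr_nonneg _ _)
      simp [hρ, h0]
    rw [h4, ← Finset.sum_product']
    refine Finset.sum_le_sum_of_subset_of_nonneg ?_ ?_
    · rintro ⟨s, u⟩ hz
      simp only [Finset.mem_filter] at hz
      obtain ⟨ω, hω, hws⟩ : ∃ ω, 0 < P.w ω ∧ (W ω, U ω) = (s, u) := by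
        by_contra hcon
        push Not at hcon
        have h0 : P.pr (fun ω => (W ω, U ω)) (s, u) = 0 := by
          unfold Law.pr
          refine Finset.sum_eq_zero fun ω hω => ?_
          have hω' : (W ω, U ω) = (s, u) := by simpa using hω
          by_contra hne
          exact hcon ω (lt_of_le_of_ne (P.nn ω) (Ne.symm hne)) hω'
        linarith [hz.2]
      simp only [Prod.mk.injEq] at hws
      rw [Finset.mem_product, Finset.mem_Ico]
      refine ⟨?_, ?_⟩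
      · rw [mem_img]
        exact ⟨ω, hws.1⟩
      · have := hU ω hω
        rw [hws.2] at this
        exact this
    · rintro ⟨s, u⟩ _ _
      exact mul_nonneg (P.pr_nonneg _ _) (mul_nonneg (Real.sqrt_nonneg _) (Real.sqrt_nonneg _))
  -- total masses
  have hone : ∑ s ∈ img W, P.pr W s = 1 := P.sum_pr_image W
  set A : ℝ := ∑ s ∈ img W, ∑ u ∈ Ico (0 : ℤ) M,
    P.pr W s * (Real.sqrt (ρ s u) * Real.sqrt (1 / M)) with hA
  have hA2 : 2 - 2 * A ≤ e := by linarith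
  have hmass : ∑ s ∈ img W, ∑ u ∈ Ico (0 : ℤ) M, P.pr W s * (ρ s u + 1 / M) ≤ 2 := by
    calc ∑ s ∈ img W, ∑ u ∈ Ico (0 : ℤ) M, P.pr W s * (ρ s u + 1 / M)
        = ∑ s ∈ img W, (P.pr W s * ∑ u ∈ Ico (0 : ℤ) M, ρ s u + P.pr W s) := by
          refine Finset.sum_congr rfl fun s _ => ?_
          rw [← Finset.mul_sum, Finset.sum_add_distrib, hcard]
          ring
      _ ≤ ∑ s ∈ img W, (P.pr W s + P.pr W s) :=
          Finset.sum_le_sum fun s _ => add_le_add (hsum s) le_rfl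
      _ = 2 := by
          rw [Finset.sum_add_distrib, hone]
          norm_num
  -- Cauchy-Schwarz
  set a : S × ℤ → ℝ := fun z =>
    Real.sqrt (P.pr W z.1) * |Real.sqrt (ρ z.1 z.2) - Real.sqrt (1 / M)| with ha
  set b : S × ℤ → ℝ := fun z =>
    Real.sqrt (P.pr W z.1) * (Real.sqrt (ρ z.1 z.2) + Real.sqrt (1 / M)) with hb
  have hinv : (0 : ℝ) ≤ 1 / M := by positivity
  have hsq : ∀ s u, Real.sqrt (ρ s u) ^ 2 = ρ s u := fun s u => Real.sq_sqrt (hρ0 s u)
  have hsqM : Real.sqrt (1 / M : ℝ) ^ 2 = 1 / M := Real.sq_sqrt hinv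
  have hsqP : ∀ s, Real.sqrt (P.pr W s) ^ 2 = P.pr W s := fun s => Real.sq_sqrt (P.pr_nonneg _ _)
  have h5 : ∑ s ∈ img W, ∑ u ∈ Ico (0 : ℤ) M, P.pr W s * |ρ s u - 1 / M| =
      ∑ z ∈ (img W) ×ˢ (Ico (0 : ℤ) M), a z * b z := by
    rw [← Finset.sum_product']
    refine Finset.sum_congr rfl ?_
    rintro ⟨s, u⟩ _
    simp only [ha, hb]
    have e1 : ρ s u - 1 / M = (Real.sqrt (ρ s u) - Real.sqrt (1 / M)) *
        (Real.sqrt (ρ s u) + Real.sqrt (1 / M)) := by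
      nlinarith [hsq s u, hsqM]
    rw [e1, abs_mul, abs_of_nonneg (add_nonneg (Real.sqrt_nonneg (ρ s u))
      (Real.sqrt_nonneg (1 / M : ℝ)))]
    have e2 := hsqP s
    calc P.pr W s * (|Real.sqrt (ρ s u) - Real.sqrt (1 / M)| *
          (Real.sqrt (ρ s u) + Real.sqrt (1 / M)))
        = Real.sqrt (P.pr W s) ^ 2 * (|Real.sqrt (ρ s u) - Real.sqrt (1 / M)| *
          (Real.sqrt (ρ s u) + Real.sqrt (1 / M))) := by rw [e2]
      _ = _ := by ring
  have h6 : ∑ z ∈ (img W) ×ˢ (Ico (0 : ℤ) M), a z ^ 2 ≤ e := by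
    have e1 : ∑ z ∈ (img W) ×ˢ (Ico (0 : ℤ) M), a z ^ 2 =
        ∑ s ∈ img W, ∑ u ∈ Ico (0 : ℤ) M, P.pr W s * (ρ s u + 1 / M) - 2 * A := by
      rw [hA, Finset.mul_sum, ← Finset.sum_sub_distrib, Finset.sum_product]
      refine Finset.sum_congr rfl fun s _ => ?_
      rw [Finset.mul_sum, ← Finset.sum_sub_distrib]
      refine Finset.sum_congr rfl fun u _ => ?_
      simp only [ha]
      rw [mul_pow, sq_abs, hsqP s]
      have := hsq s u
      have h7 : (Real.sqrt (ρ s u) - Real.sqrt (1 / M)) ^ 2 = ρ s u + 1 / M -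
          2 * (Real.sqrt (ρ s u) * Real.sqrt (1 / M)) := by
        rw [sub_sq, hsq, hsqM]
        ring
      rw [h7]
      ring
    rw [e1]
    linarith
  have h7 : ∑ z ∈ (img W) ×ˢ (Ico (0 : ℤ) M), b z ^ 2 ≤ 4 := by
    have e1 : ∑ z ∈ (img W) ×ˢ (Ico (0 : ℤ) M), b z ^ 2 ≤
        2 * ∑ s ∈ img W, ∑ u ∈ Ico (0 : ℤ) M, P.pr W s * (ρ s u + 1 / M) := by
      rw [Finset.mul_sum, Finset.sum_product]
      refine Finset.sum_le_sum fun s _ => ?_
      rw [Finset.mul_sum]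
      refine Finset.sum_le_sum fun u _ => ?_
      simp only [hb]
      rw [mul_pow, hsqP s]
      have h8 : (Real.sqrt (ρ s u) + Real.sqrt (1 / M)) ^ 2 ≤ 2 * (ρ s u + 1 / M) := by
        nlinarith [hsq s u, hsqM, sq_nonneg (Real.sqrt (ρ s u) - Real.sqrt (1 / M))]
      have h9 := mul_le_mul_of_nonneg_left h8 (P.pr_nonneg W s)
      linarith
    linarith
  rw [h1, h5]
  have h8 := Finset.sum_mul_sq_le_sq_mul_sq ((img W) ×ˢ (Ico (0 : ℤ) M)) a b
  have h9 : (∑ z ∈ (img W) ×ˢ (Ico (0 : ℤ) M), a z * b z) ^ 2 ≤ e * 4 :=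
    h8.trans (mul_le_mul h6 h7 (Finset.sum_nonneg fun _ _ => sq_nonneg _) he)
  have h10 : e * 4 = (2 * Real.sqrt e) ^ 2 := by
    rw [mul_pow, Real.sq_sqrt he]
    ring
  rw [h10] at h9
  exact abs_le_of_sq_le_sq' h9 (by positivity) |>.2

end unif

end Vale.Agent.P127.Stk
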