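import Vale.Agent.P127.Stk.PolyDefs
import Vale.Agent.P127.Stk.PolyUnif
import Vale.Agent.P127.Stk.Lib

/-!
# P127 / Stk : the law of arithmetic progressions (`apw`), its mass, domination and cost
-/

namespace Vale.Agent.P127.Stk

open Finset Vale.Agent.P127

section aplaw

variable {Ω : Type} [Fintype Ω] {S S' T V : Type*}

open Classical in
/-- the positions in `[0, M)` which are good for the value `s` of the key -/
noncomputable def gd (P : Law Ω) (W : Ω → S) (U : Ω → ℤ) (M : ℕ) (s : S) : Finset ℤ :=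
  (Finset.Ico (0 : ℤ) M).filter fun u => P.pr W s ≤ 2 * M * P.pr (fun ω => (W ω, U ω)) (s, u)

open Classical in
/-- the positions in `[0, M)` which are bad for the value `s` of the key -/
noncomputable def bd (P : Law Ω) (W : Ω → S) (U : Ω → ℤ) (M : ℕ) (s : S) : Finset ℤ :=
  (Finset.Ico (0 : ℤ) M).filter fun u => ¬ P.pr W s ≤ 2 * M * P.pr (fun ω => (W ω, U ω)) (s, u)

open Classical in
/-- one factor of the weights -/
noncomputable def fw (P : Law Ω) (W : Ω → S) (U : Ω → ℤ) (M : ℕ) (s : S) (u : ℤ) (ω : Ω) : ℝ :=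
  if W ω = s ∧ U ω = u then P.w ω * idn P W U M ω else 0

theorem idn_nonneg (P : Law Ω) (W : Ω → S) (U : Ω → ℤ) (M : ℕ) (ω : Ω) : 0 ≤ idn P W U M ω := by
  unfold idn
  split_ifs
  · exact div_nonneg (P.pr_nonneg _ _) (mul_nonneg (Nat.cast_nonneg _) (P.pr_nonneg _ _))
  · exact le_rfl

theorem idn_le (P : Law Ω) (W : Ω → S) (U : Ω → ℤ) (M : ℕ) (ω : Ω) :
    idn P W U M ω ≤ 2 := by
  unfold idn
  split_ifs with h
  · rcases (mul_nonneg (Nat.cast_nonneg M)
      (P.pr_nonneg (fun ω => (W ω, U ω)) (W ω, U ω)) : (0:ℝ) ≤ _).eq_or_lt with h0 | h0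
    · rw [← h0]; simp
    · rw [div_le_iff₀ h0]
      linarith
  · norm_num

theorem fw_nonneg (P : Law Ω) (W : Ω → S) (U : Ω → ℤ) (M : ℕ) (s : S) (u : ℤ) (ω : Ω) :
    0 ≤ fw P W U M s u ω := by
  unfold fw
  split_ifs
  · exact mul_nonneg (P.nn ω) (idn_nonneg P W U M ω)
  · exact le_rfl

theorem fw_le (P : Law Ω) (W : Ω → S) (U : Ω → ℤ) (M : ℕ) (s : S) (u : ℤ) (ω : Ω) :
    fw P W U M s u ω ≤ 2 * P.w ω := by
  unfold fw
  have h1 := P.nn ω
  have h2 := idn_le P W U M ω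
  split_ifs
  · nlinarith
  · linarith

theorem pr_pair_zero {P : Law Ω} {W : Ω → S} {U : Ω → ℤ} {M : ℕ}
    (hU : ∀ ω, 0 < P.w ω → 0 ≤ U ω ∧ U ω < M) (s : S) (u : ℤ) (hu : u ∉ Finset.Ico (0 : ℤ) M) :
    P.pr (fun ω => (W ω, U ω)) (s, u) = 0 := by
  classical
  unfold Law.pr
  refine Finset.sum_eq_zero fun ω hω => ?_
  simp only [Finset.mem_filter, Finset.mem_univ, true_and, Prod.mk.injEq] at hω
  have h1 := hω
  by_contra hne
  have h2 := hU ω (lt_of_le_of_ne (P.nn ω) (Ne.symm hne))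
  rw [h1.2] at h2
  exact hu (Finset.mem_Ico.2 h2)

theorem fw_sum {P : Law Ω} {W : Ω → S} {U : Ω → ℤ} {M : ℕ}
    (hU : ∀ ω, 0 < P.w ω → 0 ≤ U ω ∧ U ω < M) (s : S) (u : ℤ) [Decidable (u ∈ gd P W U M s)] :
    ∑ ω, fw P W U M s u ω = if u ∈ gd P W U M s then P.pr W s / M else 0 := by
  classical
  have h1 : ∑ ω, fw P W U M s u ω = P.pr (fun ω => (W ω, U ω)) (s, u) *
      (if P.pr W s ≤ 2 * M * P.pr (fun ω => (W ω, U ω)) (s, u) then
        P.pr W s / (M * P.pr (fun ω => (W ω, U ω)) (s, u)) else 0) := by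
    unfold Law.pr
    rw [Finset.sum_mul, Finset.sum_filter]
    refine Finset.sum_congr rfl fun ω _ => ?_
    unfold fw
    by_cases h : W ω = s ∧ U ω = u
    · rw [if_pos h, if_pos (Prod.ext h.1 h.2)]
      unfold idn Law.pr
      rw [h.1, h.2]
    · rw [if_neg h, if_neg (fun hh => h (by simpa using hh))]
  rw [h1]
  by_cases hc : P.pr W s ≤ 2 * M * P.pr (fun ω => (W ω, U ω)) (s, u)
  · rw [if_pos hc]
    rcases (P.pr_nonneg (fun ω => (W ω, U ω)) (s, u)).eq_or_lt with h0 | h0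
    · rw [← h0] at hc ⊢
      have h2 : P.pr W s = 0 := le_antisymm (by linarith) (P.pr_nonneg _ _)
      rw [h2]
      simp
    · have hu : u ∈ Finset.Ico (0 : ℤ) M := by
        by_contra hne
        rw [pr_pair_zero hU s u hne] at h0
        exact lt_irrefl _ h0
      rw [if_pos (by unfold gd; exact Finset.mem_filter.2 ⟨hu, hc⟩)]
      rcases Nat.eq_zero_or_pos M with hM | hM
      · subst hM; simp
      · have : (0:ℝ) < M := by exact_mod_cast hM
        field_simp
  · rw [if_neg hc, if_neg (by unfold gd; exact fun hh => hc (Finset.mem_filter.1 hh).2), mul_zero]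

/-- the parameters of the progressions -/
noncomputable def apI (M : ℕ) : Finset (ℤ × ℤ) :=
  (Finset.Ico (0 : ℤ) M) ×ˢ (Finset.Ioo (-(M : ℤ)) M)

theorem apw_eq {P : Law Ω} {W : Ω → S} {U : Ω → ℤ} {M p : ℕ} (hp : 1 ≤ p)
    (hU : ∀ ω, 0 < P.w ω → 0 ≤ U ω ∧ U ω < M) (w : Fin (p + 1) → Ω) :
    apw P W U M p w = ∑ s ∈ img W, ∑ q ∈ apI M,
      (∏ j : Fin (p + 1), fw P W U M s (q.1 + (j : ℕ) * q.2) (w j)) / P.pr W s ^ p := by
  classical
  set i1 : Fin (p + 1) := ⟨1, by omega⟩ with hi1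
  set q0 : ℤ × ℤ := (U (w 0), U (w i1) - U (w 0)) with hq0
  have hA : ∀ s ∈ img W, s ≠ W (w 0) → ∑ q ∈ apI M,
      (∏ j : Fin (p + 1), fw P W U M s (q.1 + (j : ℕ) * q.2) (w j)) / P.pr W s ^ p = 0 := by
    intro s _ hs
    refine Finset.sum_eq_zero fun q _ => ?_
    rw [Finset.prod_eq_zero (Finset.mem_univ 0), zero_div]
    unfold fw
    rw [if_neg (fun hh => hs hh.1.symm)]
  rw [Finset.sum_eq_single (W (w 0)) hA
    (fun h => absurd (mem_img.2 ⟨w 0, rfl⟩) h)]
  have hB : ∀ q ∈ apI M, q ≠ q0 →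
      (∏ j : Fin (p + 1), fw P W U M (W (w 0)) (q.1 + (j : ℕ) * q.2) (w j)) /
        P.pr W (W (w 0)) ^ p = 0 := by
    intro q _ hq
    by_cases h1 : q.1 = U (w 0)
    · have h2 : q.2 ≠ U (w i1) - U (w 0) := fun hh => hq (Prod.ext h1 hh)
      rw [Finset.prod_eq_zero (Finset.mem_univ i1), zero_div]
      unfold fw
      rw [if_neg]
      rintro ⟨-, h3⟩
      apply h2
      rw [h3, h1, hi1]
      push_cast
      ring
    · rw [Finset.prod_eq_zero (Finset.mem_univ 0), zero_div]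
      unfold fw
      rw [if_neg]
      rintro ⟨-, h3⟩
      apply h1
      rw [h3]
      simp
  -- the product at the right place
  have hC : apw P W U M p w =
      (∏ j : Fin (p + 1), fw P W U M (W (w 0)) (q0.1 + (j : ℕ) * q0.2) (w j)) /
        P.pr W (W (w 0)) ^ p := by
    by_cases h : (∀ j, W (w j) = W (w 0)) ∧
        ∀ j : Fin (p + 1), U (w j) = U (w 0) + (j : ℕ) * (U (w i1) - U (w 0))
    · have h1 : ∏ j : Fin (p + 1), fw P W U M (W (w 0)) (q0.1 + (j : ℕ) * q0.2) (w j) =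
          ∏ j, (P.w (w j) * idn P W U M (w j)) := by
        refine Finset.prod_congr rfl fun j _ => ?_
        unfold fw
        rw [if_pos ⟨h.1 j, h.2 j⟩]
      rw [h1, Finset.prod_mul_distrib]
      unfold apw cw
      rw [if_pos ⟨_, h.2⟩, if_pos h.1]
      ring
    · have h1 : ∏ j : Fin (p + 1), fw P W U M (W (w 0)) (q0.1 + (j : ℕ) * q0.2) (w j) = 0 := by
        rw [not_and_or] at h
        rcases h with h | h
        · push Not at h
          obtain ⟨j, hj⟩ := h
          rw [Finset.prod_eq_zero (Finset.mem_univ j)]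
          unfold fw
          rw [if_neg (fun hh => hj hh.1)]
        · push Not at h
          obtain ⟨j, hj⟩ := h
          rw [Finset.prod_eq_zero (Finset.mem_univ j)]
          unfold fw
          rw [if_neg (fun hh => hj hh.2)]
      rw [h1, zero_div]
      unfold apw
      split_ifs with h2
      · obtain ⟨μ, hμ⟩ := h2
        rw [not_and_or] at h
        rcases h with h | h
        · unfold cw
          rw [if_neg h, zero_mul]
        · exfalso
          apply h
          have h3 := hμ i1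
          have h4 : U (w i1) - U (w 0) = μ := by
            rw [h3, hi1]
            push_cast
            ring
          rw [h4]
          exact hμ
      · rfl
  by_cases hq : q0 ∈ apI M
  · rw [Finset.sum_eq_single q0 hB (fun h => absurd hq h)]
    exact hC
  · rw [Finset.sum_eq_zero (fun q hq' => hB q hq' (fun hh => hq (hh ▸ hq')))]
    -- one of the weights vanishes
    have h1 : P.w (w 0) = 0 ∨ P.w (w i1) = 0 := by
      by_contra hcon
      rw [not_or] at hcon
      have h2 := hU (w 0) (lt_of_le_of_ne (P.nn _) (Ne.symm hcon.1))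
      have h3 := hU (w i1) (lt_of_le_of_ne (P.nn _) (Ne.symm hcon.2))
      apply hq
      unfold apI
      rw [Finset.mem_product, Finset.mem_Ico, Finset.mem_Ioo]
      refine ⟨h2, ?_, ?_⟩ <;> simp only [hq0] <;> omega
    have h2 : cw P W p w = 0 := by
      unfold cw
      split_ifs
      · have : ∏ i, P.w (w i) = 0 := by
          rcases h1 with h1 | h1
          · exact Finset.prod_eq_zero (Finset.mem_univ 0) h1
          · exact Finset.prod_eq_zero (Finset.mem_univ i1) h1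
        rw [this, zero_div]
      · rfl
    unfold apw
    rw [h2]
    simp


open Classical in
/-- the good progressions -/
noncomputable def apG (P : Law Ω) (W : Ω → S) (U : Ω → ℤ) (M p : ℕ) (s : S) : Finset (ℤ × ℤ) :=
  (apI M).filter fun q : ℤ × ℤ => ∀ j : Fin (p + 1), q.1 + (j : ℕ) * q.2 ∈ gd P W U M s

theorem apw_nonneg (P : Law Ω) (W : Ω → S) (U : Ω → ℤ) (M p : ℕ) (w : Fin (p + 1) → Ω) :
    0 ≤ apw P W U M p w := by
  unfold apw
  split_ifs
  · exact mul_nonneg (cw_nn_aux P W p w) (Finset.prod_nonneg fun j _ => idn_nonneg P W U M _)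
  · exact le_rfl

/-- existence of the law of progressions -/
theorem ap_exists {P : Law Ω} {W : Ω → S} {U : Ω → ℤ} {M p : ℕ}
    (h : 0 < ∑ w, apw P W U M p w) : ∃ Q : Law (Fin (p + 1) → Ω),
      ∀ w, Q.w w = apw P W U M p w / ∑ w, apw P W U M p w :=
  ⟨⟨fun w => apw P W U M p w / ∑ w, apw P W U M p w,
    fun w => div_nonneg (apw_nonneg P W U M p w) h.le, by
      rw [← Finset.sum_div, div_self h.ne']⟩, fun _ => rfl⟩

/-- the normalising constant -/
theorem ap_norm {P : Law Ω} {W : Ω → S} {U : Ω → ℤ} {M p : ℕ} {Q : Law (Fin (p + 1) → Ω)} {Z : ℝ}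
    (hZ : 0 < Z) (hQ : ∀ w, Q.w w = apw P W U M p w / Z) : Z = ∑ w, apw P W U M p w := by
  have h1 := Q.sum_one
  simp only [hQ] at h1
  rw [← Finset.sum_div, div_eq_one_iff_eq hZ.ne'] at h1
  exact h1.symm

/-- the support of the law of progressions -/
theorem apw_supp {P : Law Ω} {W : Ω → S} {U : Ω → ℤ} {M p : ℕ} {w : Fin (p + 1) → Ω}
    (h : apw P W U M p w ≠ 0) : (∀ i, W (w i) = W (w 0)) ∧ (∀ i, 0 < P.w (w i)) ∧
      ∃ μ : ℤ, ∀ j : Fin (p + 1), U (w j) = U (w 0) + (j : ℕ) * μ := by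
  classical
  unfold apw at h
  split_ifs at h with h1
  · have h2 : cw P W p w ≠ 0 := fun h0 => h (by rw [h0, zero_mul])
    unfold cw at h2
    split_ifs at h2 with h3
    · refine ⟨h3, fun i => ?_, h1⟩
      refine lt_of_le_of_ne (P.nn _) fun h0 => h2 ?_
      rw [Finset.prod_eq_zero (Finset.mem_univ i) h0.symm, zero_div]
    · exact absurd rfl h2
  · exact absurd rfl h

/-- the number of good progressions -/
noncomputable def nap (P : Law Ω) (W : Ω → S) (U : Ω → ℤ) (M p : ℕ) (s : S) : ℕ :=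
  (apG P W U M p s).card

/-- the total mass -/
theorem apw_mass {P : Law Ω} {W : Ω → S} {U : Ω → ℤ} {M p : ℕ} (hp : 1 ≤ p) (hM : 1 ≤ M)
    (hU : ∀ ω, 0 < P.w ω → 0 ≤ U ω ∧ U ω < M) :
    ∑ w, apw P W U M p w = P.ex (fun ω => (nap P W U M p (W ω) : ℝ)) / (M : ℝ) ^ (p + 1) := by
  classical
  have hM0 : (0 : ℝ) < M := by exact_mod_cast hM
  simp only [apw_eq hp hU]
  rw [Finset.sum_comm, P.ex_comp W (fun s => (nap P W U M p s : ℝ)), Finset.sum_div]
  refine Finset.sum_congr rfl fun s _ => ?_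
  rw [Finset.sum_comm]
  have h1 : ∀ q : ℤ × ℤ, ∑ w : Fin (p + 1) → Ω,
      (∏ j : Fin (p + 1), fw P W U M s (q.1 + (j : ℕ) * q.2) (w j)) / P.pr W s ^ p =
      if ∀ j : Fin (p + 1), q.1 + (j : ℕ) * q.2 ∈ gd P W U M s then
        P.pr W s / (M : ℝ) ^ (p + 1) else 0 := by
    intro q
    rw [← Finset.sum_div, sum_prod_aux (fun j ω => fw P W U M s (q.1 + (j : ℕ) * q.2) ω)]
    simp only [fw_sum hU]
    split_ifs with h
    · rw [Finset.prod_congr rfl fun j _ => if_pos (h j), Finset.prod_const, Finset.card_univ,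
        Fintype.card_fin]
      rcases (P.pr_nonneg W s).eq_or_lt with h0 | h0
      · rw [← h0]; simp
      · rw [div_pow, pow_succ (P.pr W s) p]
        field_simp
    · push Not at h
      obtain ⟨j, hj⟩ := h
      rw [Finset.prod_eq_zero (Finset.mem_univ j), zero_div]
      rw [if_neg hj]
  simp only [h1]
  rw [← Finset.sum_filter, Finset.sum_const, nsmul_eq_mul]
  have h2 : (apI M).filter (fun q : ℤ × ℤ => ∀ j : Fin (p + 1), q.1 + (j : ℕ) * q.2 ∈
      gd P W U M s) = apG P W U M p s := by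
    unfold apG
    congr
  rw [h2]
  unfold nap
  ring

/-- upper bound for the total mass -/
theorem apw_mass_le (P : Law Ω) (W : Ω → S) (U : Ω → ℤ) (M p : ℕ) (hM : 1 ≤ M) (hp : 1 ≤ p)
    (hU : ∀ ω, 0 < P.w ω → 0 ≤ U ω ∧ U ω < M) :
    ∑ w, apw P W U M p w ≤ 2 / (M : ℝ) ^ (p - 1) := by
  classical
  have hM0 : (0 : ℝ) < M := by exact_mod_cast hM
  rw [apw_mass hp hM hU]
  have h1 : P.ex (fun ω => (nap P W U M p (W ω) : ℝ)) ≤ 2 * (M : ℝ) ^ 2 := by
    refine (P.ex_mono (g := fun _ => 2 * (M : ℝ) ^ 2) fun ω _ => ?_).trans (P.ex_const _).le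
    have h2 : nap P W U M p (W ω) ≤ (apI M).card := Finset.card_filter_le _ _
    have h3 : (apI M).card ≤ 2 * M ^ 2 := by
      unfold apI
      rw [Finset.card_product, Int.card_Ico, Int.card_Ioo]
      have e1 : ((M : ℤ) - 0).toNat = M := by omega
      have e2 : ((M : ℤ) - -(M : ℤ) - 1).toNat ≤ 2 * M := by omega
      rw [e1]
      calc M * ((M : ℤ) - -(M : ℤ) - 1).toNat ≤ M * (2 * M) := Nat.mul_le_mul_left _ e2
        _ = 2 * M ^ 2 := by ring
    exact_mod_cast h2.trans h3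
  rw [div_le_div_iff₀ (pow_pos hM0 _) (pow_pos hM0 _)]
  have e3 : (M : ℝ) ^ (p + 1) = M ^ 2 * M ^ (p - 1) := by
    rw [← pow_add]
    congr 1
    omega
  rw [e3]
  have h4 : (0 : ℝ) < M ^ (p - 1) := pow_pos hM0 _
  nlinarith

/-- the number of progressions with nonnegative difference -/
theorem tri_card (M p : ℕ) (hp : 1 ≤ p) (hM : 1 ≤ M) :
    (M : ℝ) ^ 2 / (2 * p) ≤ ∑ μ ∈ Finset.range ((M - 1) / p + 1), ((M : ℝ) - p * μ) := by
  have hp0 : (0 : ℝ) < p := by exact_mod_cast hp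
  have hM0 : (1 : ℝ) ≤ M := by exact_mod_cast hM
  set q := (M - 1) / p with hq
  have h1 : ∀ n : ℕ, ∑ μ ∈ Finset.range (n + 1), ((M : ℝ) - p * μ) =
      (n + 1) * (M - p * n / 2) := by
    intro n
    induction n with
    | zero => simp
    | succ n ih =>
      rw [Finset.sum_range_succ, ih]
      push_cast
      ring
  rw [h1 q]
  have h2 : (p : ℝ) * q ≤ M := by
    have : p * q ≤ M - 1 := Nat.mul_div_le _ _
    have h3 : p * q ≤ M := by omega
    exact_mod_cast h3
  have h3 : (M : ℝ) ≤ p * (q + 1) := by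
    have : M - 1 < p * (q + 1) := by
      rw [hq]
      have := Nat.lt_mul_div_succ (M - 1) (show 0 < p by omega)
      exact this
    have h4 : M ≤ p * (q + 1) := by omega
    exact_mod_cast h4
  rw [div_le_iff₀ (by positivity)]
  nlinarith

/-- the progressions with nonnegative difference in `[0, M)` -/
noncomputable def apT (M p : ℕ) : Finset (ℤ × ℤ) :=
  ((Finset.range ((M - 1) / p + 1)).sigma fun μ => Finset.range (M - p * μ)).image
    fun r => ((r.2 : ℤ), (r.1 : ℤ))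

theorem apT_card (M p : ℕ) : (apT M p).card =
    ∑ μ ∈ Finset.range ((M - 1) / p + 1), (M - p * μ) := by
  unfold apT
  rw [Finset.card_image_of_injective, Finset.card_sigma]
  · simp only [Finset.card_range]
  · rintro ⟨a, b⟩ ⟨c, d⟩ h
    simp only [Prod.mk.injEq, Nat.cast_inj] at h
    obtain ⟨h1, h2⟩ := h
    subst h1 h2
    rfl

theorem mem_apT {M p : ℕ} {r : ℤ × ℤ} (hr : r ∈ apT M p) :
    0 ≤ r.1 ∧ 0 ≤ r.2 ∧ r.1 + p * r.2 < M ∧ ∃ μ ∈ Finset.range ((M - 1) / p + 1), r.2 = (μ : ℤ) := by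
  unfold apT at hr
  rw [Finset.mem_image] at hr
  obtain ⟨⟨a, b⟩, h1, rfl⟩ := hr
  rw [Finset.mem_sigma] at h1
  obtain ⟨h1, h2⟩ := h1
  simp only at h1 h2 ⊢
  rw [Finset.mem_range] at h2
  refine ⟨by positivity, by positivity, ?_, a, h1, rfl⟩
  have h3 : b + p * a < M := by omega
  exact_mod_cast h3

theorem nap_ge (P : Law Ω) (W : Ω → S) (U : Ω → ℤ) (M p : ℕ) (hp : 1 ≤ p) (hM : p ≤ M) (s : S) :
    (M : ℝ) ^ 2 / (2 * p) - (p + 1) * (bd P W U M s).card * (2 * M / p) ≤ nap P W U M p s := by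
  classical
  set q := (M - 1) / p with hq
  have hp0 : (0 : ℝ) < p := by exact_mod_cast hp
  have hM0 : (p : ℝ) ≤ M := by exact_mod_cast hM
  have hTI : apT M p ⊆ apI M := by
    intro r hr
    obtain ⟨h1, h2, h3, μ, -, h4⟩ := mem_apT hr
    unfold apI
    rw [Finset.mem_product, Finset.mem_Ico, Finset.mem_Ioo]
    have h5 : r.2 ≤ p * r.2 := by
      have : (1 : ℤ) ≤ p := by exact_mod_cast hp
      nlinarith
    refine ⟨⟨h1, ?_⟩, ?_, ?_⟩ <;> omega
  have hbad : apT M p \ apG P W U M p s ⊆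
      ((Finset.univ : Finset (Fin (p + 1))) ×ˢ (bd P W U M s ×ˢ Finset.range (q + 1))).image
        (fun z => (z.2.1 - (z.1 : ℕ) * (z.2.2 : ℤ), (z.2.2 : ℤ))) := by
    intro r hr
    rw [Finset.mem_sdiff] at hr
    obtain ⟨h1, h2⟩ := hr
    obtain ⟨h3, h4, h5, μ, hμ, h6⟩ := mem_apT h1
    have h7 : ¬ ∀ j : Fin (p + 1), r.1 + (j : ℕ) * r.2 ∈ gd P W U M s := by
      intro hh
      apply h2
      unfold apG
      rw [Finset.mem_filter]
      exact ⟨hTI h1, hh⟩
    push Not at h7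
    obtain ⟨j, hj⟩ := h7
    have h8 : ((j : ℕ) : ℤ) ≤ p := by
      have := j.2
      omega
    have h9 : r.1 + (j : ℕ) * r.2 ∈ Finset.Ico (0 : ℤ) M := by
      rw [Finset.mem_Ico]
      constructor
      · positivity
      · nlinarith
    have h10 : r.1 + (j : ℕ) * r.2 ∈ bd P W U M s := by
      unfold gd at hj
      unfold bd
      rw [Finset.mem_filter] at hj ⊢
      exact ⟨h9, fun hh => hj ⟨h9, hh⟩⟩
    rw [Finset.mem_image]
    refine ⟨(j, r.1 + (j : ℕ) * r.2, μ), ?_, ?_⟩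
    · rw [Finset.mem_product, Finset.mem_product]
      exact ⟨Finset.mem_univ _, h10, hμ⟩
    · simp only
      rw [← h6]
      exact Prod.ext (by ring) rfl
  have h1 : (apT M p).card ≤ nap P W U M p s + (p + 1) * ((bd P W U M s).card * (q + 1)) := by
    have h2 := Finset.card_le_card hbad
    have h3 := Finset.card_image_le (s := (Finset.univ : Finset (Fin (p + 1))) ×ˢ
      (bd P W U M s ×ˢ Finset.range (q + 1)))
      (f := fun z => (z.2.1 - (z.1 : ℕ) * (z.2.2 : ℤ), (z.2.2 : ℤ)))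
    rw [Finset.card_product, Finset.card_product, Finset.card_univ, Fintype.card_fin,
      Finset.card_range] at h3
    have h4 : (apT M p).card = (apT M p ∩ apG P W U M p s).card +
        (apT M p \ apG P W U M p s).card := by
      rw [Finset.card_inter_add_card_sdiff]
    have h5 : (apT M p ∩ apG P W U M p s).card ≤ (apG P W U M p s).card :=
      Finset.card_le_card Finset.inter_subset_right
    unfold nap
    omega
  have h2 : (M : ℝ) ^ 2 / (2 * p) ≤ (apT M p).card := by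
    refine (tri_card M p hp (by omega)).trans ?_
    rw [apT_card, Nat.cast_sum]
    refine Finset.sum_le_sum fun μ hμ => ?_
    have : (M : ℝ) ≤ ((M - p * μ : ℕ) : ℝ) + p * μ := by
      have h3 : M ≤ (M - p * μ) + p * μ := by omega
      exact_mod_cast h3
    linarith
  have h3 : ((q : ℝ) + 1) ≤ 2 * M / p := by
    have h4 : (p : ℝ) * q ≤ M := by
      have : p * q ≤ M - 1 := Nat.mul_div_le _ _
      have h3 : p * q ≤ M := by omega
      exact_mod_cast h3
    rw [le_div_iff₀ hp0]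
    nlinarith
  have h4 : ((apT M p).card : ℝ) ≤ nap P W U M p s +
      (p + 1) * ((bd P W U M s).card * (q + 1)) := by exact_mod_cast h1
  have h5 : ((p : ℝ) + 1) * ((bd P W U M s).card * (q + 1)) ≤
      (p + 1) * ((bd P W U M s).card * (2 * M / p)) := by
    refine mul_le_mul_of_nonneg_left ?_ (by positivity)
    exact mul_le_mul_of_nonneg_left h3 (Nat.cast_nonneg _)
  have h6 : ((p : ℝ) + 1) * (bd P W U M s).card * (2 * M / p) =
      (p + 1) * ((bd P W U M s).card * (2 * M / p)) := by ring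
  rw [h6]
  linarith

/-- the bad positions contribute to the distance from the uniform law -/
theorem bd_le (P : Law Ω) (W : Ω → S) (U : Ω → ℤ) (M : ℕ) (hM : 1 ≤ M) (s : S) :
    ((bd P W U M s).card : ℝ) ≤ 2 * M * l1 P W U M s := by
  classical
  have hM0 : (0 : ℝ) < M := by exact_mod_cast hM
  have h1 : ∑ u ∈ bd P W U M s, 1 / (2 * (M : ℝ)) ≤ l1 P W U M s := by
    unfold l1
    refine (Finset.sum_le_sum fun u hu => ?_).trans (Finset.sum_le_sum_of_subset_of_nonneg
      (by unfold bd; exact Finset.filter_subset _ _) fun u _ _ => abs_nonneg _)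
    unfold bd at hu
    rw [Finset.mem_filter] at hu
    have h2 := hu.2
    push Not at h2
    have h3 : 0 < P.pr W s := lt_of_le_of_lt (by
      have := P.pr_nonneg (fun ω => (W ω, U ω)) (s, u)
      positivity) h2
    have h4 : P.pr (fun ω => (W ω, U ω)) (s, u) / P.pr W s ≤ 1 / (2 * M) := by
      rw [div_le_div_iff₀ h3 (by positivity)]
      linarith
    rw [abs_sub_comm]
    refine le_trans ?_ (le_abs_self _)
    have h5 : 1 / (2 * (M : ℝ)) = 1 / M - 1 / (2 * M) := by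
      field_simp
      norm_num
    linarith
  rw [Finset.sum_const, nsmul_eq_mul, mul_one_div, div_le_iff₀ (by positivity)] at h1
  linarith

end aplaw

open Classical in
/-- lower bound for the total mass -/
theorem apw_mass_ge (p : ℕ) (hp : 1 ≤ p) : ∃ δ : ℝ, 0 < δ ∧ ∃ M0 : ℕ, ∀ M : ℕ, M0 ≤ M →
    ∀ (Ω : Type) [Fintype Ω] (S : Type) (P : Law Ω) (W : Ω → S) (U : Ω → ℤ),
    (∀ ω, 0 < P.w ω → 0 ≤ U ω ∧ U ω < M) → P.ex (fun ω => l1 P W U M (W ω)) ≤ δ →
    1 / (4 * p) / (M : ℝ) ^ (p - 1) ≤ ∑ w, apw P W U M p w := by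
  have hp0 : (0 : ℝ) < p := by exact_mod_cast hp
  refine ⟨1 / (16 * (p + 1)), by positivity, p, fun M hM Ω _ S P W U hU hl => ?_⟩
  have hM1 : 1 ≤ M := hp.trans hM
  have hM0 : (0 : ℝ) < M := by exact_mod_cast hM1
  rw [apw_mass hp hM1 hU]
  have h1 : P.ex (fun ω => (M : ℝ) ^ 2 / (2 * p) - (p + 1) * (2 * M * l1 P W U M (W ω)) *
      (2 * M / p)) ≤ P.ex (fun ω => (nap P W U M p (W ω) : ℝ)) := by
    refine P.ex_mono fun ω _ => ?_
    refine le_trans ?_ (nap_ge P W U M p hp hM (W ω))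
    have h2 := bd_le P W U M hM1 (W ω)
    have h3 : ((p : ℝ) + 1) * (bd P W U M (W ω)).card * (2 * M / p) ≤
        (p + 1) * (2 * M * l1 P W U M (W ω)) * (2 * M / p) := by
      refine mul_le_mul_of_nonneg_right ?_ (by positivity)
      exact mul_le_mul_of_nonneg_left h2 (by positivity)
    linarith
  have h2 : P.ex (fun ω => (M : ℝ) ^ 2 / (2 * p) - (p + 1) * (2 * M * l1 P W U M (W ω)) *
      (2 * M / p)) = (M : ℝ) ^ 2 / (2 * p) - (4 * (p + 1) * M ^ 2 / p) *
        P.ex (fun ω => l1 P W U M (W ω)) := by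
    rw [← P.ex_const_mul, ← P.ex_const ((M : ℝ) ^ 2 / (2 * p)), ← P.ex_sub]
    refine P.ex_congr fun ω _ => ?_
    rw [P.ex_const]
    field_simp
    ring
  rw [h2] at h1
  have h3 : (4 * (p + 1) * (M : ℝ) ^ 2 / p) * P.ex (fun ω => l1 P W U M (W ω)) ≤
      (4 * (p + 1) * (M : ℝ) ^ 2 / p) * (1 / (16 * (p + 1))) :=
    mul_le_mul_of_nonneg_left hl (by positivity)
  have h4 : (4 * ((p : ℝ) + 1) * (M : ℝ) ^ 2 / p) * (1 / (16 * (p + 1))) = M ^ 2 / (4 * p) := by
    field_simp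
    norm_num
  have h5 : (M : ℝ) ^ 2 / (2 * p) - M ^ 2 / (4 * p) = M ^ 2 / (4 * p) := by
    field_simp
    norm_num
  have h6 : (M : ℝ) ^ 2 / (4 * p) ≤ P.ex (fun ω => (nap P W U M p (W ω) : ℝ)) := by linarith
  rw [div_le_div_iff₀ (pow_pos hM0 _) (pow_pos hM0 _)]
  have e3 : (M : ℝ) ^ (p + 1) = M ^ 2 * M ^ (p - 1) := by
    rw [← pow_add]
    congr 1
    omega
  rw [e3]
  have h7 : (0 : ℝ) < M ^ (p - 1) := pow_pos hM0 _
  have h8 : 1 / (4 * (p : ℝ)) * (M ^ 2 * M ^ (p - 1)) = M ^ 2 / (4 * p) * M ^ (p - 1) := by ring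
  rw [h8]
  exact mul_le_mul_of_nonneg_right h6 h7.le

end Vale.Agent.P127.Stk
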