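import Vale.Agent.P127.Stk.PolyFin
import Vale.Agent.P127.Stk.PolyLaw

/-!
# P127 / Stk : `AK → CK` (PROOF.md, section 7)
-/

set_option linter.all false

namespace Vale.Agent.P127.Stk

open Finset Polynomial Vale.Agent.P127

section pe

variable {Ω : Type} [Fintype Ω] {m : ℕ}

/-- the low digits lie in `[0, 2^(L-a))` -/
theorem pe_floor {a L : ℕ} (h : a ≤ L) (t : ℝ) :
    0 ≤ fl1 L t - 2 ^ (L - a) * fl1 a t ∧ fl1 L t - 2 ^ (L - a) * fl1 a t < 2 ^ (L - a) := by
  have h1 : fl1 a t = fl1 L t / ((2 ^ (L - a) : ℕ) : ℤ) := floor_pow_aux h t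
  have h2 : ((2 ^ (L - a) : ℕ) : ℤ) = 2 ^ (L - a) := by push_cast; rfl
  rw [h2] at h1
  have hpos : (0 : ℤ) < 2 ^ (L - a) := by positivity
  have h3 : fl1 L t - 2 ^ (L - a) * fl1 a t = fl1 L t % 2 ^ (L - a) := by
    rw [h1]
    have := Int.emod_add_mul_ediv (fl1 L t) (2 ^ (L - a))
    linarith
  rw [h3]
  exact ⟨Int.emod_nonneg _ hpos.ne', Int.emod_lt_of_pos _ hpos⟩

theorem pe_apw_nonneg {S : Type*} (P : Law Ω) (W : Ω → S) (U : Ω → ℤ) (M p : ℕ)
    (w : Fin (p + 1) → Ω) : 0 ≤ apw P W U M p w := by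
  unfold apw
  split_ifs
  · exact mul_nonneg (cw_nn_aux P W p w)
      (Finset.prod_nonneg fun j _ => idn_nonneg P W U M (w j))
  · exact le_rfl

/-- Lagrange coefficients are invariant under affine maps -/
theorem pe_lag {k : ℕ} (t b : Ω → ℝ) (s : ℝ) (hs : s ≠ 0) (w : Fin (k + 2) → Ω)
    (hb : ∀ i j, b (w i) = b (w j)) (l : Fin (k + 1)) :
    lag (fun ω => s * t ω - b ω) w l = lag t w l := by
  unfold lag
  refine Finset.prod_congr rfl fun l' _ => ?_
  have e1 : (s * t (w (Fin.last (k + 1))) - b (w (Fin.last (k + 1)))) -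
      (s * t (w l'.castSucc) - b (w l'.castSucc)) =
      s * (t (w (Fin.last (k + 1))) - t (w l'.castSucc)) := by
    rw [hb (Fin.last (k + 1)) l'.castSucc]; ring
  have e2 : (s * t (w l.castSucc) - b (w l.castSucc)) -
      (s * t (w l'.castSucc) - b (w l'.castSucc)) =
      s * (t (w l.castSucc) - t (w l'.castSucc)) := by
    rw [hb l.castSucc l'.castSucc]; ring
  rw [e1, e2, mul_div_mul_left _ _ hs]

/-- the entropy hypothesis in terms of the low digits -/
theorem pe_hc (P : Law Ω) (c : Cf Ω m) (a L : ℕ) :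
    hc P (low c a L) (key c a) =
      hc P (fun ω => fl1 L (c.t ω)) (fun ω => (fl1 a (c.t ω), c.x ω, c.y ω, c.A ω)) := by
  refine hc_congr P ?_ ?_ ?_ ?_
  · intro ω ω' _ _ e
    simp only [key, Prod.mk.injEq] at e
    simp only [low, e.1, e.2.2.2.2]
  · intro ω ω' _ _ e
    simp only [key, Prod.mk.injEq] at e
    have h1 := e.1
    simp only [low, e.2.2.2.2] at h1
    linarith
  · intro ω ω' _ _ e
    simp only [Prod.mk.injEq] at e
    simp only [key, Prod.mk.injEq]
    exact ⟨e.2.1, e.2.2.1, e.2.2.2, e.1⟩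
  · intro ω ω' _ _ e
    simp only [key, Prod.mk.injEq] at e
    simp only [Prod.mk.injEq]
    exact ⟨e.2.2.2, e.1, e.2.1, e.2.2.1⟩

/-- large numbers of digits -/
theorem pe_large (ε Cp : ℝ) (hε : 0 < ε) (hCp : 0 < Cp) (M0 κ : ℕ) : ∃ L0 : ℝ, 0 < L0 ∧
    ∀ L : ℝ, L0 ≤ L → 1 ≤ L ∧ 2 * (M0 : ℝ) ≤ L ∧
      Cp * ((L + 1) * (2 : ℝ) ^ (-(ε / 2 * L))) ≤ 1 / 2 ∧
      Cp * (3 ^ κ * (2 : ℝ) ^ (-(ε * L))) ≤ 1 / 2 := by
  have hl2 : 0 < Real.log 2 := Real.log_pos (by norm_num)
  set b : ℝ := ε / 2 * Real.log 2 with hb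
  have hb0 : 0 < b := by positivity
  refine ⟨1 + 2 * M0 + 8 * Cp / b ^ 2 + 2 * Cp * 3 ^ κ / (2 * b), by positivity,
    fun L hL => ?_⟩
  have hA : 0 ≤ 8 * Cp / b ^ 2 := by positivity
  have hB : 0 ≤ 2 * Cp * 3 ^ κ / (2 * b) := by positivity
  have hM : (0 : ℝ) ≤ 2 * M0 := by positivity
  have hL1 : 1 ≤ L := by linarith
  have hL0 : 0 < L := by linarith
  refine ⟨hL1, by linarith, ?_, ?_⟩
  · have e1 : (2 : ℝ) ^ (-(ε / 2 * L)) = (Real.exp (b * L))⁻¹ := by
      rw [Real.rpow_def_of_pos (by norm_num), ← Real.exp_neg]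
      congr 1
      rw [hb]; ring
    have h1 : (b * L) ^ 2 / 2 ≤ Real.exp (b * L) := by
      have := Real.quadratic_le_exp_of_nonneg (x := b * L) (by positivity)
      nlinarith [mul_pos hb0 hL0]
    rw [e1]
    have h2 : (0 : ℝ) < Real.exp (b * L) := Real.exp_pos _
    rw [← div_eq_mul_inv, mul_div_assoc', div_le_iff₀ h2]
    have h3 : 8 * Cp ≤ L * b ^ 2 := by
      have : 8 * Cp / b ^ 2 ≤ L := by linarith
      rwa [div_le_iff₀ (by positivity)] at this
    have h4 : Cp * (L + 1) ≤ Cp * (2 * L) := mul_le_mul_of_nonneg_left (by linarith) hCp.le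
    have h5 : 8 * Cp * L ≤ L * b ^ 2 * L := mul_le_mul_of_nonneg_right h3 hL0.le
    nlinarith
  · have e1 : (2 : ℝ) ^ (-(ε * L)) = (Real.exp (2 * b * L))⁻¹ := by
      rw [Real.rpow_def_of_pos (by norm_num), ← Real.exp_neg]
      congr 1
      rw [hb]; ring
    have h1 : 2 * b * L ≤ Real.exp (2 * b * L) := by
      have := Real.add_one_le_exp (2 * b * L)
      linarith
    rw [e1]
    have h2 : (0 : ℝ) < Real.exp (2 * b * L) := Real.exp_pos _
    rw [← div_eq_mul_inv, mul_div_assoc', div_le_iff₀ h2]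
    have h3 : 2 * Cp * 3 ^ κ ≤ L * (2 * b) := by
      have : 2 * Cp * 3 ^ κ / (2 * b) ≤ L := by linarith
      rwa [div_le_iff₀ (by positivity)] at this
    nlinarith

open Classical in
/-- from the normalised law to the unnormalised weights -/
theorem pe_mass (P : Law Ω) {S : Type*} (W : Ω → S) (U : Ω → ℤ) (M p : ℕ) (hM : 1 ≤ M)
    (hp : 1 ≤ p) (hU : ∀ ω, 0 < P.w ω → 0 ≤ U ω ∧ U ω < M) (F : Finset (Fin (p + 1) → Ω))
    (εA δ : ℝ) (hεA : 0 ≤ εA) (hδ : 2 * εA ≤ δ)
    (h : ∀ Q : Law (Fin (p + 1) → Ω), (∃ Z : ℝ, 0 < Z ∧ ∀ w, Q.w w = apw P W U M p w / Z) →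
      ∑ w ∈ F, Q.w w ≤ εA) :
    ∑ w ∈ F, apw P W U M p w ≤ δ / (M : ℝ) ^ (p - 1) := by
  have hM0 : (0 : ℝ) < M := by exact_mod_cast hM
  have hnn := pe_apw_nonneg P W U M p
  have hmass := apw_mass_le P W U M p hM hp hU
  have hMp : (0 : ℝ) < (M : ℝ) ^ (p - 1) := by positivity
  rcases (Finset.sum_nonneg (s := (univ : Finset (Fin (p + 1) → Ω)))
    fun w _ => hnn w).eq_or_lt with h0 | h0
  · have h1 : ∑ w ∈ F, apw P W U M p w ≤ ∑ w, apw P W U M p w :=
      Finset.sum_le_sum_of_subset_of_nonneg (Finset.subset_univ _) fun w _ _ => hnn w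
    rw [← h0] at h1
    exact h1.trans (div_nonneg (by linarith) hMp.le)
  · set Z := ∑ w, apw P W U M p w with hZ
    have h1 := h ⟨fun w => apw P W U M p w / Z, fun w => div_nonneg (hnn w) h0.le, by
      rw [← Finset.sum_div, ← hZ, div_self h0.ne']⟩ ⟨Z, h0, fun _ => rfl⟩
    simp only at h1
    rw [← Finset.sum_div, div_le_iff₀ h0] at h1
    refine h1.trans ?_
    calc εA * Z ≤ εA * (2 / (M : ℝ) ^ (p - 1)) := mul_le_mul_of_nonneg_left hmass hεA
      _ = (2 * εA) / (M : ℝ) ^ (p - 1) := by ring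
      _ ≤ δ / (M : ℝ) ^ (p - 1) := div_le_div_of_nonneg_right hδ hMp.le

end pe

/-- section 7 -/
theorem interp (R : Gr) : PInterp R := by
  classical
  intro m h κ k hk hA ε hε
  obtain ⟨δ, hδ, Cp, hCp, M0, hlaw⟩ := law_poly k (ε / (m * m + 1)) (by positivity)
  obtain ⟨ι, hι, εu1, hεu1, hA1⟩ := hA (min (ε / 2) (δ / 2)) (by positivity)
  set εA : ℝ := min (ε / 2) (δ / 2) with hεA
  have hεA0 : 0 < εA := by positivity
  refine ⟨ι, hι, min εu1 ((δ / 2) ^ 2), by positivity, fun g => ?_⟩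
  obtain ⟨n1, hn1⟩ := hA1 g
  obtain ⟨L0, hL0, hbig⟩ := pe_large ε Cp hε hCp M0 κ
  obtain ⟨n2, hn2⟩ := R.small g (1 / L0) (by positivity)
  refine ⟨max n1 n2, fun a e C hok Ω _ P c o hyp Q hQ => ?_⟩
  have hok1 := R.anti g n1 _ _ _ _ (le_max_left _ _) hok
  have hok2 := R.anti g n2 _ _ _ _ (le_max_right _ _) hok
  have hLL : L0 ≤ (((κ + 4) * a : ℕ) : ℝ) := by
    have h1 := (hn2 _ _ _ hok2).1
    rw [one_div, inv_mul_eq_div, le_div_iff₀ hL0] at h1
    linarith
  obtain ⟨hL1, hLM, hb1, hb2⟩ := hbig _ hLL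
  set L : ℕ := (κ + 4) * a with hLdef
  set n : ℕ := (κ + 3) * a with hndef
  have hnL : n + a = L := by rw [hndef, hLdef]; ring
  have haL : a ≤ L := by omega
  have hLa : L - a = n := by omega
  have hn2L : L ≤ 2 * n := by rw [hndef, hLdef]; nlinarith
  have ha1 : 1 ≤ a := by
    by_contra h0
    have : a = 0 := by omega
    rw [hLdef, this] at hL1
    norm_num at hL1
  have hM0n : M0 ≤ 2 ^ n := by
    have h1 : (2 * M0 : ℕ) ≤ L := by exact_mod_cast hLM
    have h2 : M0 ≤ n := by omega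
    exact h2.trans Nat.lt_two_pow_self.le
  -- the hypotheses
  have hyp1 : Hyp h κ a ι εu1 e C P c o :=
    ⟨hyp.good, hyp.cost, hyp.rate, by
      have h1 := hyp.unif
      have h2 : min εu1 ((δ / 2) ^ 2) ≤ εu1 := min_le_left _ _
      linarith⟩
  have hAQ := hn1 a e C hok1 Ω P c o hyp1
  have hUr : ∀ ω, 0 ≤ low c a L ω ∧ low c a L ω < 2 ^ n := by
    intro ω
    have := pe_floor haL (c.t ω)
    rw [hLa] at this
    unfold low
    rw [hLa]
    exact this
  set τ : Ω → ℝ := fun ω => 2 ^ L * c.t ω - 2 ^ n * (fl1 a (c.t ω) : ℝ) with hτ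
  have hτr : ∀ ω, ((low c a L ω : ℤ) : ℝ) ≤ τ ω ∧ τ ω ≤ (low c a L ω : ℤ) + 1 := by
    intro ω
    have h1 : ((low c a L ω : ℤ) : ℝ) = (fl1 L (c.t ω) : ℝ) - 2 ^ n * (fl1 a (c.t ω) : ℝ) := by
      unfold low
      rw [hLa]
      push_cast
      ring
    have h2 : (fl1 L (c.t ω) : ℝ) ≤ 2 ^ L * c.t ω := Int.floor_le _
    have h3 : 2 ^ L * c.t ω < (fl1 L (c.t ω) : ℝ) + 1 := Int.lt_floor_add_one _
    rw [h1, hτ]
    constructor
    · simp only; linarith
    · simp only; linarith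
  have hl1 : P.ex (fun ω => l1 P (key c a) (low c a L) (2 ^ n) (key c a ω)) ≤ δ := by
    have hu : min εu1 ((δ / 2) ^ 2) ≤ (δ / 2) ^ 2 := min_le_right _ _
    have h1 := unif_l1 P (key c a) (low c a L) (2 ^ n) Nat.one_le_two_pow (fun ω _ => by
      have := hUr ω
      push_cast
      exact this) ((δ / 2) ^ 2) (by positivity) (by
        rw [pe_hc]
        have h2 := hyp.unif
        have h3 : Real.log ((2 ^ n : ℕ) : ℝ) = (((κ + 4) * a : ℕ) - (a : ℝ)) * Real.log 2 := by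
          push_cast
          rw [Real.log_pow, hndef]
          push_cast
          ring
        rw [h3]
        linarith)
    rw [Real.sqrt_sq (by positivity)] at h1
    linarith
  -- the thresholds
  set Thr : ℝ := (2 : ℝ) ^ (-(((k + 1) * a : ℕ) : ℝ) + ε * (L : ℕ)) with hThr
  set E : ℝ := (2 : ℝ) ^ (-(((k + 1) * a : ℕ) : ℝ) + εA * (L : ℕ)) with hE
  have hE0 : 0 < E := by positivity
  have hThr0 : 0 < Thr := by positivity
  have hEThr : E ≤ Thr * (2 : ℝ) ^ (-(ε / 2 * L)) := by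
    rw [hThr, hE, ← Real.rpow_add (by norm_num)]
    refine Real.rpow_le_rpow_of_exponent_le (by norm_num) ?_
    have h1 : εA ≤ ε / 2 := min_le_left _ _
    have h2 : εA * (L : ℝ) ≤ ε / 2 * L := mul_le_mul_of_nonneg_right h1 (by positivity)
    linarith
  have hThrB : Cp * ((n + 1) * E + 3 ^ κ / 2 ^ n) ≤ Thr := by
    have hnl : (n : ℝ) + 1 ≤ L + 1 := by
      have : (n : ℝ) ≤ L := by exact_mod_cast (by omega : n ≤ L)
      linarith
    have h1 : Cp * ((n + 1) * E) ≤ Thr / 2 := by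
      have h2 : ((n : ℝ) + 1) * E ≤ (L + 1) * (Thr * (2 : ℝ) ^ (-(ε / 2 * L))) :=
        mul_le_mul hnl hEThr hE0.le (by positivity)
      have h3 := mul_le_mul_of_nonneg_left h2 hCp.le
      have h4 := mul_le_mul_of_nonneg_right hb1 hThr0.le
      calc Cp * ((n + 1) * E) ≤ Cp * ((L + 1) * (Thr * (2 : ℝ) ^ (-(ε / 2 * L)))) := h3
        _ = Cp * ((L + 1) * (2 : ℝ) ^ (-(ε / 2 * L))) * Thr := by ring
        _ ≤ 1 / 2 * Thr := h4
        _ = Thr / 2 := by ring
    have h5 : Cp * (3 ^ κ / 2 ^ n) ≤ Thr / 2 := by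
      have h6 : (1 : ℝ) / 2 ^ n ≤ Thr * (2 : ℝ) ^ (-(ε * L)) := by
        rw [hThr, ← Real.rpow_add (by norm_num), one_div, ← Real.rpow_natCast,
          ← Real.rpow_neg (by norm_num)]
        refine Real.rpow_le_rpow_of_exponent_le (by norm_num) ?_
        have h7 : (((k + 1) * a : ℕ) : ℝ) ≤ (n : ℝ) := by
          have : (k + 1) * a ≤ n := by
            rw [hndef]
            exact Nat.mul_le_mul_right _ (by omega)
          exact_mod_cast this
        linarith
      have h8 := mul_le_mul_of_nonneg_left h6 (by positivity : (0 : ℝ) ≤ Cp * 3 ^ κ)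
      have h9 := mul_le_mul_of_nonneg_right hb2 hThr0.le
      calc Cp * (3 ^ κ / 2 ^ n) = Cp * 3 ^ κ * (1 / 2 ^ n) := by ring
        _ ≤ Cp * 3 ^ κ * (Thr * (2 : ℝ) ^ (-(ε * L))) := h8
        _ = Cp * (3 ^ κ * (2 : ℝ) ^ (-(ε * L))) * Thr := by ring
        _ ≤ 1 / 2 * Thr := h9
        _ = Thr / 2 := by ring
    linarith
  -- one entry
  have hone : ∀ i j, i ∉ o.J → j ∈ o.J →
      ∑ w with Thr < |o.Γ (w (Fin.last (k + 1))) i j -
        ∑ l : Fin (k + 1), lag c.t w l * o.Γ (w l.castSucc) i j|, Q.w w ≤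
        ε / (m * m + 1) := by
    intro i j hi hj
    have hap := pe_mass P (key c a) (low c a L) (2 ^ n) (k + 1) Nat.one_le_two_pow (by omega)
      (fun ω _ => by
        have := hUr ω
        push_cast
        exact this)
      (univ.filter fun w => E < |∑ l : Fin (k + 2), (-1 : ℝ) ^ (l : ℕ) *
        ((k + 1).choose l : ℝ) * o.Γ (w l) i j|) εA δ hεA0.le (by
          have : εA ≤ δ / 2 := min_le_right _ _
          linarith) (by
        intro Q' hQ'
        refine le_trans ?_ (hAQ Q' hQ')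
        refine Finset.sum_le_sum_of_subset_of_nonneg ?_ fun w _ _ => Q'.nn w
        intro w hw
        simp only [Finset.mem_filter, Finset.mem_univ, true_and] at hw ⊢
        exact ⟨i, hi, j, hj, hw⟩)
    have hlp := hlaw n hM0n Ω _ P (key c a) (low c a L) (fun ω => o.Γ ω i j) τ E (3 ^ κ) hE0
      (by positivity) (fun ω _ => hUr ω) (fun ω _ => hτr ω) (fun ω => o.bd ω i j) hl1 (by
        have h2 : (((2 ^ n : ℕ) : ℝ)) ^ (k + 1 - 1) = (2 ^ n) ^ k := by
          push_cast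
          simp
        rw [h2] at hap
        exact hap)
    refine le_trans ?_ hlp
    rw [Finset.sum_filter, Finset.sum_filter]
    refine Finset.sum_le_sum fun w _ => ?_
    rw [hQ w]
    have hcw := cw_nn_aux P (key c a) (k + 1) w
    rcases hcw.eq_or_lt with h0 | h0
    · rw [← h0]
      simp
    · have hkey : ∀ i, key c a (w i) = key c a (w 0) := by
        by_contra hne
        unfold cw at h0
        rw [if_neg hne] at h0
        exact lt_irrefl _ h0
      have hlag : ∀ l : Fin (k + 1), lag τ w l = lag c.t w l := by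
        intro l
        refine pe_lag c.t (fun ω => 2 ^ n * (fl1 a (c.t ω) : ℝ)) (2 ^ L) (by positivity) w ?_ l
        intro i' j'
        have h1 := (hkey i').trans (hkey j').symm
        simp only [key, Prod.mk.injEq] at h1
        simp only [h1.2.2.2]
      simp only [hlag]
      by_cases hT : Thr < |o.Γ (w (Fin.last (k + 1))) i j -
        ∑ l : Fin (k + 1), lag c.t w l * o.Γ (w l.castSucc) i j|
      · rw [if_pos hT, if_pos (hThrB.trans_lt hT)]
      · rw [if_neg hT]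
        split_ifs
        · exact hcw
        · exact le_rfl
  -- union bound
  have hε' : 0 ≤ ε / (m * m + 1) := by positivity
  calc ∑ w with (∃ i, i ∉ o.J ∧ ∃ j ∈ o.J, Thr < |o.Γ (w (Fin.last (k + 1))) i j -
          ∑ l : Fin (k + 1), lag c.t w l * o.Γ (w l.castSucc) i j|), Q.w w
      ≤ ∑ i : Fin m, ∑ j : Fin m, ∑ w : Fin (k + 2) → Ω,
          (if (i ∉ o.J ∧ j ∈ o.J ∧ Thr < |o.Γ (w (Fin.last (k + 1))) i j -
            ∑ l : Fin (k + 1), lag c.t w l * o.Γ (w l.castSucc) i j|) then Q.w w else 0) := by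
        have hsw : ∑ i : Fin m, ∑ j : Fin m, ∑ w : Fin (k + 2) → Ω,
            (if (i ∉ o.J ∧ j ∈ o.J ∧ Thr < |o.Γ (w (Fin.last (k + 1))) i j -
              ∑ l : Fin (k + 1), lag c.t w l * o.Γ (w l.castSucc) i j|) then Q.w w else 0) =
            ∑ w : Fin (k + 2) → Ω, ∑ i : Fin m, ∑ j : Fin m,
            (if (i ∉ o.J ∧ j ∈ o.J ∧ Thr < |o.Γ (w (Fin.last (k + 1))) i j -
              ∑ l : Fin (k + 1), lag c.t w l * o.Γ (w l.castSucc) i j|) then Q.w w else 0) := by
          rw [Finset.sum_congr rfl fun i _ => Finset.sum_comm]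
          rw [Finset.sum_comm]
        rw [hsw, Finset.sum_filter]
        refine Finset.sum_le_sum fun w _ => ?_
        have hnn : ∀ i j : Fin m, 0 ≤ (if (i ∉ o.J ∧ j ∈ o.J ∧
            Thr < |o.Γ (w (Fin.last (k + 1))) i j -
              ∑ l : Fin (k + 1), lag c.t w l * o.Γ (w l.castSucc) i j|) then Q.w w else 0) := by
          intro i j
          split_ifs
          · exact Q.nn w
          · exact le_rfl
        split_ifs with hex
        · obtain ⟨i, hi, j, hj, hT⟩ := hex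
          refine le_trans ?_ (Finset.single_le_sum (f := fun i : Fin m => ∑ j : Fin m,
            (if (i ∉ o.J ∧ j ∈ o.J ∧ Thr < |o.Γ (w (Fin.last (k + 1))) i j -
              ∑ l : Fin (k + 1), lag c.t w l * o.Γ (w l.castSucc) i j|) then Q.w w else 0))
            (fun i _ => Finset.sum_nonneg fun j _ => hnn i j) (Finset.mem_univ i))
          refine le_trans ?_ (Finset.single_le_sum (f := fun j : Fin m =>
            (if (i ∉ o.J ∧ j ∈ o.J ∧ Thr < |o.Γ (w (Fin.last (k + 1))) i j -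
              ∑ l : Fin (k + 1), lag c.t w l * o.Γ (w l.castSucc) i j|) then Q.w w else 0))
            (fun j _ => hnn i j) (Finset.mem_univ j))
          rw [if_pos ⟨hi, hj, hT⟩]
        · exact Finset.sum_nonneg fun i _ => Finset.sum_nonneg fun j _ => hnn i j
    _ ≤ ∑ i : Fin m, ∑ j : Fin m, ε / (m * m + 1) := by
        refine Finset.sum_le_sum fun i _ => Finset.sum_le_sum fun j _ => ?_
        by_cases hij : i ∉ o.J ∧ j ∈ o.J
        · refine le_trans (le_of_eq ?_) (hone i j hij.1 hij.2)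
          rw [Finset.sum_filter]
          refine Finset.sum_congr rfl fun w _ => ?_
          have h1 := hij.1
          have h2 := hij.2
          by_cases hT : Thr < |o.Γ (w (Fin.last (k + 1))) i j -
            ∑ l : Fin (k + 1), lag c.t w l * o.Γ (w l.castSucc) i j|
          · rw [if_pos ⟨h1, h2, hT⟩, if_pos hT]
          · rw [if_neg hT, if_neg fun hh => hT hh.2.2]
        · refine le_trans (le_of_eq ?_) hε'
          refine Finset.sum_eq_zero fun w _ => if_neg ?_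
          rintro ⟨h1, h2, _⟩
          exact hij ⟨h1, h2⟩
    _ = (m * m : ℝ) * (ε / (m * m + 1)) := by
        simp only [Finset.sum_const, Finset.card_univ, Fintype.card_fin, nsmul_eq_mul]
        ring
    _ ≤ ε := by
        rw [mul_div_assoc', div_le_iff₀ (by positivity)]
        nlinarith

end Vale.Agent.P127.Stk
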