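import Vale.Agent.P127.Stk.StepRFix

/-!
# P127 / Stk / StepR : the step for the determinism (PROOF.md, section 9)
-/

namespace Vale.Agent.P127.Stk

open Finset Vale.Agent.P127

theorem R.Hyp_mono {Ω : Type} [Fintype Ω] {m : ℕ} {h : ℝ} {κ a : ℕ} {ι εu ι' εu' e C : ℝ}
    {P : Law Ω} {c : Cf Ω m} {o : Ob Ω m κ} (H : Hyp h κ a ι εu e C P c o) (h1 : ι ≤ ι')
    (h2 : εu ≤ εu') : Hyp h κ a ι' εu' e C P c o where
  good := H.good
  cost := H.cost.trans (mul_le_mul_of_nonneg_right h1 (Nat.cast_nonneg _))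
  rate := by
    refine H.rate.trans ?_
    have h3 : (0 : ℝ) ≤ (((κ + 4) * a : ℕ) : ℝ) * Real.log 2 :=
      mul_nonneg (Nat.cast_nonneg _) (Real.log_nonneg (by norm_num))
    nlinarith
  unif := by
    have := H.unif
    linarith

/-- choice of the constants -/
theorem R.numR (m κ C0 L0 : ℕ) (K1 δk p0 ε1 ε2 εs : ℝ) (hK1 : 0 ≤ K1) (hδk : 0 < δk)
    (hp0 : 0 < p0) (hε2 : 0 < ε2) (hεs : 0 < εs) (hε1m : ε1 * (8 * (m + 1)) = εs)
    (hεsκ : εs * (4 * (κ + 4)) ≤ 1) :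
    ∃ ε3 : ℝ, 0 < ε3 ∧ 6 * ε3 ≤ 1 ∧ 2 * ε3 ≤ εs ∧ ε3 ≤ ε2 ∧ 2 * (κ + 4) * ε3 ≤ 1 ∧
      2 * (κ + 4) * ε1 ≤ 1 ∧ ∃ N : ℝ, 0 < N ∧ ∀ L : ℕ, N ≤ L → L0 ≤ L ∧ 4 ≤ ε3 * (L : ℝ) ∧
      1 / p0 * (8 * (K1 * (ε3 * (L : ℝ) + 2)) + K1 + Real.log 2) ≤ δk * (L : ℝ) ∧
      K1 ≤ δk / 2 * (L : ℝ) ∧ 13 * (K1 * (ε3 * (L : ℝ) + 2)) ≤ ε2 * (L : ℝ) ∧
      Real.log 2 + m * (ε1 * (L : ℝ) * Real.log 2 + Real.log (2 * C0 + 7)) +
          ε1 * (m * (L : ℝ) * Real.log 2) + 3 * ε3 * (m * (L : ℝ) * Real.log 2) +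
          K1 * (ε3 * (L : ℝ) + 1) ≤ εs * L := by
  have hb0 : 0 < Real.log 2 := Real.log_pos (by norm_num)
  have hb1 : Real.log 2 ≤ 1 := by have := Real.log_two_lt_d9; linarith
  have hκ0 : (0 : ℝ) ≤ κ := Nat.cast_nonneg κ
  have hm0 : (0 : ℝ) ≤ m := Nat.cast_nonneg m
  have hε1 : 0 < ε1 := by
    by_contra hcon
    have : ε1 * (8 * (m + 1)) ≤ 0 := mul_nonpos_of_nonpos_of_nonneg (by linarith) (by positivity)
    linarith
  have hε1s : 8 * ε1 ≤ εs := by nlinarith [mul_nonneg hε1.le hm0]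
  have hε1m' : 8 * (ε1 * m) ≤ εs := by nlinarith
  obtain ⟨W, hW⟩ : ∃ W : ℝ, W = 32 * (K1 + m + κ + 4) := ⟨_, rfl⟩
  have hW0 : 0 < W := by rw [hW]; positivity
  obtain ⟨ε3, hε3, q1, q2, q3⟩ : ∃ ε3 : ℝ, 0 < ε3 ∧ ε3 * W ≤ ε2 ∧ ε3 * W ≤ εs ∧
      ε3 * W ≤ δk * p0 := by
    refine ⟨min (min ε2 εs) (δk * p0) / W, div_pos (lt_min (lt_min hε2 hεs) (by positivity)) hW0,
      ?_, ?_, ?_⟩
    · rw [div_mul_cancel₀ _ hW0.ne']
      exact (min_le_left _ _).trans (min_le_left _ _)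
    · rw [div_mul_cancel₀ _ hW0.ne']
      exact (min_le_left _ _).trans (min_le_right _ _)
    · rw [div_mul_cancel₀ _ hW0.ne']
      exact min_le_right _ _
  have r1 : 32 * (ε3 * K1) ≤ ε3 * W := by
    rw [hW]; nlinarith [mul_nonneg hε3.le hm0, mul_nonneg hε3.le hκ0]
  have r3 : 32 * (ε3 * m) ≤ ε3 * W := by
    rw [hW]; nlinarith [mul_nonneg hε3.le hK1, mul_nonneg hε3.le hκ0]
  have r4 : 32 * (ε3 * (κ + 4)) ≤ ε3 * W := by
    rw [hW]; nlinarith [mul_nonneg hε3.le hK1, mul_nonneg hε3.le hm0]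
  have hεs1 : εs * (κ + 4) ≤ 1 := by nlinarith
  have hεs4 : εs * 16 ≤ 1 := by nlinarith [mul_nonneg hεs.le hκ0]
  have r5 : 4 * ε3 ≤ ε3 * (κ + 4) := by nlinarith [mul_nonneg hε3.le hκ0]
  have hlogC : 0 ≤ Real.log (2 * (C0 : ℝ) + 7) := Real.log_nonneg (by
    have : (0 : ℝ) ≤ C0 := Nat.cast_nonneg _
    linarith)
  refine ⟨ε3, hε3, by linarith, by linarith, by linarith, by linarith, ?_, ?_⟩
  · have : ε1 * (κ + 4) * 8 ≤ εs * (κ + 4) := by nlinarith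
    linarith
  refine ⟨L0 + 52 * K1 / ε2 + 2 * (16 * K1 + K1 + 1) / (p0 * δk) + 2 * K1 / δk +
    2 * (1 + m * Real.log (2 * C0 + 7) + K1) / εs + 4 / ε3, by positivity, ?_⟩
  intro L hL
  have p1 : 0 ≤ 52 * K1 / ε2 := by positivity
  have p2 : 0 ≤ 2 * (16 * K1 + K1 + 1) / (p0 * δk) := by positivity
  have p3 : 0 ≤ 2 * K1 / δk := by positivity
  have p4 : 0 ≤ 2 * (1 + m * Real.log (2 * C0 + 7) + K1) / εs := by positivity
  have p5 : 0 ≤ 4 / ε3 := by positivity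
  have p6 : (0 : ℝ) ≤ L0 := Nat.cast_nonneg L0
  have hL0 : (0 : ℝ) ≤ L := Nat.cast_nonneg L
  have s1 : 52 * K1 ≤ L * ε2 := by rw [← div_le_iff₀ hε2]; linarith
  have s2 : 2 * (16 * K1 + K1 + 1) ≤ L * (p0 * δk) := by
    rw [← div_le_iff₀ (by positivity)]; linarith
  have s3 : 2 * K1 ≤ L * δk := by rw [← div_le_iff₀ hδk]; linarith
  have s4 : 2 * (1 + m * Real.log (2 * C0 + 7) + K1) ≤ L * εs := by
    rw [← div_le_iff₀ hεs]; linarith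
  have s5 : 4 ≤ L * ε3 := by rw [← div_le_iff₀ hε3]; linarith
  have t1 : 32 * (ε3 * K1) * L ≤ ε2 * L := mul_le_mul_of_nonneg_right (by linarith) hL0
  have t2 : 32 * (ε3 * K1) * L ≤ εs * L := mul_le_mul_of_nonneg_right (by linarith) hL0
  have t3 : 32 * (ε3 * K1) * L ≤ δk * p0 * L := mul_le_mul_of_nonneg_right (by linarith) hL0
  have t4 : 32 * (ε3 * m) * L ≤ εs * L := mul_le_mul_of_nonneg_right (by linarith) hL0
  have t5 : 8 * (ε1 * m) * L ≤ εs * L := mul_le_mul_of_nonneg_right (by linarith) hL0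
  refine ⟨?_, by linarith, ?_, by linarith, by linarith, ?_⟩
  · have : (L0 : ℝ) ≤ L := by linarith
    exact_mod_cast this
  · rw [one_div, inv_mul_le_iff₀ hp0]
    have e1 : p0 * (δk * L) = δk * p0 * L := by ring
    have e2 : L * (p0 * δk) = δk * p0 * L := by ring
    have e3 : 8 * (K1 * (ε3 * L + 2)) = 8 * (ε3 * K1) * L + 16 * K1 := by ring
    rw [e1, e3]
    rw [e2] at s2
    have : 0 ≤ ε3 * K1 * L := by positivity
    linarith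
  · have u1 : m * (ε1 * L * Real.log 2) ≤ m * (ε1 * L * 1) :=
      mul_le_mul_of_nonneg_left (mul_le_mul_of_nonneg_left hb1 (by positivity)) hm0
    have u2 : ε1 * (m * L * Real.log 2) ≤ ε1 * (m * L * 1) :=
      mul_le_mul_of_nonneg_left (mul_le_mul_of_nonneg_left hb1 (by positivity)) hε1.le
    have u3 : 3 * ε3 * (m * L * Real.log 2) ≤ 3 * ε3 * (m * L * 1) :=
      mul_le_mul_of_nonneg_left (mul_le_mul_of_nonneg_left hb1 (by positivity)) (by positivity)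
    have v1 : (m : ℝ) * (ε1 * L * 1) = ε1 * m * L := by ring
    have v2 : ε1 * ((m : ℝ) * L * 1) = ε1 * m * L := by ring
    have v3 : 3 * ε3 * ((m : ℝ) * L * 1) = 3 * (ε3 * m * L) := by ring
    have v4 : K1 * (ε3 * L + 1) = ε3 * K1 * L + K1 := by ring
    rw [v1] at u1
    rw [v2] at u2
    rw [v3] at u3
    rw [mul_add, v4]
    have v5 : 0 ≤ ε3 * m * L := by positivity
    have v6 : 0 ≤ ε3 * K1 * L := by positivity
    have v7 : 0 ≤ εs * L := by positivity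
    linarith

/-- the step for the determinism -/
theorem stepR (Rg : Gr) : PStepR Rg := by
  intro m h κ k hk1 hk2 hLB hN hC0 hRK hCK ε hε
  have hεs0 : 0 < min ε (1 / (4 * ((κ : ℝ) + 4))) := lt_min hε (by positivity)
  have hεsε : min ε (1 / (4 * ((κ : ℝ) + 4))) ≤ ε := min_le_left _ _
  have hεsκ : min ε (1 / (4 * ((κ : ℝ) + 4))) * (4 * (κ + 4)) ≤ 1 := by
    have : min ε (1 / (4 * ((κ : ℝ) + 4))) ≤ 1 / (4 * (κ + 4)) := min_le_right _ _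
    rwa [le_div_iff₀ (by positivity)] at this
  generalize min ε (1 / (4 * ((κ : ℝ) + 4))) = εs at hεs0 hεsε hεsκ
  obtain ⟨C0, K1, hK1, hfix⟩ := R.fixR m κ k
  obtain ⟨ε1, hε10, hε1m⟩ : ∃ ε1 : ℝ, 0 < ε1 ∧ ε1 * (8 * ((m : ℝ) + 1)) = εs :=
    ⟨εs / (8 * (m + 1)), by positivity, by field_simp⟩
  obtain ⟨δk, hδk, hkill⟩ := kill Rg hN (η := ε1 / 8) (by positivity)
  obtain ⟨p0, hp0, ε2, hε2, L0, hcore⟩ := R.coreR m (k + 1) C0 ε1 ε1 (δk / 2) hε10 hε10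
    (by positivity)
  obtain ⟨ε3, hε3, a1, a2, a3, a4, a5, N, hN0, hnum⟩ := R.numR m κ C0 L0 K1 δk p0 ε1 ε2 εs hK1
    hδk hp0 hε2 hεs0 hε1m hεsκ
  -- the hypotheses with the accuracy ε3
  obtain ⟨ι1, hι1, H1⟩ := rates_main Rg hLB ε3 (2 + 2 / p0) hε3
  obtain ⟨ι2, hι2, εu2, hεu2, H2⟩ := hRK ε3 hε3
  obtain ⟨ι3, hι3, εu3, hεu3, H3⟩ := hCK ε3 hε3
  obtain ⟨ι4, hι4, εu4, hεu4, H4⟩ := hC0 ε3 hε3
  refine ⟨min (min ι1 ι2) (min ι3 ι4), lt_min (lt_min hι1 hι2) (lt_min hι3 hι4),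
    min (min εu2 εu3) (min εu4 1), lt_min (lt_min hεu2 hεu3) (lt_min hεu4 one_pos), ?_⟩
  intro g
  obtain ⟨n1, hn1⟩ := H1 g
  obtain ⟨n2, hn2⟩ := H2 g
  obtain ⟨n3, hn3⟩ := H3 g
  obtain ⟨n4, hn4⟩ := H4 g
  obtain ⟨n5, hn5⟩ := hkill (2 + 2 / p0) g
  obtain ⟨n6, hn6⟩ := Rg.small g (1 / N) (by positivity)
  refine ⟨max (max (max n1 n2) (max n3 n4)) (max n5 n6), ?_⟩
  intro a e C hok Ω _ P c o hH Q hQ s hs
  have ok1 := Rg.anti g n1 _ _ _ _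
    (((le_max_left _ _).trans (le_max_left _ _)).trans (le_max_left _ _)) hok
  have ok2 := Rg.anti g n2 _ _ _ _
    (((le_max_right _ _).trans (le_max_left _ _)).trans (le_max_left _ _)) hok
  have ok3 := Rg.anti g n3 _ _ _ _
    (((le_max_left _ _).trans (le_max_right _ _)).trans (le_max_left _ _)) hok
  have ok4 := Rg.anti g n4 _ _ _ _
    (((le_max_right _ _).trans (le_max_right _ _)).trans (le_max_left _ _)) hok
  have ok5 := Rg.anti g n5 _ _ _ _ ((le_max_left _ _).trans (le_max_right _ _)) hok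
  have ok6 := Rg.anti g n6 _ _ _ _ ((le_max_right _ _).trans (le_max_right _ _)) hok
  have hHa : Hyp h κ a ι1 1 e C P c o := R.Hyp_mono hH
    ((min_le_left _ _).trans (min_le_left _ _)) ((min_le_right _ _).trans (min_le_right _ _))
  have hHb : Hyp h κ a ι2 εu2 e C P c o := R.Hyp_mono hH
    ((min_le_left _ _).trans (min_le_right _ _)) ((min_le_left _ _).trans (min_le_left _ _))
  have hHc : Hyp h κ a ι3 εu3 e C P c o := R.Hyp_mono hH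
    ((min_le_right _ _).trans (min_le_left _ _)) ((min_le_left _ _).trans (min_le_right _ _))
  have hHd : Hyp h κ a ι4 εu4 e C P c o := R.Hyp_mono hH
    ((min_le_right _ _).trans (min_le_right _ _)) ((min_le_right _ _).trans (min_le_left _ _))
  have hRKa := hn2 a e C ok2 Ω P c o hHb
  have hCKa := hn3 a e C ok3 Ω P c o hHc
  have hC0a := hn4 a e C ok4 Ω P c o hHd
  have hLN : N ≤ (((κ + 4) * a : ℕ) : ℝ) := by
    have h1 := (hn6 _ e C ok6).1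
    rw [one_div, inv_mul_eq_div, le_div_iff₀ hN0, one_mul] at h1
    exact h1
  obtain ⟨b1, b2, b3, b4, b5, b6⟩ := hnum _ hLN
  have hL0 : (0 : ℝ) ≤ (((κ + 4) * a : ℕ) : ℝ) := Nat.cast_nonneg _
  have hsL : (s : ℝ) + εs * (((κ + 4) * a : ℕ) : ℝ) ≤ (k + 1) * a := by
    have h1 : εs * (((κ + 4) * a : ℕ) : ℝ) ≤ ε * (((κ + 4) * a : ℕ) : ℝ) :=
      mul_le_mul_of_nonneg_right hεsε hL0
    push_cast at h1 hs ⊢
    linarith
  have hεL : εs * (((κ + 4) * a : ℕ) : ℝ) ≤ ε * (((κ + 4) * a : ℕ) : ℝ) :=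
    mul_le_mul_of_nonneg_right hεsε hL0
  by_cases hcase : (s : ℝ) + ε3 * (((κ + 4) * a : ℕ) : ℝ) ≤ k * a
  · refine (hRKa Q hQ s hcase).trans ?_
    have h1 : ε3 * (((κ + 4) * a : ℕ) : ℝ) ≤ εs * (((κ + 4) * a : ℕ) : ℝ) :=
      mul_le_mul_of_nonneg_right (by linarith) hL0
    linarith
  · push Not at hcase
    have hmain := hfix h δk p0 ε1 ε2 ε3 εs a ((κ + 4) * a) Ω P c o (by push_cast; ring) hk1 hp0
      hε3 hε10.le a1 a2 a3 a4 a5 b2 hH.good.x01 hH.good.y01 hH.good.t01 hHa.unif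
      (fun Ω₂ _ Q ρ hD => hn5 _ e C ok5 Ω P c o hH.good Ω₂ Q ρ hD)
      (fun Ω₂ _ Q ρ hD => hn1 _ e C ok1 Ω Ω₂ P c o Q ρ hH.good hHa.cost hHa.rate hD)
      (fun n s h1 h2 => hcore _ n s b1 h1 h2) hRKa hCKa hC0a b3 b4 b5 Q hQ s hsL hcase hk2
    exact hmain.trans (b6.trans hεL)

end Vale.Agent.P127.Stk
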