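import Vale.Agent.P127.Stk.Props

/-!
# P127 / Stk : from the entropic core theorem to the lower bound `LB m m` (PROOF.md, section 11)
-/

namespace Vale.Agent.P127.Stk

open Finset Vale.Agent.P127

section hcTop

variable {Ω : Type} [Fintype Ω] {S T U S' T' : Type*}

/-- conditional entropy is nonnegative -/
lemma hc_nonneg_top (P : Law Ω) (X : Ω → S) (Y : Ω → T) : 0 ≤ hc P X Y := by
  unfold hc
  have : P.H Y ≤ P.H (fun ω => (X ω, Y ω)) :=
    P.H_mono (X := fun ω => (X ω, Y ω)) (Y := Y) (fun ω ω' h => (Prod.mk.inj h).2)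
  linarith

/-- conditional entropy depends only on the partitions -/
lemma hc_congr_top (P : Law Ω) {X : Ω → S} {Y : Ω → T} {X' : Ω → S'} {Y' : Ω → T'}
    (hX : ∀ ω ω', X ω = X ω' ↔ X' ω = X' ω') (hY : ∀ ω ω', Y ω = Y ω' ↔ Y' ω = Y' ω') :
    hc P X Y = hc P X' Y' := by
  unfold hc
  rw [P.H_congr hY, P.H_congr (X := fun ω => (X ω, Y ω)) (Y := fun ω => (X' ω, Y' ω))]
  intro ω ω'
  simp only [Prod.mk.injEq, hX ω ω', hY ω ω']

end hcTop

/-- the trivial object of type `0` -/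
def Ob.triv (Ω : Type) (m : ℕ) : Ob Ω m 0 where
  γ := Unit
  G := fun _ => ()
  J := ∅
  Γ := fun _ _ _ => 0
  card := by simp
  bd := by intro ω i j; simp
  fn := by intro ω ω' _; rfl

lemma Ob.triv_F {Ω : Type} {m : ℕ} (c : Cf Ω m) (ω : Ω) : (Ob.triv Ω m).F c ω = c.pt ω := by
  unfold Ob.F Ob.app
  funext i
  simp [Ob.triv]

lemma LB_mono_top {R : Gr} {m : ℕ} {h h' : ℝ} (hh : h' ≤ h) (H : LB R m h) : LB R m h' := by
  intro ι hι g
  obtain ⟨n, H'⟩ := H ι hι g
  refine ⟨n, ?_⟩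
  intro L e C hL Ω _ P c hg
  refine le_trans ?_ (H' L e C hL Ω P c hg)
  have h2 : 0 ≤ (L : ℝ) * Real.log 2 := mul_nonneg (Nat.cast_nonneg _) (Real.log_nonneg (by norm_num))
  nlinarith

lemma LB_zero_top (R : Gr) (m : ℕ) : LB R m 0 := by
  intro ι hι g
  refine ⟨0, ?_⟩
  intro L e C _ Ω _ P c _
  refine le_trans ?_ (hc_nonneg_top P _ _)
  have h2 : 0 ≤ (L : ℝ) * Real.log 2 := mul_nonneg (Nat.cast_nonneg _) (Real.log_nonneg (by norm_num))
  nlinarith

lemma LB_sup_top {R : Gr} {m : ℕ} {h : ℝ} (H : ∀ h' < h, LB R m h') : LB R m h := by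
  intro ι hι g
  obtain ⟨n, H'⟩ := H (h - ι / 2) (by linarith) (ι / 2) (by linarith) g
  refine ⟨n, ?_⟩
  intro L e C hL Ω _ P c hg
  have := H' L e C hL Ω P c hg
  have h3 : h - ι / 2 - ι / 2 = h - ι := by ring
  rwa [h3] at this

/-- if the lower bound fails above `h`, there are extremal objects of type `0` -/
lemma YK_zero_top {R : Gr} {m : ℕ} {h : ℝ} (H : ∀ h' > h, ¬ LB R m h') : YK R m h 0 := by
  intro ι hι
  have h1 := H (h + ι) (by linarith)
  unfold LB at h1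
  push Not at h1
  obtain ⟨ι', hι', g, h2⟩ := h1
  refine ⟨g, ?_⟩
  intro n
  obtain ⟨L, e, C, hL, Ω, inst, P, c, hg, hlt⟩ := h2 n
  refine ⟨L, e, C, hL, Ω, inst, P, c, Ob.triv Ω m, hg, ?_, ?_⟩
  · have h3 : mi P (fun ω => (c.x ω, c.y ω)) (Ob.triv Ω m).G (fun ω => (c.t ω, c.A ω)) = 0 := by
      unfold mi
      rw [sub_eq_zero]
      refine hc_congr_top P (fun _ _ => Iff.rfl) ?_
      intro ω ω'
      simp [Ob.triv]
    rw [h3]
    positivity
  · have h4 : hc P (fun ω => fl L ((Ob.triv Ω m).F c ω))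
        (fun ω => (c.t ω, (Ob.triv Ω m).G ω, c.A ω)) =
        hc P (fun ω => fl L (c.pt ω)) (fun ω => (c.t ω, c.A ω)) := by
      refine hc_congr_top P ?_ ?_
      · intro ω ω'
        rw [Ob.triv_F, Ob.triv_F]
      · intro ω ω'
        simp [Ob.triv]
    rw [h4]
    refine hlt.le.trans ?_
    have h2 : 0 ≤ (L : ℝ) * Real.log 2 :=
      mul_nonneg (Nat.cast_nonneg _) (Real.log_nonneg (by norm_num))
    push_cast
    nlinarith

/-- there are no extremal objects of type `κ ≥ m` when `h < m` -/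
lemma YK_top_false {R : Gr} {m : ℕ} {h : ℝ} (hm : h < m) {κ : ℕ} (hκ : m ≤ κ) :
    ¬ YK R m h κ := by
  intro H
  have hpos : 0 < ((m : ℝ) - h) / 2 := by linarith
  obtain ⟨g, H'⟩ := H (((m : ℝ) - h) / 2) hpos
  obtain ⟨n, hn⟩ := R.small g 1 one_pos
  obtain ⟨L, e, C, hL, Ω, inst, P, c, o, _, _, hr⟩ := H' n
  have h0 := hc_nonneg_top P (fun ω => fl L (o.F c ω)) (fun ω => (c.t ω, o.G ω, c.A ω))
  have hL1 : (1 : ℝ) ≤ (L : ℝ) := by simpa using (hn L e C hL).1
  have h2 : 0 < (L : ℝ) * Real.log 2 := mul_pos (by linarith) (Real.log_pos (by norm_num))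
  have hκ' : (m : ℝ) ≤ κ := by exact_mod_cast hκ
  have h3 : (h - κ + ((m : ℝ) - h) / 2) * ((L : ℝ) * Real.log 2) < 0 :=
    mul_neg_of_neg_of_pos (by linarith) h2
  nlinarith

/-- no extremal objects -/
lemma NK_of_not_YK {R : Gr} {m : ℕ} {h : ℝ} {κ : ℕ} (H : ¬ YK R m h κ) : NK R m h κ := by
  unfold YK at H
  push Not at H
  obtain ⟨ι, hι, H1⟩ := H
  refine ⟨ι, hι, ?_⟩
  intro g
  obtain ⟨n, H2⟩ := H1 g
  refine ⟨n, ?_⟩
  intro L e C hL Ω inst P c o hg hmi
  exact (H2 L e C hL Ω inst P c o hg hmi).le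

/-- the lower bound for the entropy rate of `x + t y`, from the parts -/
theorem LB_top (R : Gr) (hW : PWindow R) (hB : PBase R) (hC : PStepC R) (hR : PStepR R)
    (hE : PEnd R) (m : ℕ) : LB R m m := by
  by_contra hcon
  have hbdd : BddAbove {h : ℝ | LB R m h} := by
    refine ⟨m, ?_⟩
    intro h hh
    by_contra hlt
    push Not at hlt
    exact hcon (LB_mono_top hlt.le hh)
  have hne : ({h : ℝ | LB R m h}).Nonempty := ⟨0, LB_zero_top R m⟩
  set h : ℝ := sSup {h : ℝ | LB R m h} with hdef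
  have h1 : LB R m h := by
    refine LB_sup_top ?_
    intro h' hh'
    obtain ⟨h'', hm'', hlt⟩ := exists_lt_of_lt_csSup hne hh'
    exact LB_mono_top hlt.le hm''
  have h2 : ∀ h' > h, ¬ LB R m h' := by
    intro h' hh' H
    exact absurd (le_csSup hbdd H) (not_le.mpr hh')
  have hm : h < m := by
    by_contra hge
    push Not at hge
    exact hcon (LB_mono_top hge h1)
  have hY0 : YK R m h 0 := YK_zero_top h2
  -- the maximal type
  have hfind : ∃ κ, YK R m h κ ∧ ¬ YK R m h (κ + 1) := by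
    by_contra hno
    push Not at hno
    have hall : ∀ κ, YK R m h κ := by
      intro κ
      induction κ with
      | zero => exact hY0
      | succ κ ih => exact hno κ ih
    exact YK_top_false hm le_rfl (hall m)
  obtain ⟨κ, hκ, hκ1⟩ := hfind
  have hκm : κ < m := by
    by_contra hge
    push Not at hge
    exact YK_top_false hm hge hκ
  exact core R hW hB hC hR hE m h κ hm hκm h1 hκ (NK_of_not_YK hκ1)

end Vale.Agent.P127.Stk
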