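import Vale.Agent.P127.Stk.Window
import Vale.Agent.P127.Stk.Base
import Vale.Agent.P127.Stk.End
import Vale.Agent.P127.Stk.StepR
import Vale.Agent.P127.Stk.CEnd
import Vale.Agent.P127.Stk.CMain
import Vale.Agent.P127.Stk.CCore
import Vale.Agent.P127.Stk.CPclaw
import Vale.Agent.P127.Stk.PolyEnd
import Vale.Agent.P127.Stk.Abs.Final
import Vale.Agent.P127.Stk.KillP
import Vale.Agent.P127.Stk.Rates
import Vale.Agent.P127.Stk.Top

/-!
# P127 / Stk : the entropic lower bound `LB R m m`, assembled from all parts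
-/

namespace Vale.Agent.P127.Stk

open Vale.Agent.P127

/-- section 3 -/
theorem pkill_all (R : Gr) : PKill R := by
  intro m h κ hN η hη
  exact kill_flat R hN hη

/-- section 2 -/
theorem prates_all (R : Gr) : PRates R := by
  intro m h κ hLB ε K hε
  obtain ⟨ι, hι, H⟩ := rates_main R (κ := κ) hLB ε K hε
  refine ⟨ι, hι, fun g => ?_⟩
  obtain ⟨n, hn⟩ := H g
  refine ⟨n, fun L e C hok => ?_⟩
  intro Ω Ω' _ _ P c o Q π hG hcost hrate hD
  have hR := hn L e C hok Ω Ω' P c o Q π hG hcost hrate hD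
  refine ⟨fun s s' h1 h2 => ?_, fun s s' h1 h2 => ?_, fun s s' h1 h2 => ?_⟩
  · refine (hR.lo s s' h1 h2).trans (le_of_eq ?_)
    refine hc_congr Q (fun ω ω' _ _ he => ?_) (fun ω ω' _ _ he => ?_) (fun ω ω' _ _ he => ?_)
      (fun ω ω' _ _ he => ?_)
    · exact (Prod.mk.inj he).1
    · exact (Prod.mk.inj he).1
    · simp only [Prod.mk.injEq] at he ⊢
      exact ⟨Prod.ext he.1 he.2.1, he.2.2⟩
    · simp only [Prod.mk.injEq] at he ⊢
      exact ⟨congrArg Prod.fst he.1, congrArg Prod.snd he.1, he.2⟩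
  · exact hR.up s s' h1 h2
  · exact hR.cJ s s' h1 h2

/-- the step for `Γ` (section 8) -/
theorem pStepC (R : Gr) : PStepC R :=
  stepC_of R (interp R) pclaw
    (pcmain (pccore R (AbsB.pAbsV pabs) (pkill_all R) (prates_all R)))

/-- the lower bound for the entropy rate, all growth classes -/
theorem LB_main (R : Gr) (m : ℕ) : LB R m m :=
  LB_top R (pWindow R) (pBase R) (pStepC R) (stepR R) (pEnd R) m

end Vale.Agent.P127.Stk
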