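import Vale.Agent.P127.Stk.AbsStmt
import Vale.Agent.P127.Stk.Lib

/-!
# P127 / Stk : the absorption lemma in the form used by StepC, from AbsStmt
-/

namespace Vale.Agent.P127.Stk.AbsB

open Finset Vale.Agent.P127

/-- Section 4, absorption lemma, the form used in section 8 -/
def PAbsV : Prop := ∀ (d N0 : ℕ) (V : Type) [Fintype V] (v0 : V) (ε' : ℝ), 0 < ε' →
  ∃ ε : ℝ, 0 < ε ∧ ∃ θ0 : ℕ, ∀ θ : ℕ, θ0 ≤ θ →
  ∀ (Ω β γ : Type) [Fintype Ω] (P : Law Ω) (B : Ω → β) (q : Ω → γ) (X : V → Ω → Fin d → ℤ)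
    (φ : V → β → γ → Fin d → ℤ) (b : V → ℤ) (ρ : ℝ), (∀ v, b v = 1 ∨ b v = -1) →
    (∀ v ω, 0 < P.w ω → ∀ i, |X v ω i - X v0 ω i - φ v (B ω) (q ω) i| ≤ N0) →
    (∀ v ω ω', 0 < P.w ω → 0 < P.w ω' → B ω = B ω' → ∀ i, |X v ω i - X v ω' i| ≤ 2 ^ θ) →
    (∀ v, hc P (X v) B ≤ ρ + ε * θ) →
    ρ - ε * θ ≤ hc P (X v0) (fun ω => (q ω, B ω)) →
    ∃ (Ω' ζ : Type) (_ : Fintype Ω') (P' : Law Ω') (Z : Ω' → ζ) (π π1 π2 : Ω' → Ω),
      (∀ ω, P'.pr π ω = P.w ω) ∧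
      (∀ ω, 0 < P'.w ω → B (π1 ω) = B (π ω) ∧ B (π2 ω) = B (π ω) ∧
        X v0 (π1 ω) = X v0 (π2 ω)) ∧
      (∀ z ω, P'.pr (fun ω' => (Z ω', π1 ω')) (z, ω) = P'.pr (fun ω' => (Z ω', π ω')) (z, ω)) ∧
      (∀ z ω, P'.pr (fun ω' => (Z ω', π2 ω')) (z, ω) = P'.pr (fun ω' => (Z ω', π ω')) (z, ω)) ∧
      mi P' π1 π2 (fun ω => (X v0 (π1 ω), B (π ω), Z ω)) = 0 ∧
      mi P' π (fun ω => (π1 ω, π2 ω)) (fun ω => (B (π ω), Z ω)) = 0 ∧
      mi P' (fun ω => (q (π ω), X v0 (π ω))) Z (fun ω => B (π ω)) ≤ ε' * θ ∧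
      hc P' (fun ω i => X v0 (π ω) i +
          ∑ v, b v * (φ v (B (π ω)) (q (π2 ω)) i - φ v (B (π ω)) (q (π1 ω)) i))
        (fun ω => (q (π ω), B (π ω), Z ω)) ≤ ρ + ε' * θ

variable {Ω : Type} [Fintype Ω]

/-- the support of a law -/
structure Sp (P : Law Ω) : Type where
  /-- the point -/
  v : Ω
  pos : 0 < P.w v

theorem Sp.ext' {P : Law Ω} {a b : Sp P} (h : a.1 = b.1) : a = b := by
  cases a
  cases b
  cases h
  rfl

noncomputable instance (P : Law Ω) : Fintype (Sp P) := by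
  classical
  exact Fintype.ofInjective (fun ω : Sp P => ω.1) fun _ _ h => Sp.ext' h

/-- the law on its support -/
noncomputable def sp (P : Law Ω) : Law (Sp P) where
  w ω := P.w ω.1
  nn ω := P.nn ω.1
  sum_one := by
    classical
    rw [← P.sum_one]
    have h1 : ∑ ω : Sp P, P.w ω.1 = ∑ ω ∈ univ.filter (fun ω => 0 < P.w ω), P.w ω := by
      refine Finset.sum_bij (fun ω _ => ω.1) (fun ω _ => by simp [ω.2])
        (fun a _ b _ h => Sp.ext' h) (fun b hb => ?_) (fun _ _ => rfl)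
      exact ⟨⟨b, (Finset.mem_filter.mp hb).2⟩, Finset.mem_univ _, rfl⟩
    rw [h1]
    refine Finset.sum_subset (Finset.filter_subset _ _) fun ω _ hω => ?_
    have : ¬ 0 < P.w ω := fun h => hω (Finset.mem_filter.mpr ⟨Finset.mem_univ _, h⟩)
    exact le_antisymm (not_lt.mp this) (P.nn ω)

theorem sp_pr (P : Law Ω) (ω : Ω) : (sp P).pr (fun ω => ω.1) ω = P.w ω := by
  classical
  unfold Law.pr
  by_cases h : 0 < P.w ω
  · rw [Finset.sum_eq_single (⟨ω, h⟩ : Sp P)]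
    · rfl
    · intro b hb hne
      simp only [Finset.mem_filter] at hb
      exact absurd (Sp.ext' hb.2) hne
    · intro hn
      simp at hn
  · have h0 : P.w ω = 0 := le_antisymm (not_lt.mp h) (P.nn ω)
    rw [h0]
    refine Finset.sum_eq_zero fun b hb => ?_
    simp only [Finset.mem_filter] at hb
    exact absurd (hb.2 ▸ b.2) h

theorem sp_push (P : Law Ω) : push (sp P) (fun ω => ω.1) = P :=
  law_ext (sp_pr P)

theorem sp_hc {S T : Type*} (P : Law Ω) (X : Ω → S) (Y : Ω → T) :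
    hc (sp P) (fun ω => X ω.1) (fun ω => Y ω.1) = hc P X Y := by
  conv_rhs => rw [← sp_push P]
  rw [push_hc]
  rfl

theorem pr_val {Ω' : Type} [Fintype Ω'] {ζ : Type} (P : Law Ω) (P' : Law Ω') (Z : Ω' → ζ)
    (π π1 : Ω' → Sp P)
    (h : ∀ z ω, P'.pr (fun w => (Z w, π1 w)) (z, ω) = P'.pr (fun w => (Z w, π w)) (z, ω))
    (z : ζ) (ω : Ω) :
    P'.pr (fun w => (Z w, (π1 w).1)) (z, ω) = P'.pr (fun w => (Z w, (π w).1)) (z, ω) := by
  classical
  have key : ∀ ρ : Ω' → Sp P, ∀ hω : 0 < P.w ω,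
      P'.pr (fun w => (Z w, (ρ w).1)) (z, ω) = P'.pr (fun w => (Z w, ρ w)) (z, ⟨ω, hω⟩) := by
    intro ρ hω
    unfold Law.pr
    refine Finset.sum_congr ?_ fun _ _ => rfl
    ext w
    simp only [Finset.mem_filter, Finset.mem_univ, true_and, Prod.mk.injEq]
    constructor
    · rintro ⟨h1, h2⟩
      exact ⟨h1, Sp.ext' h2⟩
    · rintro ⟨h1, h2⟩
      exact ⟨h1, congrArg Sp.v h2⟩
  have key0 : ∀ ρ : Ω' → Sp P, ¬ 0 < P.w ω →
      P'.pr (fun w => (Z w, (ρ w).1)) (z, ω) = 0 := by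
    intro ρ hω
    unfold Law.pr
    refine Finset.sum_eq_zero fun b hb => ?_
    simp only [Finset.mem_filter, Prod.mk.injEq] at hb
    exact absurd (hb.2.2 ▸ (ρ b).2) hω
  by_cases hω : 0 < P.w ω
  · rw [key π1 hω, key π hω, h]
  · rw [key0 π1 hω, key0 π hω]

/-- the support version with arbitrary index type -/
theorem pAbsV (hA : PAbs) : PAbsV := by
  classical
  intro d N0 V _ v0 ε' hε'
  obtain ⟨J, hJ⟩ : ∃ J, Fintype.card V = J + 1 :=
    ⟨Fintype.card V - 1, (Nat.succ_pred_eq_of_pos (Fintype.card_pos_iff.mpr ⟨v0⟩)).symm⟩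
  obtain ⟨eV, hV0⟩ : ∃ eV : Fin (J + 1) ≃ V, eV 0 = v0 := by
    have e0 : Fin (J + 1) ≃ V := (Fintype.equivFinOfCardEq hJ).symm
    exact ⟨(Equiv.swap 0 (e0.symm v0)).trans e0, by simp⟩
  obtain ⟨ε, hε, θ0, hθ0⟩ := hA d J N0 ε' hε'
  refine ⟨ε, hε, θ0, fun θ hθ => ?_⟩
  intro Ω β γ _ P B q X φ b ρ hb herr hrng hupp hlow
  have hyp : AbsHyp N0 θ ρ (ε * θ) (sp P) (fun ω => B ω.1) (fun ω => q ω.1)
      (fun i ω => X (eV i) ω.1) (fun i => φ (eV i)) := by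
    refine ⟨?_, ?_, ?_, ?_⟩
    · intro i ω c
      rw [hV0]
      exact herr (eV i) ω.1 ω.2 c
    · intro i ω ω' h c
      exact hrng (eV i) ω.1 ω'.1 ω.2 ω'.2 h c
    · intro i
      rw [sp_hc P (X (eV i)) B]
      exact hupp (eV i)
    · rw [hV0, sp_hc P (X v0) (fun ω => (q ω, B ω))]
      exact hlow
  obtain ⟨Ω', iF, P', ζ, Z, π, π1, π2, H⟩ := hθ0 θ hθ (Sp P) (sp P) β γ (fun ω => B ω.1)
    (fun ω => q ω.1) (fun i ω => X (eV i) ω.1) (fun i => φ (eV i)) ρ (fun i => b (eV i))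
    (fun i => hb (eV i)) hyp
  have hX12 := H.X12
  have hci12 := H.ci12
  have hmain := H.main
  simp only [hV0] at hX12 hci12 hmain
  refine ⟨Ω', ζ, iF, P', Z, fun w => (π w).1, fun w => (π1 w).1, fun w => (π2 w).1,
    ?_, ?_, ?_, ?_, ?_, ?_, ?_, ?_⟩
  · intro ω
    have h1 : push P' (fun w => (π w).1) = push (push P' π) (fun ω => ω.1) := by
      refine law_ext fun ω => ?_
      rw [push_w, push_w, push_pr]
      rfl
    have h2 : push P' π = sp P := law_ext H.smp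
    rw [← push_w, h1, h2, sp_push]
  · intro ω _
    exact ⟨H.B1 ω, H.B2 ω, hX12 ω⟩
  · exact pr_val P P' Z π π1 H.law1
  · exact pr_val P P' Z π π2 H.law2
  · refine Eq.trans ?_ hci12
    have e1 : hc P' (fun w => (π1 w).1) (fun ω => (X v0 (π1 ω).1, B (π ω).1, Z ω)) =
        hc P' π1 (fun w => (X v0 (π1 w).1, B (π w).1, Z w)) :=
      hc_congr P' (fun w w' _ _ e => congrArg Sp.v (Prod.mk.injEq _ _ _ _ ▸ e).1)
        (fun w w' _ _ e => Sp.ext' (Prod.mk.injEq _ _ _ _ ▸ e).1)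
        (fun w w' _ _ e => e) (fun w w' _ _ e => e)
    have e2 : hc P' (fun w => (π1 w).1)
        (fun ω => ((π2 ω).1, X v0 (π1 ω).1, B (π ω).1, Z ω)) =
        hc P' π1 (fun w => (π2 w, X v0 (π1 w).1, B (π w).1, Z w)) :=
      hc_congr P' (fun w w' _ _ e => congrArg Sp.v (Prod.mk.injEq _ _ _ _ ▸ e).1)
        (fun w w' _ _ e => Sp.ext' (Prod.mk.injEq _ _ _ _ ▸ e).1)
        (fun w w' _ _ e => by
          simp only [Prod.mk.injEq] at e ⊢
          exact ⟨congrArg Sp.v e.1, e.2⟩)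
        (fun w w' _ _ e => by
          simp only [Prod.mk.injEq] at e ⊢
          exact ⟨Sp.ext' e.1, e.2⟩)
    exact congrArg₂ (fun a b : ℝ => a - b) e1 e2
  · have h1 := H.ci0
    rw [mi_symm] at h1
    refine Eq.trans ?_ h1
    have e1 : hc P' (fun w => (π w).1) (fun ω => (B (π ω).1, Z ω)) =
        hc P' π (fun w => (B (π w).1, Z w)) :=
      hc_congr P' (fun w w' _ _ e => congrArg Sp.v (Prod.mk.injEq _ _ _ _ ▸ e).1)
        (fun w w' _ _ e => Sp.ext' (Prod.mk.injEq _ _ _ _ ▸ e).1)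
        (fun w w' _ _ e => e) (fun w w' _ _ e => e)
    have e2 : hc P' (fun w => (π w).1)
        (fun ω => (((π1 ω).1, (π2 ω).1), B (π ω).1, Z ω)) =
        hc P' π (fun w => ((π1 w, π2 w), B (π w).1, Z w)) :=
      hc_congr P' (fun w w' _ _ e => congrArg Sp.v (Prod.mk.injEq _ _ _ _ ▸ e).1)
        (fun w w' _ _ e => Sp.ext' (Prod.mk.injEq _ _ _ _ ▸ e).1)
        (fun w w' _ _ e => by
          simp only [Prod.mk.injEq] at e ⊢
          exact ⟨⟨congrArg Sp.v e.1.1, congrArg Sp.v e.1.2⟩, e.2⟩)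
        (fun w w' _ _ e => by
          simp only [Prod.mk.injEq] at e ⊢
          exact ⟨⟨Sp.ext' e.1.1, Sp.ext' e.1.2⟩, e.2⟩)
    exact congrArg₂ (fun a b : ℝ => a - b) e1 e2
  · refine (mi_mono_left P' Z ?_).trans H.cost
    intro w w' _ _ e
    have e1 := (Prod.mk.injEq _ _ _ _ ▸ e).1
    show (q (π w).1, X v0 (π w).1) = (q (π w').1, X v0 (π w').1)
    rw [e1]
  · refine le_trans (le_of_eq ?_) hmain
    congr 1
    funext w i
    congr 1
    exact (Equiv.sum_comp eV (fun v => b v *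
      (φ v (B (π w).1) (q (π2 w).1) i - φ v (B (π w).1) (q (π1 w).1) i))).symm

end Vale.Agent.P127.Stk.AbsB
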