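import Vale.Agent.P127.Stk.AbsChnC

/-!
# P127 / Stk : the chain lemma (PROOF.md, sections 4.1 - 4.3)
-/

namespace Vale.Agent.P127.Stk.Chn

open Finset Vale.Agent.P127 Vale.Agent.P127.Stk Vale.Agent.P127.Stk.Add Vale.Agent.P127.Law

/-- a path: a law with a first sample `a` and a final position `b` -/
structure Path {Ω : Type} [Fintype Ω] {G β : Type*} (P : Law Ω) (B : Ω → β) (U : Ω → G) where
  X : Type
  fin : Fintype X
  R : Law X
  a : X → Ω
  b : X → G
  ha : ∀ ω, R.pr a ω = P.w ω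
  hb : ∀ x, R.pr (fun w => (b w, B (a w))) x = P.pr (fun ω => (U ω, B ω)) x

attribute [instance] Path.fin

namespace Path

variable {Ω : Type} [Fintype Ω] {G β : Type*} [AddCommGroup G] {P : Law Ω} {B : Ω → β}
  {U V : Ω → G}

/-- displacement -/
def S (p : Path P B U) (w : p.X) : G := p.b w - U (p.a w)

/-- entropy of the displacement -/
noncomputable def ent (p : Path P B U) : ℝ := hc p.R p.S (fun w => B (p.a w))

/-- information between the displacement and the initial position -/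
noncomputable def inf (p : Path P B U) : ℝ :=
  mi p.R p.S (fun w => U (p.a w)) (fun w => B (p.a w))

lemma pr_id (P : Law Ω) (ω : Ω) : P.pr (fun x => x) ω = P.w ω := by
  classical
  unfold Law.pr
  rw [Finset.sum_filter]
  simp

/-- one step -/
def step (hV : ∀ x, P.pr (fun ω => (V ω, B ω)) x = P.pr (fun ω => (U ω, B ω)) x) :
    Path P B U where
  X := Ω
  fin := inferInstance
  R := P
  a := fun ω => ω
  b := V
  ha := pr_id P
  hb := hV

section tr

variable (hV : ∀ x, P.pr (fun ω => (V ω, B ω)) x = P.pr (fun ω => (U ω, B ω)) x)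
  (p : Path P B U)

/-- path followed by a step -/
abbrev GA : Type := Law.GT (fun w : p.X => (p.b w, B (p.a w))) (fun ω => (U ω, B ω))

noncomputable abbrev QA : Law p.GA := Law.glue p.R P _ _ p.hb

/-- final data of the step -/
def eA (V : Ω → G) (q : p.GA) : G × β := (V q.snd, B q.snd)

/-- initial data of the second path -/
def sB (w : p.X) : G × β := (U (p.a w), B (p.a w))

include hV in
lemma hAB (x : G × β) : p.QA.pr (p.eA V) x = p.R.pr p.sB x := by
  have h1 := Law.glue_pr' (P := p.R) (Q := P) p.hb (fun ω => (V ω, B ω)) x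
  have h2 := pr_of p.ha (fun ω => (U ω, B ω)) x
  exact h1.trans ((hV x).trans h2.symm)

/-- path, step, path -/
abbrev GB (V : Ω → G) : Type := Law.GT (p.eA V) p.sB

noncomputable def QB : Law (p.GB V) := Law.glue p.QA p.R _ _ (p.hAB hV)

lemma B1 (q : p.GB V) : B q.fst.snd = B (p.a q.fst.fst) := by
  have := q.fst.eq
  simp only [Prod.mk.injEq] at this
  exact this.2.symm

lemma B2 (q : p.GB V) : B (p.a q.snd) = B (p.a q.fst.fst) := by
  have h := q.eq
  simp only [eA, sB, Prod.mk.injEq] at h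
  exact h.2.symm.trans (p.B1 q)

lemma U1 (q : p.GB V) : p.b q.fst.fst = U q.fst.snd := by
  have := q.fst.eq
  simp only [Prod.mk.injEq] at this
  exact this.1

lemma U2 (q : p.GB V) : V q.fst.snd = U (p.a q.snd) := by
  have h := q.eq
  simp only [eA, sB, Prod.mk.injEq] at h
  exact h.1

/-- path, step, path as a path -/
noncomputable def tr : Path P B U where
  X := p.GB V
  fin := inferInstance
  R := p.QB hV
  a := fun q => p.a q.fst.fst
  b := fun q => p.b q.snd
  ha := by
    intro ω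
    have h1 := Law.glue_pr (P := p.QA) (Q := p.R) (p.hAB hV) (fun q : p.GA => p.a q.fst) ω
    have h2 := Law.glue_pr (P := p.R) (Q := P) p.hb (fun w => p.a w) ω
    exact h1.trans (h2.trans (p.ha ω))
  hb := by
    intro x
    have h0 : (fun q : p.GB V => (p.b q.snd, B (p.a q.fst.fst))) =
        fun q => (p.b q.snd, B (p.a q.snd)) := by
      funext q
      rw [p.B2 q]
    rw [h0]
    have h1 := Law.glue_pr' (P := p.QA) (Q := p.R) (p.hAB hV)
      (fun w => (p.b w, B (p.a w))) x
    exact h1.trans (p.hb x)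

lemma S_tr (q : p.GB V) : (p.tr hV).S q =
    p.S q.fst.fst + (V q.fst.snd - U q.fst.snd) + p.S q.snd := by
  show p.b q.snd - U (p.a q.fst.fst) = (p.b q.fst.fst - U (p.a q.fst.fst)) +
    (V q.fst.snd - U q.fst.snd) + (p.b q.snd - U (p.a q.snd))
  rw [p.U1 q, p.U2 q]
  abel

/-- the triple -/
theorem tri {η : ℝ} (hη : (p.tr hV).ent ≤ p.ent + η) :
    Tri (p.QB hV) (fun q => q.fst.fst) (fun q => q.fst.snd) (fun q => U (p.a q.fst.fst))
      (fun q => p.S q.fst.fst) (fun q => V q.fst.snd - U q.fst.snd) (fun q => p.S q.snd)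
      (fun q => B (p.a q.fst.fst)) p.ent (hc P (fun ω => V ω - U ω) B) p.inf
      (mi P U (fun ω => V ω - U ω) B) η (hc P U B) where
  s1 := by
    have h1 := glue_hc_fst (P := p.QA) (Q := p.R) (p.hAB hV) (fun q : p.GA => p.S q.fst)
      (fun q => B (p.a q.fst))
    have h2 := glue_hc_fst (P := p.R) (Q := P) p.hb p.S (fun w => B (p.a w))
    exact h1.trans h2
  d := by
    have h0 : (fun q : p.GB V => B (p.a q.fst.fst)) = fun q => B q.fst.snd := by
      funext q
      rw [p.B1 q]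
    rw [h0]
    have h1 := glue_hc_fst (P := p.QA) (Q := p.R) (p.hAB hV) (fun q : p.GA => V q.snd - U q.snd)
      (fun q => B q.snd)
    have h2 := glue_hc_snd (P := p.R) (Q := P) p.hb (fun ω => V ω - U ω) B
    exact h1.trans h2
  s2 := by
    have h0 : (fun q : p.GB V => B (p.a q.fst.fst)) = fun q => B (p.a q.snd) := by
      funext q
      rw [p.B2 q]
    rw [h0]
    exact glue_hc_snd (P := p.QA) (Q := p.R) (p.hAB hV) p.S (fun w => B (p.a w))
  s1' := by
    have h1 := glue_hc_fst (P := p.QA) (Q := p.R) (p.hAB hV) (fun q : p.GA => p.S q.fst)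
      (fun q => (U (p.a q.fst), B (p.a q.fst)))
    have h2 := glue_hc_fst (P := p.R) (Q := P) p.hb p.S (fun w => (U (p.a w), B (p.a w)))
    have h3 := h1.trans h2
    refine le_of_eq (Eq.trans ?_ h3.symm)
    unfold ent inf mi
    ring
  d' := by
    have h1 := glue_hc_fst (P := p.QA) (Q := p.R) (p.hAB hV) (fun q : p.GA => V q.snd - U q.snd)
      (fun q => (q.fst, B (p.a q.fst)))
    have h2 := glue_hc_ci (P := p.R) (Q := P) p.hb (fun w => (w, B (p.a w)))
      (fun ω => V ω - U ω) (fun w w' e => by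
        simp only [Prod.mk.injEq] at e
        rw [e.1])
    have h3 := h1.trans h2
    refine le_of_eq (Eq.trans ?_ h3.symm)
    rw [mi_symm]
    unfold mi
    ring
  s2' := by
    have h2 := glue_hc_ci (P := p.QA) (Q := p.R) (p.hAB hV)
      (fun q : p.GA => (q.fst, q.snd, B (p.a q.fst))) p.S (fun w w' e => by
        simp only [Prod.mk.injEq] at e
        simp only [eA]
        rw [e.2.1])
    refine le_of_eq (Eq.trans ?_ h2.symm)
    unfold ent inf mi
    have : hc p.R p.S p.sB = hc p.R p.S (fun ω => (U (p.a ω), B (p.a ω))) := rfl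
    rw [this]
    ring
  sum := by
    refine le_trans (le_of_eq ?_) hη
    show hc (p.QB hV) _ _ = hc (p.QB hV) (p.tr hV).S (fun q => B (p.a q.fst.fst))
    congr 1
    funext q
    exact (p.S_tr hV q).symm
  pos := by
    have h0 : (fun q : p.GB V => U (p.a q.fst.fst) + p.S q.fst.fst) = fun q => p.b q.fst.fst := by
      funext q
      simp only [S]
      abel
    rw [h0]
    have h1 := glue_hc_fst (P := p.QA) (Q := p.R) (p.hAB hV) (fun q : p.GA => p.b q.fst)
      (fun q => B (p.a q.fst))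
    have h2 := glue_hc_fst (P := p.R) (Q := P) p.hb p.b (fun w => B (p.a w))
    have h3 := hc_law p.hb (pr_snd p.hb)
    exact le_of_eq (h1.trans (h2.trans h3))
  detU := fun q q' e => by rw [e]
  detS := fun q q' e => by rw [e]
  detD := fun q q' e => by rw [e]

/-- the information grows at most by a factor two -/
lemma inf_tr : (p.tr hV).inf ≤ 2 * p.inf + mi P U (fun ω => V ω - U ω) B := by
  have h := p.tri hV (η := (p.tr hV).ent - p.ent) (by linarith)
  have h0 : (p.tr hV).inf = mi (p.QB hV)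
      (fun q => p.S q.fst.fst + (V q.fst.snd - U q.fst.snd) + p.S q.snd)
      (fun q => U (p.a q.fst.fst)) (fun q => B (p.a q.fst.fst)) := by
    show mi (p.QB hV) (p.tr hV).S (fun q => U (p.a q.fst.fst)) (fun q => B (p.a q.fst.fst)) = _
    congr 1
    funext q
    exact p.S_tr hV q
  rw [h0]
  have h1 := mi_mono (p.QB hV)
    (X := fun q => p.S q.fst.fst + (V q.fst.snd - U q.fst.snd) + p.S q.snd)
    (X' := fun q => (p.S q.snd, (V q.fst.snd - U q.fst.snd), p.S q.fst.fst))
    (fun q => U (p.a q.fst.fst)) (C := fun q => B (p.a q.fst.fst)) (fun q q' e _ => by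
      simp only [Prod.mk.injEq] at e
      rw [e.1, e.2.1, e.2.2])
  refine h1.trans ?_
  unfold mi
  have k1 := hc_pair_le (p.QB hV) (fun q => p.S q.snd)
    (fun q => ((V q.fst.snd - U q.fst.snd), p.S q.fst.fst)) (fun q => B (p.a q.fst.fst))
  have k2 := hc_pair_le (p.QB hV) (fun q => V q.fst.snd - U q.fst.snd)
    (fun q => p.S q.fst.fst) (fun q => B (p.a q.fst.fst))
  have k3 := h.s1
  have k4 := h.s2
  have k5 := h.d
  have c1 := hc_chain (p.QB hV) (fun q => p.S q.snd)
    (fun q => ((V q.fst.snd - U q.fst.snd), p.S q.fst.fst))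
    (fun q => (U (p.a q.fst.fst), B (p.a q.fst.fst)))
  have c2 := hc_chain (p.QB hV) (fun q => V q.fst.snd - U q.fst.snd) (fun q => p.S q.fst.fst)
    (fun q => (U (p.a q.fst.fst), B (p.a q.fst.fst)))
  have l1 := h.s1'
  have l2 := h.s2W (fun q => (((V q.fst.snd - U q.fst.snd), p.S q.fst.fst),
    (U (p.a q.fst.fst), B (p.a q.fst.fst)))) (fun q q' a b c => by
      rw [a, b])
  have l3 := h.d'.trans (hc_anti (p.QB hV) (X := fun q => V q.fst.snd - U q.fst.snd)
    (D := fun q => (p.S q.fst.fst, (U (p.a q.fst.fst), B (p.a q.fst.fst)))) fun q q' e => by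
      simp only [Prod.mk.injEq] at e
      rw [e.1])
  unfold mi at l1 l2 l3
  linarith

end tr

/-- iterated paths -/
noncomputable def it (hV : ∀ x, P.pr (fun ω => (V ω, B ω)) x = P.pr (fun ω => (U ω, B ω)) x) :
    ℕ → Path P B U
  | 0 => step hV
  | n + 1 => (it hV n).tr hV

lemma inf_it (hV : ∀ x, P.pr (fun ω => (V ω, B ω)) x = P.pr (fun ω => (U ω, B ω)) x) (n : ℕ) :
    (it hV n).inf ≤ (2 ^ (n + 1) - 1) * mi P U (fun ω => V ω - U ω) B := by
  induction n with
  | zero =>
    have : (it hV 0).inf = mi P (fun ω => V ω - U ω) U B := rfl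
    rw [this, mi_symm]
    norm_num
  | succ n ih =>
    have h := (it hV n).inf_tr hV
    have e : (it hV (n + 1)).inf = ((it hV n).tr hV).inf := rfl
    rw [e]
    refine h.trans ?_
    have : (2 : ℝ) ^ (n + 1 + 1) = 2 * 2 ^ (n + 1) := by ring
    rw [this]
    linarith

end Path

namespace Path

variable {Ω : Type} [Fintype Ω] {d : ℕ} {β : Type*} {P : Law Ω} {B : Ω → β}
  {U V : Ω → Fin d → ℤ}

lemma pr_pos_ex (P : Law Ω) {S : Type*} (X : Ω → S) (x : S) (h : 0 < P.pr X x) :
    ∃ ω, 0 < P.w ω ∧ X ω = x := by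
  classical
  by_contra hn
  push Not at hn
  have : P.pr X x ≤ 0 := by
    unfold Law.pr
    refine Finset.sum_nonpos fun ω hω => ?_
    simp only [mem_filter, mem_univ, true_and] at hω
    by_contra hc
    push Not at hc
    exact hn ω hc hω
  linarith

lemma ent_le (p : Path P B U) (M : ℕ)
    (hM : ∀ ω ω', 0 < P.w ω → 0 < P.w ω' → B ω = B ω' → ∀ i, |U ω i - U ω' i| ≤ M) :
    p.ent ≤ d * Real.log (2 * M + 1) := by
  refine hc_box p.R p.S _ M fun w hw i => ?_
  have h1 : 0 < P.w (p.a w) := by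
    rw [← p.ha]
    exact lt_of_lt_of_le hw (p.R.w_le_pr p.a w)
  have h2 : 0 < P.pr (fun ω => (U ω, B ω)) (p.b w, B (p.a w)) := by
    rw [← p.hb]
    exact lt_of_lt_of_le hw (p.R.w_le_pr (fun w => (p.b w, B (p.a w))) w)
  obtain ⟨ω, hω, e⟩ := pr_pos_ex P _ _ h2
  simp only [Prod.mk.injEq] at e
  have := hM ω (p.a w) hω h1 e.2 i
  rw [e.1] at this
  exact this

end Path

/-- the chain lemma: sections 4.1-4.3 of PROOF.md -/
theorem chain (d : ℕ) (ε : ℝ) (hε : 0 < ε) : ∃ δ : ℝ, 0 < δ ∧ ∀ (θ : ℝ), 0 < θ → ∀ M : ℕ,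
    Real.log (2 * M + 1) ≤ 2 * θ → ∀ (Ω : Type) [Fintype Ω] (P : Law Ω) (β : Type)
    (B : Ω → β) (U V : Ω → Fin d → ℤ),
    (∀ x, P.pr (fun ω => (V ω, B ω)) x = P.pr (fun ω => (U ω, B ω)) x) →
    (∀ ω ω', 0 < P.w ω → 0 < P.w ω' → B ω = B ω' → ∀ i, |U ω i - U ω' i| ≤ M) →
    mi P U (fun ω => V ω - U ω) B ≤ δ * θ →
    ∃ (Ω' : Type) (_ : Fintype Ω') (P' : Law Ω') (π0 π1 : Ω' → Ω) (Z Pi : Ω' → Fin d → ℤ),
      (∀ ω, P'.pr π0 ω = P.w ω) ∧ (∀ ω, P'.pr π1 ω = P.w ω) ∧ (∀ w, B (π1 w) = B (π0 w)) ∧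
      mi P' (fun w => (π0 w, π1 w)) Z (fun w => B (π0 w)) ≤ ε * θ ∧
      mi P' Pi (fun w => (π0 w, π1 w)) (fun w => (Z w, B (π0 w))) = 0 ∧
      hc P' (fun w => U (π0 w) + Pi w) (fun w => (Z w, B (π0 w))) ≤ hc P U B + ε * θ ∧
      hc P' (fun w => V (π1 w) - U (π1 w) + Pi w) (fun w => (Z w, B (π0 w))) ≤
        hc P' Pi (fun w => (Z w, B (π0 w))) + ε * θ := by
  set e := ε / 40 with he
  have he0 : 0 < e := by positivity
  obtain ⟨N, hN⟩ := exists_nat_gt (2 * d / e)
  refine ⟨e / 2 ^ (N + 1), by positivity, ?_⟩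
  intro θ hθ M hlog Ω _ P β B U V hV hM hδ
  set δ := mi P U (fun ω => V ω - U ω) B with hδdef
  have hp : (1 : ℝ) ≤ 2 ^ (N + 1) := one_le_pow₀ (by norm_num)
  have hδ1 : 2 ^ (N + 1) * δ ≤ e * θ := by
    have := mul_le_mul_of_nonneg_left hδ (by positivity : (0 : ℝ) ≤ 2 ^ (N + 1))
    refine this.trans (le_of_eq ?_)
    field_simp
  -- δ is nonnegative
  have hδ0 : 0 ≤ δ := by
    have := hc_anti P (X := U) (C := fun ω => (V ω - U ω, B ω)) (D := B) (fun ω ω' h => by
      simp only [Prod.mk.injEq] at h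
      exact h.2)
    rw [hδdef]
    unfold mi
    linarith
  have hδ2 : δ ≤ e * θ := by nlinarith
  -- pigeonhole
  obtain ⟨n, hn, hη⟩ : ∃ n, n < N ∧ (Path.it hV (n + 1)).ent ≤ (Path.it hV n).ent + e * θ := by
    by_contra hcon
    push Not at hcon
    have hk : ∀ n, n ≤ N → n * (e * θ) ≤ (Path.it hV n).ent := by
      intro n
      induction n with
      | zero =>
        intro _
        simp only [Nat.cast_zero, zero_mul]
        exact hc_nonneg _ _ _
      | succ n ih =>
        intro h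
        have h1 := ih (by omega)
        have h2 := hcon n (by omega)
        push_cast
        linarith
    have h1 := hk N le_rfl
    have h2 := (Path.it hV N).ent_le M hM
    have h3 : (d : ℝ) * Real.log (2 * M + 1) ≤ d * (2 * θ) :=
      mul_le_mul_of_nonneg_left hlog (by positivity)
    rw [div_lt_iff₀ he0] at hN
    nlinarith
  set p := Path.it hV n with hpdef
  have hη' : (p.tr hV).ent ≤ p.ent + e * θ := hη
  have hτ : p.inf ≤ e * θ := by
    have h1 := Path.inf_it hV n
    have h2 : ((2 : ℝ) ^ (n + 1) - 1) * δ ≤ 2 ^ (N + 1) * δ := by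
      have : (2 : ℝ) ^ (n + 1) ≤ 2 ^ (N + 1) := pow_le_pow_right₀ (by norm_num) (by omega)
      exact mul_le_mul_of_nonneg_right (by linarith) hδ0
    exact h1.trans (h2.trans hδ1)
  have T := p.tri hV hη'
  refine ⟨Law.GT (zb (fun q : p.GB V => p.S q.fst.fst) (fun q => p.S q.snd)
      (fun q => B (p.a q.fst.fst))) (zb (fun q : p.GB V => p.S q.fst.fst) (fun q => p.S q.snd)
      (fun q => B (p.a q.fst.fst))), inferInstance,
    cp (p.QB hV) (fun q => p.S q.fst.fst) (fun q => p.S q.snd) (fun q => B (p.a q.fst.fst)),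
    fun r => p.a r.fst.fst.fst, fun r => r.fst.fst.snd,
    fun r => p.S r.fst.fst.fst + p.S r.fst.snd, fun r => -p.S r.snd.fst.fst,
    ?_, ?_, ?_, ?_, ?_, ?_, ?_⟩
  · intro ω
    have h1 := Law.glue_pr (P := p.QB hV) (Q := p.QB hV)
      (X₁ := zb (fun q : p.GB V => p.S q.fst.fst) (fun q => p.S q.snd)
        (fun q => B (p.a q.fst.fst)))
      (X₂ := zb (fun q : p.GB V => p.S q.fst.fst) (fun q => p.S q.snd)
        (fun q => B (p.a q.fst.fst))) (fun _ => rfl) (fun q => p.a q.fst.fst) ω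
    exact h1.trans ((p.tr hV).ha ω)
  · intro ω
    have h1 := Law.glue_pr (P := p.QB hV) (Q := p.QB hV)
      (X₁ := zb (fun q : p.GB V => p.S q.fst.fst) (fun q => p.S q.snd)
        (fun q => B (p.a q.fst.fst)))
      (X₂ := zb (fun q : p.GB V => p.S q.fst.fst) (fun q => p.S q.snd)
        (fun q => B (p.a q.fst.fst))) (fun _ => rfl) (fun q => q.fst.snd) ω
    have h2 := Law.glue_pr (P := p.QA) (Q := p.R) (p.hAB hV) (fun q : p.GA => q.snd) ω
    have h3 := Law.glue_pr' (P := p.R) (Q := P) p.hb (fun w => w) ω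
    exact h1.trans (h2.trans (h3.trans (Path.pr_id P ω)))
  · intro r
    exact p.B1 r.fst
  · have h1 := T.cost (fun q => (p.a q.fst.fst, q.fst.snd)) (fun q q' a b => by
      rw [a, b])
    have h2 := glue_hc_fst (P := p.QB hV) (Q := p.QB hV)
      (X₁ := zb (fun q : p.GB V => p.S q.fst.fst) (fun q => p.S q.snd)
        (fun q => B (p.a q.fst.fst)))
      (X₂ := zb (fun q : p.GB V => p.S q.fst.fst) (fun q => p.S q.snd)
        (fun q => B (p.a q.fst.fst))) (fun _ => rfl) (fun q => (p.a q.fst.fst, q.fst.snd))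
        (fun q => B (p.a q.fst.fst))
    have h3 := glue_hc_fst (P := p.QB hV) (Q := p.QB hV)
      (X₁ := zb (fun q : p.GB V => p.S q.fst.fst) (fun q => p.S q.snd)
        (fun q => B (p.a q.fst.fst)))
      (X₂ := zb (fun q : p.GB V => p.S q.fst.fst) (fun q => p.S q.snd)
        (fun q => B (p.a q.fst.fst))) (fun _ => rfl) (fun q => (p.a q.fst.fst, q.fst.snd))
        (fun q => (p.S q.fst.fst + p.S q.snd, B (p.a q.fst.fst)))
    have h5 : hc (p.QB hV) (fun q => (p.a q.fst.fst, q.fst.snd)) (fun q => B (p.a q.fst.fst)) -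
        hc (p.QB hV) (fun q => (p.a q.fst.fst, q.fst.snd))
          (fun q => (p.S q.fst.fst + p.S q.snd, B (p.a q.fst.fst))) ≤
        e * θ + δ + 2 * p.inf := h1
    have h4 : mi (cp (p.QB hV) (fun q => p.S q.fst.fst) (fun q => p.S q.snd)
        (fun q => B (p.a q.fst.fst))) (fun r => (p.a r.fst.fst.fst, r.fst.fst.snd))
        (fun r => p.S r.fst.fst.fst + p.S r.fst.snd) (fun r => B (p.a r.fst.fst.fst)) =
        hc (p.QB hV) (fun q => (p.a q.fst.fst, q.fst.snd)) (fun q => B (p.a q.fst.fst)) -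
        hc (p.QB hV) (fun q => (p.a q.fst.fst, q.fst.snd))
          (fun q => (p.S q.fst.fst + p.S q.snd, B (p.a q.fst.fst))) := by
      rw [← h2, ← h3]
      rfl
    rw [h4]
    nlinarith
  · have h1 := T.out3
    have h2 := mi_symm (cp (p.QB hV) (fun q => p.S q.fst.fst) (fun q => p.S q.snd)
        (fun q => B (p.a q.fst.fst))) (fun r => -p.S r.snd.fst.fst)
        (fun r => (p.a r.fst.fst.fst, r.fst.fst.snd))
        (fun r => (p.S r.fst.fst.fst + p.S r.fst.snd, B (p.a r.fst.fst.fst)))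
    have h3 := mi_mono (cp (p.QB hV) (fun q => p.S q.fst.fst) (fun q => p.S q.snd)
        (fun q => B (p.a q.fst.fst))) (X := fun r => (p.a r.fst.fst.fst, r.fst.fst.snd))
        (X' := fun r => r.fst) (fun r => -p.S r.snd.fst.fst)
        (C := fun r => (p.S r.fst.fst.fst + p.S r.fst.snd, B (p.a r.fst.fst.fst)))
        (fun r r' e _ => by rw [e])
    have h4 := mi_symm (cp (p.QB hV) (fun q => p.S q.fst.fst) (fun q => p.S q.snd)
        (fun q => B (p.a q.fst.fst))) (fun r => r.fst) (fun r => -p.S r.snd.fst.fst)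
        (fun r => (p.S r.fst.fst.fst + p.S r.fst.snd, B (p.a r.fst.fst.fst)))
    have h5 : mi (cp (p.QB hV) (fun q => p.S q.fst.fst) (fun q => p.S q.snd)
        (fun q => B (p.a q.fst.fst))) (fun r => -p.S r.snd.fst.fst) (fun r => r.fst)
        (fun r => (p.S r.fst.fst.fst + p.S r.fst.snd, B (p.a r.fst.fst.fst))) = 0 := h1
    have h6 : 0 ≤ mi (cp (p.QB hV) (fun q => p.S q.fst.fst) (fun q => p.S q.snd)
        (fun q => B (p.a q.fst.fst))) (fun r => -p.S r.snd.fst.fst)
        (fun r => (p.a r.fst.fst.fst, r.fst.fst.snd))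
        (fun r => (p.S r.fst.fst.fst + p.S r.fst.snd, B (p.a r.fst.fst.fst))) := by
      unfold mi
      have := hc_anti (cp (p.QB hV) (fun q => p.S q.fst.fst) (fun q => p.S q.snd)
        (fun q => B (p.a q.fst.fst))) (X := fun r => -p.S r.snd.fst.fst)
        (C := fun r => ((p.a r.fst.fst.fst, r.fst.fst.snd),
          (p.S r.fst.fst.fst + p.S r.fst.snd, B (p.a r.fst.fst.fst))))
        (D := fun r => (p.S r.fst.fst.fst + p.S r.fst.snd, B (p.a r.fst.fst.fst)))
        (fun r r' e => by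
          simp only [Prod.mk.injEq] at e ⊢
          exact e.2)
      linarith
    linarith
  · have h1 := T.out1
    have h2 : hc (cp (p.QB hV) (fun q => p.S q.fst.fst) (fun q => p.S q.snd)
        (fun q => B (p.a q.fst.fst))) (fun r => U (p.a r.fst.fst.fst) + -p.S r.snd.fst.fst)
        (fun r => (p.S r.fst.fst.fst + p.S r.fst.snd, B (p.a r.fst.fst.fst))) ≤
        hc P U B + 2 * (e * θ) + 2 * δ + 6 * p.inf := h1
    nlinarith
  · have h1 := T.out2
    have h2 : hc (cp (p.QB hV) (fun q => p.S q.fst.fst) (fun q => p.S q.snd)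
        (fun q => B (p.a q.fst.fst)))
        (fun r => V r.fst.fst.snd - U r.fst.fst.snd + -p.S r.snd.fst.fst)
        (fun r => (p.S r.fst.fst.fst + p.S r.fst.snd, B (p.a r.fst.fst.fst))) ≤
        hc (cp (p.QB hV) (fun q => p.S q.fst.fst) (fun q => p.S q.snd)
        (fun q => B (p.a q.fst.fst))) (fun r => -p.S r.snd.fst.fst)
        (fun r => (p.S r.fst.fst.fst + p.S r.fst.snd, B (p.a r.fst.fst.fst))) +
        6 * (e * θ) + 5 * δ + 11 * p.inf := h1
    nlinarith

end Vale.Agent.P127.Stk.Chn
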