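import Vale.Agent.P127.Stk.Add

/-!
# P127 / Stk : paths obtained by repeated gluing (first part of the absorption lemma)
-/

namespace Vale.Agent.P127.Stk.Chn

open Finset Vale.Agent.P127 Vale.Agent.P127.Stk Vale.Agent.P127.Stk.Add Vale.Agent.P127.Law

section gen

variable {Ω Ω' Ω₁ Ω₂ : Type} [Fintype Ω] [Fintype Ω'] [Fintype Ω₁] [Fintype Ω₂]
  {S S' T T' U V W : Type*}

lemma pr_zero (P : Law Ω) (X : Ω → S) (x : S) (h : x ∉ img X) : P.pr X x = 0 := by
  classical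
  unfold Law.pr
  refine Finset.sum_eq_zero fun ω hω => ?_
  simp only [mem_filter, mem_univ, true_and] at hω
  exact absurd (mem_img.2 ⟨ω, hω⟩) h

lemma H_sum (P : Law Ω) (X : Ω → S) (F : Finset S) (h : img X ⊆ F) :
    P.H X = ∑ x ∈ F, P.pr X x * (- Real.log (P.pr X x)) := by
  have h1 := P.ex_comp X (fun x => - Real.log (P.pr X x))
  unfold Law.H
  rw [h1]
  refine Finset.sum_subset h fun x _ hx => ?_
  rw [pr_zero P X x hx, zero_mul]

/-- the entropy depends only on the law -/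
theorem H_law {P : Law Ω} {Q : Law Ω'} {X : Ω → S} {Y : Ω' → S}
    (h : ∀ x, P.pr X x = Q.pr Y x) : P.H X = Q.H Y := by
  classical
  rw [H_sum P X (img X ∪ img Y) Finset.subset_union_left,
    H_sum Q Y (img X ∪ img Y) Finset.subset_union_right]
  exact Finset.sum_congr rfl fun x _ => by rw [h]

lemma ex_of {R : Law Ω'} {P : Law Ω} {a : Ω' → Ω} (ha : ∀ ω, R.pr a ω = P.w ω) (f : Ω → ℝ) :
    R.ex (fun w => f (a w)) = P.ex f := by
  classical
  rw [R.ex_comp a f]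
  have h : ∑ x ∈ img a, R.pr a x * f x = ∑ x, R.pr a x * f x :=
    Finset.sum_subset (Finset.subset_univ _) fun x _ hx => by rw [pr_zero R a x hx, zero_mul]
  rw [h]
  unfold Law.ex
  exact Finset.sum_congr rfl fun x _ => by rw [ha]

lemma pr_of {R : Law Ω'} {P : Law Ω} {a : Ω' → Ω} (ha : ∀ ω, R.pr a ω = P.w ω) (f : Ω → S)
    (x : S) : R.pr (fun w => f (a w)) x = P.pr f x := by
  rw [Law.pr_eq_ex, Law.pr_eq_ex]
  exact ex_of ha (fun ω => Law.ind (f ω = x))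

lemma H_of {R : Law Ω'} {P : Law Ω} {a : Ω' → Ω} (ha : ∀ ω, R.pr a ω = P.w ω) (f : Ω → S) :
    R.H (fun w => f (a w)) = P.H f := H_law (pr_of ha f)

lemma hc_of {R : Law Ω'} {P : Law Ω} {a : Ω' → Ω} (ha : ∀ ω, R.pr a ω = P.w ω) (f : Ω → S)
    (g : Ω → T) : hc R (fun w => f (a w)) (fun w => g (a w)) = hc P f g := by
  unfold hc
  rw [H_of ha g, H_of ha (fun ω => (f ω, g ω))]

lemma hc_law {P : Law Ω} {Q : Law Ω'} {X : Ω → S} {Y : Ω' → S} {C : Ω → T} {D : Ω' → T}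
    (h : ∀ x, P.pr (fun ω => (X ω, C ω)) x = Q.pr (fun ω => (Y ω, D ω)) x) 
    (h' : ∀ x, P.pr C x = Q.pr D x) : hc P X C = hc Q Y D := by
  unfold hc
  rw [H_law h, H_law h']

/-- second marginal of a law of pairs -/
lemma pr_snd {P : Law Ω} {Q : Law Ω'} {X : Ω → S} {Y : Ω' → S} {C : Ω → T} {D : Ω' → T}
    (h : ∀ x, P.pr (fun ω => (X ω, C ω)) x = Q.pr (fun ω => (Y ω, D ω)) x) (x : T) :
    P.pr C x = Q.pr D x := by
  classical
  have key : ∀ {Ω₀ : Type} [Fintype Ω₀] (P₀ : Law Ω₀) (X₀ : Ω₀ → S) (C₀ : Ω₀ → T)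
      (F : Finset (S × T)), img (fun ω => (X₀ ω, C₀ ω)) ⊆ F →
      P₀.pr C₀ x = ∑ z ∈ F, P₀.pr (fun ω => (X₀ ω, C₀ ω)) z * Law.ind (z.2 = x) := by
    intro Ω₀ _ P₀ X₀ C₀ F hF
    rw [Law.pr_eq_ex]
    have := P₀.ex_comp (fun ω => (X₀ ω, C₀ ω)) (fun z => Law.ind (z.2 = x))
    rw [this]
    exact Finset.sum_subset hF fun z _ hz => by rw [pr_zero P₀ _ z hz, zero_mul]
  rw [key P X C (img (fun ω => (X ω, C ω)) ∪ img (fun ω => (Y ω, D ω))) Finset.subset_union_left,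
    key Q Y D (img (fun ω => (X ω, C ω)) ∪ img (fun ω => (Y ω, D ω))) Finset.subset_union_right]
  exact Finset.sum_congr rfl fun z _ => by rw [h]

/-- symmetry of the information -/
theorem mi_symm (P : Law Ω) (X : Ω → S) (Y : Ω → T) (C : Ω → U) :
    mi P X Y C = mi P Y X C := by
  have h1 := hc_chain P X Y C
  have h2 := hc_chain P Y X C
  have h3 : hc P (fun ω => (X ω, Y ω)) C = hc P (fun ω => (Y ω, X ω)) C :=
    hc_eq P fun ω ω' _ => by simp only [Prod.mk.injEq, and_comm]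
  unfold mi
  linarith

/-- data processing -/
theorem mi_mono (P : Law Ω) {X : Ω → S} {X' : Ω → S'} (Y : Ω → T) {C : Ω → U}
    (h : ∀ ω ω', X' ω = X' ω' → C ω = C ω' → X ω = X ω') : mi P X Y C ≤ mi P X' Y C := by
  have e1 : hc P (fun ω => (X' ω, X ω)) C = hc P X' C := hc_eq P fun ω ω' hC => by
    simp only [Prod.mk.injEq]
    exact ⟨fun e => ⟨e, h ω ω' e hC⟩, fun e => e.1⟩
  have e2 : hc P (fun ω => (X' ω, X ω)) (fun ω => (Y ω, C ω)) = hc P X' (fun ω => (Y ω, C ω)) :=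
    hc_eq P fun ω ω' hC => by
      simp only [Prod.mk.injEq] at hC ⊢
      exact ⟨fun e => ⟨e, h ω ω' e hC.2⟩, fun e => e.1⟩
  have h1 := hc_chain P X' X C
  have h2 := hc_chain P X' X (fun ω => (Y ω, C ω))
  have h3 := hc_anti P (X := X') (C := fun ω => (X ω, Y ω, C ω)) (D := fun ω => (X ω, C ω))
    (fun ω ω' e => by
      simp only [Prod.mk.injEq] at e ⊢
      exact ⟨e.1, e.2.2⟩)
  unfold mi
  linarith

variable {P : Law Ω₁} {Q : Law Ω₂} {X₁ : Ω₁ → S} {X₂ : Ω₂ → S}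

lemma glue_hc_fst (h : ∀ x, P.pr X₁ x = Q.pr X₂ x) (f : Ω₁ → T) (g : Ω₁ → U) :
    hc (Law.glue P Q X₁ X₂ h) (fun p => f p.fst) (fun p => g p.fst) = hc P f g := by
  unfold hc
  rw [Law.glue_H h (fun a => (f a, g a)), Law.glue_H h g]

lemma glue_hc_snd (h : ∀ x, P.pr X₁ x = Q.pr X₂ x) (f : Ω₂ → T) (g : Ω₂ → U) :
    hc (Law.glue P Q X₁ X₂ h) (fun p => f p.snd) (fun p => g p.snd) = hc Q f g := by
  unfold hc
  rw [Law.glue_H' h (fun a => (f a, g a)), Law.glue_H' h g]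

/-- conditional independence in a glued law -/
theorem glue_hc_ci (h : ∀ x, P.pr X₁ x = Q.pr X₂ x) (f : Ω₁ → T) (g : Ω₂ → U)
    (hf : ∀ a a', f a = f a' → X₁ a = X₁ a') :
    hc (Law.glue P Q X₁ X₂ h) (fun p => g p.snd) (fun p => f p.fst) = hc Q g X₂ := by
  have h1 := Law.glue_indep h f g
  have h2 : (Law.glue P Q X₁ X₂ h).H (fun p => (g p.snd, f p.fst)) =
      (Law.glue P Q X₁ X₂ h).H (fun p => (f p.fst, g p.snd, X₁ p.fst)) :=
    Law.H_congr _ fun p p' => by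
      simp only [Prod.mk.injEq]
      exact ⟨fun e => ⟨e.2, e.1, hf _ _ e.2⟩, fun e => ⟨e.2.1, e.1⟩⟩
  have h3 : P.H (fun a => (f a, X₁ a)) = P.H f := Law.H_congr _ fun a a' => by
    simp only [Prod.mk.injEq]
    exact ⟨fun e => e.1, fun e => ⟨e, hf _ _ e⟩⟩
  have h4 : P.H X₁ = Q.H X₂ := H_law h
  have h5 := Law.glue_H h f
  unfold hc
  rw [h2, h1, h3, h4, h5]
  ring

/-- the same with the roles exchanged -/
theorem glue_hc_ci' (h : ∀ x, P.pr X₁ x = Q.pr X₂ x) (f : Ω₁ → T) (g : Ω₂ → U)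
    (hg : ∀ a a', g a = g a' → X₂ a = X₂ a') :
    hc (Law.glue P Q X₁ X₂ h) (fun p => f p.fst) (fun p => g p.snd) = hc P f X₁ := by
  have h1 := Law.glue_indep h f g
  have h2 : (Law.glue P Q X₁ X₂ h).H (fun p => (f p.fst, g p.snd)) =
      (Law.glue P Q X₁ X₂ h).H (fun p => (f p.fst, g p.snd, X₁ p.fst)) :=
    Law.H_congr _ fun p p' => by
      simp only [Prod.mk.injEq]
      refine ⟨fun e => ⟨e.1, e.2, ?_⟩, fun e => ⟨e.1, e.2.1⟩⟩
      rw [p.eq, p'.eq]
      exact hg _ _ e.2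
  have h3 : Q.H (fun a => (g a, X₂ a)) = Q.H g := Law.H_congr _ fun a a' => by
    simp only [Prod.mk.injEq]
    exact ⟨fun e => e.1, fun e => ⟨e, hg _ _ e⟩⟩
  have h5 := Law.glue_H' h g
  unfold hc
  rw [h2, h1, h3, h5]
  ring

/-- bounded vectors of integers -/
theorem hc_box {d : ℕ} (P : Law Ω) (X : Ω → Fin d → ℤ) (C : Ω → T) (M : ℕ)
    (h : ∀ ω, 0 < P.w ω → ∀ i, |X ω i| ≤ M) : hc P X C ≤ d * Real.log (2 * M + 1) := by
  classical
  set F : Finset (Fin d → ℤ) := Fintype.piFinset (fun _ => Finset.Icc (-(M : ℤ)) M) with hF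
  have hcard : (F.card : ℝ) = (2 * M + 1) ^ d := by
    rw [hF, Fintype.card_piFinset]
    simp only [Int.card_Icc, prod_const, card_univ, Fintype.card_fin]
    have : ((M : ℤ) + 1 - -(M : ℤ)).toNat = 2 * M + 1 := by omega
    rw [this]
    push_cast
    ring
  have hpos : (0 : ℝ) < (2 * M + 1) ^ d := by positivity
  have hb := P.gibbs_cond X C (fun x _ => if x ∈ F then 1 / (2 * M + 1 : ℝ) ^ d else 0)
    (fun x _ => by split_ifs <;> positivity) (fun _ F' => by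
      rw [← Finset.sum_filter]
      rw [Finset.sum_const, nsmul_eq_mul]
      have : ((F'.filter (fun x => x ∈ F)).card : ℝ) ≤ F.card := by
        exact_mod_cast Finset.card_le_card fun x hx => (Finset.mem_filter.1 hx).2
      rw [hcard] at this
      rw [mul_one_div, div_le_one hpos]
      exact this) (fun ω hω => by
      have : X ω ∈ F := by
        rw [hF, Fintype.mem_piFinset]
        intro i
        rw [Finset.mem_Icc]
        exact abs_le.1 (h ω hω i)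
      rw [if_pos this]
      positivity)
  unfold hc
  refine hb.trans (le_of_eq ?_)
  rw [← P.ex_const (d * Real.log (2 * M + 1))]
  refine P.ex_congr fun ω hω => ?_
  have : X ω ∈ F := by
    rw [hF, Fintype.mem_piFinset]
    intro i
    rw [Finset.mem_Icc]
    exact abs_le.1 (h ω hω i)
  rw [if_pos this, one_div, Real.log_inv, neg_neg, Real.log_pow]

end gen

end Vale.Agent.P127.Stk.Chn
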