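import Vale.Agent.P127.Stk.AbsChnA

/-!
# P127 / Stk : the triple (path, step, path) and its copy
-/

namespace Vale.Agent.P127.Stk.Chn

open Finset Vale.Agent.P127 Vale.Agent.P127.Stk Vale.Agent.P127.Stk.Add Vale.Agent.P127.Law

/-- a triple of almost independent increments with a sum of small entropy -/
structure Tri {Ω : Type} [Fintype Ω] {G β α₁ α₂ : Type*} [AddCommGroup G] (Q : Law Ω)
    (F1 : Ω → α₁) (Om : Ω → α₂) (U0 S1 D S2 : Ω → G) (B : Ω → β) (f g τ δ η u : ℝ) : Prop where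
  s1 : hc Q S1 B = f
  d : hc Q D B = g
  s2 : hc Q S2 B = f
  s1' : f - τ ≤ hc Q S1 (fun ω => (U0 ω, B ω))
  d' : g - δ ≤ hc Q D (fun ω => (F1 ω, B ω))
  s2' : f - τ ≤ hc Q S2 (fun ω => (F1 ω, Om ω, B ω))
  sum : hc Q (fun ω => S1 ω + D ω + S2 ω) B ≤ f + η
  pos : hc Q (fun ω => U0 ω + S1 ω) B ≤ u
  detU : ∀ ω ω', F1 ω = F1 ω' → U0 ω = U0 ω'
  detS : ∀ ω ω', F1 ω = F1 ω' → S1 ω = S1 ω'
  detD : ∀ ω ω', Om ω = Om ω' → D ω = D ω'

namespace Tri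

variable {Ω : Type} [Fintype Ω] {G β α₁ α₂ γ : Type*} [AddCommGroup G] {Q : Law Ω}
    {F1 : Ω → α₁} {Om : Ω → α₂} {U0 S1 D S2 : Ω → G} {B : Ω → β} {f g τ δ η u : ℝ}

lemma s2W (h : Tri Q F1 Om U0 S1 D S2 B f g τ δ η u) (W : Ω → γ)
    (hW : ∀ ω ω', F1 ω = F1 ω' → Om ω = Om ω' → B ω = B ω' → W ω = W ω') :
    f - τ ≤ hc Q S2 W :=
  h.s2'.trans (hc_anti Q fun ω ω' e => by
    simp only [Prod.mk.injEq] at e
    exact hW ω ω' e.1 e.2.1 e.2.2)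

lemma low3 (h : Tri Q F1 Om U0 S1 D S2 B f g τ δ η u) :
    2 * f + g - δ - τ ≤ hc Q (fun ω => ((S1 ω, S2 ω), D ω)) B := by
  have e1 : hc Q (fun ω => ((S1 ω, S2 ω), D ω)) B = hc Q (fun ω => (S2 ω, (D ω, S1 ω))) B :=
    hc_eq Q fun ω ω' _ => by
      simp only [Prod.mk.injEq]
      tauto
  have c1 := hc_chain Q S2 (fun ω => (D ω, S1 ω)) B
  have c2 := hc_chain Q D S1 B
  have l1 := h.s2W (fun ω => ((D ω, S1 ω), B ω)) (fun ω ω' a b c => by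
    rw [h.detD ω ω' b, h.detS ω ω' a, c])
  have l2 : g - δ ≤ hc Q D (fun ω => (S1 ω, B ω)) := h.d'.trans (hc_anti Q fun ω ω' e => by
    simp only [Prod.mk.injEq] at e
    rw [h.detS ω ω' e.1, e.2])
  have := h.s1
  linarith

lemma up2 (h : Tri Q F1 Om U0 S1 D S2 B f g τ δ η u) :
    hc Q (fun ω => (S1 ω, S2 ω)) B ≤ 2 * f := by
  have := hc_pair_le Q S1 S2 B
  have := h.s1
  have := h.s2
  linarith

lemma low2 (h : Tri Q F1 Om U0 S1 D S2 B f g τ δ η u) :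
    2 * f - τ ≤ hc Q (fun ω => (S1 ω, S2 ω)) B := by
  have e1 : hc Q (fun ω => (S1 ω, S2 ω)) B = hc Q (fun ω => (S2 ω, S1 ω)) B :=
    hc_eq Q fun ω ω' _ => by
      simp only [Prod.mk.injEq]
      tauto
  have c1 := hc_chain Q S2 S1 B
  have l1 := h.s2W (fun ω => (S1 ω, B ω)) (fun ω ω' a b c => by
    rw [h.detS ω ω' a, c])
  have := h.s1
  linarith

/-- `H(Z | D)` -/
lemma z_d (h : Tri Q F1 Om U0 S1 D S2 B f g τ δ η u) :
    hc Q (fun ω => S1 ω + S2 ω) (fun ω => (D ω, B ω)) ≤ f + η := by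
  refine (add_lower Q (fun ω => S1 ω + S2 ω) D B).trans ?_
  refine le_trans (le_of_eq ?_) h.sum
  congr 1
  funext ω
  abel

lemma z_up (h : Tri Q F1 Om U0 S1 D S2 B f g τ δ η u) :
    hc Q (fun ω => S1 ω + S2 ω) B ≤ f + η + δ + τ := by
  have h1 := h.z_d
  have h2 := mi_mono Q (X := fun ω => S1 ω + S2 ω) (X' := fun ω => (S1 ω, S2 ω)) D (C := B)
    (fun ω ω' e _ => by
      simp only [Prod.mk.injEq] at e
      rw [e.1, e.2])
  have h3 := hc_chain Q (fun ω => (S1 ω, S2 ω)) D B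
  have h4 := h.low3
  have h5 := h.up2
  have h6 := h.d
  unfold mi at h2
  linarith

lemma z_low (h : Tri Q F1 Om U0 S1 D S2 B f g τ δ η u) (W : Ω → γ)
    (hW : ∀ ω ω', F1 ω = F1 ω' → Om ω = Om ω' → B ω = B ω' → W ω = W ω') :
    f - τ ≤ hc Q (fun ω => S1 ω + S2 ω) W := by
  refine h.s2'.trans ?_
  have e1 : hc Q S2 (fun ω => (F1 ω, Om ω, B ω)) ≤
      hc Q (fun ω => S1 ω + S2 ω) (fun ω => (F1 ω, Om ω, B ω)) := hc_mono Q fun ω ω' e e' => by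
    simp only [Prod.mk.injEq] at e'
    rw [h.detS ω ω' e'.1] at e
    exact add_left_cancel e
  refine e1.trans (hc_anti Q fun ω ω' e => ?_)
  simp only [Prod.mk.injEq] at e
  exact hW ω ω' e.1 e.2.1 e.2.2

lemma sd (h : Tri Q F1 Om U0 S1 D S2 B f g τ δ η u) :
    hc Q (fun ω => S1 ω + D ω) B ≤ f + η + τ := by
  have h1 := add_lower Q (fun ω => S1 ω + D ω) S2 B
  have h2 := h.sum
  have h3 := mi_symm Q (fun ω => S1 ω + D ω) S2 B
  have h4 := h.s2W (fun ω => (S1 ω + D ω, B ω)) (fun ω ω' a b c => by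
    rw [h.detS ω ω' a, h.detD ω ω' b, c])
  have h5 := h.s2
  unfold mi at h3
  linarith

lemma s2d (h : Tri Q F1 Om U0 S1 D S2 B f g τ δ η u) :
    hc Q (fun ω => S2 ω - D ω) B ≤ f + 2 * η + 2 * δ + 3 * τ := by
  have h1 := ruzsa Q S2 S1 D B (δ := δ + τ) (by
    have e1 : hc Q (fun ω => (S2 ω, S1 ω, D ω)) B = hc Q (fun ω => ((S1 ω, S2 ω), D ω)) B :=
      hc_eq Q fun ω ω' _ => by
        simp only [Prod.mk.injEq]
        tauto
    rw [e1]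
    have := h.low3
    have := h.s1
    have := h.s2
    have := h.d
    linarith)
  have h2 := h.z_up
  have h3 := h.sd
  have h4 : hc Q (fun ω => S2 ω + S1 ω) B = hc Q (fun ω => S1 ω + S2 ω) B := by
    congr 1
    funext ω
    abel
  have h5 := h.s1
  linarith

lemma sd_z (h : Tri Q F1 Om U0 S1 D S2 B f g τ δ η u) :
    hc Q (fun ω => S1 ω + D ω) (fun ω => (S1 ω + S2 ω, B ω)) ≤ f + 3 * η + 2 * δ + 5 * τ := by
  have c := hc_chain Q (fun ω => S1 ω + D ω) (fun ω => S1 ω + S2 ω) B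
  have e : hc Q (fun ω => (S1 ω + D ω, S1 ω + S2 ω)) B =
      hc Q (fun ω => (S1 ω + D ω, S2 ω - D ω)) B := hc_eq Q fun ω ω' _ => by
    simp only [Prod.mk.injEq]
    constructor
    · rintro ⟨e1, e2⟩
      refine ⟨e1, ?_⟩
      have : ∀ w, S1 w + S2 w = (S1 w + D w) + (S2 w - D w) := fun w => by abel
      rw [this ω, this ω', e1, e2]
    · rintro ⟨e1, e2⟩
      refine ⟨e1, ?_⟩
      have : ∀ w, S2 w - D w = (S1 w + S2 w) - (S1 w + D w) := fun w => by abel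
      rw [this ω, this ω', e1, e2]
  have h1 := hc_pair_le Q (fun ω => S1 ω + D ω) (fun ω => S2 ω - D ω) B
  have h2 := h.sd
  have h3 := h.s2d
  have h4 := h.z_low B (fun _ _ _ _ c => c)
  linarith

lemma pair_eq {C : Ω → γ} : hc Q (fun ω => (S1 ω, S1 ω + S2 ω)) C =
    hc Q (fun ω => (S1 ω, S2 ω)) C := hc_eq Q fun ω ω' _ => by
  simp only [Prod.mk.injEq]
  constructor
  · rintro ⟨e1, e2⟩
    exact ⟨e1, by rw [e1, e2]⟩
  · rintro ⟨e1, e2⟩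
    rw [e1] at e2
    exact ⟨e1, add_left_cancel e2⟩

lemma s1_z (h : Tri Q F1 Om U0 S1 D S2 B f g τ δ η u) :
    f - η - δ - 2 * τ ≤ hc Q S1 (fun ω => (S1 ω + S2 ω, B ω)) := by
  have c := hc_chain Q S1 (fun ω => S1 ω + S2 ω) B
  have e := pair_eq (Q := Q) (S1 := S1) (S2 := S2) (C := B)
  have h1 := h.low2
  have h2 := h.z_up
  linarith

lemma s1_uz (h : Tri Q F1 Om U0 S1 D S2 B f g τ δ η u) :
    f - η - δ - 3 * τ ≤ hc Q S1 (fun ω => (U0 ω, (S1 ω + S2 ω, B ω))) := by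
  have c := hc_chain Q S1 (fun ω => S1 ω + S2 ω) (fun ω => (U0 ω, B ω))
  have e := pair_eq (Q := Q) (S1 := S1) (S2 := S2) (C := fun ω => (U0 ω, B ω))
  have e1 : hc Q (fun ω => (S1 ω, S2 ω)) (fun ω => (U0 ω, B ω)) =
      hc Q (fun ω => (S2 ω, S1 ω)) (fun ω => (U0 ω, B ω)) :=
    hc_eq Q fun ω ω' _ => by
      simp only [Prod.mk.injEq]
      tauto
  have c1 := hc_chain Q S2 S1 (fun ω => (U0 ω, B ω))
  have l1 := h.s2W (fun ω => (S1 ω, U0 ω, B ω)) (fun ω ω' a b c => by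
    rw [h.detS ω ω' a, h.detU ω ω' a, c])
  have l2 := h.s1'
  have l3 := hc_anti Q (X := fun ω => S1 ω + S2 ω) (C := fun ω => (U0 ω, B ω)) (D := B)
    (fun ω ω' e => by simp only [Prod.mk.injEq] at e; exact e.2)
  have l4 := h.z_up
  have e2 : hc Q S1 (fun ω => (S1 ω + S2 ω, U0 ω, B ω)) =
      hc Q S1 (fun ω => (U0 ω, (S1 ω + S2 ω, B ω))) :=
    le_antisymm (hc_anti Q fun ω ω' e => by
      simp only [Prod.mk.injEq] at e ⊢
      tauto) (hc_anti Q fun ω ω' e => by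
      simp only [Prod.mk.injEq] at e ⊢
      tauto)
  linarith

lemma s1_dz (h : Tri Q F1 Om U0 S1 D S2 B f g τ δ η u) :
    f - η - δ - τ ≤ hc Q S1 (fun ω => (D ω, (S1 ω + S2 ω, B ω))) := by
  have c := hc_chain Q S1 (fun ω => S1 ω + S2 ω) (fun ω => (D ω, B ω))
  have e := pair_eq (Q := Q) (S1 := S1) (S2 := S2) (C := fun ω => (D ω, B ω))
  have c1 := hc_chain Q (fun ω => (S1 ω, S2 ω)) D B
  have l1 := h.low3
  have l2 := h.d
  have l4 := h.z_d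
  have e2 : hc Q S1 (fun ω => (S1 ω + S2 ω, D ω, B ω)) =
      hc Q S1 (fun ω => (D ω, (S1 ω + S2 ω, B ω))) :=
    le_antisymm (hc_anti Q fun ω ω' e => by
      simp only [Prod.mk.injEq] at e ⊢
      tauto) (hc_anti Q fun ω ω' e => by
      simp only [Prod.mk.injEq] at e ⊢
      tauto)
  linarith

lemma cost (h : Tri Q F1 Om U0 S1 D S2 B f g τ δ η u) (F : Ω → γ)
    (hF : ∀ ω ω', F1 ω = F1 ω' → Om ω = Om ω' → F ω = F ω') :
    mi Q F (fun ω => S1 ω + S2 ω) B ≤ η + δ + 2 * τ := by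
  have h1 := mi_symm Q F (fun ω => S1 ω + S2 ω) B
  have h2 := h.z_up
  have h3 := h.z_low (fun ω => (F ω, B ω)) (fun ω ω' a b c => by
    rw [hF ω ω' a b, c])
  unfold mi at h1 ⊢
  linarith

end Tri

end Vale.Agent.P127.Stk.Chn
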