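import Vale.Agent.P127.Stk.AbsChnB

/-!
# P127 / Stk : the conditionally independent copy of the first path
-/

namespace Vale.Agent.P127.Stk.Chn

open Finset Vale.Agent.P127 Vale.Agent.P127.Stk Vale.Agent.P127.Stk.Add Vale.Agent.P127.Law

section

variable {Ω₁ Ω₂ : Type} [Fintype Ω₁] [Fintype Ω₂] {S T U W : Type*}
  {P : Law Ω₁} {Q : Law Ω₂} {X₁ : Ω₁ → S} {X₂ : Ω₂ → S}

theorem glue_hc_ci2 (h : ∀ x, P.pr X₁ x = Q.pr X₂ x) (f : Ω₁ → T) (g : Ω₁ → U) (k : Ω₂ → W)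
    (hk : ∀ a a', k a = k a' → X₂ a = X₂ a') :
    hc (Law.glue P Q X₁ X₂ h) (fun p => f p.fst) (fun p => (g p.fst, k p.snd)) =
      hc P f (fun a => (g a, X₁ a)) := by
  have c1 := hc_chain (Law.glue P Q X₁ X₂ h) (fun p => f p.fst) (fun p => g p.fst)
    (fun p => k p.snd)
  have c2 := hc_chain P f g X₁
  have e1 := glue_hc_ci' h (fun a => (f a, g a)) k hk
  have e2 := glue_hc_ci' h g k hk
  linarith

end

variable {Ω : Type} [Fintype Ω] {G β α₁ α₂ : Type*} [AddCommGroup G] {Q : Law Ω}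
    {F1 : Ω → α₁} {Om : Ω → α₂} {U0 S1 D S2 : Ω → G} {B : Ω → β} {f g τ δ η u : ℝ}

/-- the key of the copy -/
def zb (S1 S2 : Ω → G) (B : Ω → β) : Ω → G × β := fun ω => (S1 ω + S2 ω, B ω)

/-- two copies, conditionally independent given the sum -/
noncomputable def cp (Q : Law Ω) (S1 S2 : Ω → G) (B : Ω → β) :
    Law (Law.GT (zb S1 S2 B) (zb S1 S2 B)) :=
  Law.glue Q Q (zb S1 S2 B) (zb S1 S2 B) (fun _ => rfl)

namespace Tri

/-- Balog-Szemeredi-Gowers for the triple -/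
lemma bsg' (h : Tri Q F1 Om U0 S1 D S2 B f g τ δ η u) :
    hc (cp Q S1 S2 B) (fun p => S1 p.fst - S2 p.snd) (fun p => B p.fst) ≤
      f + η + δ + 3 * τ := by
  have hB : (fun p : Law.GT (zb S1 S2 B) (zb S1 S2 B) => B p.fst) = fun p => B p.snd := by
    funext p
    have := p.eq
    simp only [zb, Prod.mk.injEq] at this
    exact this.2
  have hs : ∀ p : Law.GT (zb S1 S2 B) (zb S1 S2 B), S1 p.fst + S2 p.fst = S1 p.snd + S2 p.snd := by
    intro p
    have := p.eq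
    simp only [zb, Prod.mk.injEq] at this
    exact this.1
  have m1 : hc (cp Q S1 S2 B) (fun p => S1 p.fst) (fun p => B p.fst) = f :=
    (glue_hc_fst _ S1 B).trans h.s1
  have m2 : hc (cp Q S1 S2 B) (fun p => S2 p.fst) (fun p => B p.fst) = f :=
    (glue_hc_fst _ S2 B).trans h.s2
  have m3 : hc (cp Q S1 S2 B) (fun p => S1 p.snd) (fun p => B p.fst) = f := by
    rw [hB]
    exact (glue_hc_snd _ S1 B).trans h.s1
  have m4 : hc (cp Q S1 S2 B) (fun p => S2 p.snd) (fun p => B p.fst) = f := by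
    rw [hB]
    exact (glue_hc_snd _ S2 B).trans h.s2
  have m5 : hc (cp Q S1 S2 B) (fun p => S1 p.fst + S2 p.fst) (fun p => B p.fst) =
      hc Q (fun ω => S1 ω + S2 ω) B := glue_hc_fst _ (fun ω => S1 ω + S2 ω) B
  have m6 : hc (cp Q S1 S2 B) (fun p => (S1 p.fst, S2 p.fst)) (fun p => B p.fst) =
      hc Q (fun ω => (S1 ω, S2 ω)) B := glue_hc_fst _ (fun ω => (S1 ω, S2 ω)) B
  have m7 : hc (cp Q S1 S2 B) (fun p => (S1 p.snd, S2 p.snd)) (fun p => B p.fst) =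
      hc Q (fun ω => (S1 ω, S2 ω)) B := by
    rw [hB]
    exact glue_hc_snd _ (fun ω => (S1 ω, S2 ω)) B
  -- joint entropy
  have c1 := hc_chain (cp Q S1 S2 B) (fun p => (S1 p.snd, S2 p.snd)) (fun p => (S1 p.fst, S2 p.fst))
    (fun p => B p.fst)
  have c2 : hc (cp Q S1 S2 B) (fun p => (S1 p.snd, S2 p.snd))
      (fun p => ((S1 p.fst, S2 p.fst), B p.fst)) = hc Q (fun ω => (S1 ω, S2 ω)) (zb S1 S2 B) :=
    glue_hc_ci _ (fun ω => ((S1 ω, S2 ω), B ω)) (fun ω => (S1 ω, S2 ω)) (fun a a' e => by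
      simp only [Prod.mk.injEq] at e
      simp only [zb, Prod.mk.injEq]
      rw [e.1.1, e.1.2]
      exact ⟨rfl, e.2⟩)
  have c3 := hc_chain Q (fun ω => (S1 ω, S2 ω)) (fun ω => S1 ω + S2 ω) B
  have c4 : hc Q (fun ω => ((S1 ω, S2 ω), S1 ω + S2 ω)) B = hc Q (fun ω => (S1 ω, S2 ω)) B :=
    hc_eq Q fun ω ω' _ => by
      simp only [Prod.mk.injEq]
      constructor
      · rintro ⟨e1, e2⟩
        exact ⟨⟨e1, e2⟩, by rw [e1, e2]⟩
      · exact fun e => e.1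
  have c5 : hc (cp Q S1 S2 B) (fun p => ((S1 p.snd, S2 p.snd), (S1 p.fst, S2 p.fst)))
      (fun p => B p.fst) =
      hc (cp Q S1 S2 B) (fun p => ((S1 p.fst, S2 p.fst), (S1 p.snd, S2 p.snd)))
        (fun p => B p.fst) := hc_eq _ fun ω ω' _ => by
      simp only [Prod.mk.injEq]
      tauto
  have hz : hc Q (fun ω => (S1 ω, S2 ω)) (fun ω => (S1 ω + S2 ω, B ω)) =
    hc Q (fun ω => (S1 ω, S2 ω)) (zb S1 S2 B) := rfl
  have b := bsg (cp Q S1 S2 B) (fun p => B p.fst) (δ := 0) (fun p => S1 p.fst)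
    (fun p => S2 p.fst) (fun p => S1 p.snd) (fun p => S2 p.snd) hs (by linarith)
  have l1 := h.z_up
  have l2 := h.low2
  linarith

/-- the same for the sum of the two copies -/
lemma sum2 (h : Tri Q F1 Om U0 S1 D S2 B f g τ δ η u) :
    hc (cp Q S1 S2 B) (fun p => -S1 p.snd - S1 p.fst) (fun p => zb S1 S2 B p.fst) ≤
      f + η + δ + 3 * τ := by
  refine le_trans ?_ h.bsg'
  refine le_trans ?_ (hc_anti (cp Q S1 S2 B) (C := fun p => zb S1 S2 B p.fst)
    (D := fun p => B p.fst) (fun p p' e => by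
      simp only [zb, Prod.mk.injEq] at e
      exact e.2))
  refine hc_mono _ fun p p' e e' => ?_
  have h1 := p.eq
  have h2 := p'.eq
  simp only [zb, Prod.mk.injEq] at e' h1 h2
  have k : ∀ q : Law.GT (zb S1 S2 B) (zb S1 S2 B), S1 q.fst + S2 q.fst = S1 q.snd + S2 q.snd →
      -S1 q.snd - S1 q.fst = -(S1 q.fst - S2 q.snd) - (S1 q.fst + S2 q.fst) := by
    intro q hq
    rw [hq]
    abel
  rw [k p h1.1, k p' h2.1, e, e'.1]

/-- the position absorbs the copy -/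
lemma out1 (h : Tri Q F1 Om U0 S1 D S2 B f g τ δ η u) :
    hc (cp Q S1 S2 B) (fun p => U0 p.fst + -S1 p.snd) (fun p => zb S1 S2 B p.fst) ≤
      u + 2 * η + 2 * δ + 6 * τ := by
  have hs := swap (cp Q S1 S2 B) (fun p => U0 p.fst) (fun p => S1 p.fst) (fun p => -S1 p.snd)
    (fun p => zb S1 S2 B p.fst)
  have h1 := h.sum2
  have h2 : f - η - δ - 3 * τ ≤ hc (cp Q S1 S2 B) (fun p => S1 p.fst)
      (fun p => (U0 p.fst, -S1 p.snd, zb S1 S2 B p.fst)) := by
    have e := glue_hc_ci2 (P := Q) (Q := Q) (X₁ := zb S1 S2 B) (X₂ := zb S1 S2 B)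
      (fun _ => rfl) S1 U0 (fun ω => (S1 ω, zb S1 S2 B ω)) (fun a a' e => by
        simp only [Prod.mk.injEq] at e
        exact e.2)
    have l := h.s1_uz
    refine le_trans (l.trans (le_of_eq e.symm)) (hc_anti _ fun p p' e' => ?_)
    simp only [Prod.mk.injEq] at e' ⊢
    refine ⟨e'.1, by rw [e'.2.1], ?_⟩
    rw [p.eq, p'.eq]
    exact e'.2.2
  have h3 : hc (cp Q S1 S2 B) (fun p => U0 p.fst + S1 p.fst) (fun p => zb S1 S2 B p.fst) ≤ u := by
    have e := glue_hc_fst (P := Q) (Q := Q) (X₁ := zb S1 S2 B) (X₂ := zb S1 S2 B)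
      (fun _ => rfl) (fun ω => U0 ω + S1 ω) (zb S1 S2 B)
    refine (le_of_eq e).trans ((hc_anti Q (C := zb S1 S2 B) (D := B) fun ω ω' e => ?_).trans h.pos)
    simp only [zb, Prod.mk.injEq] at e
    exact e.2
  linarith

/-- entropy of the copy -/
lemma pi_eq : hc (cp Q S1 S2 B) (fun p => -S1 p.snd) (fun p => zb S1 S2 B p.fst) =
    hc Q S1 (zb S1 S2 B) := by
  have e0 : (fun p : Law.GT (zb S1 S2 B) (zb S1 S2 B) => zb S1 S2 B p.fst) =
      fun p => zb S1 S2 B p.snd := by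
    funext p
    exact p.eq
  rw [e0]
  have e := glue_hc_snd (P := Q) (Q := Q) (X₁ := zb S1 S2 B) (X₂ := zb S1 S2 B)
      (fun _ => rfl) (fun ω => -S1 ω) (zb S1 S2 B)
  refine e.trans (hc_eq Q fun ω ω' _ => ?_)
  exact neg_inj.symm

/-- the step absorbs the copy -/
lemma out2 (h : Tri Q F1 Om U0 S1 D S2 B f g τ δ η u) :
    hc (cp Q S1 S2 B) (fun p => D p.fst + -S1 p.snd) (fun p => zb S1 S2 B p.fst) ≤
      hc (cp Q S1 S2 B) (fun p => -S1 p.snd) (fun p => zb S1 S2 B p.fst) +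
        6 * η + 5 * δ + 11 * τ := by
  have hs := swap (cp Q S1 S2 B) (fun p => D p.fst) (fun p => S1 p.fst) (fun p => -S1 p.snd)
    (fun p => zb S1 S2 B p.fst)
  have h1 := h.sum2
  have h2 : f - η - δ - τ ≤ hc (cp Q S1 S2 B) (fun p => S1 p.fst)
      (fun p => (D p.fst, -S1 p.snd, zb S1 S2 B p.fst)) := by
    have e := glue_hc_ci2 (P := Q) (Q := Q) (X₁ := zb S1 S2 B) (X₂ := zb S1 S2 B)
      (fun _ => rfl) S1 D (fun ω => (S1 ω, zb S1 S2 B ω)) (fun a a' e => by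
        simp only [Prod.mk.injEq] at e
        exact e.2)
    have l := h.s1_dz
    refine le_trans (l.trans (le_of_eq e.symm)) (hc_anti _ fun p p' e' => ?_)
    simp only [Prod.mk.injEq] at e' ⊢
    refine ⟨e'.1, by rw [e'.2.1], ?_⟩
    rw [p.eq, p'.eq]
    exact e'.2.2
  have h3 : hc (cp Q S1 S2 B) (fun p => D p.fst + S1 p.fst) (fun p => zb S1 S2 B p.fst) ≤
      f + 3 * η + 2 * δ + 5 * τ := by
    have e := glue_hc_fst (P := Q) (Q := Q) (X₁ := zb S1 S2 B) (X₂ := zb S1 S2 B)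
      (fun _ => rfl) (fun ω => D ω + S1 ω) (zb S1 S2 B)
    refine (le_of_eq e).trans (le_trans (le_of_eq ?_) h.sd_z)
    have : (fun ω => D ω + S1 ω) = fun ω => S1 ω + D ω := by
      funext ω
      abel
    rw [this]
    rfl
  have h4 : f - η - δ - 2 * τ ≤
      hc (cp Q S1 S2 B) (fun p => -S1 p.snd) (fun p => zb S1 S2 B p.fst) := by
    rw [pi_eq]
    exact h.s1_z
  linarith

/-- the copy is independent of the first sample -/
lemma out3 (h : Tri Q F1 Om U0 S1 D S2 B f g τ δ η u) :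
    mi (cp Q S1 S2 B) (fun p => -S1 p.snd) (fun p => p.fst) (fun p => zb S1 S2 B p.fst) = 0 := by
  unfold mi
  rw [pi_eq]
  have e := glue_hc_ci (P := Q) (Q := Q) (X₁ := zb S1 S2 B) (X₂ := zb S1 S2 B)
      (fun _ => rfl) (fun ω => (ω, zb S1 S2 B ω)) (fun ω => -S1 ω) (fun a a' e => by
        simp only [Prod.mk.injEq] at e
        exact e.2)
  have e2 : hc Q (fun ω => -S1 ω) (zb S1 S2 B) = hc Q S1 (zb S1 S2 B) :=
    hc_eq Q fun ω ω' _ => neg_inj.symm
  have e3 := e.trans e2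
  unfold cp
  rw [e3]
  ring

end Tri

end Vale.Agent.P127.Stk.Chn
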