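import Vale.Agent.P127.Stk.Defs

/-!
# P127 / Stk : the absorption lemma (PROOF.md, section 4), final statement

`B` = conditioning data, `q` = coarse information, `X i` the variables, `X i = X 0 + φ i (B, q)` up to
a bounded error. The sample `π` with the extra information `Z` is the given law, `π1, π2` are two
samples with the same `X 0`, conditionally independent given `(X 0, B, Z)`. All costs are bounded in
terms of the WHOLE sample: `I(π ; Z | B) ≤ ε' θ`.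
-/

namespace Vale.Agent.P127.Stk

open Finset Vale.Agent.P127

/-- the hypotheses of the absorption lemma, with error `e` (an absolute number) -/
structure AbsHyp {Ω : Type} [Fintype Ω] {β κ : Type} {d J : ℕ} (N0 θ : ℕ) (ρ e : ℝ) (P : Law Ω)
    (B : Ω → β) (q : Ω → κ) (X : Fin (J + 1) → Ω → Fin d → ℤ)
    (φ : Fin (J + 1) → β → κ → Fin d → ℤ) : Prop where
  err : ∀ i ω c, |X i ω c - X 0 ω c - φ i (B ω) (q ω) c| ≤ N0
  rng : ∀ i ω ω', B ω = B ω' → ∀ c, |X i ω c - X i ω' c| ≤ 2 ^ θ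
  upp : ∀ i, hc P (X i) B ≤ ρ + e
  low : ρ - e ≤ hc P (X 0) (fun ω => (q ω, B ω))

/-- the conclusion of the absorption lemma, with error `e'` (an absolute number) -/
structure AbsCon {Ω : Type} [Fintype Ω] {β κ : Type} {d J : ℕ} (ρ e' : ℝ) (P : Law Ω)
    (B : Ω → β) (q : Ω → κ) (X : Fin (J + 1) → Ω → Fin d → ℤ)
    (φ : Fin (J + 1) → β → κ → Fin d → ℤ) (σ : Fin (J + 1) → ℤ)
    {Ω' : Type} [Fintype Ω'] (P' : Law Ω') {ζ : Type} (Z : Ω' → ζ) (π π1 π2 : Ω' → Ω) : Prop where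
  smp : ∀ ω, P'.pr π ω = P.w ω
  B1 : ∀ w, B (π1 w) = B (π w)
  B2 : ∀ w, B (π2 w) = B (π w)
  X12 : ∀ w, X 0 (π1 w) = X 0 (π2 w)
  law1 : ∀ z ω, P'.pr (fun w => (Z w, π1 w)) (z, ω) = P'.pr (fun w => (Z w, π w)) (z, ω)
  law2 : ∀ z ω, P'.pr (fun w => (Z w, π2 w)) (z, ω) = P'.pr (fun w => (Z w, π w)) (z, ω)
  ci12 : mi P' π1 π2 (fun w => (X 0 (π1 w), B (π w), Z w)) = 0
  ci0 : mi P' (fun w => (π1 w, π2 w)) π (fun w => (B (π w), Z w)) = 0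
  cost : mi P' π Z (fun w => B (π w)) ≤ e'
  main : hc P' (fun w c => X 0 (π w) c +
      ∑ i, σ i * (φ i (B (π w)) (q (π2 w)) c - φ i (B (π w)) (q (π1 w)) c))
      (fun w => (q (π w), B (π w), Z w)) ≤ ρ + e'

/-- the absorption lemma -/
def PAbs : Prop := ∀ (d J N0 : ℕ) (ε' : ℝ), 0 < ε' → ∃ ε : ℝ, 0 < ε ∧ ∃ θ0 : ℕ, ∀ θ : ℕ, θ0 ≤ θ →
  ∀ (Ω : Type) [Fintype Ω] (P : Law Ω) (β κ : Type) (B : Ω → β) (q : Ω → κ)
    (X : Fin (J + 1) → Ω → Fin d → ℤ) (φ : Fin (J + 1) → β → κ → Fin d → ℤ) (ρ : ℝ)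
    (σ : Fin (J + 1) → ℤ), (∀ i, σ i = 1 ∨ σ i = -1) →
    AbsHyp N0 θ ρ (ε * θ) P B q X φ →
    ∃ (Ω' : Type) (_ : Fintype Ω') (P' : Law Ω') (ζ : Type) (Z : Ω' → ζ) (π π1 π2 : Ω' → Ω),
      AbsCon ρ (ε' * θ) P B q X φ σ P' Z π π1 π2

end Vale.Agent.P127.Stk
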