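import Vale.Agent.P127.Stk.Lib
import Vale.Agent.P127.Stk.Props

/-!
# P127 / Stk : section 6, preparations
-/

namespace Vale.Agent.P127.Stk.Bs

open Finset Vale.Agent.P127 Vale.Agent.P127.Stk

section ap

variable {m : ℕ}

open Classical in
/-- the projection along the graph of `g` over the coordinates in `J` -/
noncomputable def ap (J : Finset (Fin m)) (g : Fin m → Fin m → ℝ) (v : Fin m → ℝ) :
    Fin m → ℝ :=
  fun i => if i ∈ J then 0 else v i - ∑ j ∈ J, g i j * v j

theorem app_eq {Ω : Type} {κ : ℕ} (o : Ob Ω m κ) (ω : Ω) (v : Fin m → ℝ) :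
    o.app ω v = ap o.J (o.Γ ω) v := rfl

theorem ap_mem {J : Finset (Fin m)} (g : Fin m → Fin m → ℝ) (v : Fin m → ℝ) {i : Fin m}
    (h : i ∈ J) : ap J g v i = 0 := by
  simp [ap, h]

theorem ap_nmem {J : Finset (Fin m)} (g : Fin m → Fin m → ℝ) (v : Fin m → ℝ) {i : Fin m}
    (h : i ∉ J) : ap J g v i = v i - ∑ j ∈ J, g i j * v j := by
  simp [ap, h]

theorem ap_add (J : Finset (Fin m)) (g : Fin m → Fin m → ℝ) (v w : Fin m → ℝ) (i : Fin m) :
    ap J g (fun i => v i + w i) i = ap J g v i + ap J g w i := by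
  by_cases h : i ∈ J
  · simp [ap_mem _ _ h]
  · simp only [ap_nmem _ _ h, mul_add, Finset.sum_add_distrib]
    ring

theorem ap_smul (J : Finset (Fin m)) (g : Fin m → Fin m → ℝ) (r : ℝ) (v : Fin m → ℝ)
    (i : Fin m) : ap J g (fun i => r * v i) i = r * ap J g v i := by
  by_cases h : i ∈ J
  · simp [ap_mem _ _ h]
  · simp only [ap_nmem _ _ h, mul_sub, Finset.mul_sum]
    congr 1
    exact Finset.sum_congr rfl fun j _ => by ring

theorem ap_sub (J : Finset (Fin m)) (g : Fin m → Fin m → ℝ) (v w : Fin m → ℝ) (i : Fin m) :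
    ap J g (fun i => v i - w i) i = ap J g v i - ap J g w i := by
  by_cases h : i ∈ J
  · simp [ap_mem _ _ h]
  · simp only [ap_nmem _ _ h, mul_sub, Finset.sum_sub_distrib]
    ring

theorem ap_le {J : Finset (Fin m)} {g : Fin m → Fin m → ℝ} {v : Fin m → ℝ} {G M : ℝ}
    (hG : 0 ≤ G) (hM : 0 ≤ M) (hg : ∀ i j, |g i j| ≤ G) (hv : ∀ i, |v i| ≤ M) (i : Fin m) :
    |ap J g v i| ≤ (1 + J.card * G) * M := by
  by_cases h : i ∈ J
  · rw [ap_mem _ _ h, abs_zero]
    positivity
  · rw [ap_nmem _ _ h]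
    have h1 : |∑ j ∈ J, g i j * v j| ≤ J.card * (G * M) := by
      refine (Finset.abs_sum_le_sum_abs _ _).trans ?_
      rw [← nsmul_eq_mul]
      refine Finset.sum_le_card_nsmul _ _ _ fun j _ => ?_
      rw [abs_mul]
      exact mul_le_mul (hg i j) (hv j) (abs_nonneg _) hG
    have h2 := abs_sub (v i) (∑ j ∈ J, g i j * v j)
    have h3 := hv i
    nlinarith

end ap

section diam

variable {Ω : Type} [Fintype Ω] {ι : Type} [Fintype ι] {T : Type*}

theorem fl_close {s : ℕ} {v w : ι → ℝ} (h : fl s v = fl s w) (i : ι) :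
    |v i - w i| ≤ (1 / 2 : ℝ) ^ s := by
  have h1 : ⌊(2 : ℝ) ^ s * v i⌋ = ⌊(2 : ℝ) ^ s * w i⌋ := congrFun h i
  have h2 := Int.abs_sub_lt_one_of_floor_eq_floor h1
  rw [← mul_sub, abs_mul, abs_of_pos (by positivity : (0 : ℝ) < 2 ^ s)] at h2
  rw [one_div, inv_pow, ← one_div, le_div_iff₀ (by positivity)]
  linarith

theorem fl1_close {s : ℕ} {v w : ℝ} (h : fl1 s v = fl1 s w) :
    |v - w| ≤ (1 / 2 : ℝ) ^ s := by
  have h2 := Int.abs_sub_lt_one_of_floor_eq_floor (h : ⌊(2 : ℝ) ^ s * v⌋ = ⌊(2 : ℝ) ^ s * w⌋)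
  rw [← mul_sub, abs_mul, abs_of_pos (by positivity : (0 : ℝ) < 2 ^ s)] at h2
  rw [one_div, inv_pow, ← one_div, le_div_iff₀ (by positivity)]
  linarith

/-- if the diameter of the values of `v` given `Y` is at most `N 2^{-s}`, then the first `s` digits
of `v` have bounded entropy given `Y` -/
theorem hc_fl_diam (P : Law Ω) (s N : ℕ) (v : Ω → ι → ℝ) (Y : Ω → T)
    (h : ∀ ω ω', 0 < P.w ω → 0 < P.w ω' → Y ω = Y ω' → ∀ i,
      |v ω i - v ω' i| ≤ N * (1 / 2 : ℝ) ^ s) :
    hc P (fun ω => fl s (v ω)) Y ≤ Fintype.card ι * Real.log (2 * N + 3) := by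
  classical
  have h1 := hc_le_log P (fun ω => fl s (v ω)) Y ((2 * N + 3) ^ Fintype.card ι) ?_
  · rw [Nat.cast_pow, Real.log_pow] at h1
    push_cast at h1
    exact h1
  · intro ω hω
    refine ⟨Fintype.piFinset fun i => Finset.Icc (fl s (v ω) i - (N + 1))
      (fl s (v ω) i + (N + 1)), ?_, ?_⟩
    · rw [Fintype.card_piFinset]
      have : ∀ i, (Finset.Icc (fl s (v ω) i - (N + 1)) (fl s (v ω) i + (N + 1))).card =
          2 * N + 3 := by
        intro i
        rw [Int.card_Icc]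
        omega
      simp only [this, Finset.prod_const, Finset.card_univ]
      exact le_rfl
    · intro ω' hω' hY
      rw [Fintype.mem_piFinset]
      intro i
      have h2 := fl_sub_le (s := s) (v := v ω') (w := v ω) (N := N)
        (fun i => h ω' ω hω' hω hY i) i
      rw [abs_le] at h2
      rw [Finset.mem_Icc]
      omega

end diam

section unif

variable {Ω : Type} [Fintype Ω] {S T U : Type*}

/-- the product of a law with the uniform law on `Fin M` -/
noncomputable def pu (Q : Law Ω) (M : ℕ) (hM : 0 < M) : Law (Ω × Fin M) where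
  w p := Q.w p.1 / M
  nn p := div_nonneg (Q.nn _) (Nat.cast_nonneg _)
  sum_one := by
    rw [Fintype.sum_prod_type]
    simp only [Finset.sum_const, Finset.card_univ, Fintype.card_fin, nsmul_eq_mul]
    have : ∀ x, (M : ℝ) * (Q.w x / M) = Q.w x := fun x => by
      have : (M : ℝ) ≠ 0 := by positivity
      field_simp
    simp only [this, Q.sum_one]

variable (Q : Law Ω) (M : ℕ) (hM : 0 < M)

theorem pu_pos {p : Ω × Fin M} : 0 < (pu Q M hM).w p ↔ 0 < Q.w p.1 := by
  have : (0 : ℝ) < M := by exact_mod_cast hM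
  simp only [pu]
  constructor
  · intro h
    by_contra hcon
    have := (Q.nn p.1).antisymm' (not_lt.1 hcon)
    rw [this, zero_div] at h
    exact lt_irrefl _ h
  · intro h
    positivity

theorem pu_ex_fst (f : Ω → ℝ) : (pu Q M hM).ex (fun p => f p.1) = Q.ex f := by
  have hM' : (M : ℝ) ≠ 0 := by positivity
  simp only [Law.ex, pu]
  rw [Fintype.sum_prod_type]
  refine Finset.sum_congr rfl fun x _ => ?_
  simp only [Finset.sum_const, Finset.card_univ, Fintype.card_fin, nsmul_eq_mul]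
  field_simp

theorem pu_pr_fst (X : Ω → S) (x : S) : (pu Q M hM).pr (fun p => X p.1) x = Q.pr X x := by
  rw [Law.pr_eq_ex, Law.pr_eq_ex]
  exact pu_ex_fst Q M hM fun ω => Law.ind (X ω = x)

theorem pu_H_fst (X : Ω → S) : (pu Q M hM).H (fun p => X p.1) = Q.H X := by
  unfold Law.H
  simp only [pu_pr_fst]
  exact pu_ex_fst Q M hM fun ω => -Real.log (Q.pr X (X ω))

theorem pu_hc_fst (X : Ω → S) (Y : Ω → T) :
    hc (pu Q M hM) (fun p => X p.1) (fun p => Y p.1) = hc Q X Y := by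
  unfold hc
  rw [pu_H_fst Q M hM Y, pu_H_fst Q M hM (fun ω => (X ω, Y ω))]

theorem pu_pr_pair (X : Ω → S) (k : Fin M) (x : S) :
    (pu Q M hM).pr (fun p => (p.2, X p.1)) (k, x) = Q.pr X x / M := by
  classical
  rw [Law.pr_eq_ex, Law.pr_eq_ex]
  simp only [Law.ex, pu]
  rw [Fintype.sum_prod_type, Finset.sum_div]
  refine Finset.sum_congr rfl fun ω _ => ?_
  rw [Finset.sum_eq_single k]
  · by_cases h : X ω = x
    · rw [Law.ind_of (by rw [h]), Law.ind_of h]
      ring
    · rw [Law.ind_not (by simp [h]), Law.ind_not h]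
      ring
  · intro k' _ hk'
    rw [Law.ind_not (by simp [hk']), mul_zero]
  · simp

theorem pu_H_pair (X : Ω → S) :
    (pu Q M hM).H (fun p => (p.2, X p.1)) = Real.log M + Q.H X := by
  have hM' : (0 : ℝ) < M := by exact_mod_cast hM
  unfold Law.H
  simp only [pu_pr_pair]
  rw [← pu_ex_fst Q M hM fun ω => -Real.log (Q.pr X (X ω)),
    ← (pu Q M hM).ex_const (Real.log M), ← Law.ex_add]
  refine Law.ex_congr _ fun p hp => ?_
  have h1 := Q.pr_pos X ((pu_pos Q M hM).1 hp)
  rw [Real.log_div h1.ne' hM'.ne']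
  ring

/-- the uniform variable is independent of everything else -/
theorem pu_hc_snd (Y : Ω → T) :
    hc (pu Q M hM) (fun p => p.2) (fun p => Y p.1) = Real.log M := by
  unfold hc
  rw [pu_H_pair, pu_H_fst]
  ring

theorem pu_hc_cond (X : Ω → S) (Y : Ω → T) :
    hc (pu Q M hM) (fun p => X p.1) (fun p => (p.2, Y p.1)) = hc Q X Y := by
  unfold hc
  rw [pu_H_pair]
  have : (pu Q M hM).H (fun p => (X p.1, p.2, Y p.1)) =
      (pu Q M hM).H (fun p => (p.2, X p.1, Y p.1)) := by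
    refine Law.H_congr _ fun p p' => ?_
    simp only [Prod.mk.injEq]
    tauto
  rw [this, pu_H_pair Q M hM (fun ω => (X ω, Y ω))]
  ring

end unif

end Vale.Agent.P127.Stk.Bs
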