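import Vale.Agent.P127.Stk.BaseA

/-!
# P127 / Stk : section 6, the displacement argument
-/

namespace Vale.Agent.P127.Stk.Bs

open Finset Vale.Agent.P127 Vale.Agent.P127.Stk

variable {m : ℕ} {Ω : Type} [Fintype Ω] {τ α : Type*}

/-- the data of the displacement argument, on the support of the law `Q` -/
structure DD (Q : Law Ω) (κ : ℕ) (x y : Ω → Fin m → ℝ) (t0 t1 : Ω → ℝ)
    (g0 g1 : Ω → Fin m → Fin m → ℝ) (T : Ω → τ) (J : Finset (Fin m)) (i0 j0 : Fin m)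
    (a β W : ℕ) : Prop where
  card : J.card = κ
  hi0 : i0 ∉ J
  hj0 : j0 ∈ J
  hx : ∀ w, 0 < Q.w w → ∀ i, 0 ≤ x w i ∧ x w i < 1
  hy : ∀ w, 0 < Q.w w → ∀ i, 0 ≤ y w i ∧ y w i < 1
  ht0 : ∀ w, 0 < Q.w w → 0 ≤ t0 w ∧ t0 w < 1
  ht1 : ∀ w, 0 < Q.w w → 0 ≤ t1 w ∧ t1 w < 1
  htt : ∀ w, 0 < Q.w w → |t0 w - t1 w| ≤ (1 / 2 : ℝ) ^ a
  hg0 : ∀ w, 0 < Q.w w → ∀ i j, |g0 w i j| ≤ 3 ^ κ
  hg1 : ∀ w, 0 < Q.w w → ∀ i j, |g1 w i j| ≤ 3 ^ κ
  hmx : ∀ w, 0 < Q.w w → ∀ i, i ∉ J → |g1 w i j0 - g0 w i j0| ≤ |g1 w i0 j0 - g0 w i0 j0|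
  hup : ∀ w, 0 < Q.w w → |g1 w i0 j0 - g0 w i0 j0| ≤ (2 * 3 ^ κ) * (1 / 2 : ℝ) ^ β
  hlo : ∀ w, 0 < Q.w w → (1 / 2 : ℝ) ^ (β + W) ≤ |g1 w i0 j0 - g0 w i0 j0|
  hfn : Fn Q (fun w => (t0 w, t1 w, g0 w, g1 w)) T

/-- the point at the time `t` -/
def pnt (x y : Ω → Fin m → ℝ) (t : Ω → ℝ) (w : Ω) : Fin m → ℝ := fun i => x w i + t w * y w i

open Classical in
/-- the normalised direction -/
noncomputable def vv (g0 g1 : Ω → Fin m → Fin m → ℝ) (J : Finset (Fin m)) (i0 j0 : Fin m)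
    (w : Ω) : Fin m → ℝ := fun i =>
  if i ∈ J then 0 else (g1 w i j0 - g0 w i j0) / (g1 w i0 j0 - g0 w i0 j0)

open Classical in
/-- the direction of the displacement -/
noncomputable def dv (g1 : Ω → Fin m → Fin m → ℝ) (J : Finset (Fin m)) (j0 : Fin m)
    (w : Ω) : Fin m → ℝ := fun i => if i ∈ J then (if i = j0 then 1 else 0) else g1 w i j0

open Classical in
/-- the projected displacement -/
noncomputable def Dv (g0 g1 : Ω → Fin m → Fin m → ℝ) (J : Finset (Fin m)) (j0 : Fin m)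
    (w : Ω) : Fin m → ℝ := fun i => if i ∈ J then 0 else g1 w i j0 - g0 w i j0

/-- the projected point -/
noncomputable def FF (x y : Ω → Fin m → ℝ) (t : Ω → ℝ) (g : Ω → Fin m → Fin m → ℝ)
    (J : Finset (Fin m)) (w : Ω) : Fin m → ℝ := ap J (g w) (pnt x y t w)

/-- the size of the displacement -/
noncomputable def mu (L : ℕ) (p : Ω × Fin (2 ^ L)) : ℝ := ((p.2 : ℕ) : ℝ) / ((2 ^ L : ℕ) : ℝ)

/-- the displaced point -/
noncomputable def cpt (L : ℕ) (x y : Ω → Fin m → ℝ) (t : Ω → ℝ) (g1 : Ω → Fin m → Fin m → ℝ)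
    (J : Finset (Fin m)) (j0 : Fin m) (p : Ω × Fin (2 ^ L)) : Fin m → ℝ := fun i =>
  pnt x y t p.1 i + mu L p * dv g1 J j0 p.1 i

/-- the displaced projected point -/
noncomputable def Yt (L : ℕ) (x y : Ω → Fin m → ℝ) (t : Ω → ℝ)
    (g0 g1 : Ω → Fin m → Fin m → ℝ)
    (J : Finset (Fin m)) (j0 : Fin m) (p : Ω × Fin (2 ^ L)) : Fin m → ℝ := fun i =>
  FF x y t g0 J p.1 i + mu L p * Dv g0 g1 J j0 p.1 i

open Classical in
/-- the coordinates in `J` -/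
noncomputable def cJt (L : ℕ) (x y : Ω → Fin m → ℝ) (t : Ω → ℝ) (g1 : Ω → Fin m → Fin m → ℝ)
    (J : Finset (Fin m)) (j0 : Fin m) (p : Ω × Fin (2 ^ L)) : Fin m → ℝ := fun i =>
  if i ∈ J then cpt L x y t g1 J j0 p i else 0

/-- the final projection -/
noncomputable def ZZ (x y : Ω → Fin m → ℝ) (t : Ω → ℝ) (g0 g1 : Ω → Fin m → Fin m → ℝ)
    (J : Finset (Fin m)) (i0 j0 : Fin m) (w : Ω) : Fin m → ℝ := fun i =>
  FF x y t g0 J w i - FF x y t g0 J w i0 * vv g0 g1 J i0 j0 w i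

/-- the constant in the closeness estimates -/
def NN (κ : ℕ) : ℕ := 10 * (κ + 1) * 3 ^ κ

theorem NN_eq (κ : ℕ) : (NN κ : ℝ) = 10 * (κ * 3 ^ κ) + 10 * 3 ^ κ := by
  unfold NN
  push_cast
  ring

theorem pow3 (κ : ℕ) : (1 : ℝ) ≤ 3 ^ κ := one_le_pow₀ (by norm_num)

theorem NN_mul (κ : ℕ) {δ A B : ℝ} (hδ : 0 ≤ δ) (hA : 0 ≤ A) (hB : 0 ≤ B) (hA' : A ≤ 10)
    (hB' : B ≤ 10) : (A * (κ * 3 ^ κ) + B * 3 ^ κ) * δ ≤ (NN κ : ℝ) * δ := by
  rw [NN_eq]
  refine mul_le_mul_of_nonneg_right ?_ hδ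
  have h1 : (0 : ℝ) ≤ κ * 3 ^ κ := by positivity
  have h2 := pow3 κ
  nlinarith

theorem one_NN (κ : ℕ) {δ : ℝ} (hδ : 0 ≤ δ) : δ ≤ (NN κ : ℝ) * δ := by
  have h1 := NN_mul κ hδ (le_refl (0 : ℝ)) zero_le_one (by norm_num) (by norm_num)
  have h2 := pow3 κ
  refine le_trans ?_ h1
  nlinarith

variable {Q : Law Ω} {κ : ℕ} {x y : Ω → Fin m → ℝ} {t0 t1 : Ω → ℝ}
    {g0 g1 : Ω → Fin m → Fin m → ℝ} {T : Ω → τ} {J : Finset (Fin m)} {i0 j0 : Fin m}
    {a β W L : ℕ}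

theorem mu0 (p : Ω × Fin (2 ^ L)) : 0 ≤ mu L p := by
  unfold mu
  positivity

theorem mu1 (p : Ω × Fin (2 ^ L)) : mu L p ≤ 1 := by
  unfold mu
  have hMr : (0 : ℝ) < ((2 ^ L : ℕ) : ℝ) := by positivity
  rw [div_le_one hMr]
  exact_mod_cast p.2.2.le

namespace DD

theorem hT (h : DD Q κ x y t0 t1 g0 g1 T J i0 j0 a β W) {w w' : Ω} (hw : 0 < Q.w w)
    (hw' : 0 < Q.w w') (hT : T w = T w') :
    t0 w = t0 w' ∧ t1 w = t1 w' ∧ g0 w = g0 w' ∧ g1 w = g1 w' := by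
  have := h.hfn w w' hw hw' hT
  simpa only [Prod.mk.injEq] using this

theorem hdT (h : DD Q κ x y t0 t1 g0 g1 T J i0 j0 a β W) {w w' : Ω} (hw : 0 < Q.w w)
    (hw' : 0 < Q.w w') (hT : T w = T w') : dv g1 J j0 w = dv g1 J j0 w' := by
  obtain ⟨_, _, _, h4⟩ := h.hT hw hw' hT
  unfold dv
  rw [h4]

theorem hDT (h : DD Q κ x y t0 t1 g0 g1 T J i0 j0 a β W) {w w' : Ω} (hw : 0 < Q.w w)
    (hw' : 0 < Q.w w') (hT : T w = T w') : Dv g0 g1 J j0 w = Dv g0 g1 J j0 w' := by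
  obtain ⟨_, _, h3, h4⟩ := h.hT hw hw' hT
  unfold Dv
  rw [h3, h4]

theorem hvT (h : DD Q κ x y t0 t1 g0 g1 T J i0 j0 a β W) {w w' : Ω} (hw : 0 < Q.w w)
    (hw' : 0 < Q.w w') (hT : T w = T w') : vv g0 g1 J i0 j0 w = vv g0 g1 J i0 j0 w' := by
  obtain ⟨_, _, h3, h4⟩ := h.hT hw hw' hT
  unfold vv
  rw [h3, h4]

theorem hD0 (h : DD Q κ x y t0 t1 g0 g1 T J i0 j0 a β W) {w : Ω} (hw : 0 < Q.w w) :
    g1 w i0 j0 - g0 w i0 j0 ≠ 0 := by
  intro h0
  have h1 := h.hlo w hw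
  rw [h0, abs_zero] at h1
  have : (0 : ℝ) < (1 / 2 : ℝ) ^ (β + W) := by positivity
  linarith

theorem Dv_i0 (h : DD Q κ x y t0 t1 g0 g1 T J i0 j0 a β W) (w : Ω) :
    Dv g0 g1 J j0 w i0 = g1 w i0 j0 - g0 w i0 j0 := by
  simp [Dv, h.hi0]

theorem hDv (h : DD Q κ x y t0 t1 g0 g1 T J i0 j0 a β W) {w : Ω} (hw : 0 < Q.w w) (i : Fin m) :
    Dv g0 g1 J j0 w i = Dv g0 g1 J j0 w i0 * vv g0 g1 J i0 j0 w i := by
  have h0 := h.hD0 hw
  rw [h.Dv_i0]
  by_cases hi : i ∈ J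
  · simp [Dv, vv, hi]
  · simp only [Dv, vv, if_neg hi]
    rw [mul_div_cancel₀ _ h0]

theorem hv1 (h : DD Q κ x y t0 t1 g0 g1 T J i0 j0 a β W) {w : Ω} (hw : 0 < Q.w w) (i : Fin m) :
    |vv g0 g1 J i0 j0 w i| ≤ 1 := by
  have h0 := h.hD0 hw
  by_cases hi : i ∈ J
  · simp [vv, hi]
  · simp only [vv, if_neg hi, abs_div]
    rw [div_le_one (abs_pos.2 h0)]
    exact h.hmx w hw i hi

theorem hDβ (h : DD Q κ x y t0 t1 g0 g1 T J i0 j0 a β W) {w : Ω} (hw : 0 < Q.w w) (i : Fin m) :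
    |Dv g0 g1 J j0 w i| ≤ (2 * 3 ^ κ) * (1 / 2 : ℝ) ^ β := by
  by_cases hi : i ∈ J
  · simp only [Dv, if_pos hi, abs_zero]
    positivity
  · simp only [Dv, if_neg hi]
    exact (h.hmx w hw i hi).trans (h.hup w hw)

theorem hgd (h : DD Q κ x y t0 t1 g0 g1 T J i0 j0 a β W) (g : Fin m → Fin m → ℝ) (w : Ω)
    {i : Fin m} (hi : i ∉ J) : ap J g (dv g1 J j0 w) i = g1 w i j0 - g i j0 := by
  classical
  rw [ap_nmem _ _ hi]
  have : ∑ j ∈ J, g i j * dv g1 J j0 w j = g i j0 := by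
    rw [Finset.sum_eq_single j0]
    · simp [dv, h.hj0]
    · intro j hj hjj
      simp [dv, hj, hjj]
    · intro hcon
      exact absurd h.hj0 hcon
  rw [this]
  simp [dv, hi]

theorem hg1d (h : DD Q κ x y t0 t1 g0 g1 T J i0 j0 a β W) (w : Ω) (i : Fin m) :
    ap J (g1 w) (dv g1 J j0 w) i = 0 := by
  by_cases hi : i ∈ J
  · exact ap_mem _ _ hi
  · rw [h.hgd _ _ hi, sub_self]

theorem hYZ (h : DD Q κ x y t0 t1 g0 g1 T J i0 j0 a β W) {p : Ω × Fin (2 ^ L)}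
    (hp : 0 < Q.w p.1) (i : Fin m) : ZZ x y t0 g0 g1 J i0 j0 p.1 i =
      Yt L x y t0 g0 g1 J j0 p i - Yt L x y t0 g0 g1 J j0 p i0 * vv g0 g1 J i0 j0 p.1 i := by
  simp only [Yt, ZZ]
  have h1 := h.hDv hp i
  rw [h1]
  ring

theorem hY0 (h : DD Q κ x y t0 t1 g0 g1 T J i0 j0 a β W) (p : Ω × Fin (2 ^ L)) (i : Fin m) :
    Yt L x y t0 g0 g1 J j0 p i = ap J (g0 p.1) (cpt L x y t0 g1 J j0 p) i := by
  have h1 : ap J (g0 p.1) (cpt L x y t0 g1 J j0 p) i =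
      ap J (g0 p.1) (pnt x y t0 p.1) i + mu L p * ap J (g0 p.1) (dv g1 J j0 p.1) i := by
    unfold cpt
    rw [ap_add J (g0 p.1) (pnt x y t0 p.1) (fun i => mu L p * dv g1 J j0 p.1 i) i, ap_smul]
  rw [h1]
  simp only [Yt, FF]
  congr 2
  by_cases hi : i ∈ J
  · rw [ap_mem _ _ hi]
    simp [Dv, hi]
  · rw [h.hgd _ _ hi]
    simp [Dv, hi]

variable (A : Ω → α)

theorem hpos {p : Ω × Fin (2 ^ L)} (hp : 0 < (pu Q (2 ^ L) (Nat.two_pow_pos L)).w p) :
    0 < Q.w p.1 := (pu_pos Q (2 ^ L) _).1 hp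

/-- the displaced point given the displacement -/
theorem sA1 (h : DD Q κ x y t0 t1 g0 g1 T J i0 j0 a β W) :
    hc Q (fun w => fl a (pnt x y t0 w)) (fun w => (T w, A w)) - m * Real.log (2 * NN κ + 3) ≤
      hc (pu Q (2 ^ L) (Nat.two_pow_pos L)) (fun p => fl a (cpt L x y t0 g1 J j0 p))
        (fun p => (p.2, T p.1, A p.1)) := by
  have hM := Nat.two_pow_pos L
  rw [← pu_hc_cond Q (2 ^ L) hM (fun w => fl a (pnt x y t0 w)) (fun w => (T w, A w))]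
  have h1 := hc_le_add (pu Q (2 ^ L) hM) (fun p => fl a (pnt x y t0 p.1))
    (fun p => fl a (cpt L x y t0 g1 J j0 p)) (fun p => (p.2, T p.1, A p.1))
  have h2 := hc_fl_diam (pu Q (2 ^ L) hM) a (NN κ) (fun p => pnt x y t0 p.1)
    (fun p => (fl a (cpt L x y t0 g1 J j0 p), p.2, T p.1, A p.1)) ?_
  · rw [Fintype.card_fin] at h2
    linarith
  · intro p p' hp hp' hpp i
    simp only [Prod.mk.injEq] at hpp
    obtain ⟨e1, e2, e3, _⟩ := hpp
    have h4 := fl_close e1 i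
    have h5 : mu L p = mu L p' := by simp only [mu, e2]
    have h6 := h.hdT (hpos hp) (hpos hp') e3
    have h7 : pnt x y t0 p.1 i - pnt x y t0 p'.1 i =
        cpt L x y t0 g1 J j0 p i - cpt L x y t0 g1 J j0 p' i := by
      simp only [cpt, h5, h6]
      ring
    rw [h7]
    exact h4.trans (one_NN κ (by positivity))

theorem cJt_H (h : DD Q κ x y t0 t1 g0 g1 T J i0 j0 a β W) :
    hc (pu Q (2 ^ L) (Nat.two_pow_pos L)) (fun p => fl a (cJt L x y t0 g1 J j0 p))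
      (fun p => (fl a (FF x y t1 g1 J p.1), T p.1, A p.1)) ≤
      κ * (a * Real.log 2 + Real.log 3) := by
  classical
  have h1 := hc_le_log (pu Q (2 ^ L) (Nat.two_pow_pos L)) (fun p => fl a (cJt L x y t0 g1 J j0 p))
    (fun p => (fl a (FF x y t1 g1 J p.1), T p.1, A p.1))
    ((3 * 2 ^ a) ^ κ) ?_
  · refine h1.trans (le_of_eq ?_)
    push_cast
    rw [Real.log_pow, Real.log_mul (by norm_num) (by positivity), Real.log_pow]
    ring
  · intro p hp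
    refine ⟨Fintype.piFinset fun i =>
      if i ∈ J then Finset.Ico (0 : ℤ) ((3 * 2 ^ a : ℕ) : ℤ) else {0}, ?_, ?_⟩
    · rw [Fintype.card_piFinset]
      have h2 : ∀ i, (if i ∈ J then Finset.Ico (0 : ℤ) ((3 * 2 ^ a : ℕ) : ℤ) else {0}).card =
          if i ∈ J then 3 * 2 ^ a else 1 := by
        intro i
        split_ifs
        · rw [Int.card_Ico, sub_zero, Int.toNat_natCast]
        · simp
      simp only [h2]
      rw [Finset.prod_ite_mem, Finset.univ_inter, Finset.prod_const, h.card]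
    · intro p' hp' _
      rw [Fintype.mem_piFinset]
      intro i
      by_cases hi : i ∈ J
      · have hx := h.hx p'.1 (hpos hp') i
        have hy := h.hy p'.1 (hpos hp') i
        have ht := h.ht0 p'.1 (hpos hp')
        have hm0 := mu0 p'
        have hm1 := mu1 p'
        have h3 : 0 ≤ dv g1 J j0 p'.1 i ∧ dv g1 J j0 p'.1 i ≤ 1 := by
          simp only [dv, if_pos hi]
          split_ifs <;> norm_num
        have h4 : 0 ≤ cpt L x y t0 g1 J j0 p' i ∧ cpt L x y t0 g1 J j0 p' i < 3 := by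
          simp only [cpt, pnt]
          constructor
          · have := mul_nonneg ht.1 hy.1
            have := mul_nonneg hm0 h3.1
            linarith
          · have := mul_le_mul ht.2.le hy.2.le hy.1 zero_le_one
            have := mul_le_mul hm1 h3.2 h3.1 zero_le_one
            linarith
        rw [if_pos hi, Finset.mem_Ico]
        simp only [fl, cJt, if_pos hi]
        constructor
        · exact Int.floor_nonneg.2 (mul_nonneg (by positivity) h4.1)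
        · rw [Int.floor_lt]
          push_cast
          have : (0 : ℝ) < 2 ^ a := by positivity
          nlinarith [h4.2]
      · simp [hi, fl, cJt]

theorem key1 (h : DD Q κ x y t0 t1 g0 g1 T J i0 j0 a β W) {p : Ω × Fin (2 ^ L)}
    (hp : 0 < Q.w p.1) {i : Fin m} (hi : i ∉ J) :
    ∃ r : ℝ, |r| ≤ (1 + κ * 3 ^ κ) * (1 / 2 : ℝ) ^ a ∧
        cpt L x y t0 g1 J j0 p i = FF x y t1 g1 J p.1 i + r +
          ∑ j ∈ J, g1 p.1 i j * cpt L x y t0 g1 J j0 p j := by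
  have hy := h.hy p.1 hp
  refine ⟨ap J (g1 p.1) (fun i => (t0 p.1 - t1 p.1) * y p.1 i) i, ?_, ?_⟩
  · have := ap_le (J := J) (g := g1 p.1) (v := fun i => (t0 p.1 - t1 p.1) * y p.1 i)
      (G := 3 ^ κ) (M := (1 / 2 : ℝ) ^ a) (by positivity) (by positivity) (h.hg1 p.1 hp) ?_ i
    · rwa [h.card] at this
    · intro i
      rw [abs_mul, abs_of_nonneg (hy i).1]
      have h1 := h.htt p.1 hp
      have h2 := abs_nonneg (t0 p.1 - t1 p.1)
      have h3 := (hy i).2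
      have h4 := (hy i).1
      nlinarith
  · have h1 : ap J (g1 p.1) (cpt L x y t0 g1 J j0 p) i = cpt L x y t0 g1 J j0 p i -
        ∑ j ∈ J, g1 p.1 i j * cpt L x y t0 g1 J j0 p j := ap_nmem _ _ hi
    have h2 : ap J (g1 p.1) (cpt L x y t0 g1 J j0 p) i = ap J (g1 p.1) (pnt x y t0 p.1) i := by
      unfold cpt
      rw [ap_add J (g1 p.1) (pnt x y t0 p.1) (fun i => mu L p * dv g1 J j0 p.1 i) i, ap_smul,
        h.hg1d, mul_zero, add_zero]
    have h3 : ap J (g1 p.1) (pnt x y t0 p.1) i = FF x y t1 g1 J p.1 i +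
        ap J (g1 p.1) (fun i => (t0 p.1 - t1 p.1) * y p.1 i) i := by
      unfold FF
      rw [← ap_add]
      congr 1
      funext i
      simp only [pnt]
      ring
    linarith

theorem key2 (h : DD Q κ x y t0 t1 g0 g1 T J i0 j0 a β W) {p p' : Ω × Fin (2 ^ L)}
    (hp : 0 < Q.w p.1) (hp' : 0 < Q.w p'.1)
    (q1 : fl a (FF x y t1 g1 J p.1) = fl a (FF x y t1 g1 J p'.1))
    (q2 : fl a (cJt L x y t0 g1 J j0 p) = fl a (cJt L x y t0 g1 J j0 p'))
    (q3 : T p.1 = T p'.1) (i : Fin m) :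
    |cpt L x y t0 g1 J j0 p i - cpt L x y t0 g1 J j0 p' i| ≤ NN κ * (1 / 2 : ℝ) ^ a := by
  classical
  have hδa : (0 : ℝ) < (1 / 2 : ℝ) ^ a := by positivity
  have hJc : ∀ j ∈ J, |cpt L x y t0 g1 J j0 p j - cpt L x y t0 g1 J j0 p' j| ≤
      (1 / 2 : ℝ) ^ a := by
    intro j hj
    have := fl_close q2 j
    simpa only [cJt, if_pos hj] using this
  by_cases hi : i ∈ J
  · exact (hJc i hi).trans (one_NN κ hδa.le)
  · obtain ⟨r, hr, hr'⟩ := h.key1 (p := p) hp hi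
    obtain ⟨r', hr1, hr1'⟩ := h.key1 (p := p') hp' hi
    have hg : g1 p'.1 = g1 p.1 := (h.hT hp' hp q3.symm).2.2.2
    rw [hg] at hr1'
    have h1 : cpt L x y t0 g1 J j0 p i - cpt L x y t0 g1 J j0 p' i =
        (FF x y t1 g1 J p.1 i - FF x y t1 g1 J p'.1 i) + r - r' +
        ∑ j ∈ J, g1 p.1 i j * (cpt L x y t0 g1 J j0 p j - cpt L x y t0 g1 J j0 p' j) := by
      rw [hr', hr1']
      simp only [mul_sub, Finset.sum_sub_distrib]
      ring
    have h2 : |∑ j ∈ J, g1 p.1 i j * (cpt L x y t0 g1 J j0 p j - cpt L x y t0 g1 J j0 p' j)| ≤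
        J.card * (3 ^ κ * (1 / 2 : ℝ) ^ a) := by
      refine (Finset.abs_sum_le_sum_abs _ _).trans ?_
      rw [← nsmul_eq_mul]
      refine Finset.sum_le_card_nsmul _ _ _ fun j hj => ?_
      rw [abs_mul]
      exact mul_le_mul (h.hg1 p.1 hp i j) (hJc j hj) (abs_nonneg _) (by positivity)
    rw [h.card] at h2
    have h3' := fl_close q1 i
    rw [h1]
    have h4 : ∀ u r r' s : ℝ, |u + r - r' + s| ≤ |u| + |r| + |r'| + |s| := by
      intro u r r' s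
      refine (abs_add_le _ _).trans ?_
      have := abs_sub (u + r) r'
      have := abs_add_le u r
      linarith
    refine (h4 _ _ _ _).trans ?_
    refine le_trans ?_ (NN_mul κ hδa.le (by norm_num : (0 : ℝ) ≤ 3) (by norm_num : (0 : ℝ) ≤ 3)
      (by norm_num) (by norm_num))
    have h5 := pow3 κ
    nlinarith

/-- the displaced point has small entropy -/
theorem sA2 (h : DD Q κ x y t0 t1 g0 g1 T J i0 j0 a β W) :
    hc (pu Q (2 ^ L) (Nat.two_pow_pos L)) (fun p => fl a (cpt L x y t0 g1 J j0 p))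
        (fun p => (T p.1, A p.1)) ≤
      hc Q (fun w => fl a (FF x y t1 g1 J w)) (fun w => (T w, A w)) +
        κ * (a * Real.log 2 + Real.log 3) + m * Real.log (2 * NN κ + 3) := by
  have hM := Nat.two_pow_pos L
  have e1 := hc_le_add (pu Q (2 ^ L) hM) (fun p => fl a (cpt L x y t0 g1 J j0 p))
    (fun p => (fl a (FF x y t1 g1 J p.1), fl a (cJt L x y t0 g1 J j0 p)))
    (fun p => (T p.1, A p.1))
  have e2 := hc_pair (pu Q (2 ^ L) hM) (fun p => fl a (FF x y t1 g1 J p.1))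
    (fun p => fl a (cJt L x y t0 g1 J j0 p)) (fun p => (T p.1, A p.1))
  have e3 : hc (pu Q (2 ^ L) hM) (fun p => fl a (FF x y t1 g1 J p.1))
      (fun p => (T p.1, A p.1)) =
      hc Q (fun w => fl a (FF x y t1 g1 J w)) (fun w => (T w, A w)) :=
    pu_hc_fst Q (2 ^ L) hM (fun w => fl a (FF x y t1 g1 J w)) (fun w => (T w, A w))
  have e4 := h.cJt_H (L := L) A
  have e5 := hc_fl_diam (pu Q (2 ^ L) hM) a (NN κ) (cpt L x y t0 g1 J j0)
    (fun p => ((fl a (FF x y t1 g1 J p.1), fl a (cJt L x y t0 g1 J j0 p)), T p.1, A p.1)) ?_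
  · rw [Fintype.card_fin] at e5
    linarith
  · intro p p' hp hp' hpp i
    simp only [Prod.mk.injEq] at hpp
    obtain ⟨⟨q1, q2⟩, q3, _⟩ := hpp
    exact h.key2 (hpos hp) (hpos hp') q1 q2 q3 i

/-- the displaced projected point has small entropy -/
theorem sB (h : DD Q κ x y t0 t1 g0 g1 T J i0 j0 a β W) :
    hc (pu Q (2 ^ L) (Nat.two_pow_pos L)) (fun p => fl a (Yt L x y t0 g0 g1 J j0 p))
      (fun p => (T p.1, A p.1)) ≤
      hc Q (fun w => fl a (FF x y t0 g0 J w)) (fun w => (T w, A w)) +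
      (hc (pu Q (2 ^ L) (Nat.two_pow_pos L)) (fun p => fl a (cpt L x y t0 g1 J j0 p))
        (fun p => (T p.1, A p.1)) -
        hc (pu Q (2 ^ L) (Nat.two_pow_pos L)) (fun p => fl a (cpt L x y t0 g1 J j0 p))
        (fun p => (p.2, T p.1, A p.1))) + 2 * (m * Real.log (2 * NN κ + 3)) := by
  have hM := Nat.two_pow_pos L
  set Q2 := pu Q (2 ^ L) hM with hQ2
  have b1 := mi_mono_right Q2 (fun p : Ω × Fin (2 ^ L) => p.2)
    (Y := fun p => fl a (Yt L x y t0 g0 g1 J j0 p))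
    (Y' := fun p => (fl a (cpt L x y t0 g1 J j0 p), fl a (Yt L x y t0 g0 g1 J j0 p)))
    (Z := fun p => (T p.1, A p.1)) (by
      intro p p' _ _ hpp
      simp only [Prod.mk.injEq] at hpp
      exact hpp.1.2)
  have b2 := mi_pair Q2 (fun p : Ω × Fin (2 ^ L) => p.2)
    (fun p => fl a (cpt L x y t0 g1 J j0 p))
    (fun p => fl a (Yt L x y t0 g0 g1 J j0 p)) (fun p => (T p.1, A p.1))
  have b3 := mi_le_hc' Q2 (fun p : Ω × Fin (2 ^ L) => p.2)
    (fun p => fl a (Yt L x y t0 g0 g1 J j0 p))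
    (fun p => (fl a (cpt L x y t0 g1 J j0 p), T p.1, A p.1))
  have b4 := hc_fl_diam Q2 a (NN κ) (Yt L x y t0 g0 g1 J j0)
    (fun p => (fl a (cpt L x y t0 g1 J j0 p), T p.1, A p.1)) ?_
  · have b5 := mi_symm Q2 (fun p : Ω × Fin (2 ^ L) => p.2)
      (fun p => fl a (cpt L x y t0 g1 J j0 p)) (fun p => (T p.1, A p.1))
    have b6 := mi_symm Q2 (fun p : Ω × Fin (2 ^ L) => p.2)
      (fun p => fl a (Yt L x y t0 g0 g1 J j0 p)) (fun p => (T p.1, A p.1))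
    have b5' : mi Q2 (fun p => fl a (cpt L x y t0 g1 J j0 p))
        (fun p : Ω × Fin (2 ^ L) => p.2) (fun p => (T p.1, A p.1)) =
        hc Q2 (fun p => fl a (cpt L x y t0 g1 J j0 p)) (fun p => (T p.1, A p.1)) -
        hc Q2 (fun p => fl a (cpt L x y t0 g1 J j0 p)) (fun p => (p.2, T p.1, A p.1)) := rfl
    have b6' : mi Q2 (fun p => fl a (Yt L x y t0 g0 g1 J j0 p))
        (fun p : Ω × Fin (2 ^ L) => p.2) (fun p => (T p.1, A p.1)) =
        hc Q2 (fun p => fl a (Yt L x y t0 g0 g1 J j0 p)) (fun p => (T p.1, A p.1)) -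
        hc Q2 (fun p => fl a (Yt L x y t0 g0 g1 J j0 p)) (fun p => (p.2, T p.1, A p.1)) := rfl
    have b7 := hc_le_add Q2 (fun p => fl a (Yt L x y t0 g0 g1 J j0 p))
      (fun p => fl a (FF x y t0 g0 J p.1)) (fun p => (p.2, T p.1, A p.1))
    have b8 : hc Q2 (fun p => fl a (FF x y t0 g0 J p.1)) (fun p => (p.2, T p.1, A p.1)) =
        hc Q (fun w => fl a (FF x y t0 g0 J w)) (fun w => (T w, A w)) :=
      pu_hc_cond Q (2 ^ L) hM (fun w => fl a (FF x y t0 g0 J w)) (fun w => (T w, A w))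
    have b9 := hc_fl_diam Q2 a (NN κ) (Yt L x y t0 g0 g1 J j0)
      (fun p => (fl a (FF x y t0 g0 J p.1), p.2, T p.1, A p.1)) ?_
    · rw [Fintype.card_fin] at b4 b9
      linarith
    · intro p p' hp hp' hpp i
      simp only [Prod.mk.injEq] at hpp
      obtain ⟨q1, q2, q3, _⟩ := hpp
      have h5 : mu L p = mu L p' := by simp only [mu, q2]
      have h6 := h.hDT (hpos hp) (hpos hp') q3
      have h7 : Yt L x y t0 g0 g1 J j0 p i - Yt L x y t0 g0 g1 J j0 p' i =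
          FF x y t0 g0 J p.1 i - FF x y t0 g0 J p'.1 i := by
        simp only [Yt, h5, h6]
        ring
      rw [h7]
      exact (fl_close q1 i).trans (one_NN κ (by positivity))
  · intro p p' hp hp' hpp i
    simp only [Prod.mk.injEq] at hpp
    obtain ⟨q1, q3, _⟩ := hpp
    have hg := (h.hT (hpos hp) (hpos hp') q3).2.2.1
    rw [h.hY0, h.hY0, ← hg, ← ap_sub]
    have := ap_le (J := J) (g := g0 p.1)
      (v := fun i => cpt L x y t0 g1 J j0 p i - cpt L x y t0 g1 J j0 p' i)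
      (G := 3 ^ κ) (M := (1 / 2 : ℝ) ^ a) (by positivity) (by positivity)
      (h.hg0 p.1 (hpos hp)) (fun i => fl_close q1 i) i
    refine this.trans ?_
    rw [h.card]
    refine le_trans ?_ (NN_mul κ (by positivity) (by norm_num : (0 : ℝ) ≤ 1)
      (by norm_num : (0 : ℝ) ≤ 1) (by norm_num) (by norm_num))
    refine mul_le_mul_of_nonneg_right ?_ (by positivity)
    have := pow3 κ
    linarith

/-- subtracting the first digits -/
theorem sC (h : DD Q κ x y t0 t1 g0 g1 T J i0 j0 a β W) (hβ : β ≤ a) :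
    hc (pu Q (2 ^ L) (Nat.two_pow_pos L)) (fun p => fl a (Yt L x y t0 g0 g1 J j0 p))
      (fun p => (fl β (FF x y t0 g0 J p.1), T p.1, A p.1)) ≤
      hc (pu Q (2 ^ L) (Nat.two_pow_pos L)) (fun p => fl a (Yt L x y t0 g0 g1 J j0 p))
      (fun p => (T p.1, A p.1)) + m * Real.log (2 * NN κ + 3) -
        hc Q (fun w => fl β (FF x y t0 g0 J w)) (fun w => (T w, A w)) := by
  have hM := Nat.two_pow_pos L
  set Q2 := pu Q (2 ^ L) hM with hQ2
  have hδ : (1 / 2 : ℝ) ^ a ≤ (1 / 2 : ℝ) ^ β :=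
    pow_le_pow_of_le_one (by norm_num) (by norm_num) hβ
  have c1 := hc_pair Q2 (fun p => fl β (FF x y t0 g0 J p.1))
    (fun p => fl a (Yt L x y t0 g0 g1 J j0 p)) (fun p => (T p.1, A p.1))
  have c2 := hc_pair Q2 (fun p => fl a (Yt L x y t0 g0 g1 J j0 p))
    (fun p => fl β (FF x y t0 g0 J p.1)) (fun p => (T p.1, A p.1))
  have c3 := hc_mono_left Q2
    (X := fun p => (fl β (FF x y t0 g0 J p.1), fl a (Yt L x y t0 g0 g1 J j0 p)))
    (X' := fun p => (fl a (Yt L x y t0 g0 g1 J j0 p), fl β (FF x y t0 g0 J p.1)))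
    (Y := fun p => (T p.1, A p.1)) (by
      intro p p' _ _ hpp
      simp only [Prod.mk.injEq] at hpp ⊢
      tauto)
  have c5 : hc Q2 (fun p => fl β (FF x y t0 g0 J p.1)) (fun p => (T p.1, A p.1)) =
      hc Q (fun w => fl β (FF x y t0 g0 J w)) (fun w => (T w, A w)) :=
    pu_hc_fst Q (2 ^ L) hM (fun w => fl β (FF x y t0 g0 J w)) (fun w => (T w, A w))
  have c4 := hc_fl_diam Q2 β (NN κ) (fun p => FF x y t0 g0 J p.1)
    (fun p => (fl a (Yt L x y t0 g0 g1 J j0 p), T p.1, A p.1)) ?_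
  · rw [Fintype.card_fin] at c4
    linarith
  · intro p p' hp hp' hpp i
    simp only [Prod.mk.injEq] at hpp
    obtain ⟨q1, q3, _⟩ := hpp
    have h6 := h.hDT (hpos hp) (hpos hp') q3
    have h7 : FF x y t0 g0 J p.1 i - FF x y t0 g0 J p'.1 i =
        (Yt L x y t0 g0 g1 J j0 p i - Yt L x y t0 g0 g1 J j0 p' i) -
        (mu L p - mu L p') * Dv g0 g1 J j0 p.1 i := by
      simp only [Yt, h6]
      ring
    have h8 := fl_close q1 i
    have h9 : |(mu L p - mu L p') * Dv g0 g1 J j0 p.1 i| ≤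
        1 * ((2 * 3 ^ κ) * (1 / 2 : ℝ) ^ β) := by
      rw [abs_mul]
      refine mul_le_mul ?_ (h.hDβ (hpos hp) i) (abs_nonneg _) zero_le_one
      rw [abs_le]
      have := mu0 p
      have := mu1 p
      have := mu0 p'
      have := mu1 p'
      constructor <;> linarith
    rw [h7]
    refine (abs_sub _ _).trans ?_
    refine le_trans ?_ (NN_mul κ (by positivity) (le_refl (0 : ℝ))
      (by norm_num : (0 : ℝ) ≤ 3) (by norm_num) (by norm_num))
    have := pow3 κ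
    have hδβ : (0 : ℝ) < (1 / 2 : ℝ) ^ β := by positivity
    nlinarith

/-- the counting of the displacements -/
theorem cnt (h : DD Q κ x y t0 t1 g0 g1 T J i0 j0 a β W) (haL : a ≤ L) {p p' : Ω × Fin (2 ^ L)}
    (hp : 0 < Q.w p.1)
    (q1 : fl a (Yt L x y t0 g0 g1 J j0 p') i0 = fl a (Yt L x y t0 g0 g1 J j0 p) i0)
    (q2 : p'.1 = p.1) :
    |((p'.2 : ℕ) : ℤ) - ((p.2 : ℕ) : ℤ)| ≤ (2 ^ (L - a + β + W) : ℕ) := by
  have hMr : (0 : ℝ) < ((2 ^ L : ℕ) : ℝ) := by positivity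
  have h1 : |Yt L x y t0 g0 g1 J j0 p' i0 - Yt L x y t0 g0 g1 J j0 p i0| ≤ (1 / 2 : ℝ) ^ a :=
    fl1_close (s := a) q1
  have h2 : Yt L x y t0 g0 g1 J j0 p' i0 - Yt L x y t0 g0 g1 J j0 p i0 =
      (((p'.2 : ℕ) : ℝ) - ((p.2 : ℕ) : ℝ)) / ((2 ^ L : ℕ) : ℝ) * Dv g0 g1 J j0 p.1 i0 := by
    simp only [Yt, mu, q2]
    ring
  have h3 := h.hlo p.1 hp
  have h4 := h.Dv_i0 p.1
  rw [h2, abs_mul, abs_div, abs_of_pos hMr, h4] at h1
  have hK0 : 0 ≤ |((p'.2 : ℕ) : ℝ) - ((p.2 : ℕ) : ℝ)| := abs_nonneg _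
  have h5 : |((p'.2 : ℕ) : ℝ) - ((p.2 : ℕ) : ℝ)| / ((2 ^ L : ℕ) : ℝ) *
      (1 / 2 : ℝ) ^ (β + W) ≤ (1 / 2 : ℝ) ^ a :=
    (mul_le_mul_of_nonneg_left h3 (by positivity)).trans h1
  have h6 : ∀ K : ℝ, K / ((2 ^ L : ℕ) : ℝ) * (1 / 2 : ℝ) ^ (β + W) ≤ (1 / 2 : ℝ) ^ a →
      K ≤ 2 ^ (L - a + β + W) := by
    intro K h5
    have e1 : (2 : ℝ) ^ (L - a + β + W) * 2 ^ a = 2 ^ L * 2 ^ (β + W) := by
      rw [← pow_add, ← pow_add]
      congr 1
      omega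
    have e2 : (1 / 2 : ℝ) ^ a * 2 ^ a = 1 := by
      rw [← mul_pow]; norm_num
    have e3 : (1 / 2 : ℝ) ^ (β + W) * 2 ^ (β + W) = 1 := by
      rw [← mul_pow]; norm_num
    have p1' : (0 : ℝ) < 2 ^ a := by positivity
    have e4 : K / ((2 ^ L : ℕ) : ℝ) * (1 / 2 : ℝ) ^ (β + W) * (2 ^ L * 2 ^ (β + W) * 2 ^ a)
        = K * 2 ^ a := by
      calc K / ((2 ^ L : ℕ) : ℝ) * (1 / 2 : ℝ) ^ (β + W) * (2 ^ L * 2 ^ (β + W) * 2 ^ a)
          = K * 2 ^ a * ((1 / 2 : ℝ) ^ (β + W) * 2 ^ (β + W)) *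
            (2 ^ L / ((2 ^ L : ℕ) : ℝ)) := by ring
        _ = K * 2 ^ a := by
          rw [e3]
          push_cast
          rw [div_self (by positivity)]
          ring
    have e5 : (1 / 2 : ℝ) ^ a * (2 ^ L * 2 ^ (β + W) * 2 ^ a) = 2 ^ L * 2 ^ (β + W) := by
      calc (1 / 2 : ℝ) ^ a * (2 ^ L * 2 ^ (β + W) * 2 ^ a)
          = ((1 / 2 : ℝ) ^ a * 2 ^ a) * (2 ^ L * 2 ^ (β + W)) := by ring
        _ = _ := by rw [e2, one_mul]
    have e6 := mul_le_mul_of_nonneg_right h5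
      (by positivity : (0 : ℝ) ≤ 2 ^ L * 2 ^ (β + W) * 2 ^ a)
    rw [e4, e5, ← e1] at e6
    exact le_of_mul_le_mul_right e6 p1'
  have h7 : ((|((p'.2 : ℕ) : ℤ) - ((p.2 : ℕ) : ℤ)| : ℤ) : ℝ) ≤
      (((2 ^ (L - a + β + W) : ℕ) : ℤ) : ℝ) := by
    push_cast
    exact h6 _ h5
  exact_mod_cast h7

theorem sD1 (h : DD Q κ x y t0 t1 g0 g1 T J i0 j0 a β W) (haL : a ≤ L) :
    ((a : ℝ) - β - W - 2) * Real.log 2 ≤
      hc (pu Q (2 ^ L) (Nat.two_pow_pos L)) (fun p => fl a (Yt L x y t0 g0 g1 J j0 p) i0)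
        (fun p => p.1) := by
  have hM := Nat.two_pow_pos L
  set Q2 := pu Q (2 ^ L) hM with hQ2
  have d1 := hc_le_add Q2 (fun p : Ω × Fin (2 ^ L) => p.2)
    (fun p => fl a (Yt L x y t0 g0 g1 J j0 p) i0) (fun p => p.1)
  have d2 : hc Q2 (fun p : Ω × Fin (2 ^ L) => p.2) (fun p => p.1) =
      Real.log ((2 ^ L : ℕ) : ℝ) := pu_hc_snd Q (2 ^ L) hM (fun w => w)
  have d3 := hc_le_log Q2 (fun p : Ω × Fin (2 ^ L) => p.2)
    (fun p => (fl a (Yt L x y t0 g0 g1 J j0 p) i0, p.1)) (2 ^ (L - a + β + W + 2)) ?_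
  · push_cast at d2 d3
    rw [Real.log_pow] at d2 d3
    push_cast [Nat.cast_sub haL] at d3
    nlinarith
  · intro p hp
    refine ⟨Finset.univ.filter (fun k : Fin (2 ^ L) =>
      |(k : ℤ) - (p.2 : ℕ)| ≤ (2 ^ (L - a + β + W) : ℕ)), ?_, ?_⟩
    · have h1 : (Finset.univ.filter (fun k : Fin (2 ^ L) =>
          |(k : ℤ) - (p.2 : ℕ)| ≤ (2 ^ (L - a + β + W) : ℕ))).card ≤
          (Finset.Icc ((p.2 : ℕ) - (2 ^ (L - a + β + W) : ℕ) : ℤ)
            ((p.2 : ℕ) + (2 ^ (L - a + β + W) : ℕ))).card := by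
        refine Finset.card_le_card_of_injOn (fun k => ((k : ℕ) : ℤ)) ?_ ?_
        · intro k hk
          simp only [Finset.coe_filter, Finset.mem_univ, true_and, Set.mem_ofPred_eq] at hk
          rw [Finset.mem_coe, Finset.mem_Icc]
          rw [abs_le] at hk
          constructor <;> linarith [hk.1, hk.2]
        · intro k _ k' _ hkk
          simp only [Nat.cast_inj] at hkk
          exact Fin.ext hkk
      refine h1.trans ?_
      rw [Int.card_Icc]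
      have h2 : 1 ≤ 2 ^ (L - a + β + W) := Nat.one_le_two_pow
      have h3 : 2 ^ (L - a + β + W + 2) = 4 * 2 ^ (L - a + β + W) := by ring
      rw [h3]
      omega
    · intro p' hp' hpp
      simp only [Prod.mk.injEq] at hpp
      obtain ⟨q1, q2⟩ := hpp
      rw [Finset.mem_filter]
      exact ⟨Finset.mem_univ _, h.cnt haL (hpos hp) q1 q2⟩

theorem sD (h : DD Q κ x y t0 t1 g0 g1 T J i0 j0 a β W) (haL : a ≤ L) :
    hc (pu Q (2 ^ L) (Nat.two_pow_pos L)) (fun p => fl a (ZZ x y t0 g0 g1 J i0 j0 p.1))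
      (fun p => (fl β (FF x y t0 g0 J p.1), T p.1, A p.1)) ≤
      hc (pu Q (2 ^ L) (Nat.two_pow_pos L)) (fun p => fl a (Yt L x y t0 g0 g1 J j0 p))
      (fun p => (fl β (FF x y t0 g0 J p.1), T p.1, A p.1)) + m * Real.log (2 * NN κ + 3) -
        ((a : ℝ) - β - W - 2) * Real.log 2 := by
  have hM := Nat.two_pow_pos L
  have d0 := h.sD1 (L := L) haL
  set Q2 := pu Q (2 ^ L) hM with hQ2
  have d1 := hc_pair Q2 (fun p => fl a (ZZ x y t0 g0 g1 J i0 j0 p.1))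
    (fun p => fl a (Yt L x y t0 g0 g1 J j0 p) i0)
    (fun p => (fl β (FF x y t0 g0 J p.1), T p.1, A p.1))
  have d2 := hc_le_add Q2
    (fun p => (fl a (ZZ x y t0 g0 g1 J i0 j0 p.1), fl a (Yt L x y t0 g0 g1 J j0 p) i0))
    (fun p => fl a (Yt L x y t0 g0 g1 J j0 p))
    (fun p => (fl β (FF x y t0 g0 J p.1), T p.1, A p.1))
  have d3 := hc_mono_left Q2
    (X := fun p => (fl a (ZZ x y t0 g0 g1 J i0 j0 p.1), fl a (Yt L x y t0 g0 g1 J j0 p) i0))
    (X' := fun p => fl a (ZZ x y t0 g0 g1 J i0 j0 p.1))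
    (Y := fun p => (fl a (Yt L x y t0 g0 g1 J j0 p), fl β (FF x y t0 g0 J p.1), T p.1, A p.1))
    (by
      intro p p' _ _ hpp
      simp only [Prod.mk.injEq] at hpp ⊢
      exact ⟨hpp.1, by rw [hpp.2.1]⟩)
  have d5 := hc_mono_right Q2 (fun p => fl a (Yt L x y t0 g0 g1 J j0 p) i0)
    (Y := fun p => (fl a (ZZ x y t0 g0 g1 J i0 j0 p.1), fl β (FF x y t0 g0 J p.1),
      T p.1, A p.1)) (Y' := fun p => p.1) (by
      intro p p' _ _ hpp
      simp only at hpp ⊢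
      rw [hpp])
  have d4 := hc_fl_diam Q2 a (NN κ) (fun p => ZZ x y t0 g0 g1 J i0 j0 p.1)
    (fun p => (fl a (Yt L x y t0 g0 g1 J j0 p), fl β (FF x y t0 g0 J p.1), T p.1, A p.1)) ?_
  · rw [Fintype.card_fin] at d4
    linarith
  · intro p p' hp hp' hpp i
    simp only [Prod.mk.injEq] at hpp
    obtain ⟨q1, _, q3, _⟩ := hpp
    have h1 := h.hvT (hpos hp) (hpos hp') q3
    have h2 : ZZ x y t0 g0 g1 J i0 j0 p.1 i - ZZ x y t0 g0 g1 J i0 j0 p'.1 i =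
        (Yt L x y t0 g0 g1 J j0 p i - Yt L x y t0 g0 g1 J j0 p' i) -
        (Yt L x y t0 g0 g1 J j0 p i0 - Yt L x y t0 g0 g1 J j0 p' i0) *
          vv g0 g1 J i0 j0 p.1 i := by
      rw [h.hYZ (hpos hp) i, h.hYZ (hpos hp') i, ← h1]
      ring
    have h3 : |(Yt L x y t0 g0 g1 J j0 p i0 - Yt L x y t0 g0 g1 J j0 p' i0) *
        vv g0 g1 J i0 j0 p.1 i| ≤ (1 / 2 : ℝ) ^ a * 1 := by
      rw [abs_mul]
      exact mul_le_mul (fl_close q1 i0) (h.hv1 (hpos hp) i) (abs_nonneg _) (by positivity)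
    have h4 := fl_close q1 i
    rw [h2]
    refine (abs_sub _ _).trans ?_
    refine le_trans ?_ (NN_mul κ (by positivity) (le_refl (0 : ℝ))
      (by norm_num : (0 : ℝ) ≤ 2) (by norm_num) (by norm_num))
    have := pow3 κ
    have hδa : (0 : ℝ) < (1 / 2 : ℝ) ^ a := by positivity
    nlinarith

theorem sF (h : DD Q κ x y t0 t1 g0 g1 T J i0 j0 a β W) :
    hc Q (fun w => fl a (ZZ x y t0 g0 g1 J i0 j0 w))
      (fun w => ((fl β (x w), fl β (y w)), T w, A w)) ≤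
      hc Q (fun w => fl a (ZZ x y t0 g0 g1 J i0 j0 w))
        (fun w => (fl β (FF x y t0 g0 J w), T w, A w)) + m * Real.log (2 * NN κ + 3) := by
  have f1 := hc_le_add' Q (fun w => fl a (ZZ x y t0 g0 g1 J i0 j0 w))
    (fun w => fl β (FF x y t0 g0 J w)) (fun w => ((fl β (x w), fl β (y w)), T w, A w))
  have f2 := hc_mono_right Q (fun w => fl a (ZZ x y t0 g0 g1 J i0 j0 w))
    (Y := fun w => (fl β (FF x y t0 g0 J w), T w, A w))
    (Y' := fun w => (fl β (FF x y t0 g0 J w), (fl β (x w), fl β (y w)), T w, A w)) (by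
      intro p p' _ _ hpp
      simp only [Prod.mk.injEq] at hpp ⊢
      tauto)
  have f3 := hc_fl_diam Q β (NN κ) (FF x y t0 g0 J)
    (fun w => ((fl β (x w), fl β (y w)), T w, A w)) ?_
  · rw [Fintype.card_fin] at f3
    linarith
  · intro w w' hw hw' hww i
    simp only [Prod.mk.injEq] at hww
    obtain ⟨⟨q1, q2⟩, q3, _⟩ := hww
    obtain ⟨r1, _, r3, _⟩ := h.hT hw hw' q3
    simp only [FF]
    rw [← r3, ← ap_sub]
    have := ap_le (J := J) (g := g0 w) (v := fun i => pnt x y t0 w i - pnt x y t0 w' i)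
      (G := 3 ^ κ) (M := 2 * (1 / 2 : ℝ) ^ β) (by positivity) (by positivity) (h.hg0 w hw) ?_ i
    · refine this.trans ?_
      rw [h.card]
      refine le_trans ?_ (NN_mul κ (by positivity) (by norm_num : (0 : ℝ) ≤ 2)
        (by norm_num : (0 : ℝ) ≤ 2) (by norm_num) (by norm_num))
      have := pow3 κ
      have hδβ : (0 : ℝ) < (1 / 2 : ℝ) ^ β := by positivity
      nlinarith
    · intro i
      have h1 : pnt x y t0 w i - pnt x y t0 w' i =
          (x w i - x w' i) + t0 w * (y w i - y w' i) := by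
        simp only [pnt, ← r1]
        ring
      rw [h1]
      refine (abs_add_le _ _).trans ?_
      rw [abs_mul, abs_of_nonneg (h.ht0 w hw).1]
      have h2 := fl_close q1 i
      have h3 := fl_close q2 i
      have h4 := mul_le_mul (h.ht0 w hw).2.le h3 (abs_nonneg _) zero_le_one
      linarith

/-- the displacement argument -/
theorem disp (h : DD Q κ x y t0 t1 g0 g1 T J i0 j0 a β W) (L : ℕ) (hβ : β ≤ a)
    (haL : a ≤ L) :
    hc Q (fun w => fl a (ZZ x y t0 g0 g1 J i0 j0 w))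
      (fun w => ((fl β (x w), fl β (y w)), T w, A w)) ≤
    hc Q (fun w => fl a (FF x y t0 g0 J w)) (fun w => (T w, A w)) +
    hc Q (fun w => fl a (FF x y t1 g1 J w)) (fun w => (T w, A w)) -
    hc Q (fun w => fl a (pnt x y t0 w)) (fun w => (T w, A w)) -
    hc Q (fun w => fl β (FF x y t0 g0 J w)) (fun w => (T w, A w)) +
    κ * a * Real.log 2 - ((a : ℝ) - β - W) * Real.log 2 +
    (κ * Real.log 3 + 2 * Real.log 2 + 7 * (m * Real.log (2 * NN κ + 3))) := by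
  have h1 := h.sA1 (L := L) A
  have h2 := h.sA2 (L := L) A
  have h3 := h.sB (L := L) A
  have h4 := h.sC (L := L) A hβ
  have h5 := h.sD (L := L) A haL
  have h6 := h.sF A
  have h7 : hc (pu Q (2 ^ L) (Nat.two_pow_pos L)) (fun p => fl a (ZZ x y t0 g0 g1 J i0 j0 p.1))
      (fun p => (fl β (FF x y t0 g0 J p.1), T p.1, A p.1)) =
      hc Q (fun w => fl a (ZZ x y t0 g0 g1 J i0 j0 w))
        (fun w => (fl β (FF x y t0 g0 J w), T w, A w)) :=
    pu_hc_fst Q (2 ^ L) (Nat.two_pow_pos L) (fun w => fl a (ZZ x y t0 g0 g1 J i0 j0 w))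
      (fun w => (fl β (FF x y t0 g0 J w), T w, A w))
  linarith

end DD

end Vale.Agent.P127.Stk.Bs
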