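import Vale.Agent.P127.Stk.BaseB
import Vale.Agent.P127.Stk.Rates

/-!
# P127 / Stk : section 6, `CK 0`
-/

namespace Vale.Agent.P127.Stk.Bs

open Finset Vale.Agent.P127 Vale.Agent.P127.Stk

/-- the killing lemma as used in section 6 -/
def KillG (R : Gr) (m : ℕ) (h : ℝ) (κ : ℕ) : Prop :=
  ∀ η : ℝ, 0 < η → ∃ δ : ℝ, 0 < δ ∧ ∀ (K : ℝ) (g : R.G), ∃ n : ℕ, ∀ (L : ℕ) (e C : ℝ),
    R.ok g n L e C →
      ∀ (Ω : Type) [Fintype Ω] (P : Law Ω) (c : Cf Ω m) (o : Ob Ω m κ), Good P c L e C →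
      ∀ (Ω' : Type) [Fintype Ω'] (Q : Law Ω') (π : Ω' → Ω), Dom Q π P K →
      ∀ (σ : Type) (D : Ω' → σ) (r r' : ℕ) (v : Ω' → Fin m → ℝ) (i0 : Fin m),
        r ≤ r' → r' ≤ L → η * L ≤ (r' : ℝ) - r → i0 ∉ o.J →
        Fn Q (fun ω => o.Γ (π ω)) D → Fn Q v D →
        (∀ ω, 0 < Q.w ω → (∀ j ∈ o.J, v ω j = 0) ∧ v ω i0 = 1 ∧ ∀ i, |v ω i| ≤ 1) →
        mi Q (fun ω => (c.x (π ω), c.y (π ω))) D
          (fun ω => (c.t (π ω), c.A (π ω), fl r (c.x (π ω)), fl r (c.y (π ω)))) ≤ δ * L →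
        (h - κ - 1) * ((r' : ℝ) - r) * Real.log 2 + δ * L <
          hc Q (fun ω => fl r' (fun i => o.F c (π ω) i - o.F c (π ω) i0 * v ω i))
            (fun ω => ((fl r (c.x (π ω)), fl r (c.y (π ω))), c.t (π ω), D ω, c.A (π ω)))

section bins

/-- dyadic blocks -/
theorem bin {B : ℝ} (hB : 1 ≤ B) {W : ℕ} (hW : 0 < W) {M : ℝ} (hM0 : 0 < M) (hMB : M ≤ B) :
    ∃ k : ℕ, (1 / 2 : ℝ) ^ (k * W + W) ≤ M ∧ M ≤ B * (1 / 2 : ℝ) ^ (k * W) := by
  have hex : ∃ k : ℕ, B * (1 / 2 : ℝ) ^ (k * W) < M := by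
    obtain ⟨n, hn⟩ := exists_pow_lt_of_lt_one (show (0 : ℝ) < M / B by positivity)
      (show (1 / 2 : ℝ) < 1 by norm_num)
    refine ⟨n, ?_⟩
    have h1 : (1 / 2 : ℝ) ^ (n * W) ≤ (1 / 2 : ℝ) ^ n :=
      pow_le_pow_of_le_one (by norm_num) (by norm_num) (Nat.le_mul_of_pos_right n hW)
    have h2 := h1.trans_lt hn
    rw [lt_div_iff₀ (by linarith)] at h2
    linarith
  classical
  obtain ⟨k', hk', hmin⟩ : ∃ k, B * (1 / 2 : ℝ) ^ (k * W) < M ∧
      ∀ j < k, ¬ B * (1 / 2 : ℝ) ^ (j * W) < M :=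
    ⟨Nat.find hex, Nat.find_spec hex, fun j hj => Nat.find_min hex hj⟩
  rcases Nat.eq_zero_or_pos k' with h0 | h0
  · subst h0
    simp at hk'
    linarith
  · obtain ⟨k, rfl⟩ := Nat.exists_eq_succ_of_ne_zero h0.ne'
    refine ⟨k, ?_, not_lt.1 (hmin k (Nat.lt_succ_self k))⟩
    have h1 : (k + 1) * W = k * W + W := by ring
    rw [Nat.succ_eq_add_one, h1] at hk'
    have h2 : (0 : ℝ) < (1 / 2 : ℝ) ^ (k * W + W) := by positivity
    nlinarith

/-- the index of the block is bounded -/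
theorem bin_le {κ a L W k : ℕ} {ε M : ℝ} (hk : M ≤ (2 * 3 ^ κ) * (1 / 2 : ℝ) ^ (k * W))
    (hM : (2 : ℝ) ^ (-(a : ℝ) + ε * L) < M) (hL : (1 + 2 * κ : ℝ) ≤ ε / 2 * L) :
    ((k * W : ℕ) : ℝ) ≤ a - ε / 2 * L := by
  have h1 : (2 * 3 ^ κ : ℝ) ≤ (2 : ℝ) ^ ((1 + 2 * κ : ℝ)) := by
    have h2 : (3 : ℝ) ^ κ ≤ 4 ^ κ := pow_le_pow_left₀ (by norm_num) (by norm_num) κ
    have h3 : (2 : ℝ) ^ ((1 + 2 * κ : ℝ)) = 2 * 4 ^ κ := by
      rw [Real.rpow_add (by norm_num), Real.rpow_one, Real.rpow_mul (by norm_num)]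
      norm_num
    rw [h3]
    linarith
  have h4 : (1 / 2 : ℝ) ^ (k * W) = (2 : ℝ) ^ (-((k * W : ℕ) : ℝ)) := by
    rw [Real.rpow_neg (by norm_num), Real.rpow_natCast, one_div, inv_pow]
  have h5 : (2 : ℝ) ^ (-(a : ℝ) + ε * L) < (2 : ℝ) ^ ((1 + 2 * κ : ℝ) + -((k * W : ℕ) : ℝ)) := by
    rw [Real.rpow_add (by norm_num) (1 + 2 * κ : ℝ)]
    refine hM.trans_le (hk.trans ?_)
    rw [h4]
    exact mul_le_mul_of_nonneg_right h1 (by positivity)
  have h6 := (Real.rpow_lt_rpow_left_iff (by norm_num : (1 : ℝ) < 2)).1 h5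
  linarith

end bins

section events

variable {Ω : Type} [Fintype Ω]

theorem prE_mono' {P : Law Ω} {E E' : Ω → Prop} (h : ∀ ω, 0 < P.w ω → E ω → E' ω) :
    prE P E ≤ prE P E' := by
  classical
  unfold prE
  rw [Finset.sum_filter, Finset.sum_filter]
  refine Finset.sum_le_sum fun ω _ => ?_
  rcases (P.nn ω).eq_or_lt with h0 | h0
  · simp [← h0]
  · by_cases h1 : E ω
    · rw [if_pos h1, if_pos (h ω h0 h1)]
    · rw [if_neg h1]
      split_ifs
      · exact P.nn ω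
      · exact le_rfl

/-- union bound and pigeonhole -/
theorem pigeon {P : Law Ω} {ι : Type} [Fintype ι] {E : Ω → Prop} {F : ι → Ω → Prop}
    (h : ∀ ω, 0 < P.w ω → E ω → ∃ i, F i ω) {ε : ℝ} (hε : 0 < ε) (hE : ε < prE P E) :
    ∃ i, ε / Fintype.card ι ≤ prE P (F i) := by
  classical
  by_contra hcon
  push Not at hcon
  have h1 : prE P E ≤ ∑ i, prE P (F i) := by
    refine (prE_mono' (E' := fun ω => ∃ i, F i ω) h).trans ?_
    unfold prE
    simp only [Finset.sum_filter]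
    rw [Finset.sum_comm]
    refine Finset.sum_le_sum fun ω _ => ?_
    by_cases h2 : ∃ i, F i ω
    · obtain ⟨i, hi⟩ := h2
      rw [if_pos ⟨i, hi⟩]
      have h3 : (if F i ω then P.w ω else 0) = P.w ω := if_pos hi
      refine h3.ge.trans (Finset.single_le_sum (f := fun i => if F i ω then P.w ω else 0)
        (fun i _ => ?_) (Finset.mem_univ i))
      show 0 ≤ if F i ω then P.w ω else 0
      split_ifs
      · exact P.nn ω
      · exact le_rfl
    · rw [if_neg h2]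
      exact Finset.sum_nonneg fun i _ => by
        split_ifs
        · exact P.nn ω
        · exact le_rfl
  rcases isEmpty_or_nonempty ι with hι | hι
  · simp at h1
    linarith
  · have h2 : ∑ i, prE P (F i) ≤ ∑ _i : ι, ε / Fintype.card ι :=
      Finset.sum_le_sum fun i _ => (hcon i).le
    rw [Finset.sum_const, Finset.card_univ, nsmul_eq_mul, mul_div_cancel₀] at h2
    · linarith
    · have : 0 < Fintype.card ι := Fintype.card_pos
      positivity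

end events

theorem lag_zero {Ω : Type} (t : Ω → ℝ) (w : Fin (0 + 2) → Ω) (l : Fin (0 + 1)) :
    lag t w l = 1 := by
  unfold lag
  have : (Finset.univ : Finset (Fin (0 + 1))).erase l = ∅ := by
    ext i
    simp only [Finset.mem_erase, Finset.mem_univ, and_true, Finset.notMem_empty, iff_false,
      not_not]
    exact Fin.ext (by have := i.2; have := l.2; omega)
  rw [this, Finset.prod_empty]

/-- the difference matrix -/
theorem lag_sum {Ω : Type} (t : Ω → ℝ) (w : Fin (0 + 2) → Ω) (G : Ω → ℝ) :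
    G (w (Fin.last (0 + 1))) - ∑ l : Fin (0 + 1), lag t w l * G (w l.castSucc) =
      G (w 1) - G (w 0) := by
  simp only [lag_zero, one_mul]
  rw [Fin.sum_univ_succ]
  simp

end Vale.Agent.P127.Stk.Bs
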