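import Vale.Agent.P127.Stk.BaseC

/-!
# P127 / Stk : section 6, `CK 0`, the contradiction
-/

namespace Vale.Agent.P127.Stk.Bs

open Finset Vale.Agent.P127 Vale.Agent.P127.Stk

section gen

variable {Ω : Type} [Fintype Ω] {S S' τ U V : Type*}

/-- the information of a function of the line is at most the cost -/
theorem mi_drop {P : Law Ω} {l : Ω → S} {T : Ω → τ} {A : Ω → U} {W : Ω → V} (hW : Fn P W T) :
    mi P l T (fun ω => (W ω, A ω)) ≤ mi P l T A := by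
  rw [mi_symm P l T (fun ω => (W ω, A ω)), mi_symm P l T A]
  exact mi_cond_le P l A fun ω ω' h1 h2 h3 => hW ω ω' h1 h2 (Prod.mk.inj h3).1

theorem drop_T {P : Law Ω} {X : Ω → S'} {l : Ω → S} {T : Ω → τ} {A : Ω → U} {W : Ω → V}
    (hW : Fn P W T) (hX : Fn P X (fun ω => (l ω, W ω, A ω))) :
    hc P X (fun ω => (W ω, A ω)) - mi P l T A ≤ hc P X (fun ω => (T ω, A ω)) := by
  have h1 : mi P X T (fun ω => (W ω, A ω)) = hc P X (fun ω => (W ω, A ω)) -
      hc P X (fun ω => (T ω, W ω, A ω)) := rfl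
  have h2 : hc P X (fun ω => (T ω, W ω, A ω)) ≤ hc P X (fun ω => (T ω, A ω)) :=
    hc_mono_right P X fun ω ω' _ _ h => by
      simp only [Prod.mk.injEq] at h ⊢
      exact ⟨h.1, h.2.2⟩
  have h3 : mi P X T (fun ω => (W ω, A ω)) ≤ mi P l T (fun ω => (W ω, A ω)) :=
    mi_mono_left P T fun ω ω' h1 h2 h => hX ω ω' h1 h2 h
  have h4 := mi_drop (P := P) (l := l) (T := T) (A := A) (W := W) hW
  linarith

end gen

section rate

variable {Ω Ω' : Type} [Fintype Ω] [Fintype Ω'] {m κ : ℕ} {Q' : Law Ω'} {c : Cf Ω m}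
  {o : Ob Ω m κ} {L : ℕ} {h e1 : ℝ} {π : Ω' → Ω}

theorem rate_up0 (r : Rate Q' (c.comp π) (o.comp π) L h e1) {s : ℕ} (hs : s ≤ L) :
    hc Q' (fun w => fl s (o.F c (π w))) (fun w => (c.t (π w), o.G (π w), c.A (π w))) ≤
      (h - κ) * s * Real.log 2 + e1 := r.up0 s hs

theorem rate_lo0 (r : Rate Q' (c.comp π) (o.comp π) L h e1) {s : ℕ} (hs : s ≤ L) :
    (h - κ) * s * Real.log 2 - e1 ≤
    hc Q' (fun w => fl s (o.F c (π w))) (fun w => (c.t (π w), o.G (π w), c.A (π w))) :=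
  r.lo0 s hs

theorem rate_pt (r : Rate Q' (c.comp π) (o.comp π) L h e1) {s : ℕ} (hs : s ≤ L) :
    h * s * Real.log 2 - e1 ≤
    hc Q' (fun w => fl s (c.pt (π w))) (fun w => (c.t (π w), o.G (π w), c.A (π w))) := by
  have h1 := r.pt 0 s (Nat.zero_le _) hs
  rw [Nat.cast_zero, sub_zero] at h1
  refine h1.trans ?_
  refine hc_mono_right Q' (fun w => fl s (c.pt (π w))) fun w w' _ _ h3 => ?_
  exact (Prod.mk.inj h3).2

end rate

variable {Ω : Type} [Fintype Ω] {m κ : ℕ}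

/-- the cost of a pair of copies -/
theorem cost_fam {P : Law Ω} {c : Cf Ω m} {o : Ob Ω m κ} {a : ℕ} {Q : Law (Fin 2 → Ω)}
    (hQ : ∀ w, Q.w w = cw P (key c a) 1 w) {C I : ℝ}
    (h1 : mi P (fun ω => (c.x ω, c.y ω)) c.t c.A ≤ C)
    (h2 : mi P (fun ω => (c.x ω, c.y ω)) o.G (fun ω => (c.t ω, c.A ω)) ≤ I)
    {Q' : Law (Fin 2 → Ω)} {K : ℝ} (hD : Dom Q' id Q K) :
    mi Q' (fun w => (c.x (w 0), c.y (w 0))) (fun w i => (c.t (w i), o.G (w i)))
      (fun w => c.A (w 0)) ≤ K * (3 * (C + I) + Real.log 2) := by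
  have e1 := cw_cost hQ (fun ω => (c.x ω, c.y ω)) c.A (fun ω => (c.t ω, o.G ω))
    (fun ω => fl1 a (c.t ω)) (fun ω ω' _ _ h => by
      simp only [Prod.mk.injEq] at h
      simp only [h.1]) (fun ω ω' _ _ h => by
      simp only [Prod.mk.injEq] at h
      simp only [key, h.1.1, h.1.2, h.2.1, h.2.2]) (fun ω ω' _ _ h => by
      simp only [key, Prod.mk.injEq] at h
      simp only [h.1, h.2.1, h.2.2.1, h.2.2.2]) 0
  have e2 := mi_pair P (fun ω => (c.x ω, c.y ω)) c.t o.G c.A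
  have e3 := hD.mi_le (fun w => (c.x (w 0), c.y (w 0))) (fun w i => (c.t (w i), o.G (w i)))
      (fun w => c.A (w 0))
  have hK := hD.one_le
  refine e3.trans (mul_le_mul_of_nonneg_left ?_ (by linarith))
  have e4 : mi Q (fun w => (c.x (w 0), c.y (w 0))) (fun w i => (c.t (w i), o.G (w i)))
      (fun w => c.A (w 0)) ≤ 3 * (C + I) := by
    refine e1.trans ?_
    push_cast
    linarith
  linarith

section

variable {Q' : Law (Fin 2 → Ω)} {c : Cf Ω m} {o : Ob Ω m κ} {L a β W : ℕ} {h e1 : ℝ}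
    {i0 j0 : Fin m}

/-- the data of both times -/
def TT (c : Cf Ω m) (o : Ob Ω m κ) (w : Fin 2 → Ω) : Fin 2 → ℝ × o.γ :=
  fun i => (c.t (w i), o.G (w i))

theorem TT_i {w w' : Fin 2 → Ω} (h : TT c o w = TT c o w') (i : Fin 2) :
    c.t (w i) = c.t (w' i) ∧ o.G (w i) = o.G (w' i) := by
  have h1 := congrFun h i
  simpa only [TT, Prod.mk.injEq] using h1

theorem c_u0 (r0 : Rate Q' (c.comp fun w => w 0) (o.comp fun w => w 0) L h e1)
    (haL : a ≤ L) :
    hc Q' (fun w => fl a (o.F c (w 0))) (fun w => (TT c o w, c.A (w 0))) ≤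
      (h - κ) * a * Real.log 2 + e1 := by
  refine le_trans ?_ (rate_up0 r0 haL)
  refine hc_mono_right Q' _ fun w w' h1 h2 h3 => ?_
  have h4 := TT_i (Prod.mk.inj h3).1 0
  rw [h4.1, h4.2, (Prod.mk.inj h3).2]

theorem c_u1 (r1 : Rate Q' (c.comp fun w => w 1) (o.comp fun w => w 1) L h e1)
    (hkey : ∀ w, 0 < Q'.w w → c.x (w 1) = c.x (w 0) ∧ c.y (w 1) = c.y (w 0) ∧
      c.A (w 1) = c.A (w 0)) (haL : a ≤ L) :
    hc Q' (fun w => fl a (o.F c (w 1))) (fun w => (TT c o w, c.A (w 0))) ≤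
      (h - κ) * a * Real.log 2 + e1 := by
  refine le_trans ?_ (rate_up0 r1 haL)
  refine hc_mono_right Q' _ fun w w' h1 h2 h3 => ?_
  have h4 := TT_i (Prod.mk.inj h3).1 1
  have h5 := (Prod.mk.inj h3).2
  rw [h4.1, h4.2, (hkey w h1).2.2, (hkey w' h2).2.2, h5]

/-- the projected point at the time one, written with the line at the time zero -/
theorem FF1_eq {w : Fin 2 → Ω} (hw : c.x (w 1) = c.x (w 0) ∧ c.y (w 1) = c.y (w 0)) :
    FF (fun w => c.x (w 0)) (fun w => c.y (w 0)) (fun w => c.t (w 1)) (fun w => o.Γ (w 1))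
      o.J w = o.F c (w 1) := by
  show ap o.J (o.Γ (w 1)) (fun i => c.x (w 0) i + c.t (w 1) * c.y (w 0) i) =
    ap o.J (o.Γ (w 1)) (fun i => c.x (w 1) i + c.t (w 1) * c.y (w 1) i)
  rw [hw.1, hw.2]

theorem c_u1' (r1 : Rate Q' (c.comp fun w => w 1) (o.comp fun w => w 1) L h e1)
    (hkey : ∀ w, 0 < Q'.w w → c.x (w 1) = c.x (w 0) ∧ c.y (w 1) = c.y (w 0) ∧
      c.A (w 1) = c.A (w 0)) (haL : a ≤ L) :
    hc Q' (fun w => fl a (FF (fun w => c.x (w 0)) (fun w => c.y (w 0)) (fun w => c.t (w 1))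
      (fun w => o.Γ (w 1)) o.J w)) (fun w => (TT c o w, c.A (w 0))) ≤
      (h - κ) * a * Real.log 2 + e1 := by
  refine le_trans ?_ (c_u1 r1 hkey haL)
  refine hc_mono_left Q' fun w w' h1 h2 h3 => ?_
  have h4 := hkey w h1
  have h5 := hkey w' h2
  rw [FF1_eq ⟨h4.1, h4.2.1⟩, FF1_eq ⟨h5.1, h5.2.1⟩]
  exact (Prod.mk.inj h3).1

theorem c_n1 (r0 : Rate Q' (c.comp fun w => w 0) (o.comp fun w => w 0) L h e1)
    (haL : a ≤ L) :
    h * a * Real.log 2 - e1 - mi Q' (fun w => (c.x (w 0), c.y (w 0))) (TT c o)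
      (fun w => c.A (w 0)) ≤
      hc Q' (fun w => fl a (c.pt (w 0))) (fun w => (TT c o w, c.A (w 0))) := by
  have e2 := drop_T (P := Q') (X := fun w => fl a (c.pt (w 0)))
    (l := fun w => (c.x (w 0), c.y (w 0))) (T := TT c o) (A := fun w => c.A (w 0))
    (W := fun w => (c.t (w 0), o.G (w 0))) (fun w w' _ _ h3 => congrFun h3 0) (by
      intro w w' _ _ h3
      simp only [Prod.mk.injEq] at h3
      obtain ⟨⟨q1, q2⟩, ⟨q3, _⟩, _⟩ := h3
      have : c.pt (w 0) = c.pt (w' 0) := by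
        unfold Cf.pt
        rw [q1, q2, q3]
      simp only [this])
  have e3 := rate_pt r0 haL
  have e4 : hc Q' (fun w => fl a (c.pt (w 0)))
      (fun w => (c.t (w 0), o.G (w 0), c.A (w 0))) ≤
      hc Q' (fun w => fl a (c.pt (w 0))) (fun w => ((c.t (w 0), o.G (w 0)), c.A (w 0))) := by
    refine hc_mono_right Q' _ fun w w' _ _ h3 => ?_
    simp only [Prod.mk.injEq] at h3 ⊢
    exact ⟨⟨h3.1, h3.2.1⟩, h3.2.2⟩
  linarith

theorem c_l0 (r0 : Rate Q' (c.comp fun w => w 0) (o.comp fun w => w 0) L h e1)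
    (haL : β ≤ L) :
    (h - κ) * β * Real.log 2 - e1 - mi Q' (fun w => (c.x (w 0), c.y (w 0))) (TT c o)
      (fun w => c.A (w 0)) ≤
      hc Q' (fun w => fl β (o.F c (w 0))) (fun w => (TT c o w, c.A (w 0))) := by
  have e2 := drop_T (P := Q') (X := fun w => fl β (o.F c (w 0)))
    (l := fun w => (c.x (w 0), c.y (w 0))) (T := TT c o) (A := fun w => c.A (w 0))
    (W := fun w => (c.t (w 0), o.G (w 0))) (fun w w' _ _ h3 => congrFun h3 0) (by
      intro w w' _ _ h3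
      simp only [Prod.mk.injEq] at h3
      obtain ⟨⟨q1, q2⟩, ⟨q3, q4⟩, _⟩ := h3
      have : o.F c (w 0) = o.F c (w' 0) := by
        unfold Ob.F Ob.app Cf.pt
        rw [q1, q2, q3, o.fn _ _ q4]
      simp only [this])
  have e3 := rate_lo0 r0 haL
  have e4 : hc Q' (fun w => fl β (o.F c (w 0)))
      (fun w => (c.t (w 0), o.G (w 0), c.A (w 0))) ≤
      hc Q' (fun w => fl β (o.F c (w 0))) (fun w => ((c.t (w 0), o.G (w 0)), c.A (w 0))) := by
    refine hc_mono_right Q' _ fun w w' _ _ h3 => ?_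
    simp only [Prod.mk.injEq] at h3 ⊢
    exact ⟨⟨h3.1, h3.2.1⟩, h3.2.2⟩
  linarith

/-- the cost in the form needed for the killing lemma -/
theorem c_mi (β : ℕ) : mi Q' (fun w => (c.x (w 0), c.y (w 0))) (TT c o)
      (fun w => (c.t (w 0), c.A (w 0), fl β (c.x (w 0)), fl β (c.y (w 0)))) ≤
      mi Q' (fun w => (c.x (w 0), c.y (w 0))) (TT c o) (fun w => c.A (w 0)) := by
  have h1 := mi_drop (P := Q') (l := fun w => (c.x (w 0), c.y (w 0))) (T := TT c o)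
    (A := fun w => (c.A (w 0), fl β (c.x (w 0)), fl β (c.y (w 0))))
    (W := fun w => c.t (w 0)) (fun w w' _ _ h3 => (TT_i h3 0).1)
  have h2 := mi_congr_cond Q' (fun w => (c.x (w 0), c.y (w 0))) (TT c o)
    (Z := fun w => (c.A (w 0), fl β (c.x (w 0)), fl β (c.y (w 0))))
    (Z' := fun w => ((fl β (c.x (w 0)), fl β (c.y (w 0))), c.A (w 0)))
    (fun w w' _ _ h3 => by
      simp only [Prod.mk.injEq] at h3 ⊢
      tauto) (fun w w' _ _ h3 => by
      simp only [Prod.mk.injEq] at h3 ⊢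
      tauto)
  have h3 := mi_cond_le Q' (X := fun w => (c.x (w 0), c.y (w 0))) (TT c o)
    (W := fun w => (fl β (c.x (w 0)), fl β (c.y (w 0)))) (fun w => c.A (w 0))
    (fun w w' _ _ h3 => by
      simp only [Prod.mk.injEq] at h3 ⊢
      rw [h3.1.1, h3.1.2]
      exact ⟨rfl, rfl⟩)
  linarith

/-- the upper bound which contradicts the killing lemma -/
theorem contra
    (hDD : DD Q' κ (fun w => c.x (w 0)) (fun w => c.y (w 0)) (fun w => c.t (w 0))
      (fun w => c.t (w 1)) (fun w => o.Γ (w 0)) (fun w => o.Γ (w 1)) (TT c o) o.J i0 j0 a β W)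
    (hkey : ∀ w, 0 < Q'.w w → c.x (w 1) = c.x (w 0) ∧ c.y (w 1) = c.y (w 0) ∧
      c.A (w 1) = c.A (w 0))
    (r0 : Rate Q' (c.comp fun w => w 0) (o.comp fun w => w 0) L h e1)
    (r1 : Rate Q' (c.comp fun w => w 1) (o.comp fun w => w 1) L h e1)
    (hβ : β ≤ a) (haL : a ≤ L) :
    hc Q' (fun w => fl a (fun i => o.F c (w 0) i -
        o.F c (w 0) i0 * vv (fun w => o.Γ (w 0)) (fun w => o.Γ (w 1)) o.J i0 j0 w i))
      (fun w => ((fl β (c.x (w 0)), fl β (c.y (w 0))), c.t (w 0), TT c o w, c.A (w 0))) ≤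
      (h - κ - 1) * ((a : ℝ) - β) * Real.log 2 + (W * Real.log 2 + 4 * e1 +
        2 * mi Q' (fun w => (c.x (w 0), c.y (w 0))) (TT c o) (fun w => c.A (w 0)) +
        (κ * Real.log 3 + 2 * Real.log 2 + 7 * (m * Real.log (2 * NN κ + 3)))) := by
  have hd := hDD.disp (fun w => c.A (w 0)) L hβ haL
  have u0 : hc Q' (fun w => fl a (FF (fun w => c.x (w 0)) (fun w => c.y (w 0))
      (fun w => c.t (w 0)) (fun w => o.Γ (w 0)) o.J w)) (fun w => (TT c o w, c.A (w 0))) ≤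
      (h - κ) * a * Real.log 2 + e1 := c_u0 r0 haL
  have u1 := c_u1' r1 hkey haL
  have n1 : h * a * Real.log 2 - e1 -
      mi Q' (fun w => (c.x (w 0), c.y (w 0))) (TT c o) (fun w => c.A (w 0)) ≤
      hc Q' (fun w => fl a (pnt (fun w => c.x (w 0))
      (fun w => c.y (w 0)) (fun w => c.t (w 0)) w)) (fun w => (TT c o w, c.A (w 0))) :=
    c_n1 r0 haL
  have l0 : (h - κ) * β * Real.log 2 - e1 -
      mi Q' (fun w => (c.x (w 0), c.y (w 0))) (TT c o) (fun w => c.A (w 0)) ≤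
      hc Q' (fun w => fl β (FF (fun w => c.x (w 0)) (fun w => c.y (w 0))
      (fun w => c.t (w 0)) (fun w => o.Γ (w 0)) o.J w)) (fun w => (TT c o w, c.A (w 0))) :=
    c_l0 r0 (hβ.trans haL)
  have hlast : hc Q' (fun w => fl a (fun i => o.F c (w 0) i -
        o.F c (w 0) i0 * vv (fun w => o.Γ (w 0)) (fun w => o.Γ (w 1)) o.J i0 j0 w i))
      (fun w => ((fl β (c.x (w 0)), fl β (c.y (w 0))), c.t (w 0), TT c o w, c.A (w 0))) ≤
      hc Q' (fun w => fl a (ZZ (fun w => c.x (w 0)) (fun w => c.y (w 0)) (fun w => c.t (w 0))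
        (fun w => o.Γ (w 0)) (fun w => o.Γ (w 1)) o.J i0 j0 w))
      (fun w => ((fl β (c.x (w 0)), fl β (c.y (w 0))), TT c o w, c.A (w 0))) :=
    hc_mono_right Q' _ fun w w' _ _ h3 => by
      simp only [Prod.mk.injEq] at h3 ⊢
      exact ⟨h3.1, h3.2.2.1, h3.2.2.2⟩
  refine hlast.trans (hd.trans ?_)
  linarith [u0, u1, n1, l0]

end

end Vale.Agent.P127.Stk.Bs
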