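import Vale.Agent.P127.Stk.BaseD

/-!
# P127 / Stk : section 6, `CK 0`, the assembly
-/

namespace Vale.Agent.P127.Stk.Bs

open Finset Vale.Agent.P127 Vale.Agent.P127.Stk

variable {Ω : Type} [Fintype Ω] {m κ : ℕ}

/-- the bad event of `CK 0` -/
def Bad (o : Ob Ω m κ) (thr : ℝ) (w : Fin 2 → Ω) : Prop :=
  ∃ i, i ∉ o.J ∧ ∃ j ∈ o.J, thr < |o.Γ (w 1) i j - o.Γ (w 0) i j|

/-- the event where the maximal entry is `(i, j)` and its size is in the `k`-th block -/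
def Blk (o : Ob Ω m κ) (W : ℕ) (top : ℝ) (i j : Fin m) (k : ℕ) (w : Fin 2 → Ω) : Prop :=
  i ∉ o.J ∧ j ∈ o.J ∧ (∀ i', i' ∉ o.J → |o.Γ (w 1) i' j - o.Γ (w 0) i' j| ≤
    |o.Γ (w 1) i j - o.Γ (w 0) i j|) ∧
    |o.Γ (w 1) i j - o.Γ (w 0) i j| ≤ (2 * 3 ^ κ) * (1 / 2 : ℝ) ^ (k * W) ∧
    (1 / 2 : ℝ) ^ (k * W + W) ≤ |o.Γ (w 1) i j - o.Γ (w 0) i j| ∧ ((k * W : ℕ) : ℝ) ≤ top

theorem bad_blk {o : Ob Ω m κ} {a L W : ℕ} {ε : ℝ} (hW : 0 < W)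
    (hL : (1 + 2 * κ : ℝ) ≤ ε / 2 * L) {w : Fin 2 → Ω}
    (h : Bad o ((2 : ℝ) ^ (-(a : ℝ) + ε * L)) w) :
    ∃ i j k, Blk o W (a - ε / 2 * L) i j k w := by
  classical
  obtain ⟨i1, hi1, j1, hj1, hb⟩ := h
  have hne : ((Finset.univ : Finset (Fin m × Fin m)).filter
      (fun p => p.1 ∉ o.J ∧ p.2 ∈ o.J)).Nonempty :=
    ⟨(i1, j1), by simp [hi1, hj1]⟩
  obtain ⟨⟨i, j⟩, hij, hmax⟩ := Finset.exists_max_image _
    (fun p : Fin m × Fin m => |o.Γ (w 1) p.1 p.2 - o.Γ (w 0) p.1 p.2|) hne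
  simp only [Finset.mem_filter, Finset.mem_univ, true_and] at hij hmax
  have h1 := hmax (i1, j1) ⟨hi1, hj1⟩
  have h2 : (2 : ℝ) ^ (-(a : ℝ) + ε * L) < |o.Γ (w 1) i j - o.Γ (w 0) i j| := hb.trans_le h1
  have h0 : (0 : ℝ) < (2 : ℝ) ^ (-(a : ℝ) + ε * L) := by positivity
  have h3 : |o.Γ (w 1) i j - o.Γ (w 0) i j| ≤ 2 * 3 ^ κ := by
    have := abs_sub (o.Γ (w 1) i j) (o.Γ (w 0) i j)
    have := o.bd (w 1) i j
    have := o.bd (w 0) i j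
    linarith
  have hB : (1 : ℝ) ≤ 2 * 3 ^ κ := by
    have := pow3 κ
    linarith
  obtain ⟨k, hk1, hk2⟩ := bin hB hW (h0.trans h2) h3
  exact ⟨i, j, k, hij.1, hij.2, fun i' hi' => hmax (i', j) ⟨hi', hij.2⟩, hk2, hk1,
    bin_le hk2 h2 hL⟩

theorem dd_of {c : Cf Ω m} {o : Ob Ω m κ} {a W k : ℕ} {top : ℝ} {i j : Fin m}
    {Q' : Law (Fin 2 → Ω)} (hx : ∀ ω i, 0 ≤ c.x ω i ∧ c.x ω i < 1)
    (hy : ∀ ω i, 0 ≤ c.y ω i ∧ c.y ω i < 1) (ht : ∀ ω, 0 ≤ c.t ω ∧ c.t ω < 1)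
    (hi : i ∉ o.J) (hj : j ∈ o.J)
    (hkey : ∀ w, 0 < Q'.w w → key c a (w 1) = key c a (w 0))
    (hblk : ∀ w, 0 < Q'.w w → Blk o W top i j k w) :
    DD Q' κ (fun w => c.x (w 0)) (fun w => c.y (w 0)) (fun w => c.t (w 0))
      (fun w => c.t (w 1)) (fun w => o.Γ (w 0)) (fun w => o.Γ (w 1)) (TT c o) o.J i j a
      (k * W) W where
  card := o.card
  hi0 := hi
  hj0 := hj
  hx := fun w _ i => hx (w 0) i
  hy := fun w _ i => hy (w 0) i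
  ht0 := fun w _ => ht (w 0)
  ht1 := fun w _ => ht (w 1)
  htt := fun w hw => by
    have h1 := hkey w hw
    simp only [key, Prod.mk.injEq] at h1
    exact fl1_close h1.2.2.2.symm
  hg0 := fun w _ => o.bd (w 0)
  hg1 := fun w _ => o.bd (w 1)
  hmx := fun w hw i' hi' => (hblk w hw).2.2.1 i' hi'
  hup := fun w hw => (hblk w hw).2.2.2.1
  hlo := fun w hw => (hblk w hw).2.2.2.2.1
  hfn := fun w w' _ _ h3 => by
    have h0 := TT_i h3 0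
    have h1 := TT_i h3 1
    show (c.t (w 0), c.t (w 1), o.Γ (w 0), o.Γ (w 1)) =
      (c.t (w' 0), c.t (w' 1), o.Γ (w' 0), o.Γ (w' 1))
    rw [h0.1, h1.1, o.fn _ _ h0.2, o.fn _ _ h1.2]

/-- the constant -/
noncomputable def Cs (m κ : ℕ) : ℝ :=
  κ * Real.log 3 + 2 * Real.log 2 + 7 * (m * Real.log (2 * NN κ + 3))

theorem Cs_nonneg (m κ : ℕ) : 0 ≤ Cs m κ := by
  unfold Cs
  have h1 : 0 ≤ Real.log 3 := Real.log_nonneg (by norm_num)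
  have h2 : 0 ≤ Real.log 2 := Real.log_nonneg (by norm_num)
  have h3 : 0 ≤ Real.log (2 * (NN κ : ℝ) + 3) := Real.log_nonneg (by
    have : (0 : ℝ) ≤ NN κ := Nat.cast_nonneg _
    linarith)
  positivity

theorem num_small {κ : ℕ} {ε δ K Cst L C : ℝ} (hε : 0 < ε) (hδ : 0 < δ) (hK : 2 ≤ K)
    (hCst : 0 ≤ Cst) (hL0 : 0 ≤ L)
    (s1 : 1 ≤ min (ε / (2 * (1 + 2 * κ))) (δ / (96 * K + 16 * (2 * K + 1 + Cst))) * L)
    (s3 : C ≤ min (ε / (2 * (1 + 2 * κ))) (δ / (96 * K + 16 * (2 * K + 1 + Cst))) * L) :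
    (1 + 2 * κ : ℝ) ≤ ε / 2 * L ∧ 96 * K + 16 * (2 * K + 1 + Cst) ≤ δ * L ∧
      96 * K * max C 0 ≤ δ * L ∧ 0 < L := by
  have s1a : 1 ≤ ε / (2 * (1 + 2 * κ)) * L :=
    s1.trans (mul_le_mul_of_nonneg_right (min_le_left _ _) hL0)
  have s1b : 1 ≤ δ / (96 * K + 16 * (2 * K + 1 + Cst)) * L :=
    s1.trans (mul_le_mul_of_nonneg_right (min_le_right _ _) hL0)
  have s3b : C ≤ δ / (96 * K + 16 * (2 * K + 1 + Cst)) * L :=
    s3.trans (mul_le_mul_of_nonneg_right (min_le_right _ _) hL0)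
  have hL1 : (1 + 2 * κ : ℝ) ≤ ε / 2 * L := by
    have h1 : (0 : ℝ) < 1 + 2 * κ := by positivity
    have h2 : ε / (2 * (1 + 2 * κ)) * L = (ε / 2 * L) / (1 + 2 * κ) := by
      field_simp
    rw [h2, le_div_iff₀ h1, one_mul] at s1a
    exact s1a
  have hK0 : 0 < K := by linarith
  have hden : 0 < 96 * K + 16 * (2 * K + 1 + Cst) := by positivity
  have hL2 : 96 * K + 16 * (2 * K + 1 + Cst) ≤ δ * L := by
    rw [div_mul_eq_mul_div, le_div_iff₀ hden, one_mul] at s1b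
    exact s1b
  refine ⟨hL1, hL2, ?_, ?_⟩
  · rcases le_total C 0 with h1 | h1
    · rw [max_eq_right h1, mul_zero]
      positivity
    · rw [max_eq_left h1]
      rw [div_mul_eq_mul_div, le_div_iff₀ hden] at s3b
      have : 0 ≤ C * (16 * (2 * K + 1 + Cst)) := by positivity
      linarith
  · rcases hL0.eq_or_lt with h0 | h0
    · rw [← h0, mul_zero] at hL2
      linarith
    · exact h0

theorem num_cost {δ K L C cost : ℝ} (hδ : 0 < δ) (hK : 2 ≤ K) (hL : 0 < L)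
    (hC : 96 * K * max C 0 ≤ δ * L)
    (hc : cost ≤ K * (3 * (max C 0 + δ / (96 * K) * L) + Real.log 2)) :
    cost ≤ δ / 16 * L + K := by
  have hb1 : Real.log 2 ≤ 1 := by
    have := Real.log_two_lt_d9
    linarith
  have hK0 : 0 < K := by linarith
  have hKδ : K * (δ / (96 * K) * L) = δ / 96 * L := by field_simp
  have h1 : K * (3 * (max C 0 + δ / (96 * K) * L) + Real.log 2) =
      3 * (K * max C 0) + 3 * (K * (δ / (96 * K) * L)) + K * Real.log 2 := by ring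
  rw [h1, hKδ] at hc
  have h2 : K * Real.log 2 ≤ K * 1 := mul_le_mul_of_nonneg_left hb1 hK0.le
  have h3 : 0 < δ * L := by positivity
  linarith

theorem num_fin {δ K L W Cst cost : ℝ} (hδ : 0 < δ) (hK : 2 ≤ K) (hL : 0 < L)
    (hCst : 0 ≤ Cst) (hL2 : 96 * K + 16 * (2 * K + 1 + Cst) ≤ δ * L) (hW0 : 0 ≤ W)
    (hW : W ≤ δ / 8 * L + 1) (hc : cost ≤ δ / 16 * L + K) :
    cost ≤ δ * L ∧ W * Real.log 2 + 4 * (δ / 32 * L) + 2 * cost + Cst ≤ δ * L := by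
  have hb1 : Real.log 2 ≤ 1 := by
    have := Real.log_two_lt_d9
    linarith
  have h2 : W * Real.log 2 ≤ W * 1 := mul_le_mul_of_nonneg_left hb1 hW0
  have h3 : 0 < δ * L := by positivity
  constructor <;> linarith

/-- the contradiction, for a fixed block -/
theorem ck0_blk {P : Law Ω} {c : Cf Ω m} {o : Ob Ω m κ} {Q Q' : Law (Fin 2 → Ω)}
    {a L W k : ℕ} {h ε δ e C K : ℝ} {i j : Fin m}
    (hδ : 0 < δ) (hK : 2 ≤ K) (hL : (0 : ℝ) < L)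
    (hL2 : 96 * K + 16 * (2 * K + 1 + Cs m κ) ≤ δ * L) (hL3 : 96 * K * max C 0 ≤ δ * L)
    (hW2 : (W : ℝ) ≤ δ / 8 * L + 1) (hβa : k * W ≤ a) (haL : a ≤ L)
    (hη : ε / 2 * L ≤ (a : ℝ) - (k * W : ℕ))
    (hgood : Good P c L e C)
    (hcost : mi P (fun ω => (c.x ω, c.y ω)) o.G (fun ω => (c.t ω, c.A ω)) ≤ δ / (96 * K) * L)
    (hQ : ∀ w, Q.w w = cw P (key c a) 1 w) (hdom : Dom Q' id Q K)
    (hkey : ∀ w, 0 < Q'.w w → key c a (w 1) = key c a (w 0))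
    (hi : i ∉ o.J)
    (hDD : DD Q' κ (fun w => c.x (w 0)) (fun w => c.y (w 0)) (fun w => c.t (w 0))
      (fun w => c.t (w 1)) (fun w => o.Γ (w 0)) (fun w => o.Γ (w 1)) (TT c o) o.J i j a
      (k * W) W)
    (r0 : Rate Q' (c.comp fun w => w 0) (o.comp fun w => w 0) L h (δ / 32 * L))
    (r1 : Rate Q' (c.comp fun w => w 1) (o.comp fun w => w 1) L h (δ / 32 * L))
    (hk : ∀ (σ : Type) (D : (Fin 2 → Ω) → σ) (r r' : ℕ) (v : (Fin 2 → Ω) → Fin m → ℝ)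
        (i0 : Fin m),
        r ≤ r' → r' ≤ L → ε / 2 * L ≤ (r' : ℝ) - r → i0 ∉ o.J →
        Fn Q' (fun ω => o.Γ (ω 0)) D → Fn Q' v D →
        (∀ ω, 0 < Q'.w ω → (∀ j ∈ o.J, v ω j = 0) ∧ v ω i0 = 1 ∧ ∀ i, |v ω i| ≤ 1) →
        mi Q' (fun ω => (c.x (ω 0), c.y (ω 0))) D
          (fun ω => (c.t (ω 0), c.A (ω 0), fl r (c.x (ω 0)), fl r (c.y (ω 0)))) ≤ δ * L →
        (h - κ - 1) * ((r' : ℝ) - r) * Real.log 2 + δ * L <
          hc Q' (fun ω => fl r' (fun i => o.F c (ω 0) i - o.F c (ω 0) i0 * v ω i))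
            (fun ω => ((fl r (c.x (ω 0)), fl r (c.y (ω 0))), c.t (ω 0), D ω, c.A (ω 0)))) :
    False := by
  have hkey' : ∀ w, 0 < Q'.w w → c.x (w 1) = c.x (w 0) ∧ c.y (w 1) = c.y (w 0) ∧
      c.A (w 1) = c.A (w 0) := by
    intro w hw
    have h1 := hkey w hw
    simp only [key, Prod.mk.injEq] at h1
    exact ⟨h1.1, h1.2.1, h1.2.2.1⟩
  have hcf : mi Q' (fun w => (c.x (w 0), c.y (w 0))) (TT c o) (fun w => c.A (w 0)) ≤
      K * (3 * (max C 0 + δ / (96 * K) * L) + Real.log 2) :=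
    cost_fam (o := o) hQ (hgood.ind.trans (le_max_left C 0)) hcost hdom
  have hcf2 := num_cost hδ hK hL hL3 hcf
  have hcon2 := contra hDD hkey' r0 r1 hβa haL
  have hnum := num_fin (Cst := Cs m κ) hδ hK hL (Cs_nonneg m κ) hL2 (Nat.cast_nonneg W) hW2 hcf2
  have hfin := hk (Fin 2 → ℝ × o.γ) (TT c o) (k * W) a
    (vv (fun w => o.Γ (w 0)) (fun w => o.Γ (w 1)) o.J i j) i hβa haL hη hi
    (fun w w' _ _ h3 => o.fn _ _ (TT_i h3 0).2)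
    (fun w w' h1 h2 h3 => hDD.hvT h1 h2 h3)
    (fun w hw => by
      refine ⟨fun j' hj' => by simp [vv, hj'], ?_, hDD.hv1 hw⟩
      have h0 := hDD.hD0 hw
      simp only [vv, if_neg hi]
      exact div_self h0)
    ((c_mi (k * W)).trans hnum.1)
  have h2 := hnum.2
  unfold Cs at h2
  linarith

theorem dom_i {P : Law Ω} {c : Cf Ω m} {a : ℕ} {Q Q' : Law (Fin 2 → Ω)} {K : ℝ}
    (hQ : ∀ w, Q.w w = cw P (key c a) 1 w) (hdom : Dom Q' id Q K) (i : Fin 2) :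
    Dom Q' (fun w => w i) P K := by
  have h1 : Dom Q (fun w : Fin 2 → Ω => w i) P 1 := by
    intro ω
    rw [cw_marg hQ i ω, one_mul]
  have h2 := Dom.comp hdom h1
  rw [mul_one] at h2
  exact h2

theorem exists_pos (Q : Law Ω) : ∃ w, 0 < Q.w w := by
  by_contra hno
  push Not at hno
  have h1 : ∑ w, Q.w w ≤ 0 := Finset.sum_nonpos fun w _ => hno w
  rw [Q.sum_one] at h1
  linarith

/-- pigeonhole for the blocks -/
theorem ck0_pig {o : Ob Ω m κ} {Q : Law (Fin 2 → Ω)} {a L W : ℕ} {ε δ : ℝ} (hε : 0 < ε)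
    (hδ : 0 < δ) (hL : (0 : ℝ) < L) (hL1 : (1 + 2 * κ : ℝ) ≤ ε / 2 * L) (haL : a ≤ L)
    (hW1 : δ / 8 * L ≤ W)
    (hcon : ε < prE Q (Bad o ((2 : ℝ) ^ (-(a : ℝ) + ε * (L : ℕ))))) :
    ∃ p : Fin m × Fin m × Fin (⌈8 / δ⌉₊ + 1),
      ε / Fintype.card (Fin m × Fin m × Fin (⌈8 / δ⌉₊ + 1)) ≤
        prE Q (Blk o W (a - ε / 2 * L) p.1 p.2.1 p.2.2) := by
  have hW0 : 0 < W := by
    have h1 : 0 < δ / 8 * L := by positivity
    have h2 : (0 : ℝ) < W := h1.trans_le hW1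
    exact_mod_cast h2
  have haL' : (a : ℝ) ≤ L := by exact_mod_cast haL
  refine pigeon (P := Q) (E := Bad o ((2 : ℝ) ^ (-(a : ℝ) + ε * (L : ℕ))))
    (F := fun p : Fin m × Fin m × Fin (⌈8 / δ⌉₊ + 1) =>
      Blk o W (a - ε / 2 * L) p.1 p.2.1 p.2.2) (fun w _ hw => ?_) hε hcon
  obtain ⟨i, j, k, hb⟩ := bad_blk hW0 hL1 hw
  have h1 : (k : ℝ) * W ≤ L := by
    have h2 := hb.2.2.2.2.2
    push_cast at h2
    have : 0 ≤ ε / 2 * L := by positivity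
    linarith
  have h3 : (k : ℝ) ≤ 8 / δ := by
    rw [le_div_iff₀ hδ]
    have h4 : (k : ℝ) * (δ / 8 * L) ≤ L :=
      (mul_le_mul_of_nonneg_left hW1 (Nat.cast_nonneg k)).trans h1
    have h5 : (k : ℝ) * δ * L ≤ 8 * L := by linarith
    exact le_of_mul_le_mul_right h5 hL
  have h6 : k < ⌈8 / δ⌉₊ + 1 := by
    have h7 := h3.trans (Nat.le_ceil (8 / δ))
    have h8 : k ≤ ⌈8 / δ⌉₊ := by exact_mod_cast h7
    omega
  exact ⟨(i, j, ⟨k, h6⟩), hb⟩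

/-- `CK 0` in terms of the event `Bad` -/
theorem ck0_ev (R : Gr) {m : ℕ} {h : ℝ} {κ : ℕ} (hLB : LB R m h) (hkill : KillG R m h κ) :
    Ev R m h κ fun ε a Ω _ P c o => ∀ Q : Law (Fin 2 → Ω),
      (∀ w, Q.w w = cw P (key c a) 1 w) →
      prE Q (Bad o ((2 : ℝ) ^ (-(a : ℝ) + ε * ((κ + 4) * a : ℕ)))) ≤ ε := by
  intro ε hε
  have hb0 : 0 < Real.log 2 := Real.log_pos (by norm_num)
  obtain ⟨δ, hδ, hk⟩ := hkill (ε / 2) (half_pos hε)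
  have hK2 : 2 ≤ max 2 ((Fintype.card (Fin m × Fin m × Fin (⌈8 / δ⌉₊ + 1)) : ℝ) / ε) :=
    le_max_left _ _
  have hK3 : (Fintype.card (Fin m × Fin m × Fin (⌈8 / δ⌉₊ + 1)) : ℝ) / ε ≤
    max 2 ((Fintype.card (Fin m × Fin m × Fin (⌈8 / δ⌉₊ + 1)) : ℝ) / ε) := le_max_right _ _
  generalize max 2 ((Fintype.card (Fin m × Fin m × Fin (⌈8 / δ⌉₊ + 1)) : ℝ) / ε) = K
    at hK2 hK3
  have hK0 : 0 < K := by linarith
  obtain ⟨ι1, hι1, hr⟩ := rates_main R (κ := κ) hLB (δ / 32) K (by positivity)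
  refine ⟨min ι1 (δ / (96 * K)), lt_min hι1 (by positivity), 1, one_pos, fun g => ?_⟩
  obtain ⟨n1, hn1⟩ := hr g
  obtain ⟨n2, hn2⟩ := hk K g
  have hCs := Cs_nonneg m κ
  obtain ⟨n3, hn3⟩ := R.small g (min (ε / (2 * (1 + 2 * κ)))
    (δ / (96 * K + 16 * (2 * K + 1 + Cs m κ)))) (lt_min (by positivity) (by positivity))
  refine ⟨max n1 (max n2 n3), fun a e C hok Ω _ P c o hH Q hQ => ?_⟩
  by_contra hcon
  push Not at hcon
  obtain ⟨hgood, hcost, hrate, -⟩ := hH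
  have haL : a ≤ (κ + 4) * a := Nat.le_mul_of_pos_left a (by omega)
  generalize (κ + 4) * a = L at hok hcon hgood hcost hrate haL
  have ok1 := R.anti g n1 _ L e C (le_max_left _ _) hok
  have ok2 := R.anti g n2 _ L e C ((le_max_left n2 n3).trans (le_max_right _ _)) hok
  have ok3 := R.anti g n3 _ L e C ((le_max_right n2 n3).trans (le_max_right _ _)) hok
  obtain ⟨s1, -, s3⟩ := hn3 L e C ok3
  obtain ⟨hL1, hL2, hL3, hLpos⟩ := num_small hε hδ hK2 hCs (Nat.cast_nonneg L) s1 s3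
  have hW1 : δ / 8 * L ≤ ⌈δ / 8 * L⌉₊ := Nat.le_ceil _
  have hW2 : (⌈δ / 8 * L⌉₊ : ℝ) ≤ δ / 8 * L + 1 := (Nat.ceil_lt_add_one (by positivity)).le
  generalize ⌈δ / 8 * L⌉₊ = W at hW1 hW2
  obtain ⟨⟨i, j, k⟩, hijk⟩ := ck0_pig hε hδ hLpos hL1 haL hW1 hcon
  have hNI0 : (0 : ℝ) < Fintype.card (Fin m × Fin m × Fin (⌈8 / δ⌉₊ + 1)) := by
    have : Nonempty (Fin m × Fin m × Fin (⌈8 / δ⌉₊ + 1)) := ⟨(i, j, k)⟩
    exact_mod_cast Fintype.card_pos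
  generalize (Fintype.card (Fin m × Fin m × Fin (⌈8 / δ⌉₊ + 1)) : ℝ) = NI
    at hijk hNI0 hK3
  have hp : 0 < ε / NI := by positivity
  have hprE : 0 < prE Q (Blk o W (a - ε / 2 * L) i j k) := hp.trans_le hijk
  have hdom : Dom (on Q (Blk o W (a - ε / 2 * L) i j k)) id Q K := by
    refine (Dom.on hp hijk).mono ?_
    rw [one_div_div]
    exact hK3
  have hsupp : ∀ w, 0 < (on Q (Blk o W (a - ε / 2 * L) i j k)).w w →
      Blk o W (a - ε / 2 * L) i j k w ∧ 0 < Q.w w := fun w hw => on_pos hprE hw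
  generalize on Q (Blk o W (a - ε / 2 * L) i j k) = Q' at hdom hsupp
  have hkey : ∀ w, 0 < Q'.w w → key c a (w 1) = key c a (w 0) := fun w hw =>
    (cw_supp hQ (hsupp w hw).2).1 1
  have hblk : ∀ w, 0 < Q'.w w → Blk o W (a - ε / 2 * L) i j k w := fun w hw => (hsupp w hw).1
  obtain ⟨w0, hw0⟩ := exists_pos Q'
  have hb0' := hblk w0 hw0
  have hβtop : (((k : ℕ) * W : ℕ) : ℝ) ≤ a - ε / 2 * L := hb0'.2.2.2.2.2
  have hβa : (k : ℕ) * W ≤ a := by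
    have : (((k : ℕ) * W : ℕ) : ℝ) ≤ a := by
      have : 0 ≤ ε / 2 * L := by positivity
      linarith
    exact_mod_cast this
  have hDD := dd_of (c := c) (a := a) hgood.x01 hgood.y01 hgood.t01 hb0'.1 hb0'.2.1 hkey hblk
  have hL0 : (0 : ℝ) ≤ L := hLpos.le
  have hcost1 : mi P (fun ω => (c.x ω, c.y ω)) o.G (fun ω => (c.t ω, c.A ω)) ≤ ι1 * L :=
    hcost.trans (mul_le_mul_of_nonneg_right (min_le_left _ _) hL0)
  have hcost2 : mi P (fun ω => (c.x ω, c.y ω)) o.G (fun ω => (c.t ω, c.A ω)) ≤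
      δ / (96 * K) * L :=
    hcost.trans (mul_le_mul_of_nonneg_right (min_le_right _ _) hL0)
  have hrate1 : hc P (fun ω => fl L (o.F c ω)) (fun ω => (c.t ω, o.G ω, c.A ω)) ≤
      (h - κ + ι1) * L * Real.log 2 := by
    refine hrate.trans ?_
    refine mul_le_mul_of_nonneg_right (mul_le_mul_of_nonneg_right ?_ hL0) hb0.le
    have := min_le_left ι1 (δ / (96 * K))
    linarith
  have r0 := hn1 L e C ok1 Ω (Fin 2 → Ω) P c o Q' (fun w => w 0) hgood hcost1 hrate1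
    (dom_i hQ hdom 0)
  have r1 := hn1 L e C ok1 Ω (Fin 2 → Ω) P c o Q' (fun w => w 1) hgood hcost1 hrate1
    (dom_i hQ hdom 1)
  exact ck0_blk hδ hK2 hLpos hL2 hL3 hW2 hβa haL (by linarith) hgood hcost2 hQ hdom hkey
    hb0'.1 hDD r0 r1 (hn2 L e C ok2 Ω P c o hgood (Fin 2 → Ω) Q' (fun w => w 0)
      (dom_i hQ hdom 0))

/-- `CK 0` -/
theorem ck0 (R : Gr) {m : ℕ} {h : ℝ} {κ : ℕ} (hLB : LB R m h) (hkill : KillG R m h κ) :
    CK R m h κ 0 := by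
  classical
  intro ε hε
  obtain ⟨ι, hι, εu, hεu, hg⟩ := ck0_ev R hLB hkill ε hε
  refine ⟨ι, hι, εu, hεu, fun g => ?_⟩
  obtain ⟨n, hn⟩ := hg g
  refine ⟨n, fun a e C hok Ω _ P c o hH Q hQ => ?_⟩
  have h1 := hn a e C hok Ω P c o hH Q hQ
  refine le_trans (le_of_eq ?_) h1
  unfold prE
  refine Finset.sum_congr (Finset.filter_congr fun w _ => ?_) fun _ _ => rfl
  unfold Bad
  have h2 : ∀ i j, o.Γ (w (Fin.last (0 + 1))) i j -
      ∑ l : Fin (0 + 1), lag c.t w l * o.Γ (w l.castSucc) i j =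
      o.Γ (w 1) i j - o.Γ (w 0) i j := fun i j => lag_sum c.t w fun ω => o.Γ ω i j
  simp only [h2, zero_add, one_mul]

end Vale.Agent.P127.Stk.Bs
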