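import Vale.Agent.P127.Stk.BaseE

/-!
# P127 / Stk : section 6, `RK 1`
-/

namespace Vale.Agent.P127.Stk.Bs

open Finset Vale.Agent.P127 Vale.Agent.P127.Stk

variable {Ω : Type} [Fintype Ω] {m κ : ℕ}

theorem pt_bd {c : Cf Ω m} (hx : ∀ ω i, 0 ≤ c.x ω i ∧ c.x ω i < 1)
    (hy : ∀ ω i, 0 ≤ c.y ω i ∧ c.y ω i < 1) (ht : ∀ ω, 0 ≤ c.t ω ∧ c.t ω < 1) (ω : Ω)
    (i : Fin m) : |c.pt ω i| ≤ 2 := by
  unfold Cf.pt
  have h1 := hx ω i
  have h2 := hy ω i
  have h3 := ht ω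
  have h4 := mul_nonneg h3.1 h2.1
  have h5 := mul_le_mul h3.2.le h2.2.le h2.1 zero_le_one
  rw [abs_le]
  constructor <;> linarith

/-- the projected points at two times are close -/
theorem F_diff {c : Cf Ω m} {o : Ob Ω m κ} {w : Fin 2 → Ω} {a : ℕ} {thr : ℝ}
    (hx : ∀ ω i, 0 ≤ c.x ω i ∧ c.x ω i < 1) (hy : ∀ ω i, 0 ≤ c.y ω i ∧ c.y ω i < 1)
    (ht : ∀ ω, 0 ≤ c.t ω ∧ c.t ω < 1) (hkey : key c a (w 1) = key c a (w 0))
    (hb : ¬ Bad o thr w) (hthr : (1 / 2 : ℝ) ^ a ≤ thr) (i : Fin m) :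
    |o.F c (w 1) i - o.F c (w 0) i| ≤ (1 + κ * 3 ^ κ + 2 * κ) * thr := by
  have hthr0 : 0 < thr := lt_of_lt_of_le (by positivity) hthr
  simp only [key, Prod.mk.injEq] at hkey
  obtain ⟨k1, k2, _, k4⟩ := hkey
  have k5 := fl1_close k4
  by_cases hi : i ∈ o.J
  · have e1 : o.F c (w 1) i = 0 := ap_mem _ _ hi
    have e0 : o.F c (w 0) i = 0 := ap_mem _ _ hi
    rw [e1, e0, sub_zero, abs_zero]
    positivity
  · have e1 : o.F c (w 1) i = c.pt (w 1) i - ∑ j ∈ o.J, o.Γ (w 1) i j * c.pt (w 1) j :=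
      ap_nmem _ _ hi
    have e0 : o.F c (w 0) i = c.pt (w 0) i - ∑ j ∈ o.J, o.Γ (w 0) i j * c.pt (w 0) j :=
      ap_nmem _ _ hi
    have hd : ∀ j, |c.pt (w 1) j - c.pt (w 0) j| ≤ thr := by
      intro j
      unfold Cf.pt
      rw [k1, k2]
      have h1 : c.x (w 0) j + c.t (w 1) * c.y (w 0) j - (c.x (w 0) j + c.t (w 0) * c.y (w 0) j)
          = (c.t (w 1) - c.t (w 0)) * c.y (w 0) j := by ring
      rw [h1, abs_mul, abs_of_nonneg (hy (w 0) j).1]
      have h2 := (hy (w 0) j).2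
      have h3 := (hy (w 0) j).1
      have h4 := abs_nonneg (c.t (w 1) - c.t (w 0))
      nlinarith
    have h3 : o.F c (w 1) i - o.F c (w 0) i = (c.pt (w 1) i - c.pt (w 0) i) -
        ∑ j ∈ o.J, (o.Γ (w 1) i j * (c.pt (w 1) j - c.pt (w 0) j) +
          (o.Γ (w 1) i j - o.Γ (w 0) i j) * c.pt (w 0) j) := by
      rw [e1, e0]
      have : ∑ j ∈ o.J, (o.Γ (w 1) i j * (c.pt (w 1) j - c.pt (w 0) j) +
          (o.Γ (w 1) i j - o.Γ (w 0) i j) * c.pt (w 0) j) =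
          ∑ j ∈ o.J, o.Γ (w 1) i j * c.pt (w 1) j - ∑ j ∈ o.J, o.Γ (w 0) i j * c.pt (w 0) j := by
        rw [← Finset.sum_sub_distrib]
        exact Finset.sum_congr rfl fun j _ => by ring
      rw [this]
      ring
    have h4 : |∑ j ∈ o.J, (o.Γ (w 1) i j * (c.pt (w 1) j - c.pt (w 0) j) +
          (o.Γ (w 1) i j - o.Γ (w 0) i j) * c.pt (w 0) j)| ≤
        o.J.card * (3 ^ κ * thr + thr * 2) := by
      refine (Finset.abs_sum_le_sum_abs _ _).trans ?_
      rw [← nsmul_eq_mul]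
      refine Finset.sum_le_card_nsmul _ _ _ fun j hj => ?_
      refine (abs_add_le _ _).trans ?_
      rw [abs_mul, abs_mul]
      refine add_le_add (mul_le_mul (o.bd _ _ _) (hd j) (abs_nonneg _) (by positivity))
        (mul_le_mul ?_ (pt_bd hx hy ht (w 0) j) (abs_nonneg _) hthr0.le)
      by_contra hcon
      exact hb ⟨i, hi, j, hj, not_le.1 hcon⟩
    rw [o.card] at h4
    rw [h3]
    have h5 := abs_sub (c.pt (w 1) i - c.pt (w 0) i)
      (∑ j ∈ o.J, (o.Γ (w 1) i j * (c.pt (w 1) j - c.pt (w 0) j) +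
          (o.Γ (w 1) i j - o.Γ (w 0) i j) * c.pt (w 0) j))
    have h6 := hd i
    have h7 : (κ : ℝ) * (3 ^ κ * thr + thr * 2) = (κ * 3 ^ κ + 2 * κ) * thr := by ring
    rw [h7] at h4
    linarith

/-- a natural bound for the projected point -/
def BN (κ : ℕ) : ℕ := 2 * (1 + κ * 3 ^ κ)

theorem F_bd' {c : Cf Ω m} {o : Ob Ω m κ} (hx : ∀ ω i, 0 ≤ c.x ω i ∧ c.x ω i < 1)
    (hy : ∀ ω i, 0 ≤ c.y ω i ∧ c.y ω i < 1)
    (ht : ∀ ω, 0 ≤ c.t ω ∧ c.t ω < 1) (ω : Ω) (i : Fin m) : |o.F c ω i| ≤ BN κ := by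
  have h1 : |ap o.J (o.Γ ω) (c.pt ω) i| ≤ (1 + o.J.card * 3 ^ κ) * 2 :=
    ap_le (by positivity) (by norm_num) (o.bd ω) (pt_bd hx hy ht ω) i
  rw [o.card] at h1
  refine h1.trans (le_of_eq ?_)
  unfold BN
  push_cast
  ring

/-- the number of values of the digits of a bounded vector -/
theorem fl_box {s B : ℕ} {v : Fin m → ℝ} (h : ∀ i, |v i| ≤ B) :
    fl s v ∈ Fintype.piFinset fun _ : Fin m =>
      Finset.Icc (-((2 ^ s * B + 1 : ℕ) : ℤ)) ((2 ^ s * B + 1 : ℕ) : ℤ) := by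
  rw [Fintype.mem_piFinset]
  intro i
  have h1 := abs_le.1 (h i)
  have h2 : (0 : ℝ) < 2 ^ s := by positivity
  have h3 := Int.floor_le ((2 : ℝ) ^ s * v i)
  have h4 := Int.lt_floor_add_one ((2 : ℝ) ^ s * v i)
  rw [Finset.mem_Icc]
  unfold fl
  constructor
  · have : (-((2 ^ s * B + 1 : ℕ) : ℤ) : ℝ) ≤ ⌊(2 : ℝ) ^ s * v i⌋ := by
      push_cast
      nlinarith
    exact_mod_cast this
  · have : ((⌊(2 : ℝ) ^ s * v i⌋ : ℤ) : ℝ) ≤ (((2 ^ s * B + 1 : ℕ) : ℤ) : ℝ) := by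
      push_cast
      nlinarith
    exact_mod_cast this

theorem box_card (s B : ℕ) : (Fintype.piFinset fun _ : Fin m =>
      Finset.Icc (-((2 ^ s * B + 1 : ℕ) : ℤ)) ((2 ^ s * B + 1 : ℕ) : ℤ)).card ≤
      (2 ^ s * (2 * B + 3)) ^ m := by
  rw [Fintype.card_piFinset]
  simp only [Int.card_Icc, Finset.prod_const, Finset.card_univ, Fintype.card_fin]
  refine Nat.pow_le_pow_left ?_ m
  have h1 : 1 ≤ 2 ^ s := Nat.one_le_two_pow
  have h2 : 2 ^ s * (2 * B + 3) = 2 * (2 ^ s * B) + 3 * 2 ^ s := by ring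
  rw [h2]
  generalize 2 ^ s * B = u
  omega

/-- the number of values given the projected point at the other time -/
def N0 (κ : ℕ) : ℕ := 3 + 2 * (κ * 3 ^ κ) + 4 * κ

theorem rk1_aux {c : Cf Ω m} {o : Ob Ω m κ} {Q : Law (Fin 2 → Ω)} {a s : ℕ} {thr p : ℝ}
    (hx : ∀ ω i, 0 ≤ c.x ω i ∧ c.x ω i < 1) (hy : ∀ ω i, 0 ≤ c.y ω i ∧ c.y ω i < 1)
    (ht : ∀ ω, 0 ≤ c.t ω ∧ c.t ω < 1)
    (hkey : ∀ w, 0 < Q.w w → key c a (w 1) = key c a (w 0)) (hp : prE Q (Bad o thr) ≤ p)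
    (hthr : (1 / 2 : ℝ) ^ a ≤ thr) (hs : thr ≤ (1 / 2 : ℝ) ^ s) :
    hc Q (fun w => fl s (o.F c (w 1)))
      (fun w => (fl s (o.F c (w 0)), (fun i => (c.t (w i), o.G (w i))), c.A (w 0))) ≤
      Real.log 2 + m * Real.log (2 * N0 κ + 3) +
        p * (m * (s * Real.log 2 + Real.log (2 * BN κ + 3))) := by
  classical
  have h1 := hc_le_exc Q (Bad o thr) (fun w => fl s (o.F c (w 1)))
    (fun w => (fl s (o.F c (w 0)), (fun i => (c.t (w i), o.G (w i))), c.A (w 0)))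
    ((2 ^ s * (2 * BN κ + 3)) ^ m) ((2 * N0 κ + 3) ^ m) (Nat.one_le_pow _ _ (by omega))
    ⟨_, box_card s (BN κ), fun w _ => fl_box (F_bd' hx hy ht (w 1))⟩ ?_
  · have e1 : Real.log (((2 * N0 κ + 3) ^ m : ℕ) : ℝ) = m * Real.log (2 * N0 κ + 3) := by
      push_cast
      rw [Real.log_pow]
    have e2 : Real.log (((2 ^ s * (2 * BN κ + 3)) ^ m : ℕ) : ℝ) =
        m * (s * Real.log 2 + Real.log (2 * BN κ + 3)) := by
      push_cast
      rw [Real.log_pow, Real.log_mul (by positivity) (by positivity), Real.log_pow]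
    rw [e1, e2] at h1
    have h2 : 0 ≤ (m : ℝ) * (s * Real.log 2 + Real.log (2 * BN κ + 3)) := by
      have : 0 ≤ Real.log 2 := Real.log_nonneg (by norm_num)
      have : 0 ≤ Real.log (2 * (BN κ : ℝ) + 3) := Real.log_nonneg (by
        have : (0 : ℝ) ≤ BN κ := Nat.cast_nonneg _
        linarith)
      positivity
    have h3 := mul_le_mul_of_nonneg_right hp h2
    linarith
  · intro w hw hb
    refine ⟨Fintype.piFinset fun i => Finset.Icc (fl s (o.F c (w 1)) i - (N0 κ + 1))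
      (fl s (o.F c (w 1)) i + (N0 κ + 1)), ?_, ?_⟩
    · rw [Fintype.card_piFinset]
      have : ∀ i, (Finset.Icc (fl s (o.F c (w 1)) i - (N0 κ + 1))
          (fl s (o.F c (w 1)) i + (N0 κ + 1))).card = 2 * N0 κ + 3 := by
        intro i
        rw [Int.card_Icc]
        omega
      simp only [this, Finset.prod_const, Finset.card_univ, Fintype.card_fin]
      exact le_rfl
    · intro w' hw' hb' hY
      rw [Fintype.mem_piFinset]
      intro i
      have h0 := (Prod.mk.inj hY).1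
      have h2 := fl_sub_le (s := s) (v := o.F c (w' 1)) (w := o.F c (w 1)) (N := N0 κ) (by
        intro i
        have a1 := F_diff hx hy ht (hkey w hw) hb hthr i
        have a2 := F_diff hx hy ht (hkey w' hw') hb' hthr i
        have a3 := fl_close h0 i
        have a4 : (1 + κ * 3 ^ κ + 2 * κ) * thr ≤
            (1 + κ * 3 ^ κ + 2 * κ) * (1 / 2 : ℝ) ^ s :=
          mul_le_mul_of_nonneg_left hs (by positivity)
        have a5 : (N0 κ : ℝ) * (1 / 2 : ℝ) ^ s = (1 / 2 : ℝ) ^ s +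
            2 * ((1 + κ * 3 ^ κ + 2 * κ) * (1 / 2 : ℝ) ^ s) := by
          unfold N0
          push_cast
          ring
        rw [a5]
        have a6 : o.F c (w' 1) i - o.F c (w 1) i = (o.F c (w' 1) i - o.F c (w' 0) i) +
            (o.F c (w' 0) i - o.F c (w 0) i) - (o.F c (w 1) i - o.F c (w 0) i) := by ring
        rw [a6]
        have a7 := abs_sub ((o.F c (w' 1) i - o.F c (w' 0) i) +
            (o.F c (w' 0) i - o.F c (w 0) i)) (o.F c (w 1) i - o.F c (w 0) i)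
        have a8 := abs_add_le (o.F c (w' 1) i - o.F c (w' 0) i)
            (o.F c (w' 0) i - o.F c (w 0) i)
        linarith) i
      rw [abs_le] at h2
      rw [Finset.mem_Icc]
      omega

/-- the constant for `RK 1` -/
noncomputable def Ds (m κ : ℕ) : ℝ :=
  Real.log 2 + m * Real.log (2 * N0 κ + 3) + m * Real.log (2 * BN κ + 3)

theorem Ds_pos (m κ : ℕ) : 0 < Ds m κ := by
  unfold Ds
  have h1 : 0 < Real.log 2 := Real.log_pos (by norm_num)
  have h2 : 0 ≤ Real.log (2 * (N0 κ : ℝ) + 3) := Real.log_nonneg (by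
    have : (0 : ℝ) ≤ N0 κ := Nat.cast_nonneg _
    linarith)
  have h3 : 0 ≤ Real.log (2 * (BN κ : ℝ) + 3) := Real.log_nonneg (by
    have : (0 : ℝ) ≤ BN κ := Nat.cast_nonneg _
    linarith)
  positivity

/-- `RK 1` -/
theorem rk1 (R : Gr) {m : ℕ} {h : ℝ} {κ : ℕ} (hLB : LB R m h) (hkill : KillG R m h κ) :
    RK R m h κ 1 := by
  intro ε hε
  have hb0 : 0 < Real.log 2 := Real.log_pos (by norm_num)
  have hb1 : Real.log 2 ≤ 1 := by
    have := Real.log_two_lt_d9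
    linarith
  have hD := Ds_pos m κ
  obtain ⟨ι, hι, εu, hεu, hg⟩ := ck0_ev R hLB hkill (min (min 1 ε) (ε / (2 * (m + 1))))
    (lt_min (lt_min one_pos hε) (by positivity))
  have q1 : min (min 1 ε) (ε / (2 * (m + 1))) ≤ 1 := (min_le_left _ _).trans (min_le_left _ _)
  have q2 : min (min 1 ε) (ε / (2 * (m + 1))) ≤ ε := (min_le_left _ _).trans (min_le_right _ _)
  have q3 : min (min 1 ε) (ε / (2 * (m + 1))) ≤ ε / (2 * (m + 1)) := min_le_right _ _
  have q0 : 0 < min (min 1 ε) (ε / (2 * (m + 1))) :=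
    lt_min (lt_min one_pos hε) (by positivity)
  generalize min (min 1 ε) (ε / (2 * (m + 1))) = ε' at hg q0 q1 q2 q3
  refine ⟨ι, hι, εu, hεu, fun g => ?_⟩
  obtain ⟨n1, hn1⟩ := hg g
  obtain ⟨n3, hn3⟩ := R.small g (ε / (2 * Ds m κ)) (by positivity)
  refine ⟨max n1 n3, fun a e C hok Ω _ P c o hH Q hQ s hs => ?_⟩
  have ok1 := R.anti g n1 _ _ e C (le_max_left _ _) hok
  have ok3 := R.anti g n3 _ _ e C (le_max_right _ _) hok
  obtain ⟨s1, -, -⟩ := hn3 _ e C ok3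
  have hbad := hn1 a e C ok1 Ω P c o hH Q hQ
  have hgood := hH.good
  have haL : a ≤ (κ + 4) * a := Nat.le_mul_of_pos_left a (by omega)
  generalize (κ + 4) * a = L at hbad s1 hs hgood haL
  have hL0 : (0 : ℝ) ≤ L := Nat.cast_nonneg L
  have haL' : (a : ℝ) ≤ L := by exact_mod_cast haL
  rw [Nat.cast_one, one_mul] at hs
  have hkey : ∀ w, 0 < Q.w w → key c a (w 1) = key c a (w 0) := fun w hw =>
    (cw_supp hQ hw).1 1
  have ht1 : (1 / 2 : ℝ) ^ a ≤ (2 : ℝ) ^ (-(a : ℝ) + ε' * L) := by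
    have h1 : (1 / 2 : ℝ) ^ a = (2 : ℝ) ^ (-(a : ℝ)) := by
      rw [Real.rpow_neg (by norm_num), Real.rpow_natCast, one_div, inv_pow]
    rw [h1]
    refine Real.rpow_le_rpow_of_exponent_le (by norm_num) ?_
    have : 0 ≤ ε' * L := by positivity
    linarith
  have ht2 : (2 : ℝ) ^ (-(a : ℝ) + ε' * L) ≤ (1 / 2 : ℝ) ^ s := by
    have h1 : (1 / 2 : ℝ) ^ s = (2 : ℝ) ^ (-(s : ℝ)) := by
      rw [Real.rpow_neg (by norm_num), Real.rpow_natCast, one_div, inv_pow]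
    rw [h1]
    refine Real.rpow_le_rpow_of_exponent_le (by norm_num) ?_
    have : ε' * L ≤ ε * L := mul_le_mul_of_nonneg_right q2 hL0
    linarith
  have hmain := rk1_aux hgood.x01 hgood.y01 hgood.t01 hkey hbad ht1 ht2
  refine hmain.trans ?_
  have hsL : (s : ℝ) ≤ L := by
    have : 0 ≤ ε * L := by positivity
    linarith
  have hm0 : (0 : ℝ) ≤ m := Nat.cast_nonneg m
  have e1 : ε' * (m * (s * Real.log 2 + Real.log (2 * BN κ + 3))) ≤
      ε / 2 * L + m * Real.log (2 * BN κ + 3) := by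
    have h0 : 0 ≤ (m : ℝ) * Real.log (2 * BN κ + 3) := by
      have : 0 ≤ Real.log (2 * (BN κ : ℝ) + 3) := Real.log_nonneg (by
        have : (0 : ℝ) ≤ BN κ := Nat.cast_nonneg _
        linarith)
      positivity
    have h1 : ε' * (m * (s * Real.log 2)) ≤ ε / 2 * L := by
      have h2 : (m : ℝ) * (s * Real.log 2) ≤ m * L := by
        refine mul_le_mul_of_nonneg_left ?_ hm0
        have : (0 : ℝ) ≤ s := Nat.cast_nonneg s
        nlinarith
      have h3 : ε' * (m * (s * Real.log 2)) ≤ ε / (2 * (m + 1)) * (m * L) :=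
        mul_le_mul q3 h2 (by positivity) (by positivity)
      refine h3.trans ?_
      have h4 : ε / (2 * (m + 1)) * (m * L) = ε / 2 * L * (m / (m + 1)) := by
        field_simp
      rw [h4]
      have h5 : (m : ℝ) / (m + 1) ≤ 1 := by
        rw [div_le_one (by positivity)]
        linarith
      have h6 : 0 ≤ ε / 2 * L := by positivity
      nlinarith
    have h7 : ε' * (m * Real.log (2 * BN κ + 3)) ≤ 1 * (m * Real.log (2 * BN κ + 3)) :=
      mul_le_mul_of_nonneg_right q1 h0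
    linarith
  have e2 : Ds m κ ≤ ε / 2 * L := by
    have h1 : ε / (2 * Ds m κ) * L = ε / 2 * L / Ds m κ := by
      field_simp
    rw [h1, le_div_iff₀ hD, one_mul] at s1
    exact s1
  unfold Ds at e2
  linarith

/-- section 6 from the killing lemma -/
theorem base_of_kill (R : Gr) (hk : ∀ (m : ℕ) (h : ℝ) (κ : ℕ), NK R m h (κ + 1) →
    KillG R m h κ) : PBase R :=
  fun m h κ hLB hN => ⟨ck0 R hLB (hk m h κ hN), rk1 R hLB (hk m h κ hN)⟩

end Vale.Agent.P127.Stk.Bs
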