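import Vale.Agent.P127.Stk.CContraD
import Vale.Agent.P127.Stk.Kill

/-!
# P127 / Stk / CContra : the contradiction for one family (PROOF.md, section 8)
-/

namespace Vale.Agent.P127.Stk.CC

open Finset Vale.Agent.P127 Vale.Agent.P127.Stk

section fin

variable {Ω Ω' : Type} [Fintype Ω'] {m κ J : ℕ} {τ : Type}
variable {Q : Law Ω'} {c : Cf Ω m} {o : Ob Ω m κ} {π : Fin (J + 1) → Ω' → Ω} {T : Ω' → τ}
  {a k L β : ℕ} {h e : ℝ} {σ : Fin (J + 1) → ℤ} {i0 j0 : Fin m}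

theorem EE_bd {n : ℕ} {ω ω' : Ω'} (hB : bd c o π T n ω = bd c o π T n ω') (i j : Fin m) :
    EE o π σ ω i j = EE o π σ ω' i j := by
  unfold EE
  refine Finset.sum_congr rfl fun v _ => ?_
  have : o.Γ (π v ω) = o.Γ (π v ω') := congrFun (congrArg Bd.Γ hB) v
  rw [this]

theorem EE_T (H : Fa Q c o π T a k L h e) {ω ω' : Ω'} (hT : T ω = T ω') (i j : Fin m) :
    EE o π σ ω i j = EE o π σ ω' i j := by
  unfold EE
  refine Finset.sum_congr rfl fun v _ => ?_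
  rw [H.dG v ω ω' hT]

theorem cst_nonneg (m κ : ℕ) : 0 ≤ cst m κ := by
  unfold cst
  refine mul_nonneg (Nat.cast_nonneg _) (Real.log_nonneg ?_)
  have : (0 : ℝ) ≤ 8 * (1 + κ * 3 ^ κ) := by positivity
  linarith

/-- the cost of the data, given the cell at the scale `2^{-r}` -/
theorem Fa.cost (H : Fa Q c o π T a k L h e) (r : ℕ) :
    mi Q (fun ω => (c.x (π 0 ω), c.y (π 0 ω))) T
      (fun ω => (c.t (π 0 ω), c.A (π 0 ω), fl r (c.x (π 0 ω)), fl r (c.y (π 0 ω)))) ≤ e := by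
  have h0 : mi Q (fun ω => (c.x (π 0 ω), c.y (π 0 ω))) (fun ω => (c.t (π 0 ω), T ω))
      (fun ω => c.A (π 0 ω)) ≤ e := (H.rate 0).cost
  have h1 := mi_pair Q (fun ω => (c.x (π 0 ω), c.y (π 0 ω))) (fun ω => c.t (π 0 ω)) T
    (fun ω => c.A (π 0 ω))
  have h2 := mi_nonneg Q (fun ω => (c.x (π 0 ω), c.y (π 0 ω))) (fun ω => c.t (π 0 ω))
    (fun ω => c.A (π 0 ω))
  have h3 := mi_cond_le Q (X := fun ω => (c.x (π 0 ω), c.y (π 0 ω))) T
    (W := fun ω => (fl r (c.x (π 0 ω)), fl r (c.y (π 0 ω))))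
    (fun ω => (c.t (π 0 ω), c.A (π 0 ω))) (fun ω ω' _ _ he => by
      simp only [Prod.mk.injEq] at he ⊢
      rw [he.1.1, he.1.2]
      exact ⟨rfl, rfl⟩)
  have h4 : mi Q (fun ω => (c.x (π 0 ω), c.y (π 0 ω))) T
      (fun ω => (c.t (π 0 ω), c.A (π 0 ω), fl r (c.x (π 0 ω)), fl r (c.y (π 0 ω)))) =
      mi Q (fun ω => (c.x (π 0 ω), c.y (π 0 ω))) T
      (fun ω => ((fl r (c.x (π 0 ω)), fl r (c.y (π 0 ω))), c.t (π 0 ω), c.A (π 0 ω))) := by
    refine mi_congr_cond Q _ _ (fun ω ω' _ _ he => ?_) (fun ω ω' _ _ he => ?_)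
    · simp only [Prod.mk.injEq] at he ⊢
      exact ⟨he.2.1, he.2.2, he.1.1, he.1.2⟩
    · simp only [Prod.mk.injEq] at he ⊢
      exact ⟨⟨he.2.2.1, he.2.2.2⟩, he.1, he.2.1⟩
  linarith

/-- the data of the condition, given the cell at the scale `2^{-r}` -/
theorem Fa.E1 (H : Fa Q c o π T a k L h e) {n r : ℕ} (hnr : n ≤ r) :
    hc Q (fun ω => (c.q n (π 0 ω), bd c o π T n ω))
      (fun ω => ((fl r (c.x (π 0 ω)), fl r (c.y (π 0 ω))), c.t (π 0 ω), T ω, c.A (π 0 ω))) ≤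
      (J + 1) * cst m κ := by
  refine le_trans ?_ (H.cell_F n (fun ω => ((fl r (c.x (π 0 ω)), fl r (c.y (π 0 ω))),
    c.t (π 0 ω), T ω, c.A (π 0 ω))) fun ω ω' _ _ he => ?_)
  · refine hc_mono_left Q fun ω ω' _ _ he => ?_
    simp only [Prod.mk.injEq] at he
    obtain ⟨e1, ⟨e2, e3⟩, -, e4, e5⟩ := he
    refine Prod.ext ?_ ?_
    · exact Prod.ext (fl_of_fl hnr _ _ e2) (fl_of_fl hnr _ _ e3)
    · show bd c o π T n ω = bd c o π T n ω'
      unfold bd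
      rw [Bd.mk.injEq]
      refine ⟨e4, e5, ?_, ?_, e1⟩
      · funext i
        exact H.dt i ω ω' e4
      · funext i
        exact H.dG i ω ω' e4
  · simp only [Prod.mk.injEq] at he ⊢
    exact ⟨Prod.ext (fl_of_fl hnr _ _ he.1.1) (fl_of_fl hnr _ _ he.1.2), he.2.2.1⟩


/-- the statement of the killing lemma with a straight displacement for one law -/
def KSo {Ω : Type} [Fintype Ω] {m κ : ℕ} (P : Law Ω) (c : Cf Ω m) (o : Ob Ω m κ) (K h η δ : ℝ)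
    (L : ℕ) : Prop :=
  ∀ (Ω' : Type) [Fintype Ω'] (Q : Law Ω') (π : Ω' → Ω), Dom Q π P K →
      ∀ (σ σ₁ σ₂ : Type) (D : Ω' → σ) (E₁ : Ω' → σ₁) (E₂ : Ω' → σ₂) (r r' : ℕ)
        (v w0 w1 : Ω' → Fin m → ℝ) (V : Ω' → Fin m → ℤ) (M : Ω' → ℤ) (i0 : Fin m),
        r ≤ r' → r' ≤ L → η * L ≤ (r' : ℝ) - r → i0 ∉ o.J →
        Fn Q (fun ω => o.Γ (π ω)) D → Fn Q v D →
        (∀ ω, 0 < Q.w ω → (∀ j ∈ o.J, v ω j = 0) ∧ v ω i0 = 1 ∧ ∀ i, |v ω i| ≤ 1) →
        Fn Q w0 (fun ω => (c.t (π ω), D ω, c.A (π ω), E₁ ω, E₂ ω)) →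
        Fn Q w1 (fun ω => (c.t (π ω), D ω, c.A (π ω), E₁ ω, E₂ ω)) →
        (∀ ω, 0 < Q.w ω → ∀ i,
          |(V ω i : ℝ) - (2 ^ r' * (o.F c (π ω) i + w0 ω i) + M ω * v ω i)| ≤
            (2 : ℝ) ^ (δ * L)) →
        (∀ ω, 0 < Q.w ω → ∀ i,
          |(V ω i : ℝ) - 2 ^ r' * (o.F c (π ω) i + w1 ω i)| ≤
            (2 : ℝ) ^ (δ * L) * 2 ^ (r' - r)) →
        mi Q (fun ω => (c.x (π ω), c.y (π ω))) D
          (fun ω => (c.t (π ω), c.A (π ω), fl r (c.x (π ω)), fl r (c.y (π ω)))) ≤ δ * L →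
        hc Q E₁ (fun ω => ((fl r (c.x (π ω)), fl r (c.y (π ω))), c.t (π ω), D ω, c.A (π ω))) ≤
          δ * L →
        mi Q (fun ω => fl r' (o.F c (π ω))) E₂
          (fun ω => (c.t (π ω), D ω, c.A (π ω), E₁ ω)) ≤ δ * L →
        (h - κ - 1) * ((r' : ℝ) - r) * Real.log 2 + δ * L <
          hc Q V (fun ω => (c.t (π ω), D ω, c.A (π ω), E₁ ω, E₂ ω)) -
          hc Q (fun ω => fl r (o.F c (π ω)))
            (fun ω => (c.t (π ω), D ω, c.A (π ω), E₁ ω, E₂ ω)) -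
          hc Q M (fun ω => (fl r' (o.F c (π ω)), c.t (π ω), D ω, c.A (π ω), E₁ ω, E₂ ω))

/-- the final computation -/
theorem cc_fin [Fintype Ω] {P : Law Ω} {K η δK : ℝ} (hDom : Dom Q (π 0) P K)
    (hk : KSo P c o K h η δK L) (H : Fa Q c o π T a k L h e) (S : Sg c o π σ a k β e i0 j0)
    {n s : ℕ} (hns : n ≤ s) (hsL : s ≤ L) (hs1 : (s : ℝ) + e ≤ ((k + 1) * a : ℕ))
    (hsβn : s ≤ β + n) (hnβ : n ≤ β) (hβs : β ≤ s) (hn1' : (n : ℝ) + e ≤ k * a)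
    (hη : η * L ≤ (s : ℝ) - β) {Ω₁ : Type} [Fintype Ω₁] {P₁ : Law Ω₁} {ζ : Type} {Z : Ω₁ → ζ}
    {p p1 p2 : Ω₁ → Ω'} {e' : ℝ}
    (hcon : AbsCon ((h - κ) * ((s : ℝ) - n) * Real.log 2) e' Q (bd c o π T n)
      (fun ω => c.q n (π 0 ω)) (fun v ω => fl s (o.F c (π v ω))) (ph o.J n s) σ P₁ Z p p1 p2)
    (hδKL : 0 ≤ δK * L) (hbig : (J + 6 * κ + 7 : ℝ) ≤ (2 : ℝ) ^ (δK * L))
    (he1 : e ≤ δK * L) (he2 : (J + 1) * cst m κ ≤ δK * L) (he3 : e' ≤ δK * L)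
    (hsum : (J + 4) * e + 3 * e' + ((J + 1) * cst m κ + κ + 2) ≤ δK * L) : False := by
  -- the data for the killing lemma
  have hDom' : Dom P₁ (fun w => π 0 (p w)) P K := by
    have h1 : Dom P₁ p Q 1 := fun ω => by rw [hcon.smp, one_mul]
    have h2 := h1.comp hDom
    rw [one_mul] at h2
    exact h2
  set E1 : Ω₁ → ((Fin m → ℤ) × (Fin m → ℤ)) × Bd τ c.α m J := fun w =>
    (c.q n (π 0 (p w)), bd c o π T n (p w)) with hE1
  set E2 : Ω₁ → ζ × Ω' × (Fin m → ℤ) := fun w => (Z w, p1 w, zz c o π n j0 (p2 w)) with hE2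
  set zd : Ω₁ → Fin m → ℤ := fun w j => zt c π n (p2 w) j - zt c π n (p1 w) j with hzd
  have key := hk Ω₁ P₁ (fun w => π 0 (p w)) hDom' τ _ _ (fun w => T (p w)) E1 E2 β s
    (fun w => vv o π σ i0 j0 (p w)) (fun w => ww o π σ n j0 (p w) (zd w)) (fun _ _ => 0)
    (fun w i => fl s (o.F c (π 0 (p w))) i + ∑ v, σ v * (ph o.J n s v (bd c o π T n (p w))
      (c.q n (π 0 (p2 w))) i - ph o.J n s v (bd c o π T n (p w)) (c.q n (π 0 (p1 w))) i))
    (fun w => MM o π σ n s i0 j0 (p w) (zd w)) i0 hβs hsL hη S.hi0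
    (fun ω ω' _ _ hT => H.dG 0 _ _ hT)
    (fun ω ω' _ _ hT => by
      funext i
      show vv o π σ i0 j0 (p ω) i = vv o π σ i0 j0 (p ω') i
      unfold vv
      rw [EE_T H hT, EE_T H hT])
    (fun ω _ => ⟨fun j hj => vv_J (p ω) hj, vv_i0 S (p ω), fun i => vv_le S (p ω) i⟩)
    (fun ω ω' _ _ he => by
      simp only [hE1, hE2, Prod.mk.injEq] at he
      obtain ⟨-, hT, -, ⟨-, hB⟩, -, hp1, hz⟩ := he
      funext i
      show ww o π σ n j0 (p ω) (zd ω) i = ww o π σ n j0 (p ω') (zd ω') i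
      unfold ww
      split_ifs with hi
      · rfl
      · congr 1
        refine Finset.sum_congr rfl fun j hj => ?_
        rw [EE_T H hT i j]
        have h1 : zd ω j = zd ω' j := by
          have h2 := congrFun hz j
          unfold zz at h2
          rw [if_pos hj, if_pos hj] at h2
          show zt c π n (p2 ω) j - zt c π n (p1 ω) j = zt c π n (p2 ω') j - zt c π n (p1 ω') j
          rw [h2, hp1]
        rw [h1])
    (fun _ _ _ _ _ => rfl)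
    (fun ω _ i => by
      have := det2 H S hs1 hsβn (hcon.B1 ω) (hcon.B2 ω) i
      refine this.trans (le_trans ?_ hbig)
      have : (0 : ℝ) ≤ κ := Nat.cast_nonneg κ
      linarith)
    (fun ω _ i => by
      have := det3 H S hs1 hsβn hβs (hcon.B1 ω) (hcon.B2 ω) i
      refine this.trans ?_
      exact mul_le_mul_of_nonneg_right hbig (by positivity))
    (by
      have h1 := con_mi hcon (fun ω => (c.x (π 0 ω), c.y (π 0 ω))) T (fun ω => (c.t (π 0 ω),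
        c.A (π 0 ω), fl β (c.x (π 0 ω)), fl β (c.y (π 0 ω))))
      exact (le_of_eq h1).trans ((H.cost β).trans he1))
    (by
      have h1 := con_hc hcon (fun ω => (c.q n (π 0 ω), bd c o π T n ω))
        (fun ω => ((fl β (c.x (π 0 ω)), fl β (c.y (π 0 ω))), c.t (π 0 ω), T ω, c.A (π 0 ω)))
      exact (le_of_eq h1).trans ((H.E1 hnβ).trans he2))
    (by
      have h1 := con_E2 hcon (E2 := E2) (fun ω ω' _ _ he => by
        simp only [Prod.mk.injEq] at he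
        simp only [hE2, Prod.mk.injEq]
        exact ⟨he.1.1, he.1.2.1, by rw [he.1.2.2]⟩) (Y := fun w => c.q n (π 0 (p w)))
        (fun ω ω' _ _ he => by
          simp only [Prod.mk.injEq] at he
          beta_reduce
          rw [he.1])
      have h2 : mi P₁ (fun ω => fl s (o.F c (π 0 (p ω)))) E2
          (fun ω => (c.t (π 0 (p ω)), T (p ω), c.A (π 0 (p ω)), E1 ω)) =
          mi P₁ (fun ω => fl s (o.F c (π 0 (p ω)))) E2
          (fun ω => (c.q n (π 0 (p ω)), bd c o π T n (p ω))) := by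
        refine mi_congr_cond P₁ _ _ (fun ω ω' _ _ he => ?_) (fun ω ω' _ _ he => ?_)
        · simp only [Prod.mk.injEq] at he
          simp only [hE1, Prod.mk.injEq]
          have hB := he.2
          exact ⟨congrFun (congrArg Bd.t hB) 0, congrArg Bd.T hB, congrArg Bd.A hB, he.1, he.2⟩
        · simp only [hE1, Prod.mk.injEq] at he ⊢
          exact he.2.2.2
      have h3 : mi P₁ (fun ω => fl s (o.F c (π 0 (p ω)))) E2
          (fun ω => (c.q n (π 0 (p ω)), bd c o π T n (p ω))) ≤ mi P₁ p E2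
          (fun ω => (c.q n (π 0 (p ω)), bd c o π T n (p ω))) :=
        mi_mono_left P₁ E2 fun ω ω' _ _ he => by
          simp only [Prod.mk.injEq] at he
          beta_reduce
          rw [he.1]
      rw [h2]
      exact h3.trans (h1.trans he3))
  -- the three entropies
  have hV : hc P₁ (fun w i => fl s (o.F c (π 0 (p w))) i + ∑ v, σ v * (ph o.J n s v
      (bd c o π T n (p w)) (c.q n (π 0 (p2 w))) i - ph o.J n s v (bd c o π T n (p w))
      (c.q n (π 0 (p1 w))) i)) (fun ω => (c.t (π 0 (p ω)), T (p ω), c.A (π 0 (p ω)), E1 ω, E2 ω)) ≤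
      (h - κ) * ((s : ℝ) - n) * Real.log 2 + e' := by
    refine le_trans (hc_mono_right P₁ _ fun ω ω' _ _ he => ?_) hcon.main
    simp only [hE1, hE2, Prod.mk.injEq] at he ⊢
    exact ⟨he.2.2.2.1.1, he.2.2.2.1.2, he.2.2.2.2.1⟩
  have hF1 := con_low hcon (fun ω => fl β (o.F c (π 0 ω))) (fun ω => c.q n (π 0 ω)) (E2 := E2)
    (fun ω ω' _ _ he => by
        simp only [Prod.mk.injEq] at he
        simp only [hE2, Prod.mk.injEq]
        exact ⟨he.1.1, he.1.2.1, by rw [he.1.2.2]⟩)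
    (Y := fun ω => (c.t (π 0 (p ω)), T (p ω), c.A (π 0 (p ω)), E1 ω, E2 ω))
    (fun ω ω' _ _ he => by
      simp only [Prod.mk.injEq] at he
      simp only [hE1, Prod.mk.injEq]
      have hB := he.2.2
      exact ⟨congrFun (congrArg Bd.t hB) 0, congrArg Bd.T hB, congrArg Bd.A hB, ⟨he.2.1, he.2.2⟩,
        he.1⟩)
  have hF2 := H.low hnβ (hβs.trans hsL)
  have hM1 := hcM H S hns hsL hsβn hn1' hcon
  have hM2 := con_M hcon (M := fun w => MM o π σ n s i0 j0 (p w) (zd w))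
    (W := fun w => (p1 w, zz c o π n j0 (p2 w)))
    (Y := fun ω => (fl s (o.F c (π 0 (p ω))), c.t (π 0 (p ω)), T (p ω), c.A (π 0 (p ω)), E1 ω,
      E2 ω))
    (Y' := fun w => ((p1 w, zz c o π n j0 (p2 w)), bd c o π T n (p w), Z w))
    (fun ω ω' _ _ he => by
      simp only [Prod.mk.injEq] at he
      beta_reduce
      unfold MM
      have h1 : zd ω = zd ω' := by
        rw [hzd]
        beta_reduce
        rw [he.1.1, he.1.2]
      rw [EE_bd he.2.1 i0 j0, h1])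
    (fun ω ω' _ _ he => by
      simp only [Prod.mk.injEq] at he ⊢
      exact ⟨he.1.1, by rw [he.1.2]⟩)
    (fun ω ω' _ _ he => by
      simp only [Prod.mk.injEq] at he
      simp only [hE1, hE2, Prod.mk.injEq]
      obtain ⟨h1, ⟨h2, h3⟩, h4, h5⟩ := he
      rw [h1]
      exact ⟨rfl, rfl, rfl, rfl, ⟨rfl, rfl⟩, h5, h2, h3⟩)
    (fun ω ω' _ _ he => he)
  have hlog2 : Real.log 2 ≤ 1 := by
    have := Real.log_two_lt_d9
    linarith
  have hlog3 : Real.log 3 ≤ 2 := by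
    have := Real.log_le_sub_one_of_pos (show (0 : ℝ) < 3 by norm_num)
    linarith
  have hκ2 : (κ : ℝ) * Real.log 2 ≤ κ := by
    have : (0 : ℝ) ≤ κ := Nat.cast_nonneg κ
    nlinarith
  have hfin : (h - κ) * ((s : ℝ) - n) * Real.log 2 - (h - κ) * ((β : ℝ) - n) * Real.log 2 -
      ((s : ℝ) - β) * Real.log 2 = (h - κ - 1) * ((s : ℝ) - β) * Real.log 2 := by ring
  linarith

end fin

/-- the choice of the precisions -/
theorem par {κ a k β L : ℕ} {ε g' δ : ℝ} (hk1 : 1 ≤ k) (hk2 : k ≤ κ + 1) (hL : L = (κ + 4) * a)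
    (hε : 0 < ε) (hg0 : 0 < g') (hg1 : g' ≤ ε / 16) (hg2 : g' ≤ 1 / (12 * (κ + 4)))
    (hδ : δ ≤ g') (q1 : 1 ≤ g' * L) (hβ1 : (k : ℝ) * a ≤ β + δ * L)
    (hβ2 : (β : ℝ) + ε * L ≤ (k + 1) * a) :
    ∃ n s : ℕ, n ≤ s ∧ s ≤ L ∧ (s : ℝ) - n + δ * L ≤ a ∧ (s : ℝ) + δ * L ≤ ((k + 1) * a : ℕ) ∧
      n ≤ β ∧ s ≤ β + n ∧ (n : ℝ) + δ * L ≤ k * a ∧ ε / 2 * L ≤ (s : ℝ) - β ∧ β ≤ s ∧
      (((s - n : ℕ)) : ℝ) ≤ L ∧ (L : ℝ) / (2 * (κ + 4)) ≤ ((s - n : ℕ) : ℝ) := by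
  have hLa : (L : ℝ) = (κ + 4) * a := by rw [hL]; push_cast; ring
  have hL0 : (0 : ℝ) ≤ L := Nat.cast_nonneg L
  set x : ℝ := g' * L with hx
  obtain ⟨G, hG1, hG2⟩ : ∃ G : ℕ, x ≤ G ∧ (G : ℝ) ≤ 2 * x := by
    refine ⟨⌈x⌉₊, Nat.le_ceil _, ?_⟩
    have := Nat.ceil_lt_add_one (show 0 ≤ x by linarith)
    linarith
  have hGδ : δ * L ≤ G := by
    refine le_trans ?_ hG1
    exact mul_le_mul_of_nonneg_right hδ hL0
  have hGa : 6 * (G : ℝ) ≤ a := by
    have h1 : x ≤ 1 / (12 * (κ + 4)) * L := mul_le_mul_of_nonneg_right hg2 hL0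
    have h2 : 1 / (12 * ((κ : ℝ) + 4)) * L = a / 12 := by
      rw [hLa]
      field_simp
    linarith
  have hGε : 4 * (G : ℝ) ≤ ε / 2 * L := by
    have h1 : x ≤ ε / 16 * L := mul_le_mul_of_nonneg_right hg1 hL0
    linarith
  clear_value x
  have hGa' : 6 * G ≤ a := by exact_mod_cast hGa
  have hka : a ≤ k * a := Nat.le_mul_of_pos_left a (by omega)
  obtain ⟨b, hb⟩ : ∃ b, b = k * a := ⟨_, rfl⟩
  have hbr : (b : ℝ) = k * a := by rw [hb]; push_cast; ring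
  have hexp : (k + 1) * a = b + a := by rw [hb]; ring
  rw [← hb] at hka
  rw [← hbr] at hβ1
  have hβ2' : (β : ℝ) + ε * L ≤ b + a := by rw [hbr]; linarith
  have hsL' : b + a ≤ L := by
    rw [hL, ← hexp]
    exact Nat.mul_le_mul_right a (by omega)
  obtain ⟨n, hn⟩ : ∃ n, n = b - G := ⟨_, rfl⟩
  obtain ⟨s, hs⟩ : ∃ s, s = b + a - 4 * G := ⟨_, rfl⟩
  have hnr : (n : ℝ) = b - G := by
    rw [hn, Nat.cast_sub (by omega)]
  have hsr : (s : ℝ) = b + a - 4 * G := by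
    rw [hs, Nat.cast_sub (by omega)]
    push_cast
    ring
  have hG0 : (0 : ℝ) ≤ G := Nat.cast_nonneg G
  have hns : n ≤ s := by omega
  have hnβ : n ≤ β := by
    have : (n : ℝ) ≤ β := by
      rw [hnr]
      linarith
    exact_mod_cast this
  have hεL : 0 ≤ ε / 2 * L := by positivity
  have hη : ε / 2 * L ≤ (s : ℝ) - β := by
    rw [hsr]
    linarith
  refine ⟨n, s, hns, by omega, ?_, ?_, hnβ, by omega, ?_, hη, ?_, ?_, ?_⟩
  · rw [hnr, hsr]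
    linarith
  · rw [hsr, hexp]
    push_cast
    linarith
  · rw [hnr, ← hbr]
    linarith
  · have : (β : ℝ) ≤ s := by linarith
    exact_mod_cast this
  · have : s - n ≤ L := by omega
    exact_mod_cast this
  · have h1 : ((s - n : ℕ) : ℝ) = a - 3 * G := by
      rw [Nat.cast_sub hns, hnr, hsr]
      ring
    have h2 : (L : ℝ) / (2 * (κ + 4)) = a / 2 := by
      rw [hLa]
      field_simp
    rw [h1, h2]
    linarith

/-- **the contradiction for one family** -/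
theorem cc_contra (R : Gr) (hAbs : PAbs) {m : ℕ} {h : ℝ} {κ : ℕ} (hN : NK R m h (κ + 1))
    (J k : ℕ) (hk1 : 1 ≤ k) (hk2 : k ≤ κ + 1) {ε : ℝ} (hε : 0 < ε) :
    ∃ δ : ℝ, 0 < δ ∧ ∀ (K : ℝ) (g : R.G), ∃ n0 : ℕ, ∀ (a : ℕ) (e C : ℝ),
      R.ok g n0 ((κ + 4) * a) e C →
      ∀ (Ω : Type) [Fintype Ω] (P : Law Ω) (c : Cf Ω m) (o : Ob Ω m κ),
        Good P c ((κ + 4) * a) e C →
      ∀ (Ω' : Type) [Fintype Ω'] (Q : Law Ω') (π : Fin (J + 1) → Ω' → Ω) (τ : Type) (T : Ω' → τ)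
        (σ : Fin (J + 1) → ℤ) (β : ℕ) (i0 j0 : Fin m),
        Dom Q (π 0) P K →
        Fa Q c o π T a k ((κ + 4) * a) h (δ * ((κ + 4) * a : ℕ)) →
        Sg c o π σ a k β (δ * ((κ + 4) * a : ℕ)) i0 j0 →
        (k : ℝ) * a ≤ β + δ * ((κ + 4) * a : ℕ) →
        (β : ℝ) + ε * ((κ + 4) * a : ℕ) ≤ (k + 1) * a → False := by
  obtain ⟨δK, hδK, hkill⟩ := kill_so R hN (η := ε / 2) (by positivity)
  set ε' : ℝ := δK / 12 with hε'
  have hε'0 : 0 < ε' := by positivity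
  obtain ⟨εA, hεA, θ0, hA⟩ := hAbs m J (N0 κ) ε' hε'0
  set g' : ℝ := min (ε / 16) (1 / (12 * (κ + 4))) with hg'
  have hg'0 : 0 < g' := lt_min (by positivity) (by positivity)
  have hg'1 : g' ≤ ε / 16 := min_le_left _ _
  have hg'2 : g' ≤ 1 / (12 * (κ + 4)) := min_le_right _ _
  set δ : ℝ := min (min (δK / (4 * (J + 5))) (εA / (4 * (κ + 4)))) g' with hδ
  have hδ0 : 0 < δ := lt_min (lt_min (by positivity) (by positivity)) hg'0
  have hδ1 : δ ≤ δK / (4 * (J + 5)) := (min_le_left _ _).trans (min_le_left _ _)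
  have hδ2 : δ ≤ εA / (4 * (κ + 4)) := (min_le_left _ _).trans (min_le_right _ _)
  have hδ3 : δ ≤ g' := min_le_right _ _
  refine ⟨δ, hδ0, fun K g => ?_⟩
  obtain ⟨n1, hn1⟩ := hkill K g
  have hc0 := cst_nonneg m κ
  set Cs : ℝ := (J + 1) * cst m κ + κ + 2 with hCs
  have hCs0 : 0 ≤ Cs := by positivity
  set Lm : ℝ := 1 + 1 / g' + 2 * (κ + 4) * θ0 + 4 * (κ + 4) * ((J + 1) * cst m κ) / εA +
    4 * Cs / δK + 2 * (J + 6 * κ + 7) / δK with hLm
  have p1 : 0 ≤ 1 / g' := by positivity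
  have p2 : 0 ≤ 2 * ((κ : ℝ) + 4) * θ0 := by positivity
  have p3 : 0 ≤ 4 * ((κ : ℝ) + 4) * ((J + 1) * cst m κ) / εA := by positivity
  have p4 : 0 ≤ 4 * Cs / δK := by positivity
  have p5 : 0 ≤ 2 * ((J : ℝ) + 6 * κ + 7) / δK := by positivity
  have hLm0 : 0 < Lm := by linarith
  obtain ⟨n2, hn2⟩ := R.small g (1 / Lm) (by positivity)
  refine ⟨max n1 n2, fun a e C hok => ?_⟩
  intro Ω _ P c o hG Ω' _ Q π τ T σ β i0 j0 hDom H S hβ1 hβ2
  set L : ℕ := (κ + 4) * a with hL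
  have hLa : (L : ℝ) = (κ + 4) * a := by rw [hL]; push_cast; ring
  have hLL : Lm ≤ L := by
    have := (hn2 L e C (R.anti _ _ _ _ _ _ (le_max_right _ _) hok)).1
    rw [one_div, inv_mul_eq_div, le_div_iff₀ hLm0, one_mul] at this
    exact this
  have hL1 : (1 : ℝ) ≤ L := by linarith
  have q1 : 1 ≤ g' * L := by
    have : 1 / g' ≤ L := by linarith
    rw [div_le_iff₀ hg'0] at this
    linarith
  have q2 : 2 * (κ + 4) * θ0 ≤ (L : ℝ) := by linarith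
  have q3 : (J + 1) * cst m κ ≤ εA / (4 * (κ + 4)) * L := by
    have : 4 * ((κ : ℝ) + 4) * ((J + 1) * cst m κ) / εA ≤ L := by linarith
    rw [div_le_iff₀ hεA] at this
    have h4 : (0 : ℝ) < 4 * (κ + 4) := by positivity
    rw [div_mul_eq_mul_div, le_div_iff₀ h4]
    linarith
  have q4 : Cs ≤ δK / 4 * L := by
    have : 4 * Cs / δK ≤ L := by linarith
    rw [div_le_iff₀ hδK] at this
    linarith
  have q5 : (J + 6 * κ + 7 : ℝ) ≤ δK * L / 2 := by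
    have : 2 * ((J : ℝ) + 6 * κ + 7) / δK ≤ L := by linarith
    rw [div_le_iff₀ hδK] at this
    linarith
  -- the precisions
  obtain ⟨n, s, hns, hsL, hθa, hs1, hnβ, hsβn, hn1', hη, hβs, hθL, hθ2⟩ := par hk1 hk2 hL hε hg'0
    hg'1 hg'2 hδ3 q1 hβ1 hβ2
  have hθ0 : θ0 ≤ s - n := by
    have h1 : (θ0 : ℝ) ≤ ((s - n : ℕ) : ℝ) := by
      refine le_trans ?_ hθ2
      rw [le_div_iff₀ (by positivity)]
      linarith
    exact_mod_cast h1
  -- the absorption lemma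
  have hE : δ * L + (J + 1) * cst m κ ≤ εA * ((s - n : ℕ) : ℝ) := by
    have h1 : εA * ((L : ℝ) / (2 * (κ + 4))) ≤ εA * ((s - n : ℕ) : ℝ) :=
      mul_le_mul_of_nonneg_left hθ2 hεA.le
    have h2 : δ * L ≤ εA / (4 * (κ + 4)) * L := mul_le_mul_of_nonneg_right hδ2 (by positivity)
    have h3 : εA * ((L : ℝ) / (2 * (κ + 4))) = 2 * (εA / (4 * (κ + 4)) * L) := by
      field_simp
      ring
    linarith
  have habs := H.abs hns hsL hθa hE hc0
  obtain ⟨Ω₁, iF, P₁, ζ, Z, p, p1, p2, hcon⟩ := hA (s - n) hθ0 Ω' Q _ _ (bd c o π T n)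
    (fun ω => c.q n (π 0 ω)) (fun v ω => fl s (o.F c (π v ω))) (ph o.J n s)
    ((h - κ) * ((s : ℝ) - n) * Real.log 2) σ S.pm habs
  set e' : ℝ := ε' * ((s - n : ℕ) : ℝ) with he'
  have he'L : e' ≤ δK / 12 * L := mul_le_mul_of_nonneg_left hθL hε'0.le
  have hδKL : 0 ≤ δK * L := by positivity
  have hbig : (J + 6 * κ + 7 : ℝ) ≤ (2 : ℝ) ^ (δK * L) := by
    have h1 : Real.log 2 * (δK * L) + 1 ≤ Real.exp (Real.log 2 * (δK * L)) := Real.add_one_le_exp _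
    have h2 : (2 : ℝ) ^ (δK * L) = Real.exp (Real.log 2 * (δK * L)) :=
      Real.rpow_def_of_pos (by norm_num) _
    rw [h2]
    have h3 : (1 / 2 : ℝ) ≤ Real.log 2 := by
      have := Real.log_two_gt_d9
      linarith
    have h4 := mul_le_mul_of_nonneg_right h3 hδKL
    linarith
  have hδJ : (J + 4) * (δ * L) ≤ δK / 4 * L := by
    have h1 : (J + 4 : ℝ) * δ ≤ δK / 4 := by
      have h2 : ((J : ℝ) + 5) * δ ≤ (J + 5) * (δK / (4 * (J + 5))) :=
        mul_le_mul_of_nonneg_left hδ1 (by positivity)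
      have h3 : ((J : ℝ) + 5) * (δK / (4 * (J + 5))) = δK / 4 := by field_simp
      linarith
    have h4 := mul_le_mul_of_nonneg_right h1 (show (0 : ℝ) ≤ L by positivity)
    linarith
  have hJ0 : (0 : ℝ) ≤ J := Nat.cast_nonneg J
  have hκ0 : (0 : ℝ) ≤ κ := Nat.cast_nonneg κ
  have hδLK : δ * L ≤ δK * L := by
    have : 0 ≤ (J + 3) * (δ * L) := by positivity
    linarith
  have hCsL : Cs ≤ δK * L := by linarith
  refine cc_fin (P := P) (K := K) (η := ε / 2) (δK := δK) hDom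
    (hn1 L e C (R.anti _ _ _ _ _ _ (le_max_left _ _) hok) Ω P c o hG) H S hns hsL hs1 hsβn hnβ
    hβs hn1' hη hcon hδKL hbig hδLK ?_ ?_ ?_
  · linarith
  · linarith
  · linarith

end Vale.Agent.P127.Stk.CC
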