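import Vale.Agent.P127.Stk.RatesTools
import Vale.Agent.P127.Stk.AbsStmt
import Vale.Agent.P127.Stk.FamTools

/-!
# P127 / Stk / CContraA : the contradiction for one family (PROOF.md, section 8), deterministic part
-/

namespace Vale.Agent.P127.Stk.CC

open Finset Vale.Agent.P127 Vale.Agent.P127.Stk

/-- an object with richer data -/
def wG {Ω : Type} {m κ : ℕ} (o : Ob Ω m κ) {τ : Type} (T : Ω → τ)
    (h : ∀ ω ω', T ω = T ω' → o.Γ ω = o.Γ ω') : Ob Ω m κ where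
  γ := τ
  G := T
  J := o.J
  Γ := o.Γ
  card := o.card
  bd := o.bd
  fn := h

open Classical in
/-- the projection with the matrix `Γ` -/
noncomputable def ap {m : ℕ} (J : Finset (Fin m)) (Γ : Fin m → Fin m → ℝ) (v : Fin m → ℝ) :
    Fin m → ℝ := fun i => if i ∈ J then 0 else v i - ∑ j ∈ J, Γ i j * v j

theorem app_eq {Ω : Type} {m κ : ℕ} (o : Ob Ω m κ) (ω : Ω) (v : Fin m → ℝ) :
    o.app ω v = ap o.J (o.Γ ω) v := rfl

/-- the difference of the projected points at the times `t` and `t₀` of the line `(u, w)` -/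
noncomputable def dF {m : ℕ} (J : Finset (Fin m)) (Γ Γ0 : Fin m → Fin m → ℝ) (t t0 : ℝ)
    (u w : Fin m → ℝ) : Fin m → ℝ := fun i =>
  ap J Γ (fun j => u j + t * w j) i - ap J Γ0 (fun j => u j + t0 * w j) i

theorem dF_mem {m : ℕ} {J : Finset (Fin m)} {Γ Γ0 : Fin m → Fin m → ℝ} {t t0 : ℝ}
    {u w : Fin m → ℝ} {i : Fin m} (h : i ∈ J) : dF J Γ Γ0 t t0 u w i = 0 := by
  unfold dF ap
  rw [if_pos h, if_pos h, sub_zero]

theorem dF_not {m : ℕ} {J : Finset (Fin m)} {Γ Γ0 : Fin m → Fin m → ℝ} {t t0 : ℝ}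
    {u w : Fin m → ℝ} {i : Fin m} (h : i ∉ J) : dF J Γ Γ0 t t0 u w i =
      (t - t0) * w i - ∑ j ∈ J, ((Γ i j - Γ0 i j) * (u j + t * w j) + Γ0 i j * (t - t0) * w j) := by
  unfold dF ap
  rw [if_neg h, if_neg h]
  have : ∑ j ∈ J, ((Γ i j - Γ0 i j) * (u j + t * w j) + Γ0 i j * (t - t0) * w j) =
      ∑ j ∈ J, Γ i j * (u j + t * w j) - ∑ j ∈ J, Γ0 i j * (u j + t0 * w j) := by
    rw [← Finset.sum_sub_distrib]
    exact Finset.sum_congr rfl fun j _ => by ring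
  rw [this]
  ring

/-- linearity -/
theorem dF_sub {m : ℕ} (J : Finset (Fin m)) (Γ Γ0 : Fin m → Fin m → ℝ) (t t0 : ℝ)
    (u w u' w' : Fin m → ℝ) (i : Fin m) :
    dF J Γ Γ0 t t0 u w i - dF J Γ Γ0 t t0 u' w' i =
      dF J Γ Γ0 t t0 (fun j => u j - u' j) (fun j => w j - w' j) i := by
  by_cases h : i ∈ J
  · rw [dF_mem h, dF_mem h, dF_mem h, sub_zero]
  · rw [dF_not h, dF_not h, dF_not h]
    have : ∑ j ∈ J, ((Γ i j - Γ0 i j) * ((u j - u' j) + t * (w j - w' j)) +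
        Γ0 i j * (t - t0) * (w j - w' j)) =
        ∑ j ∈ J, ((Γ i j - Γ0 i j) * (u j + t * w j) + Γ0 i j * (t - t0) * w j) -
        ∑ j ∈ J, ((Γ i j - Γ0 i j) * (u' j + t * w' j) + Γ0 i j * (t - t0) * w' j) := by
      rw [← Finset.sum_sub_distrib]
      exact Finset.sum_congr rfl fun j _ => by ring
    rw [this]
    ring

theorem dF_bound {m κ : ℕ} {J : Finset (Fin m)} (hJ : J.card = κ) {Γ Γ0 : Fin m → Fin m → ℝ}
    {t t0 : ℝ} {u w : Fin m → ℝ} {r τ γ : ℝ} (hr : 0 ≤ r) (hτ : 0 ≤ τ) (hγ : 0 ≤ γ)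
    (hu : ∀ j, |u j| ≤ r) (hw : ∀ j, |w j| ≤ r) (ht : |t| ≤ 1) (htt : |t - t0| ≤ τ)
    (hG0 : ∀ i j, |Γ0 i j| ≤ 3 ^ κ) (hG : ∀ i ∉ J, ∀ j ∈ J, |Γ i j - Γ0 i j| ≤ γ) (i : Fin m) :
    |dF J Γ Γ0 t t0 u w i| ≤ r * (τ + κ * (2 * γ + 3 ^ κ * τ)) := by
  by_cases h : i ∈ J
  · rw [dF_mem h, abs_zero]
    positivity
  · rw [dF_not h]
    have h1 : |(t - t0) * w i| ≤ τ * r := by
      rw [abs_mul]
      exact mul_le_mul htt (hw i) (abs_nonneg _) hτ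
    have h2 : |∑ j ∈ J, ((Γ i j - Γ0 i j) * (u j + t * w j) + Γ0 i j * (t - t0) * w j)| ≤
        κ * (r * (2 * γ + 3 ^ κ * τ)) := by
      refine (Finset.abs_sum_le_sum_abs _ _).trans ?_
      have : ∀ j ∈ J, |(Γ i j - Γ0 i j) * (u j + t * w j) + Γ0 i j * (t - t0) * w j| ≤
          r * (2 * γ + 3 ^ κ * τ) := by
        intro j hj
        have a1 : |u j + t * w j| ≤ 2 * r := by
          have b1 := abs_add_le (u j) (t * w j)
          have b2 : |t * w j| ≤ 1 * r := by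
            rw [abs_mul]
            exact mul_le_mul ht (hw j) (abs_nonneg _) zero_le_one
          linarith [hu j]
        have a2 : |(Γ i j - Γ0 i j) * (u j + t * w j)| ≤ γ * (2 * r) := by
          rw [abs_mul]
          exact mul_le_mul (hG i h j hj) a1 (abs_nonneg _) hγ
        have a3 : |Γ0 i j * (t - t0) * w j| ≤ 3 ^ κ * τ * r := by
          rw [abs_mul, abs_mul]
          exact mul_le_mul (mul_le_mul (hG0 i j) htt (abs_nonneg _) (by positivity)) (hw j)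
            (abs_nonneg _) (by positivity)
        have a4 := abs_add_le ((Γ i j - Γ0 i j) * (u j + t * w j)) (Γ0 i j * (t - t0) * w j)
        linarith
      refine (Finset.sum_le_sum this).trans ?_
      rw [Finset.sum_const, hJ, nsmul_eq_mul]
    have h3 := abs_sub ((t - t0) * w i)
      (∑ j ∈ J, ((Γ i j - Γ0 i j) * (u j + t * w j) + Γ0 i j * (t - t0) * w j))
    have h4 : r * (τ + κ * (2 * γ + 3 ^ κ * τ)) = τ * r + κ * (r * (2 * γ + 3 ^ κ * τ)) := by ring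
    rw [h4]
    linarith

/-- the signed sum -/
theorem sum_dF {m J' : ℕ} {J : Finset (Fin m)} (σ : Fin (J' + 1) → ℝ)
    (Γ : Fin (J' + 1) → Fin m → Fin m → ℝ) (t : Fin (J' + 1) → ℝ) (u w : Fin m → ℝ)
    (hσ : ∑ v, σ v = 0) {i : Fin m} (h : i ∉ J) :
    ∑ v, σ v * dF J (Γ v) (Γ 0) (t v) (t 0) u w i =
      (∑ v, σ v * t v) * w i - ∑ j ∈ J, (∑ v, σ v * Γ v i j) * (u j + t 0 * w j) -
        ∑ j ∈ J, (∑ v, σ v * (t v - t 0) * Γ v i j) * w j := by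
  have e1 : ∀ v, σ v * dF J (Γ v) (Γ 0) (t v) (t 0) u w i =
      (σ v * t v) * w i + σ v * (u i) - (∑ j ∈ J, σ v * Γ v i j * (u j + t v * w j)) -
        σ v * ap J (Γ 0) (fun j => u j + t 0 * w j) i := by
    intro v
    unfold dF
    have : ap J (Γ v) (fun j => u j + t v * w j) i =
        u i + t v * w i - ∑ j ∈ J, Γ v i j * (u j + t v * w j) := by
      unfold ap
      rw [if_neg h]
    rw [this]
    have h2 : ∑ j ∈ J, σ v * Γ v i j * (u j + t v * w j) =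
        σ v * ∑ j ∈ J, Γ v i j * (u j + t v * w j) := by
      rw [Finset.mul_sum]
      exact Finset.sum_congr rfl fun j _ => by ring
    rw [h2]
    ring
  rw [Finset.sum_congr rfl fun v _ => e1 v]
  rw [Finset.sum_sub_distrib, Finset.sum_sub_distrib, Finset.sum_add_distrib, ← Finset.sum_mul,
    ← Finset.sum_mul, ← Finset.sum_mul, hσ, Finset.sum_comm]
  have e2 : ∑ j ∈ J, ∑ v, σ v * Γ v i j * (u j + t v * w j) =
      ∑ j ∈ J, (∑ v, σ v * Γ v i j) * (u j + t 0 * w j) +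
        ∑ j ∈ J, (∑ v, σ v * (t v - t 0) * Γ v i j) * w j := by
    rw [← Finset.sum_add_distrib]
    refine Finset.sum_congr rfl fun j _ => ?_
    rw [Finset.sum_mul, Finset.sum_mul, ← Finset.sum_add_distrib]
    exact Finset.sum_congr rfl fun v _ => by ring
  rw [e2]
  ring

/-! ### The family -/

/-- the conditioning data of the absorption lemma -/
structure Bd (τ α : Type) (m J : ℕ) where
  T : τ
  A : α
  t : Fin (J + 1) → ℝ
  Γ : Fin (J + 1) → Fin m → Fin m → ℝ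
  F : Fin (J + 1) → Fin m → ℤ

section family

variable {Ω Ω' : Type} [Fintype Ω'] {m κ J : ℕ} {τ : Type}

noncomputable def bd (c : Cf Ω m) (o : Ob Ω m κ) (π : Fin (J + 1) → Ω' → Ω) (T : Ω' → τ) (n : ℕ)
    (ω : Ω') : Bd τ c.α m J :=
  ⟨T ω, c.A (π 0 ω), fun i => c.t (π i ω), fun i => o.Γ (π i ω), fun i => fl n (o.F c (π i ω))⟩

/-- the displacement of the vertex `v` as a function of the data and of the cell -/
noncomputable def ph {α : Type} (Js : Finset (Fin m)) (n s : ℕ) (v : Fin (J + 1))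
    (B : Bd τ α m J) (q : (Fin m → ℤ) × (Fin m → ℤ)) (i : Fin m) : ℤ :=
  round ((2 : ℝ) ^ s * dF Js (B.Γ v) (B.Γ 0) (B.t v) (B.t 0) (fun j => (q.1 j : ℝ) / 2 ^ n)
    (fun j => (q.2 j : ℝ) / 2 ^ n) i)

/-- a family of samples over the same line -/
structure Fa (Q : Law Ω') (c : Cf Ω m) (o : Ob Ω m κ) (π : Fin (J + 1) → Ω' → Ω) (T : Ω' → τ)
    (a k L : ℕ) (h e : ℝ) : Prop where
  same : ∀ i ω, c.x (π i ω) = c.x (π 0 ω) ∧ c.y (π i ω) = c.y (π 0 ω) ∧ c.A (π i ω) = c.A (π 0 ω)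
  dt : ∀ i ω ω', T ω = T ω' → c.t (π i ω) = c.t (π i ω')
  dG : ∀ i ω ω', T ω = T ω' → o.Γ (π i ω) = o.Γ (π i ω')
  rate : ∀ i, Rate Q (c.comp (π i)) (wG (o.comp (π i)) T (dG i)) L h e
  rk : ∀ i (s : ℕ), (s : ℝ) + e ≤ k * a → hc Q (fun ω => fl s (o.F c (π i ω)))
    (fun ω => (fl s (o.F c (π 0 ω)), T ω, c.A (π 0 ω))) ≤ e
  tt : ∀ i ω, |c.t (π i ω) - c.t (π 0 ω)| ≤ (2 : ℝ) ^ (-(a : ℝ))
  GG : ∀ i ω, ∀ c' ∉ o.J, ∀ d ∈ o.J,
    |o.Γ (π i ω) c' d - o.Γ (π 0 ω) c' d| ≤ (2 : ℝ) ^ (-(a : ℝ) + e)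

variable {Q : Law Ω'} {c : Cf Ω m} {o : Ob Ω m κ} {π : Fin (J + 1) → Ω' → Ω} {T : Ω' → τ}
  {a k L : ℕ} {h e : ℝ}

theorem Fa.x01 (H : Fa Q c o π T a k L h e) (ω : Ω') (i : Fin m) :
    0 ≤ c.x (π 0 ω) i ∧ c.x (π 0 ω) i < 1 := (H.rate 0).x01 ω i

theorem Fa.y01 (H : Fa Q c o π T a k L h e) (ω : Ω') (i : Fin m) :
    0 ≤ c.y (π 0 ω) i ∧ c.y (π 0 ω) i < 1 := (H.rate 0).y01 ω i

theorem Fa.t01 (H : Fa Q c o π T a k L h e) (v : Fin (J + 1)) (ω : Ω') :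
    0 ≤ c.t (π v ω) ∧ c.t (π v ω) < 1 := (H.rate v).t01 ω

theorem Fa.F_eq (H : Fa Q c o π T a k L h e) (v : Fin (J + 1)) (ω : Ω') (i : Fin m) :
    o.F c (π v ω) i = ap o.J (o.Γ (π v ω))
      (fun j => c.x (π 0 ω) j + c.t (π v ω) * c.y (π 0 ω) j) i := by
  show ap o.J (o.Γ (π v ω)) (c.pt (π v ω)) i = _
  have : c.pt (π v ω) = fun j => c.x (π 0 ω) j + c.t (π v ω) * c.y (π 0 ω) j := by
    funext j
    show c.x (π v ω) j + c.t (π v ω) * c.y (π v ω) j = _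
    rw [(H.same v ω).1, (H.same v ω).2.1]
  rw [this]

theorem Fa.F_sub (H : Fa Q c o π T a k L h e) (v : Fin (J + 1)) (ω : Ω') (i : Fin m) :
    o.F c (π v ω) i - o.F c (π 0 ω) i = dF o.J (o.Γ (π v ω)) (o.Γ (π 0 ω)) (c.t (π v ω))
      (c.t (π 0 ω)) (c.x (π 0 ω)) (c.y (π 0 ω)) i := by
  rw [H.F_eq v ω i, H.F_eq 0 ω i]
  rfl

theorem kl_fl' (s : ℕ) (x : Fin m → ℝ) (i : Fin m) :
    0 ≤ (2 : ℝ) ^ s * x i - (fl s x i : ℝ) ∧ (2 : ℝ) ^ s * x i - (fl s x i : ℝ) ≤ 1 := by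
  unfold fl
  have h1 := Int.floor_le ((2 : ℝ) ^ s * x i)
  have h2 := Int.lt_floor_add_one ((2 : ℝ) ^ s * x i)
  constructor <;> linarith

theorem fl_cell {s : ℕ} (x : Fin m → ℝ) (i : Fin m) :
    |x i - (fl s x i : ℝ) / 2 ^ s| ≤ 1 / 2 ^ s := by
  have h1 := kl_fl' s x i
  have h2 : (0 : ℝ) < 2 ^ s := by positivity
  have e1 : x i - (fl s x i : ℝ) / 2 ^ s = ((2 : ℝ) ^ s * x i - (fl s x i : ℝ)) / 2 ^ s := by
    field_simp
  rw [e1, abs_div, abs_of_pos h2]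
  refine div_le_div_of_nonneg_right ?_ h2.le
  rw [abs_le]
  constructor <;> linarith [h1.1, h1.2]

end family

section tup

variable {Ω : Type} [Fintype Ω] {S T : Type*}

/-- the entropy of a tuple -/
theorem hc_tup (P : Law Ω) (Z : Ω → T) : ∀ (N : ℕ) (X : Fin N → Ω → S),
    hc P (fun ω i => X i ω) Z ≤ ∑ i, hc P (X i) Z := by
  intro N
  induction N with
  | zero =>
    intro X
    rw [hc_zero P (fun ω ω' _ _ _ => funext fun i => i.elim0)]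
    simp
  | succ N ih =>
    intro X
    have h1 : hc P (fun ω i => X i ω) Z ≤ hc P (fun ω => (X 0 ω, fun i : Fin N => X i.succ ω)) Z := by
      refine hc_mono_left P fun ω ω' _ _ he => ?_
      simp only [Prod.mk.injEq] at he
      funext i
      refine Fin.cases he.1.1 (fun j => ?_) i
      exact congrFun he.1.2 j
    have h2 := hc_pair P (X 0) (fun ω (i : Fin N) => X i.succ ω) Z
    have h3 : hc P (fun ω (i : Fin N) => X i.succ ω) (fun ω => (X 0 ω, Z ω)) ≤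
        hc P (fun ω (i : Fin N) => X i.succ ω) Z :=
      hc_mono_right P _ fun ω ω' _ _ he => (Prod.mk.inj he).2
    have h4 := ih (fun i => X i.succ)
    rw [Fin.sum_univ_succ]
    linarith

end tup

section abs

variable {Ω Ω' : Type} [Fintype Ω'] {m κ J : ℕ} {τ : Type}
variable {Q : Law Ω'} {c : Cf Ω m} {o : Ob Ω m κ} {π : Fin (J + 1) → Ω' → Ω} {T : Ω' → τ}
  {a k L : ℕ} {h e : ℝ}

/-- the bound of the rounding errors -/
def N0 (κ : ℕ) : ℕ := κ * (2 + 3 ^ κ) + 4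

theorem Fa.err (H : Fa Q c o π T a k L h e) {n s : ℕ} (hns : n ≤ s) (hθ : (s : ℝ) - n + e ≤ a)
    (v : Fin (J + 1)) (ω : Ω') (i : Fin m) :
    |fl s (o.F c (π v ω)) i - fl s (o.F c (π 0 ω)) i -
      ph o.J n s v (bd c o π T n ω) (c.q n (π 0 ω)) i| ≤ (N0 κ : ℤ) := by
  have he : 0 ≤ e := (H.rate 0).nn
  set D := dF o.J (o.Γ (π v ω)) (o.Γ (π 0 ω)) (c.t (π v ω)) (c.t (π 0 ω)) (c.x (π 0 ω))
    (c.y (π 0 ω)) i with hD
  set D' := dF o.J (o.Γ (π v ω)) (o.Γ (π 0 ω)) (c.t (π v ω)) (c.t (π 0 ω))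
    (fun j => (fl n (c.x (π 0 ω)) j : ℝ) / 2 ^ n) (fun j => (fl n (c.y (π 0 ω)) j : ℝ) / 2 ^ n) i
    with hD'
  have hp : (0 : ℝ) < 2 ^ s := by positivity
  have hpn : (0 : ℝ) < 2 ^ n := by positivity
  have hph : ph o.J n s v (bd c o π T n ω) (c.q n (π 0 ω)) i = round ((2 : ℝ) ^ s * D') := rfl
  rw [hph]
  have h1 := kl_fl' s (o.F c (π v ω)) i
  have h2 := kl_fl' s (o.F c (π 0 ω)) i
  have h3 := abs_sub_round ((2 : ℝ) ^ s * D')
  have h4 : (2 : ℝ) ^ s * o.F c (π v ω) i - 2 ^ s * o.F c (π 0 ω) i = 2 ^ s * D := by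
    rw [hD, ← H.F_sub v ω i]
    ring
  have h5 : |2 ^ s * D - 2 ^ s * D'| ≤ 1 + κ * (2 + 3 ^ κ) := by
    have b1 := dF_bound (J := o.J) o.card (Γ := o.Γ (π v ω)) (Γ0 := o.Γ (π 0 ω))
      (t := c.t (π v ω)) (t0 := c.t (π 0 ω))
      (u := fun j => c.x (π 0 ω) j - (fl n (c.x (π 0 ω)) j : ℝ) / 2 ^ n)
      (w := fun j => c.y (π 0 ω) j - (fl n (c.y (π 0 ω)) j : ℝ) / 2 ^ n)
      (r := 1 / 2 ^ n) (τ := (2 : ℝ) ^ (-(a : ℝ))) (γ := (2 : ℝ) ^ (-(a : ℝ) + e))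
      (by positivity) (by positivity) (by positivity) (fun j => fl_cell _ _)
      (fun j => fl_cell _ _) (by
        have := H.t01 v ω
        rw [abs_of_nonneg this.1]
        exact this.2.le) (H.tt v ω) (fun i j => o.bd _ _ _) (H.GG v ω) i
    rw [← dF_sub] at b1
    have b2 : |2 ^ s * D - 2 ^ s * D'| = 2 ^ s * |D - D'| := by
      rw [← mul_sub, abs_mul, abs_of_pos hp]
    rw [b2]
    have b3 : (2 : ℝ) ^ (-(a : ℝ)) ≤ (2 : ℝ) ^ (-(a : ℝ) + e) :=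
      Real.rpow_le_rpow_of_exponent_le (by norm_num) (by linarith)
    have b4 : (2 : ℝ) ^ (-(a : ℝ)) + κ * (2 * (2 : ℝ) ^ (-(a : ℝ) + e) +
        3 ^ κ * (2 : ℝ) ^ (-(a : ℝ))) ≤ (2 : ℝ) ^ (-(a : ℝ) + e) * (1 + κ * (2 + 3 ^ κ)) := by
      have : (κ : ℝ) * (2 * (2 : ℝ) ^ (-(a : ℝ) + e) + 3 ^ κ * (2 : ℝ) ^ (-(a : ℝ))) ≤
          κ * (2 * (2 : ℝ) ^ (-(a : ℝ) + e) + 3 ^ κ * (2 : ℝ) ^ (-(a : ℝ) + e)) := by gcongr
      linarith
    have b5 : (2 : ℝ) ^ s * (1 / 2 ^ n) * (2 : ℝ) ^ (-(a : ℝ) + e) ≤ 1 := by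
      rw [← Real.rpow_natCast 2 s, ← Real.rpow_natCast 2 n, one_div, ← Real.rpow_neg (by norm_num),
        ← Real.rpow_add (by norm_num), ← Real.rpow_add (by norm_num)]
      refine Real.rpow_le_one_of_one_le_of_nonpos (by norm_num) (by linarith)
    calc 2 ^ s * |D - D'| ≤ 2 ^ s * (1 / 2 ^ n * ((2 : ℝ) ^ (-(a : ℝ)) +
          κ * (2 * (2 : ℝ) ^ (-(a : ℝ) + e) + 3 ^ κ * (2 : ℝ) ^ (-(a : ℝ))))) :=
          mul_le_mul_of_nonneg_left b1 hp.le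
      _ ≤ 2 ^ s * (1 / 2 ^ n * ((2 : ℝ) ^ (-(a : ℝ) + e) * (1 + κ * (2 + 3 ^ κ)))) := by gcongr
      _ = (2 : ℝ) ^ s * (1 / 2 ^ n) * (2 : ℝ) ^ (-(a : ℝ) + e) * (1 + κ * (2 + 3 ^ κ)) := by ring
      _ ≤ 1 * (1 + κ * (2 + 3 ^ κ)) := by gcongr
      _ = _ := one_mul _
  have h6 : |((fl s (o.F c (π v ω)) i - fl s (o.F c (π 0 ω)) i - round ((2 : ℝ) ^ s * D') : ℤ) : ℝ)|
      ≤ ((N0 κ : ℤ) : ℝ) := by
    unfold N0
    push_cast
    rw [abs_le] at h3 h5 ⊢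
    constructor <;> linarith [h1.1, h1.2, h2.1, h2.2, h3.1, h3.2, h5.1, h5.2]
  exact_mod_cast h6

theorem Fa.rng {n s : ℕ} (hns : n ≤ s) (v : Fin (J + 1)) (ω ω' : Ω')
    (hB : bd c o π T n ω = bd c o π T n ω') (i : Fin m) :
    |fl s (o.F c (π v ω)) i - fl s (o.F c (π v ω')) i| ≤ 2 ^ (s - n) :=
  fl_digits hns (congrFun (congrArg Bd.F hB) v) i

theorem Fa.upp (H : Fa Q c o π T a k L h e) {n s : ℕ} (hns : n ≤ s) (hs : s ≤ L)
    (v : Fin (J + 1)) : hc Q (fun ω => fl s (o.F c (π v ω))) (bd c o π T n) ≤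
      (h - κ) * ((s : ℝ) - n) * Real.log 2 + e := by
  refine le_trans ?_ ((H.rate v).up n s hns hs)
  refine hc_mono_right Q _ fun ω ω' _ _ hB => ?_
  have e1 : T ω = T ω' := congrArg Bd.T hB
  have e2 : c.A (π 0 ω) = c.A (π 0 ω') := congrArg Bd.A hB
  have e3 : fl n (o.F c (π v ω)) = fl n (o.F c (π v ω')) := congrFun (congrArg Bd.F hB) v
  have e4 : c.t (π v ω) = c.t (π v ω') := congrFun (congrArg Bd.t hB) v
  have e5 : c.A (π v ω) = c.A (π v ω') := by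
    rw [(H.same v ω).2.2, (H.same v ω').2.2, e2]
  show (fl n (o.F c (π v ω)), c.t (π v ω), T ω, c.A (π v ω)) = _
  rw [e1, e3, e4, e5]
  rfl

/-- the base condition determines everything but the digits of the projected points -/
theorem Fa.cell_F (H : Fa Q c o π T a k L h e) (n : ℕ) {U : Type} (Z : Ω' → U)
    (hZ : Fn Q (fun ω => (c.q n (π 0 ω), T ω)) Z) :
    hc Q (fun ω (i : Fin (J + 1)) => fl n (o.F c (π i ω))) Z ≤ (J + 1) * cst m κ := by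
  refine (hc_tup Q Z (J + 1) (fun i ω => fl n (o.F c (π i ω)))).trans ?_
  have : ∀ i ∈ (Finset.univ : Finset (Fin (J + 1))), hc Q (fun ω => fl n (o.F c (π i ω))) Z ≤
      cst m κ := by
    intro i _
    refine hc_F_of_q Q (c.comp (π i)) (wG (o.comp (π i)) T (H.dG i)) n Z
      (fun ω _ => H.t01 i ω) ?_
    intro ω ω' p p' he
    have h1 := hZ ω ω' p p' he
    simp only [Prod.mk.injEq] at h1
    show ((fl n (c.x (π i ω)), fl n (c.y (π i ω))), c.t (π i ω), T ω) =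
      ((fl n (c.x (π i ω')), fl n (c.y (π i ω'))), c.t (π i ω'), T ω')
    have h2 : (fl n (c.x (π 0 ω)), fl n (c.y (π 0 ω))) =
      (fl n (c.x (π 0 ω')), fl n (c.y (π 0 ω'))) := h1.1
    rw [(H.same i ω).1, (H.same i ω).2.1, (H.same i ω').1, (H.same i ω').2.1, h2, h1.2,
      H.dt i ω ω' h1.2]
  refine (Finset.sum_le_sum this).trans ?_
  rw [Finset.sum_const, Finset.card_univ, Fintype.card_fin, nsmul_eq_mul]
  push_cast
  exact le_rfl

/-- lower bound given the cell and all the data -/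
theorem Fa.low (H : Fa Q c o π T a k L h e) {n s : ℕ} (hns : n ≤ s) (hs : s ≤ L) :
    (h - κ) * ((s : ℝ) - n) * Real.log 2 - e - (J + 1) * cst m κ ≤
      hc Q (fun ω => fl s (o.F c (π 0 ω))) (fun ω => (c.q n (π 0 ω), bd c o π T n ω)) := by
  have h1 := (H.rate 0).lo n s hns hs
  have h2 := Fam.add_V Q (X := fun ω => fl s (o.F c (π 0 ω)))
    (Y := fun ω => (c.q n (π 0 ω), c.t (π 0 ω), T ω, c.A (π 0 ω)))
    (fun ω (i : Fin (J + 1)) => fl n (o.F c (π i ω)))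
    (Z := fun ω => (c.q n (π 0 ω), bd c o π T n ω)) (v := (J + 1) * cst m κ) ?_
    (H.cell_F n _ fun ω ω' _ _ he => by
      simp only [Prod.mk.injEq] at he ⊢
      exact ⟨he.1, he.2.2.1⟩)
  · have h3 : (h - κ) * ((s : ℝ) - n) * Real.log 2 - e ≤ hc Q (fun ω => fl s (o.F c (π 0 ω)))
      (fun ω => (c.q n (π 0 ω), c.t (π 0 ω), T ω, c.A (π 0 ω))) := h1
    linarith
  · intro ω ω' p p' he
    simp only [Prod.mk.injEq] at he ⊢
    refine ⟨he.2.1, ?_⟩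
    unfold bd
    rw [Bd.mk.injEq]
    refine ⟨he.2.2.2.1, he.2.2.2.2, ?_, ?_, he.1⟩
    · funext i
      exact H.dt i ω ω' he.2.2.2.1
    · funext i
      exact H.dG i ω ω' he.2.2.2.1

theorem Fa.abs (H : Fa Q c o π T a k L h e) {n s : ℕ} (hns : n ≤ s) (hs : s ≤ L)
    (hθ : (s : ℝ) - n + e ≤ a) {E : ℝ} (hE : e + (J + 1) * cst m κ ≤ E)
    (hcst : 0 ≤ cst m κ) :
    AbsHyp (N0 κ) (s - n) ((h - κ) * ((s : ℝ) - n) * Real.log 2) E Q (bd c o π T n)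
      (fun ω => c.q n (π 0 ω)) (fun v ω => fl s (o.F c (π v ω))) (ph o.J n s) where
  err := fun v ω i => H.err hns hθ v ω i
  rng := fun v ω ω' hB i => Fa.rng hns v ω ω' hB i
  upp := fun v => (H.upp hns hs v).trans (by nlinarith [(Nat.cast_nonneg J : (0 : ℝ) ≤ J)])
  low := by
    have := H.low hns hs
    linarith

end abs

end Vale.Agent.P127.Stk.CC
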