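import Vale.Agent.P127.Stk.CContraA

/-!
# P127 / Stk / CContraB : the contradiction for one family (PROOF.md, section 8), entropies of the
samples given by the absorption lemma
-/

namespace Vale.Agent.P127.Stk.CC

open Finset Vale.Agent.P127 Vale.Agent.P127.Stk

section law

variable {Ω : Type} [Fintype Ω] {S T U : Type*}

theorem ex_same (P : Law Ω) {X Y : Ω → S} (h : ∀ s, P.pr X s = P.pr Y s) (g : S → ℝ) :
    P.ex (fun ω => g (X ω)) = P.ex (fun ω => g (Y ω)) := by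
  classical
  have key : ∀ W : Ω → S, ∀ F : Finset S, img W ⊆ F →
      P.ex (fun ω => g (W ω)) = ∑ x ∈ F, P.pr W x * g x := by
    intro W F hF
    rw [P.ex_comp W g]
    refine Finset.sum_subset hF fun x _ hx => ?_
    have h1 : P.pr W x = 0 := by
      unfold Law.pr
      refine Finset.sum_eq_zero fun ω hω => ?_
      exact absurd (mem_img.2 ⟨ω, (Finset.mem_filter.1 hω).2⟩) hx
    rw [h1, zero_mul]
  rw [key X (img X ∪ img Y) Finset.subset_union_left,
    key Y (img X ∪ img Y) Finset.subset_union_right]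
  exact Finset.sum_congr rfl fun x _ => by rw [h x]

theorem H_same (P : Law Ω) {X Y : Ω → S} (h : ∀ s, P.pr X s = P.pr Y s) (f : S → T) :
    P.H (fun ω => f (X ω)) = P.H (fun ω => f (Y ω)) := by
  have h1 : ∀ t, P.pr (fun ω => f (X ω)) t = P.pr (fun ω => f (Y ω)) t := by
    intro t
    rw [Law.pr_eq_ex, Law.pr_eq_ex]
    exact ex_same P h fun s => Law.ind (f s = t)
  unfold Law.H
  simp only [h1]
  exact ex_same P h fun s => -Real.log (P.pr (fun ω => f (Y ω)) (f s))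

theorem hc_same (P : Law Ω) {X Y : Ω → S} (h : ∀ s, P.pr X s = P.pr Y s) (f : S → T)
    (g : S → U) : hc P (fun ω => f (X ω)) (fun ω => g (X ω)) =
      hc P (fun ω => f (Y ω)) (fun ω => g (Y ω)) := by
  unfold hc
  rw [H_same P h g]
  have := H_same P h (fun s => (f s, g s))
  rw [this]

/-- adding a variable of small information to the condition -/
theorem hc_add_mi (P : Law Ω) {S' V : Type*} {X : Ω → S} {X' : Ω → S'} {D : Ω → T} {Y : Ω → U}
    {Z : Ω → V} {r : ℝ} (hX : Fn P X (fun ω => (X' ω, Y ω))) (hZ : Fn P Z (fun ω => (D ω, Y ω)))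
    (hr : mi P X' D Y ≤ r) : hc P X Y - r ≤ hc P X Z := by
  have h1 : mi P X D Y ≤ mi P X' D Y := mi_mono_left P D hX
  have h2 : mi P X D Y = hc P X Y - hc P X (fun ω => (D ω, Y ω)) := rfl
  have h3 : hc P X (fun ω => (D ω, Y ω)) ≤ hc P X Z := hc_mono_right P X hZ
  linarith

end law

section con

variable {Ω Ω₁ : Type} [Fintype Ω] [Fintype Ω₁] {β γ : Type} {d J : ℕ} {ρ e' : ℝ} {P : Law Ω}
  {B : Ω → β} {q : Ω → γ} {X : Fin (J + 1) → Ω → Fin d → ℤ}
  {φ : Fin (J + 1) → β → γ → Fin d → ℤ} {σ : Fin (J + 1) → ℤ}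
  {P₁ : Law Ω₁} {ζ : Type} {Z : Ω₁ → ζ} {p p1 p2 : Ω₁ → Ω}

theorem con_nn (H : AbsCon ρ e' P B q X φ σ P₁ Z p p1 p2) : 0 ≤ e' :=
  (mi_nonneg P₁ _ _ _).trans H.cost

theorem con_hc (H : AbsCon ρ e' P B q X φ σ P₁ Z p p1 p2) {S T : Type*} (f : Ω → S) (g : Ω → T) :
    hc P₁ (fun w => f (p w)) (fun w => g (p w)) = hc P f g :=
  hc_of_law P₁ P p H.smp f g

theorem con_mi (H : AbsCon ρ e' P B q X φ σ P₁ Z p p1 p2) {S T U : Type*} (f : Ω → S) (g : Ω → T)
    (k : Ω → U) : mi P₁ (fun w => f (p w)) (fun w => g (p w)) (fun w => k (p w)) = mi P f g k := by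
  unfold mi
  rw [con_hc H f k, con_hc H f (fun ω => (g ω, k ω))]

theorem con_pos (H : AbsCon ρ e' P B q X φ σ P₁ Z p p1 p2) {w : Ω₁} (hw : 0 < P₁.w w) :
    0 < P.w (p w) := by
  rw [← H.smp]
  exact P₁.pr_pos p hw

/-- the two samples and `Z` have small information on the first sample -/
theorem con_E2 (H : AbsCon ρ e' P B q X φ σ P₁ Z p p1 p2) {S T : Type*} {E2 : Ω₁ → S}
    (hE : Fn P₁ E2 (fun w => ((Z w, p1 w, p2 w), B (p w)))) {Y : Ω₁ → T}
    (hY : Fn P₁ Y (fun w => (p w, B (p w)))) :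
    mi P₁ p E2 (fun w => (Y w, B (p w))) ≤ e' := by
  have h1 : mi P₁ p E2 (fun w => (Y w, B (p w))) ≤ mi P₁ p E2 (fun w => B (p w)) :=
    mi_cond_le P₁ E2 _ hY
  have h2 : mi P₁ p E2 (fun w => B (p w)) ≤
      mi P₁ p (fun w => (Z w, p1 w, p2 w)) (fun w => B (p w)) := mi_mono_right P₁ p hE
  have h3 := mi_pair P₁ p Z (fun w => (p1 w, p2 w)) (fun w => B (p w))
  have h4 : mi P₁ p (fun w => (p1 w, p2 w)) (fun w => (Z w, B (p w))) = 0 := by
    rw [mi_symm, ← H.ci0]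
    refine mi_congr_cond P₁ _ _ (fun ω ω' _ _ he => ?_) (fun ω ω' _ _ he => ?_)
    · simp only [Prod.mk.injEq] at he ⊢
      exact ⟨he.2, he.1⟩
    · simp only [Prod.mk.injEq] at he ⊢
      exact ⟨he.2, he.1⟩
  have h5 := H.cost
  linarith

/-- lower bound for a function of the first sample, given everything -/
theorem con_low (H : AbsCon ρ e' P B q X φ σ P₁ Z p p1 p2) {S T U V : Type*} (f : Ω → S)
    (g : Ω → T) {E2 : Ω₁ → U} (hE : Fn P₁ E2 (fun w => ((Z w, p1 w, p2 w), B (p w))))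
    {Y : Ω₁ → V} (hY : Fn P₁ Y (fun w => (E2 w, g (p w), B (p w)))) :
    hc P f (fun ω => (g ω, B ω)) - e' ≤ hc P₁ (fun w => f (p w)) Y := by
  have h1 := con_E2 H hE (Y := fun w => g (p w)) (fun ω ω' _ _ he => by
    simp only [Prod.mk.injEq] at he
    beta_reduce
    rw [he.1])
  have h2 := hc_add_mi P₁ (X := fun w => f (p w)) (X' := p) (D := E2)
    (Y := fun w => (g (p w), B (p w))) (Z := Y) (r := e') (fun ω ω' _ _ he => by
      simp only [Prod.mk.injEq] at he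
      beta_reduce
      rw [he.1]) hY h1
  rw [← con_hc H f (fun ω => (g ω, B ω))]
  exact h2

/-- lower bound for a function of the second sample, given the first sample `p1` -/
theorem con_two (H : AbsCon ρ e' P B q X φ σ P₁ Z p p1 p2) {S : Type*} (f : Ω → S) :
    hc P f (fun ω => (X 0 ω, B ω)) - e' ≤
      hc P₁ (fun w => f (p2 w)) (fun w => (p1 w, B (p w), Z w)) := by
  -- step 1: conditional independence of `p1` and `p2`
  have h1 : hc P₁ (fun w => f (p2 w)) (fun w => (X 0 (p1 w), B (p w), Z w)) ≤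
      hc P₁ (fun w => f (p2 w)) (fun w => (p1 w, B (p w), Z w)) := by
    have a1 : mi P₁ (fun w => f (p2 w)) p1 (fun w => (X 0 (p1 w), B (p w), Z w)) ≤
        mi P₁ p2 p1 (fun w => (X 0 (p1 w), B (p w), Z w)) :=
      mi_mono_left P₁ p1 fun ω ω' _ _ he => by
        simp only [Prod.mk.injEq] at he
        rw [he.1]
    rw [mi_symm P₁ p2 p1, H.ci12] at a1
    have a2 : mi P₁ (fun w => f (p2 w)) p1 (fun w => (X 0 (p1 w), B (p w), Z w)) =
      hc P₁ (fun w => f (p2 w)) (fun w => (X 0 (p1 w), B (p w), Z w)) -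
        hc P₁ (fun w => f (p2 w)) (fun w => (p1 w, X 0 (p1 w), B (p w), Z w)) := rfl
    have a3 : hc P₁ (fun w => f (p2 w)) (fun w => (p1 w, X 0 (p1 w), B (p w), Z w)) ≤
        hc P₁ (fun w => f (p2 w)) (fun w => (p1 w, B (p w), Z w)) :=
      hc_mono_right P₁ _ fun ω ω' _ _ he => by
        simp only [Prod.mk.injEq] at he ⊢
        exact ⟨he.1, he.2.2.1, he.2.2.2⟩
    have a4 : hc P₁ (fun w => f (p2 w)) (fun w => (p1 w, B (p w), Z w)) ≤
        hc P₁ (fun w => f (p2 w)) (fun w => (p1 w, X 0 (p1 w), B (p w), Z w)) :=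
      hc_mono_right P₁ _ fun ω ω' _ _ he => by
        simp only [Prod.mk.injEq] at he ⊢
        exact ⟨he.1, by rw [he.1], he.2.1, he.2.2⟩
    linarith
  -- step 2: `X 0 (p1) = X 0 (p2)`, `B (p) = B (p2)`, and the law of `(Z, p2)`
  have h2 : hc P₁ (fun w => f (p2 w)) (fun w => (X 0 (p1 w), B (p w), Z w)) =
      hc P₁ (fun w => f (p w)) (fun w => (X 0 (p w), B (p w), Z w)) := by
    have e1 : (fun w => (X 0 (p1 w), B (p w), Z w)) = fun w => (X 0 (p2 w), B (p2 w), Z w) := by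
      funext w
      rw [H.X12 w, H.B2 w]
    rw [e1]
    exact hc_same P₁ (X := fun w => (Z w, p2 w)) (Y := fun w => (Z w, p w))
      (fun s => H.law2 s.1 s.2) (fun s => f s.2) (fun s => (X 0 s.2, B s.2, s.1))
  -- step 3: `Z` is cheap
  have h3 := hc_add_mi P₁ (X := fun w => f (p w)) (X' := p) (D := Z)
    (Y := fun w => (X 0 (p w), B (p w))) (Z := fun w => (X 0 (p w), B (p w), Z w)) (r := e')
    (fun ω ω' _ _ he => by
      simp only [Prod.mk.injEq] at he
      beta_reduce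
      rw [he.1]) (fun ω ω' _ _ he => by
      simp only [Prod.mk.injEq] at he ⊢
      exact ⟨he.2.1, he.2.2, he.1⟩)
    ((mi_cond_le P₁ Z (fun w => B (p w)) (W := fun w => X 0 (p w)) (fun ω ω' _ _ he => by
      simp only [Prod.mk.injEq] at he
      beta_reduce
      rw [he.1])).trans H.cost)
  rw [con_hc H f (fun ω => (X 0 ω, B ω))] at h3
  linarith

/-- the first sample gives no information on functions of the two others -/
theorem con_M (H : AbsCon ρ e' P B q X φ σ P₁ Z p p1 p2) {S T U V : Type*} {M : Ω₁ → S}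
    {W : Ω₁ → T} (hM : Fn P₁ M (fun w => ((p1 w, p2 w), B (p w), Z w)))
    (hW : Fn P₁ W (fun w => ((p1 w, p2 w), B (p w), Z w))) {Y : Ω₁ → U}
    (hY : Fn P₁ Y (fun w => (p w, W w, B (p w), Z w))) {Y' : Ω₁ → V}
    (hY' : Fn P₁ (fun w => (W w, B (p w), Z w)) Y') :
    hc P₁ M Y' ≤ hc P₁ M Y := by
  have a1 : mi P₁ M p (fun w => (W w, B (p w), Z w)) ≤
      mi P₁ (fun w => (p1 w, p2 w)) p (fun w => (W w, B (p w), Z w)) :=
    mi_mono_left P₁ p fun ω ω' q1 q2 he => hM ω ω' q1 q2 (by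
      simp only [Prod.mk.injEq] at he ⊢
      exact ⟨⟨he.1.1, he.1.2⟩, he.2.2.1, he.2.2.2⟩)
  have a2 : mi P₁ (fun w => (p1 w, p2 w)) p (fun w => (W w, B (p w), Z w)) ≤
      mi P₁ (fun w => (p1 w, p2 w)) p (fun w => (B (p w), Z w)) :=
    mi_cond_le P₁ p _ hW
  rw [H.ci0] at a2
  have a3 : mi P₁ M p (fun w => (W w, B (p w), Z w)) = hc P₁ M (fun w => (W w, B (p w), Z w)) -
    hc P₁ M (fun w => (p w, W w, B (p w), Z w)) := rfl
  have a4 : hc P₁ M (fun w => (p w, W w, B (p w), Z w)) ≤ hc P₁ M Y := hc_mono_right P₁ M hY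
  have a5 : hc P₁ M Y' ≤ hc P₁ M (fun w => (W w, B (p w), Z w)) := hc_mono_right P₁ M hY'
  linarith

end con

end Vale.Agent.P127.Stk.CC
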