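import Vale.Agent.P127.Stk.CContraB

/-!
# P127 / Stk / CContraC : the contradiction for one family (PROOF.md, section 8), the displacement
-/

namespace Vale.Agent.P127.Stk.CC

open Finset Vale.Agent.P127 Vale.Agent.P127.Stk

section sg

variable {Ω Ω' : Type} [Fintype Ω'] {m κ J : ℕ} {τ : Type}

/-- the signed sum of the matrices -/
noncomputable def EE (o : Ob Ω m κ) (π : Fin (J + 1) → Ω' → Ω) (σ : Fin (J + 1) → ℤ) (ω : Ω')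
    (i j : Fin m) : ℝ := ∑ v, (σ v : ℝ) * o.Γ (π v ω) i j

/-- the hypotheses on the signed sums -/
structure Sg (c : Cf Ω m) (o : Ob Ω m κ) (π : Fin (J + 1) → Ω' → Ω) (σ : Fin (J + 1) → ℤ)
    (a k β : ℕ) (e : ℝ) (i0 j0 : Fin m) : Prop where
  pm : ∀ v, σ v = 1 ∨ σ v = -1
  s0 : ∑ v, σ v = 0
  st : ∀ ω, |∑ v, (σ v : ℝ) * c.t (π v ω)| ≤ (2 : ℝ) ^ (-(((k + 1) * a : ℕ) : ℝ) + e)
  sG : ∀ ω, ∀ i ∉ o.J, ∀ j ∈ o.J,
    |∑ v, (σ v : ℝ) * (c.t (π v ω) - c.t (π 0 ω)) * o.Γ (π v ω) i j| ≤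
      (2 : ℝ) ^ (-(((k + 1) * a : ℕ) : ℝ) + e)
  hi0 : i0 ∉ o.J
  hj0 : j0 ∈ o.J
  Elo : ∀ ω, (2 : ℝ) ^ (-(β : ℝ) - e) ≤ |EE o π σ ω i0 j0|
  Ehi : ∀ ω, |EE o π σ ω i0 j0| ≤ (2 : ℝ) ^ (-(β : ℝ))
  Emax : ∀ ω, ∀ i ∉ o.J, ∀ j ∈ o.J, |EE o π σ ω i j| ≤ |EE o π σ ω i0 j0|

variable {Q : Law Ω'} {c : Cf Ω m} {o : Ob Ω m κ} {π : Fin (J + 1) → Ω' → Ω} {T : Ω' → τ}
  {a k L β : ℕ} {h e : ℝ} {σ : Fin (J + 1) → ℤ} {i0 j0 : Fin m}

/-- the digits of the point at the base time -/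
noncomputable def zt (c : Cf Ω m) (π : Fin (J + 1) → Ω' → Ω) (n : ℕ) (ω : Ω') : Fin m → ℤ :=
  fl n (c.pt (π 0 ω))

theorem zt_mem (H : Fa Q c o π T a k L h e) (n : ℕ) (ω : Ω') (j : Fin m) :
    0 ≤ zt c π n ω j ∧ zt c π n ω j < 2 ^ (n + 1) := by
  have h1 := H.x01 ω j
  have h2 := H.y01 ω j
  have h3 := H.t01 0 ω
  have h4 : c.pt (π 0 ω) j = c.x (π 0 ω) j + c.t (π 0 ω) * c.y (π 0 ω) j := rfl
  have h5 : 0 ≤ c.t (π 0 ω) * c.y (π 0 ω) j := mul_nonneg h3.1 h2.1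
  have h6 : c.t (π 0 ω) * c.y (π 0 ω) j < 1 := by
    have := mul_le_mul_of_nonneg_right h3.2.le h2.1
    linarith
  have hp : (0 : ℝ) < 2 ^ n := by positivity
  constructor
  · show 0 ≤ ⌊(2 : ℝ) ^ n * c.pt (π 0 ω) j⌋
    refine Int.floor_nonneg.mpr (mul_nonneg hp.le (by rw [h4]; linarith))
  · show ⌊(2 : ℝ) ^ n * c.pt (π 0 ω) j⌋ < 2 ^ (n + 1)
    refine Int.floor_lt.mpr ?_
    push_cast
    rw [pow_succ, h4]
    nlinarith

/-- the integer part of the displacement of the base point -/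
theorem zt_cell (H : Fa Q c o π T a k L h e) (n : ℕ) (ω : Ω') (j : Fin m) :
    -1 ≤ (zt c π n ω j : ℝ) - ((fl n (c.x (π 0 ω)) j : ℝ) + c.t (π 0 ω) * fl n (c.y (π 0 ω)) j) ∧
    (zt c π n ω j : ℝ) - ((fl n (c.x (π 0 ω)) j : ℝ) + c.t (π 0 ω) * fl n (c.y (π 0 ω)) j) ≤
      2 := by
  have h1 := kl_fl' n (c.x (π 0 ω)) j
  have h2 := kl_fl' n (c.y (π 0 ω)) j
  have h3 := kl_fl' n (c.pt (π 0 ω)) j
  have h4 := H.t01 0 ω
  have h5 : c.pt (π 0 ω) j = c.x (π 0 ω) j + c.t (π 0 ω) * c.y (π 0 ω) j := rfl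
  have h6 : 0 ≤ c.t (π 0 ω) * ((2 : ℝ) ^ n * c.y (π 0 ω) j - fl n (c.y (π 0 ω)) j) :=
    mul_nonneg h4.1 h2.1
  have h7 : c.t (π 0 ω) * ((2 : ℝ) ^ n * c.y (π 0 ω) j - fl n (c.y (π 0 ω)) j) ≤ 1 := by
    have := mul_le_mul h4.2.le h2.2 h2.1 zero_le_one
    linarith
  have h8 : (2 : ℝ) ^ n * c.pt (π 0 ω) j = 2 ^ n * c.x (π 0 ω) j +
      c.t (π 0 ω) * (2 ^ n * c.y (π 0 ω) j) := by
    rw [h5]
    ring
  have h9 : (zt c π n ω j : ℝ) = fl n (c.pt (π 0 ω)) j := rfl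
  rw [h9]
  constructor <;> linarith [h1.1, h1.2, h3.1, h3.2]

theorem pow_small {s k a : ℕ} {e : ℝ} (h : (s : ℝ) + e ≤ ((k + 1) * a : ℕ)) :
    (2 : ℝ) ^ s * (2 : ℝ) ^ (-(((k + 1) * a : ℕ) : ℝ) + e) ≤ 1 := by
  rw [← Real.rpow_natCast 2 s, ← Real.rpow_add (by norm_num)]
  exact Real.rpow_le_one_of_one_le_of_nonpos (by norm_num) (by linarith)

theorem pow_small' {s n β : ℕ} (h : s ≤ β + n) :
    (2 : ℝ) ^ s / 2 ^ n * (2 : ℝ) ^ (-(β : ℝ)) ≤ 1 := by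
  rw [← Real.rpow_natCast 2 s, ← Real.rpow_natCast 2 n, ← Real.rpow_sub (by norm_num),
    ← Real.rpow_add (by norm_num)]
  refine Real.rpow_le_one_of_one_le_of_nonpos (by norm_num) ?_
  have : (s : ℝ) ≤ β + n := by exact_mod_cast h
  linarith

/-- the signed sum of the displacements of two cells -/
theorem det1 (H : Fa Q c o π T a k L h e) (S : Sg c o π σ a k β e i0 j0) {n s : ℕ}
    (hs : (s : ℝ) + e ≤ ((k + 1) * a : ℕ)) (hβ : s ≤ β + n) {ω ω1 ω2 : Ω'}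
    (h1 : bd c o π T n ω1 = bd c o π T n ω) (h2 : bd c o π T n ω2 = bd c o π T n ω)
    {i : Fin m} (hi : i ∉ o.J) :
    |((∑ v, σ v * (ph o.J n s v (bd c o π T n ω) (c.q n (π 0 ω2)) i -
        ph o.J n s v (bd c o π T n ω) (c.q n (π 0 ω1)) i) : ℤ) : ℝ) -
      (-((2 : ℝ) ^ s / 2 ^ n * ∑ j ∈ o.J, EE o π σ ω i j *
        ((zt c π n ω2 j : ℝ) - zt c π n ω1 j)))| ≤ J + 2 + 4 * κ := by
  have he : 0 ≤ e := (H.rate 0).nn
  set A : Fin (J + 1) → ℝ := fun v => (2 : ℝ) ^ s * dF o.J (o.Γ (π v ω)) (o.Γ (π 0 ω))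
    (c.t (π v ω)) (c.t (π 0 ω)) (fun j => (fl n (c.x (π 0 ω2)) j : ℝ) / 2 ^ n)
    (fun j => (fl n (c.y (π 0 ω2)) j : ℝ) / 2 ^ n) i with hA
  set A' : Fin (J + 1) → ℝ := fun v => (2 : ℝ) ^ s * dF o.J (o.Γ (π v ω)) (o.Γ (π 0 ω))
    (c.t (π v ω)) (c.t (π 0 ω)) (fun j => (fl n (c.x (π 0 ω1)) j : ℝ) / 2 ^ n)
    (fun j => (fl n (c.y (π 0 ω1)) j : ℝ) / 2 ^ n) i with hA'
  have e1 : ((∑ v, σ v * (ph o.J n s v (bd c o π T n ω) (c.q n (π 0 ω2)) i -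
        ph o.J n s v (bd c o π T n ω) (c.q n (π 0 ω1)) i) : ℤ) : ℝ) =
      ∑ v, (σ v : ℝ) * ((round (A v) : ℝ) - (round (A' v) : ℝ)) := by
    push_cast
    rfl
  have e2 : |∑ v, (σ v : ℝ) * ((round (A v) : ℝ) - (round (A' v) : ℝ)) -
      ∑ v, (σ v : ℝ) * (A v - A' v)| ≤ J + 1 := by
    rw [← Finset.sum_sub_distrib]
    refine (Finset.abs_sum_le_sum_abs _ _).trans ?_
    have : ∀ v ∈ (Finset.univ : Finset (Fin (J + 1))),
        |(σ v : ℝ) * ((round (A v) : ℝ) - (round (A' v) : ℝ)) - (σ v : ℝ) * (A v - A' v)| ≤ 1 := by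
      intro v _
      have a1 := abs_sub_round (A v)
      have a2 := abs_sub_round (A' v)
      rw [← mul_sub, abs_mul]
      have a3 : |(σ v : ℝ)| = 1 := by
        rcases S.pm v with hv | hv <;> rw [hv] <;> simp
      rw [a3, one_mul]
      rw [abs_le] at a1 a2 ⊢
      constructor <;> linarith [a1.1, a1.2, a2.1, a2.2]
    refine (Finset.sum_le_sum this).trans ?_
    simp
  set u : Fin m → ℝ := fun j => (fl n (c.x (π 0 ω2)) j : ℝ) / 2 ^ n -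
    (fl n (c.x (π 0 ω1)) j : ℝ) / 2 ^ n with hu
  set w : Fin m → ℝ := fun j => (fl n (c.y (π 0 ω2)) j : ℝ) / 2 ^ n -
    (fl n (c.y (π 0 ω1)) j : ℝ) / 2 ^ n with hw
  have e3 : ∑ v, (σ v : ℝ) * (A v - A' v) = 2 ^ s * ∑ v, (σ v : ℝ) * dF o.J (o.Γ (π v ω))
      (o.Γ (π 0 ω)) (c.t (π v ω)) (c.t (π 0 ω)) u w i := by
    rw [Finset.mul_sum]
    refine Finset.sum_congr rfl fun v _ => ?_
    rw [hA, hA']
    simp only
    rw [← mul_sub, dF_sub]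
    ring
  have hσ0 : ∑ v, (σ v : ℝ) = 0 := by
    have := S.s0
    exact_mod_cast this
  have e4 := sum_dF (J := o.J) (fun v => (σ v : ℝ)) (fun v => o.Γ (π v ω)) (fun v => c.t (π v ω))
    u w hσ0 hi
  have hpn : (0 : ℝ) < 2 ^ n := by positivity
  have hps : (0 : ℝ) < 2 ^ s := by positivity
  have hw1 : ∀ j, |w j| ≤ 1 := by
    intro j
    have b1 := fl_lt (s := n) (H.y01 ω1) j
    have b2 := fl_lt (s := n) (H.y01 ω2) j
    have b3 : ((fl n (c.y (π 0 ω1)) j : ℤ) : ℝ) < 2 ^ n := by exact_mod_cast b1.2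
    have b4 : ((fl n (c.y (π 0 ω2)) j : ℤ) : ℝ) < 2 ^ n := by exact_mod_cast b2.2
    have b5 : (0 : ℝ) ≤ ((fl n (c.y (π 0 ω1)) j : ℤ) : ℝ) := by exact_mod_cast b1.1
    have b6 : (0 : ℝ) ≤ ((fl n (c.y (π 0 ω2)) j : ℤ) : ℝ) := by exact_mod_cast b2.1
    rw [hw]
    simp only
    rw [← sub_div, abs_div, abs_of_pos hpn, div_le_one hpn, abs_le]
    constructor <;> linarith
  -- the three terms
  have f1 : |2 ^ s * ((∑ v, (σ v : ℝ) * c.t (π v ω)) * w i)| ≤ 1 := by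
    rw [abs_mul, abs_mul, abs_of_pos hps]
    calc (2 : ℝ) ^ s * (|∑ v, (σ v : ℝ) * c.t (π v ω)| * |w i|) ≤
        2 ^ s * ((2 : ℝ) ^ (-(((k + 1) * a : ℕ) : ℝ) + e) * 1) := by
          gcongr
          · exact S.st ω
          · exact hw1 i
      _ ≤ 1 := by
          rw [mul_one]
          exact pow_small hs
  have f2 : |2 ^ s * ∑ j ∈ o.J, (∑ v, (σ v : ℝ) * (c.t (π v ω) - c.t (π 0 ω)) *
      o.Γ (π v ω) i j) * w j| ≤ κ := by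
    rw [Finset.mul_sum]
    refine (Finset.abs_sum_le_sum_abs _ _).trans ?_
    have : ∀ j ∈ o.J, |2 ^ s * ((∑ v, (σ v : ℝ) * (c.t (π v ω) - c.t (π 0 ω)) *
        o.Γ (π v ω) i j) * w j)| ≤ 1 := by
      intro j hj
      rw [abs_mul, abs_mul, abs_of_pos hps]
      calc (2 : ℝ) ^ s * (|∑ v, (σ v : ℝ) * (c.t (π v ω) - c.t (π 0 ω)) * o.Γ (π v ω) i j| *
          |w j|) ≤ 2 ^ s * ((2 : ℝ) ^ (-(((k + 1) * a : ℕ) : ℝ) + e) * 1) := by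
            gcongr
            · exact S.sG ω i hi j hj
            · exact hw1 j
        _ ≤ 1 := by
            rw [mul_one]
            exact pow_small hs
    refine (Finset.sum_le_sum this).trans ?_
    rw [Finset.sum_const, o.card, nsmul_eq_mul, mul_one]
  have f3 : |2 ^ s * ∑ j ∈ o.J, EE o π σ ω i j * (u j + c.t (π 0 ω) * w j) -
      (2 : ℝ) ^ s / 2 ^ n * ∑ j ∈ o.J, EE o π σ ω i j *
        ((zt c π n ω2 j : ℝ) - zt c π n ω1 j)| ≤ 3 * κ := by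
    rw [Finset.mul_sum, Finset.mul_sum, ← Finset.sum_sub_distrib]
    refine (Finset.abs_sum_le_sum_abs _ _).trans ?_
    have : ∀ j ∈ o.J, |2 ^ s * (EE o π σ ω i j * (u j + c.t (π 0 ω) * w j)) -
        (2 : ℝ) ^ s / 2 ^ n * (EE o π σ ω i j * ((zt c π n ω2 j : ℝ) - zt c π n ω1 j))| ≤ 3 := by
      intro j hj
      have t1 : c.t (π 0 ω1) = c.t (π 0 ω) := congrFun (congrArg Bd.t h1) 0
      have t2 : c.t (π 0 ω2) = c.t (π 0 ω) := congrFun (congrArg Bd.t h2) 0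
      have g1 := zt_cell H n ω1 j
      have g2 := zt_cell H n ω2 j
      rw [t1] at g1
      rw [t2] at g2
      have g3 : 2 ^ s * (EE o π σ ω i j * (u j + c.t (π 0 ω) * w j)) -
          (2 : ℝ) ^ s / 2 ^ n * (EE o π σ ω i j * ((zt c π n ω2 j : ℝ) - zt c π n ω1 j)) =
          (2 : ℝ) ^ s / 2 ^ n * EE o π σ ω i j *
            (((zt c π n ω1 j : ℝ) - ((fl n (c.x (π 0 ω1)) j : ℝ) +
              c.t (π 0 ω) * fl n (c.y (π 0 ω1)) j)) -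
            ((zt c π n ω2 j : ℝ) - ((fl n (c.x (π 0 ω2)) j : ℝ) +
              c.t (π 0 ω) * fl n (c.y (π 0 ω2)) j))) := by
        rw [hu, hw]
        simp only
        field_simp
        ring
      rw [g3, abs_mul, abs_mul, abs_of_pos (div_pos hps hpn)]
      have g4 : |EE o π σ ω i j| ≤ (2 : ℝ) ^ (-(β : ℝ)) := (S.Emax ω i hi j hj).trans (S.Ehi ω)
      have g5 : |((zt c π n ω1 j : ℝ) - ((fl n (c.x (π 0 ω1)) j : ℝ) +
              c.t (π 0 ω) * fl n (c.y (π 0 ω1)) j)) -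
            ((zt c π n ω2 j : ℝ) - ((fl n (c.x (π 0 ω2)) j : ℝ) +
              c.t (π 0 ω) * fl n (c.y (π 0 ω2)) j))| ≤ 3 := by
        rw [abs_le]
        constructor <;> linarith [g1.1, g1.2, g2.1, g2.2]
      calc (2 : ℝ) ^ s / 2 ^ n * |EE o π σ ω i j| * _ ≤
          (2 : ℝ) ^ s / 2 ^ n * (2 : ℝ) ^ (-(β : ℝ)) * 3 := by gcongr
        _ ≤ 1 * 3 := by
            gcongr
            exact pow_small' hβ
        _ = 3 := one_mul _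
    refine (Finset.sum_le_sum this).trans ?_
    rw [Finset.sum_const, o.card, nsmul_eq_mul]
    linarith
  rw [e1]
  have e5 : ∑ v, (σ v : ℝ) * (A v - A' v) =
      2 ^ s * ((∑ v, (σ v : ℝ) * c.t (π v ω)) * w i) -
      2 ^ s * ∑ j ∈ o.J, EE o π σ ω i j * (u j + c.t (π 0 ω) * w j) -
      2 ^ s * ∑ j ∈ o.J, (∑ v, (σ v : ℝ) * (c.t (π v ω) - c.t (π 0 ω)) *
        o.Γ (π v ω) i j) * w j := by
    rw [e3, e4]
    unfold EE
    ring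
  rw [e5] at e2
  rw [abs_le] at e2 f1 f2 f3 ⊢
  constructor <;> linarith [e2.1, e2.2, f1.1, f1.2, f2.1, f2.2, f3.1, f3.2]

end sg

end Vale.Agent.P127.Stk.CC
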