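import Vale.Agent.P127.Stk.CContraC

/-!
# P127 / Stk / CContraD : the contradiction for one family (PROOF.md, section 8), the multiplier
-/

namespace Vale.Agent.P127.Stk.CC

open Finset Vale.Agent.P127 Vale.Agent.P127.Stk

section sg

variable {Ω Ω' : Type} [Fintype Ω'] {m κ J : ℕ} {τ : Type}

open Classical in
/-- the direction -/
noncomputable def vv (o : Ob Ω m κ) (π : Fin (J + 1) → Ω' → Ω) (σ : Fin (J + 1) → ℤ)
    (i0 j0 : Fin m) (ω : Ω') : Fin m → ℝ := fun i =>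
  if i ∈ o.J then 0 else EE o π σ ω i j0 / EE o π σ ω i0 j0

open Classical in
/-- the known part of the displacement -/
noncomputable def ww (o : Ob Ω m κ) (π : Fin (J + 1) → Ω' → Ω) (σ : Fin (J + 1) → ℤ) (n : ℕ)
    (j0 : Fin m) (ω : Ω') (z : Fin m → ℤ) : Fin m → ℝ := fun i =>
  if i ∈ o.J then 0 else -(∑ j ∈ o.J.erase j0, EE o π σ ω i j * (z j : ℝ) / 2 ^ n)

/-- the multiplier -/
noncomputable def MM (o : Ob Ω m κ) (π : Fin (J + 1) → Ω' → Ω) (σ : Fin (J + 1) → ℤ) (n s : ℕ)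
    (i0 j0 : Fin m) (ω : Ω') (z : Fin m → ℤ) : ℤ :=
  round (-((2 : ℝ) ^ s / 2 ^ n * EE o π σ ω i0 j0 * (z j0 : ℝ)))

variable {Q : Law Ω'} {c : Cf Ω m} {o : Ob Ω m κ} {π : Fin (J + 1) → Ω' → Ω} {T : Ω' → τ}
  {a k L β : ℕ} {h e : ℝ} {σ : Fin (J + 1) → ℤ} {i0 j0 : Fin m}

theorem EE_ne (S : Sg c o π σ a k β e i0 j0) (ω : Ω') : EE o π σ ω i0 j0 ≠ 0 := by
  intro h0
  have := S.Elo ω
  rw [h0, abs_zero] at this
  have h1 : (0 : ℝ) < (2 : ℝ) ^ (-(β : ℝ) - e) := by positivity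
  linarith

theorem vv_le (S : Sg c o π σ a k β e i0 j0) (ω : Ω') (i : Fin m) :
    |vv o π σ i0 j0 ω i| ≤ 1 := by
  unfold vv
  split_ifs with hi
  · simp
  · have h1 := S.Emax ω i hi j0 S.hj0
    have h2 : 0 < |EE o π σ ω i0 j0| := abs_pos.2 (EE_ne S ω)
    rw [abs_div, div_le_one h2]
    exact h1

theorem vv_i0 (S : Sg c o π σ a k β e i0 j0) (ω : Ω') : vv o π σ i0 j0 ω i0 = 1 := by
  unfold vv
  rw [if_neg S.hi0]
  exact div_self (EE_ne S ω)

theorem vv_J (ω : Ω') {j : Fin m} (hj : j ∈ o.J) : vv o π σ i0 j0 ω j = 0 := by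
  unfold vv
  rw [if_pos hj]

theorem F_mem (ω : Ω) {i : Fin m} (hi : i ∈ o.J) : o.F c ω i = 0 := by
  unfold Ob.F Ob.app
  rw [if_pos hi]

theorem ph_mem {α : Type} (Js : Finset (Fin m)) (n s : ℕ) (v : Fin (J + 1))
    (B : Bd τ α m J) (q : (Fin m → ℤ) × (Fin m → ℤ)) {i : Fin m} (hi : i ∈ Js) :
    ph Js n s v B q i = 0 := by
  unfold ph
  rw [dF_mem hi, mul_zero, round_zero]

/-- the displacement is straight up to known terms -/
theorem det2 (H : Fa Q c o π T a k L h e) (S : Sg c o π σ a k β e i0 j0) {n s : ℕ}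
    (hs : (s : ℝ) + e ≤ ((k + 1) * a : ℕ)) (hβ : s ≤ β + n) {ω ω1 ω2 : Ω'}
    (h1 : bd c o π T n ω1 = bd c o π T n ω) (h2 : bd c o π T n ω2 = bd c o π T n ω)
    (i : Fin m) :
    |((fl s (o.F c (π 0 ω)) i + ∑ v, σ v * (ph o.J n s v (bd c o π T n ω) (c.q n (π 0 ω2)) i -
        ph o.J n s v (bd c o π T n ω) (c.q n (π 0 ω1)) i) : ℤ) : ℝ) -
      (2 ^ s * (o.F c (π 0 ω) i + ww o π σ n j0 ω (fun j => zt c π n ω2 j - zt c π n ω1 j) i) +
        MM o π σ n s i0 j0 ω (fun j => zt c π n ω2 j - zt c π n ω1 j) *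
          vv o π σ i0 j0 ω i)| ≤ J + 4 * κ + 4 := by
  by_cases hi : i ∈ o.J
  · have e1 : fl s (o.F c (π 0 ω)) i = 0 := by
      show ⌊(2 : ℝ) ^ s * o.F c (π 0 ω) i⌋ = 0
      rw [F_mem _ hi, mul_zero, Int.floor_zero]
    have e2 : ww o π σ n j0 ω (fun j => zt c π n ω2 j - zt c π n ω1 j) i = 0 := by
      unfold ww
      rw [if_pos hi]
    rw [e1, F_mem _ hi, e2, vv_J _ hi]
    have e3 : ∑ v, σ v * (ph o.J n s v (bd c o π T n ω) (c.q n (π 0 ω2)) i -
        ph o.J n s v (bd c o π T n ω) (c.q n (π 0 ω1)) i) = 0 := by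
      refine Finset.sum_eq_zero fun v _ => ?_
      rw [ph_mem _ _ _ _ _ _ hi, ph_mem _ _ _ _ _ _ hi]
      ring
    rw [e3]
    simp only [add_zero, mul_zero, Int.cast_zero, sub_zero, abs_zero]
    positivity
  · set z : Fin m → ℤ := fun j => zt c π n ω2 j - zt c π n ω1 j with hz
    have d1 := det1 H S hs hβ h1 h2 hi
    have d2 := kl_fl' s (o.F c (π 0 ω)) i
    have d3 := abs_sub_round (-((2 : ℝ) ^ s / 2 ^ n * EE o π σ ω i0 j0 * (z j0 : ℝ)))
    have d4 := vv_le S ω i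
    have hE := EE_ne S ω
    have e1 : (2 : ℝ) ^ s / 2 ^ n * ∑ j ∈ o.J, EE o π σ ω i j *
        ((zt c π n ω2 j : ℝ) - zt c π n ω1 j) =
        2 ^ s * (∑ j ∈ o.J.erase j0, EE o π σ ω i j * (z j : ℝ) / 2 ^ n) +
          (2 : ℝ) ^ s / 2 ^ n * EE o π σ ω i j0 * (z j0 : ℝ) := by
      rw [← Finset.sum_erase_add _ _ S.hj0, mul_add, Finset.mul_sum, Finset.mul_sum]
      congr 1
      · refine Finset.sum_congr rfl fun j _ => ?_
        rw [hz]
        push_cast
        ring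
      · rw [hz]
        push_cast
        ring
    have e2 : ww o π σ n j0 ω z i = -(∑ j ∈ o.J.erase j0, EE o π σ ω i j * (z j : ℝ) / 2 ^ n) := by
      unfold ww
      rw [if_neg hi]
    have e3 : (2 : ℝ) ^ s / 2 ^ n * EE o π σ ω i j0 * (z j0 : ℝ) =
        (2 : ℝ) ^ s / 2 ^ n * EE o π σ ω i0 j0 * (z j0 : ℝ) * vv o π σ i0 j0 ω i := by
      unfold vv
      rw [if_neg hi]
      field_simp
    rw [e1, e3] at d1
    rw [e2]
    set R : ℝ := (2 : ℝ) ^ s / 2 ^ n * EE o π σ ω i0 j0 * (z j0 : ℝ) with hR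
    have e4 : (MM o π σ n s i0 j0 ω z : ℝ) = ((round (-R) : ℤ) : ℝ) := rfl
    rw [e4]
    have e5 : |(-R - (round (-R) : ℝ)) * vv o π σ i0 j0 ω i| ≤ 1 / 2 := by
      rw [abs_mul]
      have := mul_le_mul d3 d4 (abs_nonneg _) (by norm_num : (0 : ℝ) ≤ 1 / 2)
      linarith
    push_cast at d1 ⊢
    rw [abs_le] at d1 e5 ⊢
    constructor
    · nlinarith [d1.1, d1.2, e5.1, e5.2, d2.1, d2.2]
    · nlinarith [d1.1, d1.2, e5.1, e5.2, d2.1, d2.2]

/-- the size of the displacement -/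
theorem det3 (H : Fa Q c o π T a k L h e) (S : Sg c o π σ a k β e i0 j0) {n s : ℕ}
    (hs : (s : ℝ) + e ≤ ((k + 1) * a : ℕ)) (hβ : s ≤ β + n) (hβs : β ≤ s) {ω ω1 ω2 : Ω'}
    (h1 : bd c o π T n ω1 = bd c o π T n ω) (h2 : bd c o π T n ω2 = bd c o π T n ω)
    (i : Fin m) :
    |((fl s (o.F c (π 0 ω)) i + ∑ v, σ v * (ph o.J n s v (bd c o π T n ω) (c.q n (π 0 ω2)) i -
        ph o.J n s v (bd c o π T n ω) (c.q n (π 0 ω1)) i) : ℤ) : ℝ) -
      2 ^ s * (o.F c (π 0 ω) i + 0)| ≤ (J + 6 * κ + 7) * 2 ^ (s - β) := by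
  have d := det2 H S hs hβ h1 h2 i
  set z : Fin m → ℤ := fun j => zt c π n ω2 j - zt c π n ω1 j with hz
  have hp : (1 : ℝ) ≤ 2 ^ (s - β) := one_le_pow₀ (by norm_num)
  have hpn : (0 : ℝ) < 2 ^ n := by positivity
  have hps : (0 : ℝ) < 2 ^ s := by positivity
  have hz2 : ∀ j, |(z j : ℝ)| ≤ 2 * 2 ^ n := by
    intro j
    have b1 := zt_mem H n ω1 j
    have b2 := zt_mem H n ω2 j
    have b3 : ((zt c π n ω1 j : ℤ) : ℝ) < 2 ^ (n + 1) := by exact_mod_cast b1.2
    have b4 : ((zt c π n ω2 j : ℤ) : ℝ) < 2 ^ (n + 1) := by exact_mod_cast b2.2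
    have b5 : (0 : ℝ) ≤ ((zt c π n ω1 j : ℤ) : ℝ) := by exact_mod_cast b1.1
    have b6 : (0 : ℝ) ≤ ((zt c π n ω2 j : ℤ) : ℝ) := by exact_mod_cast b2.1
    have b7 : (z j : ℝ) = (zt c π n ω2 j : ℝ) - zt c π n ω1 j := by rw [hz]; push_cast; ring
    rw [b7, abs_le]
    rw [pow_succ] at b3 b4
    constructor <;> linarith
  have hE : ∀ i ∉ o.J, ∀ j ∈ o.J, 2 ^ s * |EE o π σ ω i j| ≤ 2 ^ (s - β) := by
    intro i hi j hj
    have g4 : |EE o π σ ω i j| ≤ (2 : ℝ) ^ (-(β : ℝ)) := (S.Emax ω i hi j hj).trans (S.Ehi ω)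
    have g5 : (2 : ℝ) ^ s * (2 : ℝ) ^ (-(β : ℝ)) = 2 ^ (s - β) := by
      rw [← Real.rpow_natCast 2 s, ← Real.rpow_natCast 2 (s - β), ← Real.rpow_add (by norm_num),
        Nat.cast_sub hβs]
      congr 1
    rw [← g5]
    exact mul_le_mul_of_nonneg_left g4 hps.le
  have hw : |2 ^ s * ww o π σ n j0 ω z i| ≤ 2 * κ * 2 ^ (s - β) := by
    unfold ww
    split_ifs with hi
    · rw [mul_zero, abs_zero]
      positivity
    · rw [mul_neg, abs_neg, Finset.mul_sum]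
      refine (Finset.abs_sum_le_sum_abs _ _).trans ?_
      have : ∀ j ∈ o.J.erase j0, |2 ^ s * (EE o π σ ω i j * (z j : ℝ) / 2 ^ n)| ≤
          2 * 2 ^ (s - β) := by
        intro j hj
        have b1 := hE i hi j (Finset.mem_of_mem_erase hj)
        have b2 := hz2 j
        have b3 : |2 ^ s * (EE o π σ ω i j * (z j : ℝ) / 2 ^ n)| =
            (2 ^ s * |EE o π σ ω i j|) * (|(z j : ℝ)| / 2 ^ n) := by
          rw [abs_mul, abs_div, abs_mul, abs_of_pos hps, abs_of_pos hpn]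
          ring
        rw [b3]
        have b4 : |(z j : ℝ)| / 2 ^ n ≤ 2 := by
          rw [div_le_iff₀ hpn]
          exact b2
        have := mul_le_mul b1 b4 (by positivity) (by positivity)
        linarith
      refine (Finset.sum_le_sum this).trans ?_
      rw [Finset.sum_const, nsmul_eq_mul]
      have b5 : ((o.J.erase j0).card : ℝ) ≤ κ := by
        have := Finset.card_le_card (Finset.erase_subset j0 o.J)
        rw [o.card] at this
        exact_mod_cast this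
      have b6 : (0 : ℝ) ≤ 2 * 2 ^ (s - β) := by positivity
      have := mul_le_mul_of_nonneg_right b5 b6
      linarith
  have hM : |(MM o π σ n s i0 j0 ω z : ℝ) * vv o π σ i0 j0 ω i| ≤ 2 * 2 ^ (s - β) + 1 / 2 := by
    have d3 := abs_sub_round (-((2 : ℝ) ^ s / 2 ^ n * EE o π σ ω i0 j0 * (z j0 : ℝ)))
    have d4 := vv_le S ω i
    have b1 := hE i0 S.hi0 j0 S.hj0
    have b2 := hz2 j0
    have b3 : |-((2 : ℝ) ^ s / 2 ^ n * EE o π σ ω i0 j0 * (z j0 : ℝ))| ≤ 2 * 2 ^ (s - β) := by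
      rw [abs_neg, abs_mul, abs_mul, abs_of_pos (div_pos hps hpn)]
      have b4 : |(z j0 : ℝ)| / 2 ^ n ≤ 2 := by
        rw [div_le_iff₀ hpn]
        exact b2
      have b5 : (2 : ℝ) ^ s / 2 ^ n * |EE o π σ ω i0 j0| * |(z j0 : ℝ)| =
          (2 ^ s * |EE o π σ ω i0 j0|) * (|(z j0 : ℝ)| / 2 ^ n) := by ring
      rw [b5]
      have := mul_le_mul b1 b4 (by positivity) (by positivity)
      linarith
    have b6 : |(MM o π σ n s i0 j0 ω z : ℝ)| ≤ 2 * 2 ^ (s - β) + 1 / 2 := by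
      unfold MM
      rw [abs_le] at b3 d3 ⊢
      constructor <;> linarith [b3.1, b3.2, d3.1, d3.2]
    rw [abs_mul]
    have := mul_le_mul b6 d4 (abs_nonneg _) (by positivity)
    linarith
  rw [abs_le] at d hw hM ⊢
  have h3 : (J + 4 * κ + 4 : ℝ) ≤ (J + 4 * κ + 4) * 2 ^ (s - β) :=
    le_mul_of_one_le_right (by positivity) hp
  have h4 : (1 : ℝ) / 2 ≤ 1 * 2 ^ (s - β) := by linarith
  constructor
  · nlinarith [d.1, d.2, hw.1, hw.2, hM.1, hM.2]
  · nlinarith [d.1, d.2, hw.1, hw.2, hM.1, hM.2]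

open Classical in
/-- the known coordinates of the second sample -/
noncomputable def zz (c : Cf Ω m) (o : Ob Ω m κ) (π : Fin (J + 1) → Ω' → Ω) (n : ℕ) (j0 : Fin m)
    (ω : Ω') : Fin m → ℤ := fun j => if j ∈ o.J.erase j0 then zt c π n ω j else 0

/-- the entropy of the multiplier -/
theorem hcM (H : Fa Q c o π T a k L h e) (S : Sg c o π σ a k β e i0 j0) {n s : ℕ} (hns : n ≤ s)
    (hsL : s ≤ L) (hβ : s ≤ β + n) (hn : (n : ℝ) + e ≤ k * a)
    {Ω₁ : Type} [Fintype Ω₁] {P₁ : Law Ω₁} {ζ : Type} {Z : Ω₁ → ζ} {p p1 p2 : Ω₁ → Ω'} {ρ e' : ℝ}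
    (hA : AbsCon ρ e' Q (bd c o π T n) (fun ω => c.q n (π 0 ω))
      (fun v ω => fl s (o.F c (π v ω))) (ph o.J n s) σ P₁ Z p p1 p2) :
    ((s : ℝ) - β) * Real.log 2 - (κ * Real.log 2 + Real.log 3 + (J + 3) * e + e') ≤
      hc P₁ (fun w => MM o π σ n s i0 j0 (p w)
          (fun j => zt c π n (p2 w) j - zt c π n (p1 w) j))
        (fun w => ((p1 w, zz c o π n j0 (p2 w)), bd c o π T n (p w), Z w)) := by
  classical
  have he : 0 ≤ e := (H.rate 0).nn
  have hl0 : 0 < Real.log 2 := Real.log_pos (by norm_num)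
  have hl1 : Real.log 2 ≤ 1 := by
    have := Real.log_two_lt_d9
    linarith
  set f : Ω' → {j // j ∈ o.J} → ℤ := fun ω j => zt c π n ω j with hf
  -- (a)
  have h1 : (κ : ℝ) * n * Real.log 2 - (J + 2) * e ≤
      hc Q f (fun ω => (fl s (o.F c (π 0 ω)), bd c o π T n ω)) := by
    have a1 : (κ : ℝ) * n * Real.log 2 - e ≤
        hc Q f (fun ω => (fl s (o.F c (π 0 ω)), c.t (π 0 ω), T ω, c.A (π 0 ω))) :=
      (H.rate 0).cJ n s hns hsL
    have a2 : hc Q (fun ω (i : Fin (J + 1)) => fl n (o.F c (π i ω)))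
        (fun ω => (fl s (o.F c (π 0 ω)), c.t (π 0 ω), T ω, c.A (π 0 ω))) ≤ (J + 1) * e := by
      refine (hc_tup Q _ (J + 1) (fun i ω => fl n (o.F c (π i ω)))).trans ?_
      have : ∀ i ∈ (Finset.univ : Finset (Fin (J + 1))), hc Q (fun ω => fl n (o.F c (π i ω)))
          (fun ω => (fl s (o.F c (π 0 ω)), c.t (π 0 ω), T ω, c.A (π 0 ω))) ≤ e := by
        intro i _
        refine le_trans ?_ (H.rk i n hn)
        refine hc_mono_right Q _ fun ω ω' _ _ he => ?_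
        simp only [Prod.mk.injEq] at he ⊢
        exact ⟨fl_of_fl hns _ _ he.1, he.2.2.1, he.2.2.2⟩
      refine (Finset.sum_le_sum this).trans ?_
      rw [Finset.sum_const, Finset.card_univ, Fintype.card_fin, nsmul_eq_mul]
      push_cast
      exact le_rfl
    have a3 := Fam.add_V Q (X := f)
      (Y := fun ω => (fl s (o.F c (π 0 ω)), c.t (π 0 ω), T ω, c.A (π 0 ω)))
      (fun ω (i : Fin (J + 1)) => fl n (o.F c (π i ω)))
      (Z := fun ω => (fl s (o.F c (π 0 ω)), bd c o π T n ω)) (v := (J + 1) * e) ?_ a2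
    · linarith
    · intro ω ω' _ _ he
      simp only [Prod.mk.injEq] at he ⊢
      refine ⟨he.2.1, ?_⟩
      unfold bd
      rw [Bd.mk.injEq]
      refine ⟨he.2.2.2.1, he.2.2.2.2, ?_, ?_, he.1⟩
      · funext i
        exact H.dt i ω ω' he.2.2.2.1
      · funext i
        exact H.dG i ω ω' he.2.2.2.1
  -- (b)
  have h2 := con_two hA f
  -- (c)
  set Y : Ω₁ → Ω' × Bd τ c.α m J × ζ := fun w => (p1 w, bd c o π T n (p w), Z w) with hY
  set z' : Ω₁ → Fin m → ℤ := fun w => zz c o π n j0 (p2 w) with hz'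
  set x0 : Ω₁ → ℤ := fun w => zt c π n (p2 w) j0 with hx0
  set M : Ω₁ → ℤ := fun w => MM o π σ n s i0 j0 (p w)
          (fun j => zt c π n (p2 w) j - zt c π n (p1 w) j) with hM
  have h3 : hc P₁ (fun w => f (p2 w)) Y ≤ hc P₁ z' Y + hc P₁ x0 (fun w => (z' w, Y w)) := by
    rw [← hc_pair]
    refine hc_mono_left P₁ fun ω ω' _ _ he => ?_
    simp only [Prod.mk.injEq] at he
    funext j
    by_cases hj : (j : Fin m) = j0
    · show zt c π n (p2 ω) j = zt c π n (p2 ω') j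
      rw [hj]
      exact he.1.2
    · have e1 := congrFun he.1.1 (j : Fin m)
      have e2 : (j : Fin m) ∈ o.J.erase j0 := Finset.mem_erase.2 ⟨hj, j.2⟩
      have e3 : ∀ w, z' w (j : Fin m) = zt c π n (p2 w) j := by
        intro w
        show (if (j : Fin m) ∈ o.J.erase j0 then zt c π n (p2 w) j else 0) = _
        rw [if_pos e2]
      rw [e3, e3] at e1
      exact e1
  -- (d)
  have h4 : hc P₁ z' Y ≤ ((κ : ℝ) - 1) * (n + 1) * Real.log 2 := by
    have b1 := hc_le_log P₁ z' Y ((2 ^ (n + 1)) ^ (o.J.erase j0).card) (fun ω _ => by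
      refine ⟨Fintype.piFinset fun j : Fin m => if j ∈ o.J.erase j0 then
        Finset.Ico (0 : ℤ) (2 ^ (n + 1)) else {0}, ?_, ?_⟩
      · rw [Fintype.card_piFinset]
        have : ∀ j : Fin m, (if j ∈ o.J.erase j0 then
            Finset.Ico (0 : ℤ) (2 ^ (n + 1)) else {0}).card =
            if j ∈ o.J.erase j0 then 2 ^ (n + 1) else 1 := by
          intro j
          split_ifs
          · rw [Int.card_Ico, sub_zero, toNat_pow_aux]
          · exact Finset.card_singleton _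
        rw [Finset.prod_congr rfl fun j _ => this j, Finset.prod_ite, Finset.prod_const,
          Finset.prod_const_one, mul_one]
        refine le_of_eq ?_
        congr 2
        ext j
        simp
      · intro ω' _ _
        rw [Fintype.mem_piFinset]
        intro j
        show zz c o π n j0 (p2 ω') j ∈ _
        unfold zz
        by_cases hj : j ∈ o.J.erase j0
        · rw [if_pos hj, if_pos hj, Finset.mem_Ico]
          exact zt_mem H n (p2 ω') j
        · rw [if_neg hj, if_neg hj, Finset.mem_singleton])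
    refine b1.trans (le_of_eq ?_)
    have b2 : ((o.J.erase j0).card : ℝ) = (κ : ℝ) - 1 := by
      have := Finset.card_erase_add_one S.hj0
      rw [o.card] at this
      have h' : (((o.J.erase j0).card : ℝ)) + 1 = κ := by exact_mod_cast this
      linarith
    push_cast
    rw [Real.log_pow, Real.log_pow, b2]
    push_cast
    ring
  -- (e)
  have h5 := hc_le_add P₁ x0 M (fun w => (z' w, Y w))
  -- (f)
  set θ' : ℝ := (β : ℝ) + e - ((s : ℝ) - n) with hθ'
  have hθ0 : 0 ≤ θ' := by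
    have : (s : ℝ) ≤ β + n := by exact_mod_cast hβ
    rw [hθ']
    linarith
  have hP : (1 : ℝ) ≤ (2 : ℝ) ^ θ' := Real.one_le_rpow (by norm_num) hθ0
  have h6 : hc P₁ x0 (fun w => (M w, z' w, Y w)) ≤ Real.log 3 + θ' * Real.log 2 := by
    set K0 : ℕ := ⌊(2 : ℝ) ^ θ'⌋₊ with hK0
    have hK1 : (K0 : ℝ) ≤ (2 : ℝ) ^ θ' := Nat.floor_le (by positivity)
    have b1 := hc_le_log P₁ x0 (fun w => (M w, z' w, Y w)) (2 * K0 + 1) (fun ω _ => by
      refine ⟨Finset.Icc (x0 ω - K0) (x0 ω + K0), ?_, ?_⟩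
      · rw [Int.card_Icc]
        omega
      · intro ω' _ he
        simp only [hY, Prod.mk.injEq] at he
        obtain ⟨hM', -, hp1, hB, -⟩ := he
        have hEE : EE o π σ (p ω') i0 j0 = EE o π σ (p ω) i0 j0 := by
          unfold EE
          refine Finset.sum_congr rfl fun v _ => ?_
          have : o.Γ (π v (p ω')) = o.Γ (π v (p ω)) := congrFun (congrArg Bd.Γ hB) v
          rw [this]
        set E0 := EE o π σ (p ω) i0 j0 with hE0
        have g1 := abs_sub_round (-((2 : ℝ) ^ s / 2 ^ n * E0 *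
          ((zt c π n (p2 ω) j0 - zt c π n (p1 ω) j0 : ℤ) : ℝ)))
        have g2 := abs_sub_round (-((2 : ℝ) ^ s / 2 ^ n * E0 *
          ((zt c π n (p2 ω') j0 - zt c π n (p1 ω) j0 : ℤ) : ℝ)))
        have g3 : round (-((2 : ℝ) ^ s / 2 ^ n * E0 *
          ((zt c π n (p2 ω') j0 - zt c π n (p1 ω) j0 : ℤ) : ℝ))) =
          round (-((2 : ℝ) ^ s / 2 ^ n * E0 *
          ((zt c π n (p2 ω) j0 - zt c π n (p1 ω) j0 : ℤ) : ℝ))) := by
          have g4 : M ω' = round (-((2 : ℝ) ^ s / 2 ^ n * EE o π σ (p ω') i0 j0 *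
            ((zt c π n (p2 ω') j0 - zt c π n (p1 ω') j0 : ℤ) : ℝ))) := rfl
          have g5 : M ω = round (-((2 : ℝ) ^ s / 2 ^ n * E0 *
            ((zt c π n (p2 ω) j0 - zt c π n (p1 ω) j0 : ℤ) : ℝ))) := rfl
          rw [hEE, hp1] at g4
          rw [← g4, ← g5]
          exact hM'
        rw [g3] at g2
        have hE1 : (2 : ℝ) ^ (-(β : ℝ) - e) ≤ |E0| := S.Elo (p ω)
        have g6 : (2 : ℝ) ^ s / 2 ^ n * |E0| *
            |((zt c π n (p2 ω') j0 - zt c π n (p2 ω) j0 : ℤ) : ℝ)| ≤ 1 := by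
          have hpos : (0 : ℝ) < (2 : ℝ) ^ s / 2 ^ n := by positivity
          have : (2 : ℝ) ^ s / 2 ^ n * |E0| *
            |((zt c π n (p2 ω') j0 - zt c π n (p2 ω) j0 : ℤ) : ℝ)| =
            |(2 : ℝ) ^ s / 2 ^ n * E0 * ((zt c π n (p2 ω') j0 - zt c π n (p2 ω) j0 : ℤ) : ℝ)| := by
            rw [abs_mul, abs_mul, abs_of_pos hpos]
          rw [this]
          push_cast at g1 g2 ⊢
          rw [abs_le] at g1 g2 ⊢
          constructor
          · nlinarith [g1.1, g1.2, g2.1, g2.2]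
          · nlinarith [g1.1, g1.2, g2.1, g2.2]
        have g7 : |((zt c π n (p2 ω') j0 - zt c π n (p2 ω) j0 : ℤ) : ℝ)| ≤ (2 : ℝ) ^ θ' := by
          have g8 : (2 : ℝ) ^ s / 2 ^ n * (2 : ℝ) ^ (-(β : ℝ) - e) * (2 : ℝ) ^ θ' = 1 := by
            rw [← Real.rpow_natCast 2 s, ← Real.rpow_natCast 2 n, ← Real.rpow_sub (by norm_num),
              ← Real.rpow_add (by norm_num), ← Real.rpow_add (by norm_num), hθ']
            have : (s : ℝ) - n + (-(β : ℝ) - e) + ((β : ℝ) + e - ((s : ℝ) - n)) = 0 := by ring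
            rw [this, Real.rpow_zero]
          have g9 : (0 : ℝ) < (2 : ℝ) ^ s / 2 ^ n * (2 : ℝ) ^ (-(β : ℝ) - e) := by positivity
          have g10 : (2 : ℝ) ^ s / 2 ^ n * (2 : ℝ) ^ (-(β : ℝ) - e) *
              |((zt c π n (p2 ω') j0 - zt c π n (p2 ω) j0 : ℤ) : ℝ)| ≤ 1 := by
            refine le_trans ?_ g6
            gcongr
          rw [← g8] at g10
          exact le_of_mul_le_mul_left g10 g9
        have g11 : |zt c π n (p2 ω') j0 - zt c π n (p2 ω) j0| ≤ (K0 : ℤ) := by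
          have : |zt c π n (p2 ω') j0 - zt c π n (p2 ω) j0| ≤ ⌊(2 : ℝ) ^ θ'⌋ := by
            rw [Int.le_floor]
            push_cast
            push_cast at g7
            exact g7
          refine this.trans (le_of_eq ?_)
          rw [hK0, Int.natCast_floor_eq_floor (by positivity)]
        rw [Finset.mem_Icc]
        have g12 := abs_le.1 g11
        show zt c π n (p2 ω) j0 - K0 ≤ zt c π n (p2 ω') j0 ∧
          zt c π n (p2 ω') j0 ≤ zt c π n (p2 ω) j0 + K0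
        constructor <;> linarith [g12.1, g12.2])
    refine b1.trans ?_
    have b2 : (((2 * K0 + 1 : ℕ) : ℝ)) ≤ 3 * (2 : ℝ) ^ θ' := by
      push_cast
      linarith
    have b3 : Real.log ((2 * K0 + 1 : ℕ) : ℝ) ≤ Real.log (3 * (2 : ℝ) ^ θ') :=
      Real.log_le_log (by positivity) b2
    rw [Real.log_mul (by norm_num) (by positivity), Real.log_rpow (by norm_num)] at b3
    exact b3
  -- conclusion
  have h7 : hc P₁ M (fun w => (z' w, Y w)) =
      hc P₁ M (fun w => ((p1 w, z' w), bd c o π T n (p w), Z w)) := by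
    refine hc_congr P₁ (fun ω ω' _ _ e => congrArg Prod.fst e)
      (fun ω ω' _ _ e => congrArg Prod.fst e) (fun ω ω' _ _ he => ?_) (fun ω ω' _ _ he => ?_)
    · simp only [hY, Prod.mk.injEq] at he ⊢
      exact ⟨he.1.2, he.1.1, he.2.1, he.2.2⟩
    · simp only [hY, Prod.mk.injEq] at he ⊢
      exact ⟨⟨he.2.1, he.1⟩, he.2.2.1, he.2.2.2⟩
  rw [← h7]
  have h8 : hc Q f (fun ω => (fl s (o.F c (π 0 ω)), bd c o π T n ω)) - e' ≤
      hc P₁ (fun w => f (p2 w)) Y := h2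
  have h9 : θ' * Real.log 2 ≤ ((β : ℝ) - ((s : ℝ) - n)) * Real.log 2 + e := by
    rw [hθ']
    nlinarith
  have h10 : (κ : ℝ) * n * Real.log 2 - ((κ : ℝ) - 1) * (n + 1) * Real.log 2 =
      n * Real.log 2 - κ * Real.log 2 + Real.log 2 := by ring
  nlinarith

end sg

end Vale.Agent.P127.Stk.CC
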