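import Vale.Agent.P127.Stk.CLaw

/-!
# P127 / Stk / CCost : the cost of the law of progressions (helper662)
-/

namespace Vale.Agent.P127.Stk

open Finset Vale.Agent.P127

section cost

variable {Ω : Type} [Fintype Ω] {S S' T T' U' V : Type*}

/-- the positional kernel sums to at most one -/
theorem ccost_sum_le (P : Law Ω) (W' : Ω → T') (U : Ω → ℤ) (s : T') (u : ℤ) :
    open Classical in
    ∑ ω with U ω = u, (if W' ω = s then P.w ω / P.pr (fun ω => (U ω, W' ω)) (U ω, s) else 0) ≤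
      1 := by
  classical
  rw [← Finset.sum_filter, Finset.filter_filter]
  have h1 : ∑ ω with U ω = u ∧ W' ω = s, P.w ω / P.pr (fun ω => (U ω, W' ω)) (U ω, s) =
      ∑ ω with U ω = u ∧ W' ω = s, P.w ω / P.pr (fun ω => (U ω, W' ω)) (u, s) := by
    refine Finset.sum_congr rfl fun ω hω => ?_
    have h2 : U ω = u ∧ W' ω = s := by simpa using hω
    rw [h2.1]
  rw [h1, ← Finset.sum_div]
  have h3 : ∑ ω with U ω = u ∧ W' ω = s, P.w ω = P.pr (fun ω => (U ω, W' ω)) (u, s) := by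
    unfold Law.pr
    refine Finset.sum_congr ?_ fun _ _ => rfl
    ext ω
    simp
  rw [h3]
  exact div_self_le_one _

open Classical in
/-- reference kernel for the samples along a progression -/
noncomputable def apNu (P : Law Ω) (W' : Ω → T') (U : Ω → ℤ) (B : Ω → V) (M p : ℕ)
    (τ : Fin (p + 1) → V) (s : T') : ℝ :=
  1 / (M : ℝ) ^ 2 * ∑ w : Fin (p + 1) → Ω,
    (if (fun j => U (w j)) ∈ apC M p ∧ (∀ j, W' (w j) = s) ∧ ∀ j, B (w j) = τ j then
      ∏ j, P.w (w j) / P.pr (fun ω => (U ω, W' ω)) (U (w j), s) else 0)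

theorem apNu_nonneg (P : Law Ω) (W' : Ω → T') (U : Ω → ℤ) (B : Ω → V) (M p : ℕ)
    (τ : Fin (p + 1) → V) (s : T') : 0 ≤ apNu P W' U B M p τ s := by
  classical
  unfold apNu
  refine mul_nonneg (by positivity) (Finset.sum_nonneg fun w _ => ?_)
  split_ifs
  · exact Finset.prod_nonneg fun j _ => div_nonneg (P.nn _) (P.pr_nonneg _ _)
  · exact le_rfl

theorem apNu_sum (P : Law Ω) (W' : Ω → T') (U : Ω → ℤ) (B : Ω → V) {M p : ℕ} (hM : 1 ≤ M)
    (hp : 1 ≤ p) (s : T') (F : Finset (Fin (p + 1) → V)) :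
    ∑ τ ∈ F, apNu P W' U B M p τ s ≤ 1 := by
  classical
  have hM0 : (0 : ℝ) < M := by exact_mod_cast hM
  unfold apNu
  rw [← Finset.mul_sum, Finset.sum_comm]
  set f : Ω → ℝ := fun ω =>
    if W' ω = s then P.w ω / P.pr (fun ω => (U ω, W' ω)) (U ω, s) else 0 with hf
  have hf0 : ∀ ω, 0 ≤ f ω := by
    intro ω
    simp only [hf]
    split_ifs
    · exact div_nonneg (P.nn _) (P.pr_nonneg _ _)
    · exact le_rfl
  have h1 : ∀ w : Fin (p + 1) → Ω, ∑ τ ∈ F,
      (if (fun j => U (w j)) ∈ apC M p ∧ (∀ j, W' (w j) = s) ∧ ∀ j, B (w j) = τ j then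
      ∏ j, P.w (w j) / P.pr (fun ω => (U ω, W' ω)) (U (w j), s) else 0) ≤
      if (fun j => U (w j)) ∈ apC M p then ∏ j, f (w j) else 0 := by
    intro w
    by_cases h2 : (fun j => U (w j)) ∈ apC M p ∧ (∀ j, W' (w j) = s)
    · rw [if_pos h2.1]
      have h3 : ∏ j, P.w (w j) / P.pr (fun ω => (U ω, W' ω)) (U (w j), s) = ∏ j, f (w j) :=
        Finset.prod_congr rfl fun j _ => by simp only [hf]; rw [if_pos (h2.2 j)]
      have h4 : ∀ τ : Fin (p + 1) → V,
          (if (fun j => U (w j)) ∈ apC M p ∧ (∀ j, W' (w j) = s) ∧ ∀ j, B (w j) = τ j then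
          ∏ j, P.w (w j) / P.pr (fun ω => (U ω, W' ω)) (U (w j), s) else 0) =
          if (fun j => B (w j)) = τ then ∏ j, f (w j) else 0 := by
        intro τ
        by_cases h5 : (fun j => B (w j)) = τ
        · rw [if_pos h5, if_pos ⟨h2.1, h2.2, fun j => congrFun h5 j⟩, h3]
        · rw [if_neg h5, if_neg fun h => h5 (funext h.2.2)]
      rw [Finset.sum_congr rfl fun τ _ => h4 τ, Finset.sum_ite_eq]
      have h6 : 0 ≤ ∏ j, f (w j) := Finset.prod_nonneg fun j _ => hf0 _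
      split_ifs
      · exact le_rfl
      · exact h6
    · have h3 : ∑ τ ∈ F,
          (if (fun j => U (w j)) ∈ apC M p ∧ (∀ j, W' (w j) = s) ∧ ∀ j, B (w j) = τ j then
          ∏ j, P.w (w j) / P.pr (fun ω => (U ω, W' ω)) (U (w j), s) else 0) = 0 :=
        Finset.sum_eq_zero fun τ _ => if_neg fun h => h2 ⟨h.1, h.2.1⟩
      rw [h3]
      split_ifs
      · exact Finset.prod_nonneg fun j _ => hf0 _
      · exact le_rfl
  have h2 : ∑ w : Fin (p + 1) → Ω, (if (fun j => U (w j)) ∈ apC M p then ∏ j, f (w j) else 0) ≤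
      (M : ℝ) ^ 2 := by
    have hconf : ∑ w : Fin (p + 1) → Ω,
        (if (fun j => U (w j)) ∈ apC M p then ∏ j, f (w j) else 0) =
        ∑ c ∈ apC M p, ∏ j, ∑ ω with U ω = c j, f ω := by
      refine Eq.trans ?_ ((sum_conf U (fun _ => f) (apC M p)).trans ?_)
      · refine Finset.sum_congr rfl fun w _ => ?_
        by_cases hw : (fun j => U (w j)) ∈ apC M p
        · simp only [if_pos hw]
        · simp only [if_neg hw]
      · refine Finset.sum_congr rfl fun c _ => Finset.prod_congr rfl fun j _ =>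
          Finset.sum_congr ?_ fun _ _ => rfl
        ext ω
        simp only [mem_filter]
    rw [hconf]
    have h3 : ∀ c ∈ apC M p, ∏ j, ∑ ω with U ω = c j, f ω ≤ 1 := by
      intro c _
      refine Finset.prod_le_one (fun j _ => Finset.sum_nonneg fun ω _ => hf0 _) fun j _ => ?_
      exact ccost_sum_le P W' U s (c j)
    refine (Finset.sum_le_sum h3).trans ?_
    rw [Finset.sum_const, nsmul_eq_mul, mul_one]
    exact_mod_cast apC_card hp
  calc 1 / (M : ℝ) ^ 2 * _ ≤ 1 / (M : ℝ) ^ 2 * (M : ℝ) ^ 2 :=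
        mul_le_mul_of_nonneg_left ((Finset.sum_le_sum fun w _ => h1 w).trans h2) (by positivity)
    _ = 1 := by
        field_simp

/-- lower bound for the reference kernel -/
theorem apNu_ge (P : Law Ω) (W' : Ω → T') (U : Ω → ℤ) (B : Ω → V) {M p : ℕ}
    (w0 : Fin (p + 1) → Ω) (hC : (fun j => U (w0 j)) ∈ apC M p)
    (hW : ∀ j, W' (w0 j) = W' (w0 0)) :
    1 / (M : ℝ) ^ 2 * ∏ j, (P.pr (fun ω => (B ω, U ω, W' ω)) (B (w0 j), U (w0 j), W' (w0 j)) /
      P.pr (fun ω => (U ω, W' ω)) (U (w0 j), W' (w0 j))) ≤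
      apNu P W' U B M p (fun j => B (w0 j)) (W' (w0 0)) := by
  classical
  unfold apNu
  refine mul_le_mul_of_nonneg_left ?_ (by positivity)
  set f : Fin (p + 1) → Ω → ℝ := fun j ω =>
    if B ω = B (w0 j) ∧ U ω = U (w0 j) ∧ W' ω = W' (w0 j) then
      P.w ω / P.pr (fun ω => (U ω, W' ω)) (U (w0 j), W' (w0 j)) else 0 with hf
  have h1 : ∀ j, ∑ ω, f j ω =
      P.pr (fun ω => (B ω, U ω, W' ω)) (B (w0 j), U (w0 j), W' (w0 j)) /
      P.pr (fun ω => (U ω, W' ω)) (U (w0 j), W' (w0 j)) := by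
    intro j
    simp only [hf]
    rw [← Finset.sum_filter, ← Finset.sum_div]
    congr 1
    unfold Law.pr
    refine Finset.sum_congr ?_ fun _ _ => rfl
    ext ω
    simp
  rw [← Finset.prod_congr rfl fun j _ => h1 j, ← sum_prod_tuple f]
  refine Finset.sum_le_sum fun w _ => ?_
  by_cases h2 : ∀ j, B (w j) = B (w0 j) ∧ U (w j) = U (w0 j) ∧ W' (w j) = W' (w0 j)
  · have h3 : (fun j => U (w j)) = fun j => U (w0 j) := funext fun j => (h2 j).2.1
    rw [if_pos ⟨by rw [h3]; exact hC, fun j => (h2 j).2.2.trans (hW j), fun j => (h2 j).1⟩]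
    refine le_of_eq (Finset.prod_congr rfl fun j _ => ?_)
    simp only [hf]
    rw [if_pos (h2 j), (h2 j).2.1, hW j]
  · push_neg at h2
    obtain ⟨j, hj⟩ := h2
    have h3 : f j (w j) = 0 := by
      simp only [hf]
      exact if_neg fun h => hj h.1 h.2.1 h.2.2
    rw [Finset.prod_eq_zero (mem_univ j) h3]
    split_ifs
    · exact Finset.prod_nonneg fun j _ => div_nonneg (P.nn _) (P.pr_nonneg _ _)
    · exact le_rfl

/-- upper bound for the probability of the data of a progression -/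
theorem ap_pr_le {P : Law Ω} {W : Ω → S} {U : Ω → ℤ} {M p : ℕ} (hM : 1 ≤ M)
    {Q : Law (Fin (p + 1) → Ω)} {Z : ℝ}
    (hQ : ∀ w, Q.w w = apw P W U M p w / Z) (hZ : 0 < Z)
    (l : Ω → T) (W' : Ω → T') (B : Ω → V) (hW : Fn P W (fun ω => (l ω, W' ω)))
    (hW' : Fn P (fun ω => (l ω, W' ω)) W) (hUB : Fn P U B)
    (w0 : Fin (p + 1) → Ω) (h0 : 0 < Q.w w0) :
    Q.pr (fun w => ((fun j => B (w j)), l (w 0), W' (w 0)))
        ((fun j => B (w0 j)), l (w0 0), W' (w0 0)) ≤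
      1 / (Z * (M : ℝ) ^ (p + 1)) * (P.pr (fun ω => (l ω, W' ω)) (l (w0 0), W' (w0 0)) *
        ∏ j, (P.pr (fun ω => (l ω, B ω, U ω, W' ω)) (l (w0 j), B (w0 j), U (w0 j), W' (w0 j)) /
          P.pr (fun ω => (l ω, U ω, W' ω)) (l (w0 j), U (w0 j), W' (w0 j)))) := by
  classical
  have hM0 : (0 : ℝ) < M := by exact_mod_cast hM
  have h0' : 0 < apw P W U M p w0 := by
    rw [hQ] at h0
    exact (div_pos_iff_of_pos_right hZ).1 h0
  obtain ⟨k1, _, k3⟩ := clw_pos hM h0'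
  have hlW : ∀ j, (l (w0 j), W' (w0 j)) = (l (w0 0), W' (w0 0)) := fun j =>
    hW' (w0 j) (w0 0) (k3 j) (k3 0) (k1 j)
  simp only [Prod.mk.injEq] at hlW
  set f : Fin (p + 1) → Ω → ℝ := fun j ω =>
    if l ω = l (w0 j) ∧ B ω = B (w0 j) ∧ U ω = U (w0 j) ∧ W' ω = W' (w0 j) then
      P.w ω / P.pr (fun ω => (l ω, U ω, W' ω)) (l (w0 j), U (w0 j), W' (w0 j)) else 0 with hf
  have hf0 : ∀ j ω, 0 ≤ f j ω := by
    intro j ω
    simp only [hf]
    split_ifs
    · exact div_nonneg (P.nn _) (P.pr_nonneg _ _)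
    · exact le_rfl
  have h1 : ∀ j, ∑ ω, f j ω =
      P.pr (fun ω => (l ω, B ω, U ω, W' ω)) (l (w0 j), B (w0 j), U (w0 j), W' (w0 j)) /
          P.pr (fun ω => (l ω, U ω, W' ω)) (l (w0 j), U (w0 j), W' (w0 j)) := by
    intro j
    simp only [hf]
    rw [← Finset.sum_filter, ← Finset.sum_div]
    congr 1
    unfold Law.pr
    refine Finset.sum_congr ?_ fun _ _ => rfl
    ext ω
    simp
  rw [← Finset.prod_congr rfl fun j _ => h1 j, ← sum_prod_tuple f]
  set pk := P.pr (fun ω => (l ω, W' ω)) (l (w0 0), W' (w0 0)) with hpk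
  have hpk0 : 0 ≤ pk := P.pr_nonneg _ _
  have hpr : Q.pr (fun w => ((fun j => B (w j)), l (w 0), W' (w 0)))
        ((fun j => B (w0 j)), l (w0 0), W' (w0 0)) = ∑ w : Fin (p + 1) → Ω,
      (if ((fun j => B (w j)), l (w 0), W' (w 0)) = ((fun j => B (w0 j)), l (w0 0), W' (w0 0))
        then Q.w w else 0) := by
    unfold Law.pr
    rw [Finset.sum_filter]
    refine Finset.sum_congr rfl fun w _ => ?_
    split_ifs <;> rfl
  rw [hpr]
  have h2 : ∀ w : Fin (p + 1) → Ω,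
      (if ((fun j => B (w j)), l (w 0), W' (w 0)) = ((fun j => B (w0 j)), l (w0 0), W' (w0 0))
        then Q.w w else 0) ≤ 1 / (Z * (M : ℝ) ^ (p + 1)) * (pk * ∏ j, f j (w j)) := by
    intro w
    have hr : 0 ≤ 1 / (Z * (M : ℝ) ^ (p + 1)) * (pk * ∏ j, f j (w j)) :=
      mul_nonneg (by positivity) (mul_nonneg hpk0 (Finset.prod_nonneg fun j _ => hf0 j _))
    split_ifs with h3
    · rw [hQ w]
      rcases (clw_nonneg P W U hM w).eq_or_lt with h4 | h4
      · rw [← h4, zero_div]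
        exact hr
      · obtain ⟨g1, g2, g3⟩ := clw_pos hM h4
        simp only [Prod.mk.injEq] at h3
        have e1 : ∀ j, B (w j) = B (w0 j) := fun j => congrFun h3.1 j
        have e2 : ∀ j, U (w j) = U (w0 j) := fun j => hUB _ _ (g3 j) (k3 j) (e1 j)
        have e3 : ∀ j, l (w j) = l (w0 j) ∧ W' (w j) = W' (w0 j) := by
          intro j
          have := hW' (w j) (w 0) (g3 j) (g3 0) (g1 j)
          simp only [Prod.mk.injEq] at this
          exact ⟨this.1.trans (h3.2.1.trans (hlW j).1.symm),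
            this.2.trans (h3.2.2.trans (hlW j).2.symm)⟩
        rw [clw_eq P W U hM w, if_pos ⟨g1, g2⟩]
        have e4 : P.pr W (W (w 0)) = pk := by
          have := claw_pr_congr P hW hW' (g3 0)
          rw [this, hpk, (e3 0).1, (e3 0).2]
        rw [e4]
        have e5 : ∏ j, gF P W U M (w j) ≤ ∏ j, f j (w j) := by
          refine Finset.prod_le_prod (fun j _ => gF_nonneg _ _ _ _ _) fun j _ => ?_
          refine (gF_le P W U M (w j)).trans (le_of_eq ?_)
          simp only [hf]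
          rw [if_pos ⟨(e3 j).1, e1 j, e2 j, (e3 j).2⟩]
          have e6 : P.pr (fun ω => (W ω, U ω)) (W (w j), U (w j)) =
              P.pr (fun ω => (l ω, U ω, W' ω)) (l (w j), U (w j), W' (w j)) := by
            refine claw_pr_congr P (X := fun ω => (W ω, U ω))
              (Y := fun ω => (l ω, U ω, W' ω)) ?_ ?_ (g3 j)
            · intro ω ω' q1 q2 he
              simp only [Prod.mk.injEq] at he ⊢
              exact ⟨hW ω ω' q1 q2 (by simp only [Prod.mk.injEq]; exact ⟨he.1, he.2.2⟩), he.2.1⟩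
            · intro ω ω' q1 q2 he
              simp only [Prod.mk.injEq] at he ⊢
              have := hW' ω ω' q1 q2 he.1
              simp only [Prod.mk.injEq] at this
              exact ⟨this.1, he.2, this.2⟩
          rw [e6, (e3 j).1, e2 j, (e3 j).2]
        calc (pk / (M : ℝ) ^ (p + 1) * ∏ j, gF P W U M (w j)) / Z
            = 1 / (Z * (M : ℝ) ^ (p + 1)) * (pk * ∏ j, gF P W U M (w j)) := by
              field_simp
          _ ≤ 1 / (Z * (M : ℝ) ^ (p + 1)) * (pk * ∏ j, f j (w j)) :=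
              mul_le_mul_of_nonneg_left (mul_le_mul_of_nonneg_left e5 hpk0) (by positivity)
    · exact hr
  refine (Finset.sum_le_sum fun w _ => h2 w).trans (le_of_eq ?_)
  rw [← Finset.mul_sum, ← Finset.mul_sum]

/-- cost of a progression law, conditional version -/
theorem ap_cost_core {P : Law Ω} {W : Ω → S} {U : Ω → ℤ} {M p : ℕ} (hM : 1 ≤ M) (hp : 1 ≤ p)
    (hU : ∀ ω, 0 < P.w ω → 0 ≤ U ω ∧ U ω < M) {Q : Law (Fin (p + 1) → Ω)} {Z c : ℝ}
    (hQ : ∀ w, Q.w w = apw P W U M p w / Z) (hZ : 0 < Z)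
    (hcZ : c / (M : ℝ) ^ (p - 1) ≤ Z) (hc0 : 0 < c)
    (l : Ω → T) (W' : Ω → T') (B : Ω → V) (hW : Fn P W (fun ω => (l ω, W' ω)))
    (hW' : Fn P (fun ω => (l ω, W' ω)) W) (hUB : Fn P U B) :
    mi Q (fun w => l (w 0)) (fun w j => B (w j)) (fun w => W' (w 0)) ≤
      Real.log (1 / c) + (p + 1) * (8 / c * (mi P l B (fun ω => (U ω, W' ω)) + 1)) := by
  classical
  have hM0 : (0 : ℝ) < M := by exact_mod_cast hM
  set Tw : (Fin (p + 1) → Ω) → (Fin (p + 1) → V) := fun w j => B (w j) with hTw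
  set l0 : (Fin (p + 1) → Ω) → T := fun w => l (w 0) with hl0
  set W0 : (Fin (p + 1) → Ω) → T' := fun w => W' (w 0) with hW0
  -- support
  have hsup : ∀ w, 0 < Q.w w → (∀ j, W (w j) = W (w 0)) ∧
      (∃ μ : ℤ, ∀ j : Fin (p + 1), U (w j) = U (w 0) + (j : ℕ) * μ) ∧ ∀ j, 0 < P.w (w j) := by
    intro w hw
    rw [hQ] at hw
    exact clw_pos hM ((div_pos_iff_of_pos_right hZ).1 hw)
  have hlW : ∀ w, 0 < Q.w w → ∀ j, l (w j) = l (w 0) ∧ W' (w j) = W' (w 0) := by
    intro w hw j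
    obtain ⟨k1, _, k3⟩ := hsup w hw
    have := hW' (w j) (w 0) (k3 j) (k3 0) (k1 j)
    simpa only [Prod.mk.injEq] using this
  -- the four probabilities
  set b : Ω → ℝ := fun ω => P.pr (fun ω => (B ω, U ω, W' ω)) (B ω, U ω, W' ω) with hb
  set a : Ω → ℝ := fun ω => P.pr (fun ω => (U ω, W' ω)) (U ω, W' ω) with ha
  set d : Ω → ℝ := fun ω => P.pr (fun ω => (l ω, B ω, U ω, W' ω)) (l ω, B ω, U ω, W' ω) with hd
  set e : Ω → ℝ := fun ω => P.pr (fun ω => (l ω, U ω, W' ω)) (l ω, U ω, W' ω) with he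
  have hb0 : ∀ {ω}, 0 < P.w ω → 0 < b ω := fun h => P.pr_pos (fun ω => (B ω, U ω, W' ω)) h
  have ha0 : ∀ {ω}, 0 < P.w ω → 0 < a ω := fun h => P.pr_pos (fun ω => (U ω, W' ω)) h
  have hd0 : ∀ {ω}, 0 < P.w ω → 0 < d ω :=
    fun h => P.pr_pos (fun ω => (l ω, B ω, U ω, W' ω)) h
  have he0 : ∀ {ω}, 0 < P.w ω → 0 < e ω := fun h => P.pr_pos (fun ω => (l ω, U ω, W' ω)) h
  have hdens : ∀ ω, dens P l B (fun ω => (U ω, W' ω)) ω =
      Real.log (d ω) + Real.log (a ω) - Real.log (e ω) - Real.log (b ω) := fun ω => rfl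
  -- first entropy
  have s1 : hc Q Tw W0 ≤ Q.ex (fun w => - Real.log (apNu P W' U B M p (Tw w) (W0 w))) := by
    refine Q.gibbs_cond Tw W0 (fun τ s => apNu P W' U B M p τ s)
      (fun τ s => apNu_nonneg P W' U B M p τ s)
      (fun s F => apNu_sum P W' U B hM hp s F) ?_
    intro w hw
    obtain ⟨k1, k2, k3⟩ := hsup w hw
    refine lt_of_lt_of_le ?_ (apNu_ge P W' U B w
      (mem_apC.2 ⟨fun j => hU _ (k3 j), k2⟩) (fun j => (hlW w hw j).2))
    refine mul_pos (by positivity) (Finset.prod_pos fun j _ => ?_)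
    exact div_pos (hb0 (k3 j)) (ha0 (k3 j))
  have s2 : Q.ex (fun w => - Real.log (apNu P W' U B M p (Tw w) (W0 w))) ≤
      Q.ex (fun w => Real.log ((M : ℝ) ^ 2) -
        ∑ j, (Real.log (b (w j)) - Real.log (a (w j)))) := by
    refine Q.ex_mono fun w hw => ?_
    obtain ⟨k1, k2, k3⟩ := hsup w hw
    have g1 := apNu_ge P W' U B w
      (mem_apC.2 ⟨fun j => hU _ (k3 j), k2⟩) (fun j => (hlW w hw j).2)
    have g2 : 0 < ∏ j, (b (w j) / a (w j)) :=
      Finset.prod_pos fun j _ => div_pos (hb0 (k3 j)) (ha0 (k3 j))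
    have g3 : 0 < 1 / (M : ℝ) ^ 2 * ∏ j, (b (w j) / a (w j)) := by positivity
    have g4 := Real.log_le_log g3 g1
    rw [Real.log_mul (by positivity) g2.ne', one_div, Real.log_inv,
      Real.log_prod (s := univ) (fun j _ => (div_pos (hb0 (k3 j)) (ha0 (k3 j))).ne'),
      Finset.sum_congr rfl fun j _ => Real.log_div (hb0 (k3 j)).ne' (ha0 (k3 j)).ne'] at g4
    show - Real.log (apNu P W' U B M p (fun j => B (w j)) (W' (w 0))) ≤ _
    linarith
  -- joint entropy
  have s3 : Q.ex (fun w => Real.log (Z * (M : ℝ) ^ (p + 1)) -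
        Real.log (P.pr (fun ω => (l ω, W' ω)) (l0 w, W0 w)) -
        ∑ j, (Real.log (d (w j)) - Real.log (e (w j)))) ≤
      Q.H (fun w => (Tw w, l0 w, W0 w)) := by
    unfold Law.H
    refine Q.ex_mono fun w hw => ?_
    obtain ⟨k1, k2, k3⟩ := hsup w hw
    have g1 := ap_pr_le hM hQ hZ l W' B hW hW' hUB w hw
    have g0 : 0 < Q.pr (fun w => (Tw w, l0 w, W0 w)) (Tw w, l0 w, W0 w) :=
      Q.pr_pos (fun w => (Tw w, l0 w, W0 w)) hw
    have g2 : 0 < ∏ j, (d (w j) / e (w j)) :=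
      Finset.prod_pos fun j _ => div_pos (hd0 (k3 j)) (he0 (k3 j))
    have g3 : 0 < P.pr (fun ω => (l ω, W' ω)) (l0 w, W0 w) :=
      P.pr_pos (fun ω => (l ω, W' ω)) (k3 0)
    have g4 := Real.log_le_log g0 g1
    have g5 : Real.log (1 / (Z * (M : ℝ) ^ (p + 1)) *
        (P.pr (fun ω => (l ω, W' ω)) (l0 w, W0 w) * ∏ j, (d (w j) / e (w j)))) =
        - Real.log (Z * (M : ℝ) ^ (p + 1)) +
        (Real.log (P.pr (fun ω => (l ω, W' ω)) (l0 w, W0 w)) +
        ∑ j, (Real.log (d (w j)) - Real.log (e (w j)))) := by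
      rw [Real.log_mul (by positivity) (by positivity), one_div, Real.log_inv,
        Real.log_mul g3.ne' g2.ne',
        Real.log_prod (s := univ) (fun j _ => (div_pos (hd0 (k3 j)) (he0 (k3 j))).ne'),
        Finset.sum_congr rfl fun j _ => Real.log_div (hd0 (k3 j)).ne' (he0 (k3 j)).ne']
    have g6 := g4.trans_eq g5
    linarith
  -- entropy of the line
  have s4 : Q.H (fun w => (l0 w, W0 w)) ≤
      Q.ex (fun w => - Real.log (P.pr (fun ω => (l ω, W' ω)) (l0 w, W0 w))) := by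
    refine Q.gibbs (fun w => (l0 w, W0 w)) (fun x => P.pr (fun ω => (l ω, W' ω)) x)
      (fun x => P.pr_nonneg _ x) ?_ ?_
    · have h1 : img (fun w : Fin (p + 1) → Ω => (l0 w, W0 w)) ⊆ img (fun ω => (l ω, W' ω)) := by
        intro x hx
        rw [mem_img] at hx ⊢
        obtain ⟨w, rfl⟩ := hx
        exact ⟨w 0, rfl⟩
      refine (Finset.sum_le_sum_of_subset_of_nonneg h1 fun x _ _ => P.pr_nonneg _ x).trans ?_
      exact (P.sum_pr_image _).le
    · intro w hw
      exact P.pr_pos (fun ω => (l ω, W' ω)) ((hsup w hw).2.2 0)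
  -- the densities
  have s5 : Q.ex (fun w => Real.log ((M : ℝ) ^ 2) -
        ∑ j, (Real.log (b (w j)) - Real.log (a (w j)))) -
      Q.ex (fun w => Real.log (Z * (M : ℝ) ^ (p + 1)) -
        Real.log (P.pr (fun ω => (l ω, W' ω)) (l0 w, W0 w)) -
        ∑ j, (Real.log (d (w j)) - Real.log (e (w j)))) +
      Q.ex (fun w => - Real.log (P.pr (fun ω => (l ω, W' ω)) (l0 w, W0 w))) =
      Q.ex (fun w => (Real.log ((M : ℝ) ^ 2) - Real.log (Z * (M : ℝ) ^ (p + 1))) +
        ∑ j, dens P l B (fun ω => (U ω, W' ω)) (w j)) := by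
    rw [← Q.ex_sub, ← Q.ex_add]
    refine Q.ex_congr fun w _ => ?_
    have : ∑ j, dens P l B (fun ω => (U ω, W' ω)) (w j) =
        ∑ j, (Real.log (d (w j)) - Real.log (e (w j))) -
          ∑ j, (Real.log (b (w j)) - Real.log (a (w j))) := by
      rw [← Finset.sum_sub_distrib]
      refine Finset.sum_congr rfl fun j _ => ?_
      rw [hdens]
      ring
    rw [this]
    ring
  have s6 : Q.ex (fun w => (Real.log ((M : ℝ) ^ 2) - Real.log (Z * (M : ℝ) ^ (p + 1))) +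
        ∑ j, dens P l B (fun ω => (U ω, W' ω)) (w j)) =
      (Real.log ((M : ℝ) ^ 2) - Real.log (Z * (M : ℝ) ^ (p + 1))) +
        ∑ j : Fin (p + 1), Q.ex (fun w => dens P l B (fun ω => (U ω, W' ω)) (w j)) := by
    rw [Q.ex_add, Q.ex_const]
    congr 1
    unfold Law.ex
    rw [Finset.sum_comm]
    refine Finset.sum_congr rfl fun w _ => ?_
    rw [Finset.mul_sum]
  have s7 : ∑ j : Fin (p + 1), Q.ex (fun w => dens P l B (fun ω => (U ω, W' ω)) (w j)) ≤
      (p + 1) * (8 / c * (mi P l B (fun ω => (U ω, W' ω)) + 1)) := by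
    have h1 : ∀ j ∈ (univ : Finset (Fin (p + 1))),
        Q.ex (fun w => dens P l B (fun ω => (U ω, W' ω)) (w j)) ≤
        8 / c * (mi P l B (fun ω => (U ω, W' ω)) + 1) := fun j _ =>
      dens_dom (ap_dom1 hM hp hU hQ hZ hcZ hc0 j) l B (fun ω => (U ω, W' ω))
    refine (Finset.sum_le_sum h1).trans (le_of_eq ?_)
    rw [Finset.sum_const, Finset.card_univ, Fintype.card_fin, nsmul_eq_mul]
    push_cast
    ring
  have s8 : Real.log ((M : ℝ) ^ 2) - Real.log (Z * (M : ℝ) ^ (p + 1)) ≤ Real.log (1 / c) := by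
    rw [← Real.log_div (by positivity) (by positivity)]
    refine Real.log_le_log (by positivity) ?_
    obtain ⟨q, rfl⟩ : ∃ q, p = q + 1 := ⟨p - 1, by omega⟩
    have h1 : c / (M : ℝ) ^ q ≤ Z := by simpa using hcZ
    rw [div_le_iff₀ (by positivity)] at h1
    rw [div_le_div_iff₀ (by positivity) hc0]
    have h2 : Z * (M : ℝ) ^ (q + 1 + 1) = (M : ℝ) ^ 2 * (Z * (M : ℝ) ^ q) := by ring
    rw [one_mul, h2]
    exact mul_le_mul_of_nonneg_left h1 (by positivity)
  have s9 : mi Q l0 Tw W0 = hc Q Tw W0 - hc Q Tw (fun w => (l0 w, W0 w)) := by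
    rw [mi_symm]
    rfl
  have s10 : hc Q Tw (fun w => (l0 w, W0 w)) =
      Q.H (fun w => (Tw w, l0 w, W0 w)) - Q.H (fun w => (l0 w, W0 w)) := rfl
  rw [s9, s10]
  linarith

/-- cost of a progression law -/
theorem ap_cost {P : Law Ω} {W : Ω → S} {U : Ω → ℤ} {M p : ℕ} (hM : 1 ≤ M) (hp : 1 ≤ p)
    (hU : ∀ ω, 0 < P.w ω → 0 ≤ U ω ∧ U ω < M) {Q : Law (Fin (p + 1) → Ω)} {Z c : ℝ}
    (hQ : ∀ w, Q.w w = apw P W U M p w / Z) (hZ : 0 < Z)
    (hcZ : c / (M : ℝ) ^ (p - 1) ≤ Z) (hc0 : 0 < c)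
    (l : Ω → T) (A : Ω → T') (B : Ω → V) (I : Ω → S') (hI : Fn P I B) (hUB : Fn P U B)
    (hW : Fn P W (fun ω => (l ω, A ω, I ω)))
    (hW' : Fn P (fun ω => (l ω, A ω, I ω)) W) :
    mi Q (fun w => l (w 0)) (fun w j => B (w j)) (fun w => A (w 0)) ≤
      Real.log (1 / c) + (p + 2) * (8 / c * (mi P l B A + 1)) := by
  have hsup : ∀ w, 0 < Q.w w → (∀ j, W (w j) = W (w 0)) ∧
      (∃ μ : ℤ, ∀ j : Fin (p + 1), U (w j) = U (w 0) + (j : ℕ) * μ) ∧ ∀ j, 0 < P.w (w j) := by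
    intro w hw
    rw [hQ] at hw
    exact clw_pos hM ((div_pos_iff_of_pos_right hZ).1 hw)
  have hdom := ap_dom1 hM hp hU hQ hZ hcZ hc0 (0 : Fin (p + 1))
  have h1 : mi Q (fun w => l (w 0)) (fun w j => B (w j)) (fun w => A (w 0)) ≤
      mi Q (fun w => l (w 0)) (fun w => (I (w 0), fun j => B (w j))) (fun w => A (w 0)) := by
    refine mi_mono_right Q (fun w => l (w 0)) ?_
    intro w w' _ _ he
    simp only [Prod.mk.injEq] at he
    exact he.1.2
  have h2 := mi_pair Q (fun w => l (w 0)) (fun w => I (w 0)) (fun w j => B (w j))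
    (fun w => A (w 0))
  have h3 := hdom.mi_le l I A
  have h3' : mi Q (fun w => l (w 0)) (fun w => I (w 0)) (fun w => A (w 0)) ≤
      8 / c * (mi P l I A + Real.log 2) := h3
  have h4 := ap_cost_core hM hp hU hQ hZ hcZ hc0 l (fun ω => (I ω, A ω)) B (by
    intro ω ω' q1 q2 he
    simp only [Prod.mk.injEq] at he
    exact hW ω ω' q1 q2 (by simp only [Prod.mk.injEq]; exact ⟨he.1, he.2.2, he.2.1⟩)) (by
    intro ω ω' q1 q2 he
    have := hW' ω ω' q1 q2 he
    simp only [Prod.mk.injEq] at this ⊢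
    exact ⟨this.1, this.2.2, this.2.1⟩) hUB
  have h5 : mi P l I A ≤ mi P l B A := by
    refine mi_mono_right P l ?_
    intro ω ω' q1 q2 he
    simp only [Prod.mk.injEq] at he
    exact hI ω ω' q1 q2 he.1
  have h6 : mi P l B (fun ω => (U ω, I ω, A ω)) ≤ mi P l B A := by
    have e1 : mi P l B (fun ω => (U ω, I ω, A ω)) =
        mi P B l (fun ω => ((U ω, I ω), A ω)) := by
      rw [mi_symm]
      refine mi_congr_cond P B l ?_ ?_
      · intro ω ω' _ _ he
        simp only [Prod.mk.injEq] at he ⊢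
        exact ⟨he.1.1, he.1.2, he.2⟩
      · intro ω ω' _ _ he
        simp only [Prod.mk.injEq] at he ⊢
        exact ⟨⟨he.1, he.2.1⟩, he.2.2⟩
    rw [e1, mi_symm P l B A]
    refine mi_cond_le P (X := B) l (W := fun ω => (U ω, I ω)) A ?_
    intro ω ω' q1 q2 he
    simp only [Prod.mk.injEq] at he ⊢
    exact ⟨hUB ω ω' q1 q2 he.1, hI ω ω' q1 q2 he.1⟩
  have hK : 0 < 8 / c := by positivity
  have h7 : Real.log 2 ≤ 1 := by
    have := Real.log_two_lt_d9
    linarith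
  have h8 : 8 / c * (mi P l I A + Real.log 2) ≤ 8 / c * (mi P l B A + 1) :=
    mul_le_mul_of_nonneg_left (by linarith) hK.le
  have h9 : (p + 1 : ℝ) * (8 / c * (mi P l B (fun ω => (U ω, I ω, A ω)) + 1)) ≤
      (p + 1) * (8 / c * (mi P l B A + 1)) := by
    refine mul_le_mul_of_nonneg_left (mul_le_mul_of_nonneg_left (by linarith) hK.le) ?_
    positivity
  have h10 : mi Q (fun w => l (w 0)) (fun w j => B (w j)) (fun w => (I (w 0), A (w 0))) ≤
      Real.log (1 / c) + (p + 1) * (8 / c * (mi P l B (fun ω => (U ω, I ω, A ω)) + 1)) := h4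
  linarith

end cost

end Vale.Agent.P127.Stk
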