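import Vale.Agent.P127.Stk.CIface

/-!
# P127 / Stk : definitions for the step for `Γ` (PROOF.md, section 8)

Here `k` is shifted by one: the step is `CK k → AK (k+1)` for `k ≤ κ`; the cubes have dimension
`k + 2`, there are `k + 1` nodes. An arithmetic progression of `k + 3` times is used as the
degenerate cube `S ↦ w |S|` : the vertex `l` is repeated `choose (k+2) l` times with the sign
`(-1)^l` (`cBad_ap`).
-/

namespace Vale.Agent.P127.Stk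

open Finset Vale.Agent.P127

section

variable {Ω Ω' : Type} {m κ k : ℕ}

/-- index set of a cube family: vertices and nodes -/
abbrev CI (k : ℕ) : Type := Finset (Fin (k + 2)) ⊕ Fin (k + 1)

/-- the base vertex -/
abbrev vb (k : ℕ) : CI k := Sum.inl ∅

/-- times and objects of a family -/
def TT (c : Cf Ω m) (o : Ob Ω m κ) {I : Type} (π : I → Ω' → Ω) (ω : Ω') : I → ℝ × o.γ :=
  fun i => (c.t (π i ω), o.G (π i ω))

open Classical in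
/-- the matrix as a function of the data -/
noncomputable def Ob.Gh (o : Ob Ω m κ) (g : o.γ) : Fin m → Fin m → ℝ :=
  if h : ∃ ω, o.G ω = g then o.Γ h.choose else 0

theorem Ob.Gh_G (o : Ob Ω m κ) (ω : Ω) : o.Gh (o.G ω) = o.Γ ω := by
  have h : ∃ ω', o.G ω' = o.G ω := ⟨ω, rfl⟩
  unfold Ob.Gh
  rw [dif_pos h]
  exact o.fn _ _ h.choose_spec

open Classical in
/-- the projected point as a linear function of the line -/
noncomputable def linF (J : Finset (Fin m)) (Γ : Fin m → Fin m → ℝ) (t : ℝ) (x y : Fin m → ℝ) :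
    Fin m → ℝ := fun i =>
  if i ∈ J then 0 else (x i + t * y i) - ∑ j ∈ J, Γ i j * (x j + t * y j)

theorem F_eq_linF (c : Cf Ω m) (o : Ob Ω m κ) (ω : Ω) :
    o.F c ω = linF o.J (o.Γ ω) (c.t ω) (c.x ω) (c.y ω) := rfl

/-- the vertex of the progression which belongs to the vertex `S` of the cube -/
def vx {k : ℕ} (S : Finset (Fin (k + 2))) : Fin (k + 3) :=
  ⟨S.card, by have h := S.card_le_univ; rw [Fintype.card_fin] at h; omega⟩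

/-- sums over the cube of functions of the size -/
theorem sum_card (k : ℕ) (f : Fin (k + 3) → ℝ) :
    ∑ S : Finset (Fin (k + 2)), (-1 : ℝ) ^ S.card * f (vx S) =
      ∑ l : Fin (k + 3), (-1 : ℝ) ^ (l : ℕ) * ((k + 2).choose l : ℝ) * f l := by
  have h1 : ∀ S : Finset (Fin (k + 2)), (-1 : ℝ) ^ S.card * f (vx S) =
      (fun j : ℕ => (-1 : ℝ) ^ j * (if h : j < k + 3 then f ⟨j, h⟩ else 0)) S.card := by
    intro S
    have h2 : S.card < k + 3 := (vx S).2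
    simp only [h2, dif_pos]
    rfl
  have h3 := Finset.sum_powerset_apply_card
    (fun j : ℕ => (-1 : ℝ) ^ j * (if h : j < k + 3 then f ⟨j, h⟩ else 0))
    (x := (Finset.univ : Finset (Fin (k + 2))))
  rw [Finset.powerset_univ, Finset.card_univ, Fintype.card_fin] at h3
  rw [Finset.sum_congr rfl fun S _ => h1 S, h3, Finset.sum_range]
  refine Finset.sum_congr rfl fun l _ => ?_
  have hl : (l : ℕ) < k + 3 := l.2
  rw [dif_pos hl, nsmul_eq_mul]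
  ring

/-- the cube sum of the matrices -/
noncomputable def cS (o : Ob Ω m κ) (π : CI k → Ω' → Ω) (ω : Ω') (i j : Fin m) : ℝ :=
  ∑ S : Finset (Fin (k + 2)), (-1 : ℝ) ^ S.card * o.Γ (π (Sum.inl S) ω) i j

/-- the bad event -/
def cBad (o : Ob Ω m κ) (π : CI k → Ω' → Ω) (thr : ℝ) (ω : Ω') : Prop :=
  ∃ i, i ∉ o.J ∧ ∃ j ∈ o.J, thr < |cS o π ω i j|

/-- the cube sum of a progression -/
theorem cS_ap (o : Ob Ω m κ) (π : CI k → Ω' → Ω) (ρ : Fin (k + 3) → Ω' → Ω)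
    (h : ∀ S, π (Sum.inl S) = ρ (vx S)) (ω : Ω') (i j : Fin m) :
    cS o π ω i j =
      ∑ l : Fin (k + 3), (-1 : ℝ) ^ (l : ℕ) * ((k + 2).choose l : ℝ) * o.Γ (ρ l ω) i j := by
  unfold cS
  rw [← sum_card k fun l => o.Γ (ρ l ω) i j]
  exact Finset.sum_congr rfl fun S _ => by rw [h S]

/-- the bad event of a progression -/
theorem cBad_ap (o : Ob Ω m κ) (π : CI k → Ω' → Ω) (ρ : Fin (k + 3) → Ω' → Ω)
    (h : ∀ S, π (Sum.inl S) = ρ (vx S)) (thr : ℝ) (ω : Ω') :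
    cBad o π thr ω ↔ ∃ i, i ∉ o.J ∧ ∃ j ∈ o.J,
      thr < |∑ l : Fin (k + 3), (-1 : ℝ) ^ (l : ℕ) * ((k + 2).choose l : ℝ) *
        o.Γ (ρ l ω) i j| := by
  unfold cBad
  simp only [cS_ap o π ρ h]

/-- a progression is a degenerate cube -/
theorem isCube_ap {k : ℕ} (U : Fin (k + 3) → ℤ) (μ : ℤ)
    (h : ∀ l : Fin (k + 3), U l = U 0 + (l : ℕ) * μ) :
    IsCube (fun S : Finset (Fin (k + 2)) => U (vx S)) := by
  refine ⟨U 0, fun _ => μ, fun S => ?_⟩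
  simp only
  rw [h (vx S), Finset.sum_const, nsmul_eq_mul]
  rfl

/-- the interpolation polynomial of the matrices at the nodes, at the time of the vertex `S` -/
noncomputable def cg (c : Cf Ω m) (o : Ob Ω m κ) (π : CI k → Ω' → Ω) (ω : Ω')
    (S : Finset (Fin (k + 2))) (i j : Fin m) : ℝ :=
  ∑ l : Fin (k + 1), (∏ l' ∈ (Finset.univ : Finset (Fin (k + 1))).erase l,
    (c.t (π (Sum.inl S) ω) - c.t (π (Sum.inr l') ω)) /
      (c.t (π (Sum.inr l) ω) - c.t (π (Sum.inr l') ω))) * o.Γ (π (Sum.inr l) ω) i j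

/-- typical facts at a point, `w` = slack -/
structure CTyp (a w : ℕ) (c : Cf Ω m) (o : Ob Ω m κ) (π : CI k → Ω' → Ω) (ω : Ω') : Prop where
  sep : ∀ l l' : Fin (k + 1), l ≠ l' →
    1 ≤ (2 : ℝ) ^ (a + w) * |c.t (π (Sum.inr l) ω) - c.t (π (Sum.inr l') ω)|
  gam : ∀ S i j, i ∉ o.J → j ∈ o.J →
    (2 : ℝ) ^ a * |o.Γ (π (Sum.inl S) ω) i j - o.Γ (π (vb k) ω) i j| ≤ 2 ^ w
  pol : ∀ S i j, i ∉ o.J → j ∈ o.J →
    (2 : ℝ) ^ ((k + 1) * a) * |o.Γ (π (Sum.inl S) ω) i j - cg c o π ω S i j| ≤ 2 ^ w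

/-- the size of the cube sum is about `2^{-β}`, with maximal entry `(i0, j0)` -/
structure CBin (β w : ℕ) (i0 j0 : Fin m) (o : Ob Ω m κ) (π : CI k → Ω' → Ω) (ω : Ω') :
    Prop where
  i0J : i0 ∉ o.J
  j0J : j0 ∈ o.J
  le : ∀ i j, i ∉ o.J → j ∈ o.J → |cS o π ω i j| ≤ |cS o π ω i0 j0|
  up : (2 : ℝ) ^ β * |cS o π ω i0 j0| ≤ 1
  lo : 1 < (2 : ℝ) ^ (β + w) * |cS o π ω i0 j0|

/-- the projected points -/
noncomputable def cF (c : Cf Ω m) (o : Ob Ω m κ) (π : CI k → Ω' → Ω) (S : Finset (Fin (k + 2)))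
    (ω : Ω') : Fin m → ℝ := o.F c (π (Sum.inl S) ω)

/-- type of the values of the condition `B` -/
abbrev CBt (Ω : Type) (m κ k : ℕ) (c : Cf Ω m) (o : Ob Ω m κ) : Type :=
  (CI k → ℝ × o.γ) × c.α × (Finset (Fin (k + 2)) → Fin m → ℤ)

/-- the condition `B = (T, A, ([F_S]_n)_S)` -/
noncomputable def cB (n : ℕ) (c : Cf Ω m) (o : Ob Ω m κ) (π : CI k → Ω' → Ω) (ω : Ω') :
    CBt Ω m κ k c o := (TT c o π ω, c.A (π (vb k) ω), fun S => fl n (cF c o π S ω))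

/-- the cell of the line -/
noncomputable def cq (n : ℕ) (c : Cf Ω m) (π : CI k → Ω' → Ω) (ω : Ω') :
    (Fin m → ℤ) × (Fin m → ℤ) := (fl n (c.x (π (vb k) ω)), fl n (c.y (π (vb k) ω)))

/-- the digits of the projected points -/
noncomputable def cX (N : ℕ) (c : Cf Ω m) (o : Ob Ω m κ) (π : CI k → Ω' → Ω)
    (S : Finset (Fin (k + 2))) (ω : Ω') : Fin m → ℤ := fl N (cF c o π S ω)

/-- the change of the projected point between the times of `∅` and `S`, for a cell `q` -/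
noncomputable def cphi (n N : ℕ) (c : Cf Ω m) (o : Ob Ω m κ) (S : Finset (Fin (k + 2)))
    (b : CBt Ω m κ k c o) (q : (Fin m → ℤ) × (Fin m → ℤ)) : Fin m → ℤ := fun i =>
  ⌊(2 : ℝ) ^ N *
    (linF o.J (o.Gh (b.1 (Sum.inl S)).2) (b.1 (Sum.inl S)).1
        (fun i => q.1 i / 2 ^ n) (fun i => q.2 i / 2 ^ n) i -
      linF o.J (o.Gh (b.1 (vb k)).2) (b.1 (vb k)).1
        (fun i => q.1 i / 2 ^ n) (fun i => q.2 i / 2 ^ n) i)⌋

/-- the cube sum as a function of `B` -/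
noncomputable def cE (c : Cf Ω m) (o : Ob Ω m κ) (b : CBt Ω m κ k c o) (i j : Fin m) : ℝ :=
  ∑ S : Finset (Fin (k + 2)), (-1 : ℝ) ^ S.card * o.Gh (b.1 (Sum.inl S)).2 i j

/-- the point of the cell `q` at the time of the base vertex -/
noncomputable def cC (n : ℕ) (c : Cf Ω m) (o : Ob Ω m κ) (b : CBt Ω m κ k c o)
    (q : (Fin m → ℤ) × (Fin m → ℤ)) : Fin m → ℝ := fun j =>
  q.1 j / 2 ^ n + (b.1 (vb k)).1 * (q.2 j / 2 ^ n)

variable [Fintype Ω] [Fintype Ω']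

/-- a cube family -/
structure CubeFam (a k : ℕ) (K cost : ℝ) (P : Law Ω) (c : Cf Ω m) (o : Ob Ω m κ) (Q : Law Ω')
    (π : CI k → Ω' → Ω) : Prop where
  keys : ∀ ω, 0 < Q.w ω → ∀ i j, key c a (π i ω) = key c a (π j ω)
  dom : ∀ i, Dom Q (π i) P K
  pair : ∀ S, S ≠ ∅ → ∀ w : Fin 2 → Ω,
    Q.pr (fun ω => ![π (vb k) ω, π (Sum.inl S) ω]) w ≤ K * cw P (key c a) 1 w
  node : ∀ S, ∀ w : Fin (k + 2) → Ω,
    Q.pr (fun ω => (Fin.snoc (fun l => π (Sum.inr l) ω) (π (Sum.inl S) ω) : Fin (k + 2) → Ω)) w ≤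
      K * cw P (key c a) (k + 1) w
  cost : mi Q (fun ω => (c.x (π (vb k) ω), c.y (π (vb k) ω))) (TT c o π)
    (fun ω => c.A (π (vb k) ω)) ≤ cost
  cube : ∀ ω, 0 < Q.w ω → IsCube (fun S => fl1 ((κ + 4) * a) (c.t (π (Sum.inl S) ω)))

/-- the digit position of the time inside the dyadic interval of length `2^{-a}` -/
noncomputable def tau (c : Cf Ω m) (κ a : ℕ) (ω : Ω) : ℝ :=
  (2 : ℝ) ^ ((κ + 4) * a) * c.t ω - (2 : ℝ) ^ ((κ + 3) * a) * fl1 a (c.t ω)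

/-- the distance of the law of the digits from the uniform law, for the key `s` -/
noncomputable def ktv (P : Law Ω) (c : Cf Ω m) (κ a : ℕ)
    (s : (Fin m → ℝ) × (Fin m → ℝ) × c.α × ℤ) : ℝ :=
  ∑ v ∈ range (2 ^ ((κ + 3) * a)),
    |(P.cond (key c a) s).pr (fun ω => ⌊tau c κ a ω⌋) (v : ℤ) - 1 / 2 ^ ((κ + 3) * a)|

end

section absout

variable {Ω Ω' β γ ζ : Type} [Fintype Ω] [Fintype Ω'] {d : ℕ}

/-- output of the absorption lemma -/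
structure AbsOut (P : Law Ω) (P' : Law Ω') (B : Ω → β) (q : Ω → γ) (X0 : Ω → Fin d → ℤ)
    (Z : Ω' → ζ) (π π1 π2 : Ω' → Ω) (e1 : ℝ) : Prop where
  law : ∀ ω, P'.pr π ω = P.w ω
  supp : ∀ ω, 0 < P'.w ω → B (π1 ω) = B (π ω) ∧ B (π2 ω) = B (π ω) ∧ X0 (π1 ω) = X0 (π2 ω)
  law1 : ∀ z ω, P'.pr (fun ω' => (Z ω', π1 ω')) (z, ω) = P'.pr (fun ω' => (Z ω', π ω')) (z, ω)
  law2 : ∀ z ω, P'.pr (fun ω' => (Z ω', π2 ω')) (z, ω) = P'.pr (fun ω' => (Z ω', π ω')) (z, ω)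
  ind12 : mi P' π1 π2 (fun ω => (X0 (π1 ω), B (π ω), Z ω)) = 0
  ind : mi P' π (fun ω => (π1 ω, π2 ω)) (fun ω => (B (π ω), Z ω)) = 0
  cheap : mi P' (fun ω => (q (π ω), X0 (π ω))) Z (fun ω => B (π ω)) ≤ e1

/-- the digits of the other coordinates of `z` -/
noncomputable def zd (B : Ω → β) (q : Ω → γ) (π π1 π2 : Ω' → Ω) (J : Finset (Fin d))
    (C : β → γ → Fin d → ℝ) (j0 : Fin d) (σ : ℕ) (ω : Ω') : {j // j ∈ J ∧ j ≠ j0} → ℤ :=
  fl σ (fun j : {j // j ∈ J ∧ j ≠ j0} =>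
    C (B (π ω)) (q (π2 ω)) j - C (B (π ω)) (q (π1 ω)) j)

end absout

/-- main part: the cube sums are small -/
def PCMain (R : Gr) : Prop := ∀ (m : ℕ) (h : ℝ) (κ k : ℕ), k ≤ κ → LB R m h →
  NK R m h (κ + 1) → CK R m h κ 0 → RK R m h κ (k + 1) → CK R m h κ k →
  ∀ (K0 ε1 : ℝ), 0 < ε1 →
  ∃ ι1 : ℝ, 0 < ι1 ∧ ∃ ι : ℝ, 0 < ι ∧ ∃ εu : ℝ, 0 < εu ∧ ∀ g : R.G, ∃ n : ℕ,
    ∀ (a : ℕ) (e C : ℝ), R.ok g n ((κ + 4) * a) e C →
    ∀ (Ω Ω' : Type) [Fintype Ω] [Fintype Ω'] (P : Law Ω) (c : Cf Ω m)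
      (o : Ob Ω m κ) (Q : Law Ω') (π : CI k → Ω' → Ω), Hyp h κ a ι εu e C P c o →
      CubeFam a k K0 (ι1 * ((κ + 4) * a : ℕ)) P c o Q π →
      prE Q (cBad o π ((2 : ℝ) ^ (-(((k + 2) * a : ℕ) : ℝ) + ε1 * ((κ + 4) * a : ℕ)))) ≤ ε1

/-- core of the main part: under a law on whose support everything is typical -/
def PCCore (R : Gr) : Prop := ∀ (m : ℕ) (h : ℝ) (κ k : ℕ), k ≤ κ → LB R m h →
  NK R m h (κ + 1) → RK R m h κ (k + 1) → ∀ (η : ℝ), 0 < η → ∃ g0 : ℝ, 0 < g0 ∧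
  ∀ g : ℝ, 0 < g → g ≤ g0 → ∀ K : ℝ,
  ∃ ι1 : ℝ, 0 < ι1 ∧ ∃ ι : ℝ, 0 < ι ∧ ∃ εu : ℝ, 0 < εu ∧ ∀ gr : R.G, ∃ n : ℕ,
    ∀ (a : ℕ) (e C : ℝ), R.ok gr n ((κ + 4) * a) e C →
    ∀ (Ω Ω' : Type) [Fintype Ω] [Fintype Ω'] (P : Law Ω) (c : Cf Ω m)
      (o : Ob Ω m κ) (Q : Law Ω') (π : CI k → Ω' → Ω) (w β : ℕ) (i0 j0 : Fin m),
      Hyp h κ a ι εu e C P c o →
      CubeFam a k K (ι1 * ((κ + 4) * a : ℕ)) P c o Q π →
      g / 2 * ((κ + 4) * a : ℕ) ≤ w → (w : ℝ) ≤ g * ((κ + 4) * a : ℕ) →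
      (∀ ω, 0 < Q.w ω → CTyp a w c o π ω ∧ CBin β w i0 j0 o π ω) →
      (β : ℝ) + η * ((κ + 4) * a : ℕ) + 6 * w ≤ (k + 2) * a → False

open Classical in
/-- existence of the family for the law of arithmetic progressions `Q0`; the family is indexed by
cubes, `π (Sum.inl S)` is the vertex `|S|` of the progression -/
def PCLaw : Prop := ∀ (κ k : ℕ), ∃ K0 : ℝ, 0 < K0 ∧ ∃ a0 : ℕ, ∃ εu0 : ℝ, 0 < εu0 ∧
  ∀ (m : ℕ) (h ι εu e C : ℝ) (a : ℕ) (Ω : Type) [Fintype Ω] (P : Law Ω) (c : Cf Ω m)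
    (o : Ob Ω m κ) (Q0 : Law (Fin (k + 3) → Ω)) (Z : ℝ), a0 ≤ a → εu ≤ εu0 →
    Hyp h κ a ι εu e C P c o → 0 < Z →
    (∀ w, Q0.w w =
      apw P (key c a) (low c a ((κ + 4) * a)) (2 ^ ((κ + 3) * a)) (k + 2) w / Z) →
    ∃ (Ω' : Type) (_ : Fintype Ω') (Q : Law Ω') (π : CI k → Ω' → Ω),
      CubeFam a k K0 (K0 * (C + ι * ((κ + 4) * a : ℕ) + 1)) P c o Q π ∧
      ∀ thr : ℝ, ∑ w with (∃ i, i ∉ o.J ∧ ∃ j ∈ o.J,
          thr < |∑ l : Fin (k + 3), (-1 : ℝ) ^ (l : ℕ) * ((k + 2).choose l : ℝ) *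
            o.Γ (w l) i j|), Q0.w w ≤
        prE Q (cBad o π thr)

end Vale.Agent.P127.Stk
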