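import Vale.Agent.P127.Stk.CDefs

/-!
# P127 / Stk : first half of the displacement lemma (PROOF.md, section 8)
-/

namespace Vale.Agent.P127.Stk

open Finset Vale.Agent.P127

section dispA

variable {Ω Ω' β γ ζ : Type} [Fintype Ω] [Fintype Ω'] {d : ℕ}

/-- the entropy of the digits before `r` given everything is large -/
theorem da_low {P : Law Ω} {P' : Law Ω'} {B : Ω → β} {q : Ω → γ} {X0 : Ω → Fin d → ℤ}
    {Z : Ω' → ζ} {π π1 π2 : Ω' → Ω} {e1 : ℝ} (h : AbsOut P P' B q X0 Z π π1 π2 e1)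
    (J : Finset (Fin d)) (C : β → γ → Fin d → ℝ) (j0 : Fin d) (σ r r' : ℕ) :
    hc P (fun ω => fl r (fun i => (X0 ω i : ℝ) / 2 ^ r')) (fun ω => (q ω, B ω)) - e1 ≤
      hc P' (fun ω => fl r (fun i => (X0 (π ω) i : ℝ) / 2 ^ r'))
        (fun ω => (q (π ω), B (π ω), Z ω, zd B q π π1 π2 J C j0 σ ω)) := by
  -- the law of `π` is `P`
  have a0 : hc P' (fun ω => fl r (fun i => (X0 (π ω) i : ℝ) / 2 ^ r'))
      (fun ω => (q (π ω), B (π ω))) =
      hc P (fun ω => fl r (fun i => (X0 ω i : ℝ) / 2 ^ r')) (fun ω => (q ω, B ω)) :=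
    hc_of_law P' P π h.law (fun ω => fl r (fun i => (X0 ω i : ℝ) / 2 ^ r'))
      (fun ω => (q ω, B ω))
  -- `Z` is cheap
  have a1 : mi P' (fun ω => fl r (fun i => (X0 (π ω) i : ℝ) / 2 ^ r')) Z
      (fun ω => (q (π ω), B (π ω))) ≤ e1 := by
    have b1 : mi P' (fun ω => fl r (fun i => (X0 (π ω) i : ℝ) / 2 ^ r')) Z
        (fun ω => (q (π ω), B (π ω))) ≤
        mi P' (fun ω => (q (π ω), X0 (π ω))) Z (fun ω => (q (π ω), B (π ω))) := by
      refine mi_mono_left P' Z ?_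
      intro ω ω' _ _ e
      have e1 : X0 (π ω) = X0 (π ω') := congrArg (fun p => p.1.2) e
      simp only [e1]
    have b2 : mi P' (fun ω => (q (π ω), X0 (π ω))) Z (fun ω => (q (π ω), B (π ω))) ≤
        mi P' (fun ω => (q (π ω), X0 (π ω))) Z (fun ω => B (π ω)) := by
      refine mi_cond_le P' Z _ ?_
      intro ω ω' _ _ e
      exact congrArg (fun p => p.1.1) e
    exact b1.trans (b2.trans h.cheap)
  -- `(π1, π2)` is independent of `π`
  have a2 : mi P' (fun ω => fl r (fun i => (X0 (π ω) i : ℝ) / 2 ^ r')) (fun ω => (π1 ω, π2 ω))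
      (fun ω => (q (π ω), B (π ω), Z ω)) ≤ 0 := by
    have b1 : mi P' (fun ω => fl r (fun i => (X0 (π ω) i : ℝ) / 2 ^ r'))
        (fun ω => (π1 ω, π2 ω)) (fun ω => (q (π ω), B (π ω), Z ω)) ≤
        mi P' π (fun ω => (π1 ω, π2 ω)) (fun ω => (q (π ω), B (π ω), Z ω)) := by
      refine mi_mono_left P' _ ?_
      intro ω ω' _ _ e
      have e1 : π ω = π ω' := congrArg Prod.fst e
      simp only [e1]
    have b2 : mi P' π (fun ω => (π1 ω, π2 ω)) (fun ω => (q (π ω), B (π ω), Z ω)) ≤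
        mi P' π (fun ω => (π1 ω, π2 ω)) (fun ω => (B (π ω), Z ω)) := by
      refine mi_cond_le P' _ _ ?_
      intro ω ω' _ _ e
      exact congrArg (fun p => q p.1) e
    exact b1.trans (b2.trans h.ind.le)
  -- put together
  have a3 : hc P' (fun ω => fl r (fun i => (X0 (π ω) i : ℝ) / 2 ^ r'))
      (fun ω => ((π1 ω, π2 ω), q (π ω), B (π ω), Z ω)) ≤
      hc P' (fun ω => fl r (fun i => (X0 (π ω) i : ℝ) / 2 ^ r'))
        (fun ω => (q (π ω), B (π ω), Z ω, zd B q π π1 π2 J C j0 σ ω)) := by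
    refine hc_mono_right P' _ ?_
    intro ω ω' _ _ e
    simp only [Prod.mk.injEq] at e ⊢
    obtain ⟨⟨e1, e2⟩, e3, e4, e5⟩ := e
    refine ⟨e3, e4, e5, ?_⟩
    unfold zd
    rw [e1, e2, e4]
  have a4 : hc P' (fun ω => fl r (fun i => (X0 (π ω) i : ℝ) / 2 ^ r'))
      (fun ω => (Z ω, q (π ω), B (π ω))) ≤
      hc P' (fun ω => fl r (fun i => (X0 (π ω) i : ℝ) / 2 ^ r'))
        (fun ω => (q (π ω), B (π ω), Z ω)) := by
    refine hc_mono_right P' _ ?_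
    intro ω ω' _ _ e
    simp only [Prod.mk.injEq] at e ⊢
    exact ⟨e.2.1, e.2.2, e.1⟩
  unfold mi at a1 a2
  linarith

/-- the displaced point has almost the same digits before `r` -/
theorem da_up {P : Law Ω} {P' : Law Ω'} {B : Ω → β} {q : Ω → γ} {X0 : Ω → Fin d → ℤ}
    {Z : Ω' → ζ} {π π1 π2 : Ω' → Ω} {e1 : ℝ} (h : AbsOut P P' B q X0 Z π π1 π2 e1)
    (J : Finset (Fin d)) (C : β → γ → Fin d → ℝ) (E : β → Fin d → Fin d → ℝ) (W : Ω' → Fin d → ℤ)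
    (i0 j0 : Fin d) (r r' w N1 : ℕ) (hrr : r ≤ r')
    (hE : ∀ ω, 0 < P.w ω → (∀ i j, i ∉ J → j ∈ J → |E (B ω) i j| ≤ |E (B ω) i0 j0|) ∧
      (2 : ℝ) ^ r * |E (B ω) i0 j0| ≤ 1 ∧ 1 < (2 : ℝ) ^ (r + w) * |E (B ω) i0 j0|)
    (hW : ∀ ω, 0 < P'.w ω → (∀ i, i ∉ J → |(W ω i : ℝ) + 2 ^ r' * ∑ j ∈ J, E (B (π ω)) i j *
      (C (B (π ω)) (q (π2 ω)) j - C (B (π ω)) (q (π1 ω)) j)| ≤ N1) ∧ ∀ i ∈ J, W ω i = 0)
    (hz : ∀ ω, 0 < P'.w ω → ∀ j ∈ J,
      |C (B (π ω)) (q (π2 ω)) j - C (B (π ω)) (q (π1 ω)) j| ≤ 2)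
    (ω : Ω') (hω : 0 < P'.w ω) (i : Fin d) :
    |(X0 (π ω) i : ℝ) / 2 ^ r' - ((X0 (π ω) i + W ω i : ℤ) : ℝ) / 2 ^ r'| ≤
      ((2 * d + N1 : ℕ) : ℝ) * (1 / 2 : ℝ) ^ r := by
  have hp : (0 : ℝ) < 2 ^ r' := by positivity
  have hq : (0 : ℝ) < 2 ^ r := by positivity
  have hpos : 0 < P.w (π ω) := by
    rw [← h.law (π ω)]
    exact P'.pr_pos π hω
  obtain ⟨hE1, hE2, -⟩ := hE (π ω) hpos
  obtain ⟨hW1, hW2⟩ := hW ω hω
  have e0 : (X0 (π ω) i : ℝ) / 2 ^ r' - ((X0 (π ω) i + W ω i : ℤ) : ℝ) / 2 ^ r' =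
      -((W ω i : ℝ) / 2 ^ r') := by
    push_cast
    ring
  rw [e0, abs_neg, abs_div, abs_of_pos hp]
  have hgoal : |(W ω i : ℝ)| ≤ 2 ^ r' * (2 * d * (1 / 2 : ℝ) ^ r) + N1 := by
    by_cases hi : i ∈ J
    · rw [hW2 i hi]
      simp only [Int.cast_zero, abs_zero]
      positivity
    · have h1 := hW1 i hi
      have h2 : |∑ j ∈ J, E (B (π ω)) i j *
          (C (B (π ω)) (q (π2 ω)) j - C (B (π ω)) (q (π1 ω)) j)| ≤
          2 * d * (1 / 2 : ℝ) ^ r := by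
        refine (Finset.abs_sum_le_sum_abs _ _).trans ?_
        have h3 : ∀ j ∈ J, |E (B (π ω)) i j *
            (C (B (π ω)) (q (π2 ω)) j - C (B (π ω)) (q (π1 ω)) j)| ≤ (1 / 2 : ℝ) ^ r * 2 := by
          intro j hj
          rw [abs_mul]
          have h4 : |E (B (π ω)) i j| ≤ (1 / 2 : ℝ) ^ r := by
            refine (hE1 i j hi hj).trans ?_
            rw [one_div, inv_pow]
            rw [← one_div, le_div_iff₀ hq, mul_comm]
            exact hE2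
          exact mul_le_mul h4 (hz ω hω j hj) (abs_nonneg _) (by positivity)
        refine (Finset.sum_le_sum h3).trans ?_
        rw [Finset.sum_const, nsmul_eq_mul]
        have h5 : (J.card : ℝ) ≤ d := by
          have := Finset.card_le_univ J
          rw [Fintype.card_fin] at this
          exact_mod_cast this
        have h6 : (0 : ℝ) ≤ (1 / 2 : ℝ) ^ r * 2 := by positivity
        nlinarith [mul_le_mul_of_nonneg_right h5 h6]
      have h7 := abs_le.1 h1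
      have h8 := abs_le.1 h2
      rw [abs_le]
      constructor
      · nlinarith [mul_le_mul_of_nonneg_left h8.2 hp.le]
      · nlinarith [mul_le_mul_of_nonneg_left h8.1 hp.le]
  rw [div_le_iff₀ hp]
  refine hgoal.trans ?_
  push_cast
  have h9 : (1 : ℝ) ≤ (1 / 2 : ℝ) ^ r * 2 ^ r' := by
    have : (2 : ℝ) ^ r ≤ 2 ^ r' := pow_le_pow_right₀ (by norm_num) hrr
    calc (1 : ℝ) = (1 / 2 : ℝ) ^ r * 2 ^ r := by
          rw [← mul_pow]; norm_num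
      _ ≤ (1 / 2 : ℝ) ^ r * 2 ^ r' := mul_le_mul_of_nonneg_left this (by positivity)
  have h10 : (0 : ℝ) ≤ N1 := Nat.cast_nonneg _
  nlinarith [mul_le_mul_of_nonneg_left h9 h10]

/-- first half of the displacement lemma: subtract the digits before `r` -/
theorem disp_A {P : Law Ω} {P' : Law Ω'} {B : Ω → β} {q : Ω → γ} {X0 : Ω → Fin d → ℤ}
    {Z : Ω' → ζ} {π π1 π2 : Ω' → Ω} {e1 : ℝ} (h : AbsOut P P' B q X0 Z π π1 π2 e1)
    (J : Finset (Fin d)) (C : β → γ → Fin d → ℝ) (E : β → Fin d → Fin d → ℝ) (W : Ω' → Fin d → ℤ)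
    (i0 j0 : Fin d) (hi0 : i0 ∉ J) (hj0 : j0 ∈ J) (f e2 : ℝ) (n r r' w N1 : ℕ)
    (hnr : n ≤ r) (hrr : r ≤ r')
    (hE : ∀ ω, 0 < P.w ω → (∀ i j, i ∉ J → j ∈ J → |E (B ω) i j| ≤ |E (B ω) i0 j0|) ∧
      (2 : ℝ) ^ r * |E (B ω) i0 j0| ≤ 1 ∧ 1 < (2 : ℝ) ^ (r + w) * |E (B ω) i0 j0|)
    (hW : ∀ ω, 0 < P'.w ω → (∀ i, i ∉ J → |(W ω i : ℝ) + 2 ^ r' * ∑ j ∈ J, E (B (π ω)) i j *
      (C (B (π ω)) (q (π2 ω)) j - C (B (π ω)) (q (π1 ω)) j)| ≤ N1) ∧ ∀ i ∈ J, W ω i = 0)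
    (hz : ∀ ω, 0 < P'.w ω → ∀ j ∈ J,
      |C (B (π ω)) (q (π2 ω)) j - C (B (π ω)) (q (π1 ω)) j| ≤ 2)
    (H1 : hc P' (fun ω i => X0 (π ω) i + W ω i) (fun ω => (q (π ω), B (π ω), Z ω)) ≤
      f * ((r' : ℝ) - n) * Real.log 2 + e1)
    (H2 : f * ((r : ℝ) - n) * Real.log 2 - e2 ≤
      hc P (fun ω => fl r (fun i => (X0 ω i : ℝ) / 2 ^ r')) (fun ω => (q ω, B ω))) :
    hc P' (fun ω i => X0 (π ω) i + W ω i)
      (fun ω => (fl r (fun i => (X0 (π ω) i : ℝ) / 2 ^ r'), q (π ω), B (π ω), Z ω,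
        zd B q π π1 π2 J C j0 (r' - r) ω)) ≤
      f * ((r' : ℝ) - r) * Real.log 2 + 2 * e1 + e2 + d * Real.log (8 * d + 8 * N1 + 8) := by
  have c1 := da_low h J C j0 (r' - r) r r'
  have c2 : hc P' (fun ω i => X0 (π ω) i + W ω i)
      (fun ω => (q (π ω), B (π ω), Z ω, zd B q π π1 π2 J C j0 (r' - r) ω)) ≤
      hc P' (fun ω i => X0 (π ω) i + W ω i) (fun ω => (q (π ω), B (π ω), Z ω)) := by
    refine hc_mono_right P' _ ?_
    intro ω ω' _ _ e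
    simp only [Prod.mk.injEq] at e ⊢
    exact ⟨e.1, e.2.1, e.2.2.1⟩
  have c3 : hc P' (fun ω => fl r (fun i => (X0 (π ω) i : ℝ) / 2 ^ r'))
      (fun ω => ((fun i => X0 (π ω) i + W ω i),
        (q (π ω), B (π ω), Z ω, zd B q π π1 π2 J C j0 (r' - r) ω))) ≤
      d * Real.log (8 * d + 8 * N1 + 8) := by
    have b1 := hc_fl_close P' (s := r) (2 * d + N1)
      (fun ω => fun i : Fin d => (X0 (π ω) i : ℝ) / 2 ^ r')
      (fun ω => fun i : Fin d => ((X0 (π ω) i + W ω i : ℤ) : ℝ) / 2 ^ r')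
      (fun ω => (q (π ω), B (π ω), Z ω, zd B q π π1 π2 J C j0 (r' - r) ω))
      (fun ω hω i => da_up h J C E W i0 j0 r r' w N1 hrr hE hW hz ω hω i)
    have b2 : hc P' (fun ω => fl r (fun i => (X0 (π ω) i : ℝ) / 2 ^ r'))
        (fun ω => ((fun i => X0 (π ω) i + W ω i),
          (q (π ω), B (π ω), Z ω, zd B q π π1 π2 J C j0 (r' - r) ω))) ≤
        hc P' (fun ω => fl r (fun i => (X0 (π ω) i : ℝ) / 2 ^ r'))
        (fun ω => (fl r (fun i : Fin d => ((X0 (π ω) i + W ω i : ℤ) : ℝ) / 2 ^ r'),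
          (q (π ω), B (π ω), Z ω, zd B q π π1 π2 J C j0 (r' - r) ω))) := by
      refine hc_mono_right P' _ ?_
      intro ω ω' _ _ e
      have e1 : (fun i => X0 (π ω) i + W ω i) = (fun i => X0 (π ω') i + W ω' i) :=
        congrArg Prod.fst e
      have e2 := congrArg Prod.snd e
      refine Prod.ext ?_ e2
      funext i
      have e3 : X0 (π ω) i + W ω i = X0 (π ω') i + W ω' i := congrFun e1 i
      simp only [fl, e3]
    refine b2.trans (b1.trans ?_)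
    rw [Fintype.card_fin]
    refine mul_le_mul_of_nonneg_left ?_ (Nat.cast_nonneg _)
    refine Real.log_le_log (by positivity) ?_
    push_cast
    have h1 : (0 : ℝ) ≤ d := Nat.cast_nonneg _
    have h2 : (0 : ℝ) ≤ N1 := Nat.cast_nonneg _
    linarith
  -- chain rule
  have c4 := hc_pair P' (fun ω => fl r (fun i => (X0 (π ω) i : ℝ) / 2 ^ r'))
    (fun ω i => X0 (π ω) i + W ω i)
    (fun ω => (q (π ω), B (π ω), Z ω, zd B q π π1 π2 J C j0 (r' - r) ω))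
  have c5 := hc_pair P' (fun ω i => X0 (π ω) i + W ω i)
    (fun ω => fl r (fun i => (X0 (π ω) i : ℝ) / 2 ^ r'))
    (fun ω => (q (π ω), B (π ω), Z ω, zd B q π π1 π2 J C j0 (r' - r) ω))
  have c6 : hc P' (fun ω => (fl r (fun i => (X0 (π ω) i : ℝ) / 2 ^ r'),
        fun i => X0 (π ω) i + W ω i))
      (fun ω => (q (π ω), B (π ω), Z ω, zd B q π π1 π2 J C j0 (r' - r) ω)) ≤
      hc P' (fun ω => ((fun i => X0 (π ω) i + W ω i),
        fl r (fun i => (X0 (π ω) i : ℝ) / 2 ^ r')))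
      (fun ω => (q (π ω), B (π ω), Z ω, zd B q π π1 π2 J C j0 (r' - r) ω)) := by
    refine hc_mono_left P' ?_
    intro ω ω' _ _ e
    have e1 := congrArg (fun p => p.1.1) e
    have e2 := congrArg (fun p => p.1.2) e
    exact Prod.ext e2 e1
  linarith

end dispA

end Vale.Agent.P127.Stk
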