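import Vale.Agent.P127.Stk.CDefs

/-!
# P127 / Stk : cube families, conditioning and the cost of the condition (PROOF.md, section 8)
-/

namespace Vale.Agent.P127.Stk

open Finset Vale.Agent.P127

section fam

variable {Ω Ω' : Type} [Fintype Ω] [Fintype Ω'] {m κ k : ℕ}

/-- the condition of a family costs little -/
theorem CubeFam.lower {a : ℕ} {K cost : ℝ} {P : Law Ω} {c : Cf Ω m} {o : Ob Ω m κ} {Q : Law Ω'}
    {π : CI k → Ω' → Ω} (h : CubeFam a k K cost P c o Q π) (i : CI k) {S T : Type}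
    (X : Ω' → S) (Y : Ω' → T)
    (hX : Fn Q X (fun ω => (c.x (π (vb k) ω), c.y (π (vb k) ω), TT c o π ω i)))
    (hY : Fn Q Y (fun ω => (c.x (π (vb k) ω), c.y (π (vb k) ω), TT c o π ω i,
      c.A (π (vb k) ω)))) :
    hc Q X (fun ω => (Y ω, c.t (π i ω), o.G (π i ω), c.A (π i ω))) - cost ≤
      hc Q X (fun ω => (Y ω, TT c o π ω, c.A (π (vb k) ω))) := by
  have hA : ∀ ω, 0 < Q.w ω → c.A (π i ω) = c.A (π (vb k) ω) := by
    intro ω hω
    have := h.keys ω hω i (vb k)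
    unfold key at this
    simp only [Prod.mk.injEq] at this
    exact this.2.2.1
  have h1 := h.cost
  -- the pair `(T_i, TT)`
  have h2 : mi Q (fun ω => (c.x (π (vb k) ω), c.y (π (vb k) ω)))
      (fun ω => (TT c o π ω i, TT c o π ω)) (fun ω => c.A (π (vb k) ω)) ≤
      mi Q (fun ω => (c.x (π (vb k) ω), c.y (π (vb k) ω))) (TT c o π)
        (fun ω => c.A (π (vb k) ω)) := by
    refine mi_mono_right Q _ ?_
    intro ω ω' _ _ e
    simp only [Prod.mk.injEq] at e ⊢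
    exact ⟨congrFun e.1 i, e.1⟩
  rw [mi_pair] at h2
  have h3 := mi_nonneg Q (fun ω => (c.x (π (vb k) ω), c.y (π (vb k) ω)))
    (fun ω => TT c o π ω i) (fun ω => c.A (π (vb k) ω))
  have h4 : mi Q (fun ω => (c.x (π (vb k) ω), c.y (π (vb k) ω))) (fun ω => TT c o π ω)
      (fun ω => (Y ω, TT c o π ω i, c.A (π (vb k) ω))) ≤
      mi Q (fun ω => (c.x (π (vb k) ω), c.y (π (vb k) ω))) (fun ω => TT c o π ω)
        (fun ω => (TT c o π ω i, c.A (π (vb k) ω))) := by
    refine mi_cond_le Q _ _ ?_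
    intro ω ω' p p' e
    simp only [Prod.mk.injEq] at e
    refine hY ω ω' p p' ?_
    simp only [Prod.mk.injEq]
    exact ⟨e.1.1, e.1.2, e.2.1, e.2.2⟩
  have h5 : mi Q X (fun ω => TT c o π ω) (fun ω => (Y ω, TT c o π ω i, c.A (π (vb k) ω))) ≤
      mi Q (fun ω => (c.x (π (vb k) ω), c.y (π (vb k) ω))) (fun ω => TT c o π ω)
        (fun ω => (Y ω, TT c o π ω i, c.A (π (vb k) ω))) := by
    refine mi_mono_left Q _ ?_
    intro ω ω' p p' e
    simp only [Prod.mk.injEq] at e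
    refine hX ω ω' p p' ?_
    simp only [Prod.mk.injEq]
    exact ⟨e.1.1, e.1.2, e.2.2.1⟩
  have h6 : hc Q X (fun ω => (Y ω, c.t (π i ω), o.G (π i ω), c.A (π i ω))) ≤
      hc Q X (fun ω => (Y ω, TT c o π ω i, c.A (π (vb k) ω))) := by
    refine hc_mono_right Q X ?_
    intro ω ω' p p' e
    simp only [Prod.mk.injEq] at e ⊢
    refine ⟨e.1, ?_, ?_⟩
    · exact Prod.ext e.2.1 e.2.2.1
    · rw [← hA ω p, ← hA ω' p']
      exact e.2.2.2
  have h7 : hc Q X (fun ω => (TT c o π ω, Y ω, TT c o π ω i, c.A (π (vb k) ω))) ≤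
      hc Q X (fun ω => (Y ω, TT c o π ω, c.A (π (vb k) ω))) := by
    refine hc_mono_right Q X ?_
    intro ω ω' p p' e
    simp only [Prod.mk.injEq] at e ⊢
    exact ⟨e.2.1, e.1, e.2.2.2⟩
  have h8 : mi Q X (fun ω => TT c o π ω) (fun ω => (Y ω, TT c o π ω i, c.A (π (vb k) ω))) =
      hc Q X (fun ω => (Y ω, TT c o π ω i, c.A (π (vb k) ω))) -
        hc Q X (fun ω => (TT c o π ω, Y ω, TT c o π ω i, c.A (π (vb k) ω))) := rfl
  linarith

end fam

section fam2

variable {Ω Ω' : Type} [Fintype Ω] [Fintype Ω'] {m κ k : ℕ}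

theorem cf_pr_le {T : Type*} {Q : Law Ω'} {E : Ω' → Prop} {p : ℝ} (hp : 0 < p)
    (hE : p ≤ prE Q E) (X : Ω' → T) (x : T) :
    (Stk.on Q E).pr X x ≤ 1 / p * Q.pr X x := by
  have hD : Dom (Stk.on Q E) id Q (1 / p) := Dom.on hp hE
  unfold Law.pr
  rw [Finset.mul_sum]
  refine Finset.sum_le_sum fun ω _ => ?_
  have := hD ω
  rwa [pr_id] at this

/-- conditioning a family on an event -/
theorem CubeFam.on {a : ℕ} {K cost p : ℝ} {P : Law Ω} {c : Cf Ω m} {o : Ob Ω m κ} {Q : Law Ω'}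
    {π : CI k → Ω' → Ω} (h : CubeFam a k K cost P c o Q π) {E : Ω' → Prop} (hp : 0 < p)
    (hE : p ≤ prE Q E) : CubeFam a k (K / p) ((cost + Real.log 2) / p) P c o (on Q E) π := by
  have hE0 : 0 < prE Q E := hp.trans_le hE
  have hD : Dom (Stk.on Q E) id Q (1 / p) := Dom.on hp hE
  have hp1 : 0 ≤ 1 / p := by positivity
  refine ⟨fun ω hω i j => h.keys ω (on_pos hE0 hω).2 i j, fun i => ?_, fun S hS w => ?_,
    fun S w => ?_, ?_, fun ω hω => h.cube ω (on_pos hE0 hω).2⟩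
  · have h1 := hD.comp (h.dom i)
    have h2 : 1 / p * K = K / p := by ring
    rw [h2] at h1
    exact h1
  · refine (cf_pr_le hp hE _ w).trans ?_
    calc 1 / p * Q.pr (fun ω => ![π (vb k) ω, π (Sum.inl S) ω]) w
        ≤ 1 / p * (K * cw P (key c a) 1 w) := mul_le_mul_of_nonneg_left (h.pair S hS w) hp1
      _ = K / p * cw P (key c a) 1 w := by ring
  · refine (cf_pr_le hp hE _ w).trans ?_
    calc 1 / p * Q.pr (fun ω => (Fin.snoc (fun l => π (Sum.inr l) ω) (π (Sum.inl S) ω) :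
          Fin (k + 2) → Ω)) w
        ≤ 1 / p * (K * cw P (key c a) (k + 1) w) := mul_le_mul_of_nonneg_left (h.node S w) hp1
      _ = K / p * cw P (key c a) (k + 1) w := by ring
  · have h1 := hD.mi_le (fun ω => (c.x (π (vb k) ω), c.y (π (vb k) ω))) (TT c o π)
      (fun ω => c.A (π (vb k) ω))
    have h2 : 1 / p * (mi Q (fun ω => (c.x (π (vb k) ω), c.y (π (vb k) ω))) (TT c o π)
        (fun ω => c.A (π (vb k) ω)) + Real.log 2) ≤ 1 / p * (cost + Real.log 2) :=
      mul_le_mul_of_nonneg_left (by linarith [h.cost]) hp1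
    have h3 : 1 / p * (cost + Real.log 2) = (cost + Real.log 2) / p := by ring
    rw [h3] at h2
    exact h1.trans h2

end fam2

end Vale.Agent.P127.Stk
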