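import Vale.Agent.P127.Stk.PolyDefs
import Vale.Agent.P127.Stk.Lib

/-!
# P127 / Stk : interfaces used by the step for `Γ` (PROOF.md, section 8)

The results of the sections 2, 3, 4, 7 in the form used by StepC, as Props.
-/

namespace Vale.Agent.P127.Stk

open Finset Vale.Agent.P127

/-! ### Section 7 -/

/-- `U` is a cube: `U S = u₀ + ∑_{i ∈ S} λ_i`; an arithmetic progression `u₀ + j μ` gives the
(degenerate) cube `U S = u₀ + |S| μ` -/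
def IsCube {p : ℕ} (U : Finset (Fin p) → ℤ) : Prop :=
  ∃ (u₀ : ℤ) (lam : Fin p → ℤ), ∀ S, U S = u₀ + ∑ i ∈ S, lam i

/-! ### Section 3 -/

/-- Section 3, killing lemma (KILL) -/
def PKill (R : Gr) : Prop := ∀ (m : ℕ) (h : ℝ) (κ : ℕ), NK R m h (κ + 1) →
  ∀ η : ℝ, 0 < η → ∃ δ : ℝ, 0 < δ ∧ ∀ (K : ℝ) (g : R.G), ∃ n : ℕ, ∀ (L : ℕ) (e C : ℝ),
    R.ok g n L e C →
  ∀ (Ω Ω' D : Type) [Fintype Ω] [Fintype Ω'] (P : Law Ω) (c : Cf Ω m) (o : Ob Ω m κ)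
    (Q : Law Ω') (π : Ω' → Ω) (Dt : Ω' → D) (r r' : ℕ) (i0 : Fin m) (v : Ω' → Fin m → ℝ),
    Good P c L e C → Dom Q π P K → r ≤ r' → r' ≤ L → η * L ≤ (r' : ℝ) - r →
    i0 ∉ o.J → Fn Q (fun ω => o.Γ (π ω)) Dt → Fn Q v Dt →
    (∀ ω, 0 < Q.w ω → v ω i0 = 1 ∧ (∀ i, |v ω i| ≤ 1) ∧ ∀ j ∈ o.J, v ω j = 0) →
    mi Q (fun ω => (c.x (π ω), c.y (π ω))) Dt
      (fun ω => (c.t (π ω), c.A (π ω), fl r (c.x (π ω)), fl r (c.y (π ω)))) ≤ δ * L →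
    hc Q (fun ω => fl r' (fun i => o.F c (π ω) i - o.F c (π ω) i0 * v ω i))
      (fun ω => (fl r (c.x (π ω)), fl r (c.y (π ω)), c.t (π ω), Dt ω, c.A (π ω))) ≤
      (h - κ - 1) * ((r' : ℝ) - r) * Real.log 2 + δ * L → False

/-! ### Section 2 -/

/-- Section 2, rates (RATES), for the law `Q`; `L` digits, accuracy `ε` -/
structure Rates {Ω Ω' : Type} [Fintype Ω] [Fintype Ω'] {m κ : ℕ} (h : ℝ) (L : ℕ) (ε : ℝ)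
    (c : Cf Ω m) (o : Ob Ω m κ) (Q : Law Ω') (π : Ω' → Ω) : Prop where
  r1 : ∀ s s' : ℕ, s ≤ s' → s' ≤ L → (h - κ) * ((s' : ℝ) - s) * Real.log 2 - ε * L ≤
    hc Q (fun ω => fl s' (o.F c (π ω)))
      (fun ω => (fl s (c.x (π ω)), fl s (c.y (π ω)), c.t (π ω), o.G (π ω), c.A (π ω)))
  r3 : ∀ s s' : ℕ, s ≤ s' → s' ≤ L → hc Q (fun ω => fl s' (o.F c (π ω)))
      (fun ω => (fl s (o.F c (π ω)), c.t (π ω), o.G (π ω), c.A (π ω))) ≤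
    (h - κ) * ((s' : ℝ) - s) * Real.log 2 + ε * L
  r4 : ∀ s s' : ℕ, s ≤ s' → s' ≤ L → (κ : ℝ) * s * Real.log 2 - ε * L ≤
    hc Q (fun ω => fl s (fun j : {j // j ∈ o.J} => c.pt (π ω) j))
      (fun ω => (fl s' (o.F c (π ω)), c.t (π ω), o.G (π ω), c.A (π ω)))

/-- Section 2 (RATES) -/
def PRates (R : Gr) : Prop := ∀ (m : ℕ) (h : ℝ) (κ : ℕ), LB R m h → ∀ (ε K : ℝ), 0 < ε →
  ∃ ι : ℝ, 0 < ι ∧ ∀ g : R.G, ∃ n : ℕ, ∀ (L : ℕ) (e C : ℝ), R.ok g n L e C →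
  ∀ (Ω Ω' : Type) [Fintype Ω] [Fintype Ω'] (P : Law Ω) (c : Cf Ω m) (o : Ob Ω m κ)
    (Q : Law Ω') (π : Ω' → Ω), Good P c L e C →
    mi P (fun ω => (c.x ω, c.y ω)) o.G (fun ω => (c.t ω, c.A ω)) ≤ ι * L →
    hc P (fun ω => fl L (o.F c ω)) (fun ω => (c.t ω, o.G ω, c.A ω)) ≤
      (h - κ + ι) * L * Real.log 2 →
    Dom Q π P K → Rates h L ε c o Q π

end Vale.Agent.P127.Stk
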