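import Vale.Agent.P127.Stk.PolyDefs
import Vale.Agent.P127.Stk.Lib

/-!
# P127 / Stk / CLaw : the law of progressions of times: domination and cost (helper662)
-/

namespace Vale.Agent.P127.Stk

open Finset Vale.Agent.P127

section dens

variable {Ω Ω' : Type} [Fintype Ω] [Fintype Ω'] {S T U V : Type*}

/-- probabilities of equivalent values -/
theorem claw_pr_congr (P : Law Ω) {X : Ω → S} {Y : Ω → T} (h : Fn P X Y) (h' : Fn P Y X)
    {ω : Ω} (hω : 0 < P.w ω) : P.pr X (X ω) = P.pr Y (Y ω) := by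
  classical
  unfold Law.pr
  rw [Finset.sum_filter, Finset.sum_filter]
  refine Finset.sum_congr rfl fun ω' _ => ?_
  rcases (P.nn ω').eq_or_lt with h0 | h0
  · simp [← h0]
  · by_cases h1 : X ω' = X ω
    · rw [if_pos h1, if_pos (h' ω' ω h0 hω h1)]
    · rw [if_neg h1, if_neg fun h2 => h1 (h ω' ω h0 hω h2)]

/-- information density -/
noncomputable def dens (P : Law Ω) (X : Ω → S) (Y : Ω → T) (Z : Ω → U) (ω : Ω) : ℝ :=
  Real.log (P.pr (fun ω => (X ω, Y ω, Z ω)) (X ω, Y ω, Z ω)) + Real.log (P.pr Z (Z ω)) -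
    Real.log (P.pr (fun ω => (X ω, Z ω)) (X ω, Z ω)) -
    Real.log (P.pr (fun ω => (Y ω, Z ω)) (Y ω, Z ω))

theorem ex_dens (P : Law Ω) (X : Ω → S) (Y : Ω → T) (Z : Ω → U) :
    P.ex (dens P X Y Z) = mi P X Y Z := by
  unfold dens mi hc Law.H
  rw [P.ex_sub, P.ex_sub, P.ex_add, P.ex_neg, P.ex_neg, P.ex_neg, P.ex_neg]
  ring

/-- a kernel integrates to at most one -/
theorem claw_kernel (P : Law Ω) (X : Ω → S) (Y : Ω → T) (q : S → T → ℝ)
    (hq0 : ∀ x y, 0 ≤ q x y) (hq1 : ∀ y, ∀ F : Finset S, ∑ x ∈ F, q x y ≤ 1) :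
    P.ex (fun ω => q (X ω) (Y ω) * P.pr Y (Y ω) / P.pr (fun ω => (X ω, Y ω)) (X ω, Y ω)) ≤ 1 := by
  classical
  rw [P.ex_comp (fun ω => (X ω, Y ω))
    (fun z => q z.1 z.2 * P.pr Y z.2 / P.pr (fun ω => (X ω, Y ω)) z)]
  calc ∑ z ∈ img (fun ω => (X ω, Y ω)), P.pr (fun ω => (X ω, Y ω)) z *
        (q z.1 z.2 * P.pr Y z.2 / P.pr (fun ω => (X ω, Y ω)) z)
      ≤ ∑ z ∈ img (fun ω => (X ω, Y ω)), q z.1 z.2 * P.pr Y z.2 := by
        refine Finset.sum_le_sum fun z _ => ?_
        rcases (P.pr_nonneg (fun ω => (X ω, Y ω)) z).eq_or_lt with h0 | h0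
        · rw [← h0]
          simpa using mul_nonneg (hq0 z.1 z.2) (P.pr_nonneg Y z.2)
        · rw [mul_div_cancel₀ _ h0.ne']
    _ ≤ ∑ z ∈ (img X) ×ˢ (img Y), q z.1 z.2 * P.pr Y z.2 := by
          refine Finset.sum_le_sum_of_subset_of_nonneg ?_
            fun z _ _ => mul_nonneg (hq0 _ _) (P.pr_nonneg _ _)
          intro z hz
          simp only [mem_img, mem_product] at hz ⊢
          obtain ⟨ω, rfl⟩ := hz
          exact ⟨⟨ω, rfl⟩, ⟨ω, rfl⟩⟩
    _ = ∑ y ∈ img Y, (∑ x ∈ img X, q x y) * P.pr Y y := by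
          rw [Finset.sum_product_right]
          refine Finset.sum_congr rfl fun y _ => ?_
          rw [Finset.sum_mul]
    _ ≤ ∑ y ∈ img Y, P.pr Y y := by
          refine Finset.sum_le_sum fun y _ => ?_
          have := mul_le_mul_of_nonneg_right (hq1 y (img X)) (P.pr_nonneg Y y)
          simpa using this
    _ ≤ 1 := (P.sum_pr_image Y).le

theorem dens_neg_le (P : Law Ω) (X : Ω → S) (Y : Ω → T) (Z : Ω → U) :
    P.ex (fun ω => max (-dens P X Y Z ω) 0) ≤ 1 := by
  have h := claw_kernel P X (fun ω => (Y ω, Z ω))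
    (fun x yz => P.pr (fun ω => (X ω, Z ω)) (x, yz.2) / P.pr Z yz.2)
    (fun x yz => div_nonneg (P.pr_nonneg _ _) (P.pr_nonneg _ _)) ?_
  · refine le_trans (P.ex_mono fun ω hω => ?_) h
    have h1 := P.pr_pos (fun ω => (X ω, Y ω, Z ω)) hω
    have h2 := P.pr_pos Z hω
    have h3 := P.pr_pos (fun ω => (X ω, Z ω)) hω
    have h4 := P.pr_pos (fun ω => (Y ω, Z ω)) hω
    have h5 : 0 < P.pr (fun ω => (X ω, Z ω)) (X ω, Z ω) / P.pr Z (Z ω) *
        P.pr (fun ω => (Y ω, Z ω)) (Y ω, Z ω) /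
        P.pr (fun ω => (X ω, Y ω, Z ω)) (X ω, Y ω, Z ω) := by positivity
    refine max_le ?_ h5.le
    have h6 := Real.log_le_sub_one_of_pos h5
    rw [Real.log_div (by positivity) h1.ne', Real.log_mul (by positivity) h4.ne',
      Real.log_div h3.ne' h2.ne'] at h6
    unfold dens
    show _ ≤ P.pr (fun ω => (X ω, Z ω)) (X ω, Z ω) / P.pr Z (Z ω) *
        P.pr (fun ω => (Y ω, Z ω)) (Y ω, Z ω) /
        P.pr (fun ω => (X ω, Y ω, Z ω)) (X ω, Y ω, Z ω)
    linarith
  · intro yz F
    rw [← Finset.sum_div]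
    exact div_le_one_of_le₀ (P.sum_pr_pair_le X Z yz.2 F) (P.pr_nonneg _ _)

theorem claw_ex_pull (Q : Law Ω') (π : Ω' → Ω) (f : Ω → ℝ) :
    Q.ex (fun ω => f (π ω)) = ∑ ω, Q.pr π ω * f ω := by
  classical
  rw [Q.ex_comp π f]
  refine Finset.sum_subset (Finset.subset_univ _) fun ω _ hω => ?_
  have h0 : Q.pr π ω = 0 := by
    unfold Law.pr
    refine Finset.sum_eq_zero fun ω' hω' => ?_
    exfalso
    apply hω
    rw [mem_img]
    exact ⟨ω', by simpa using hω'⟩
  rw [h0, zero_mul]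

/-- the mean of an information density under a dominated law -/
theorem dens_dom {Q : Law Ω'} {π : Ω' → Ω} {P : Law Ω} {K : ℝ} (h : Dom Q π P K)
    (X : Ω → S) (Y : Ω → T) (Z : Ω → U) :
    Q.ex (fun ω => dens P X Y Z (π ω)) ≤ K * (mi P X Y Z + 1) := by
  have hK : 0 ≤ K := zero_le_one.trans h.one_le
  have h1 : Q.ex (fun ω => dens P X Y Z (π ω)) ≤
      Q.ex (fun ω => (fun ω => max (dens P X Y Z ω) 0) (π ω)) :=
    Q.ex_mono fun ω _ => le_max_left _ _
  have h2 : Q.ex (fun ω => (fun ω => max (dens P X Y Z ω) 0) (π ω)) ≤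
      K * P.ex (fun ω => max (dens P X Y Z ω) 0) := by
    rw [claw_ex_pull Q π (fun ω => max (dens P X Y Z ω) 0)]
    unfold Law.ex
    rw [Finset.mul_sum]
    refine Finset.sum_le_sum fun ω _ => ?_
    rw [← mul_assoc]
    exact mul_le_mul_of_nonneg_right (h ω) (le_max_right _ _)
  have h3 : P.ex (fun ω => max (dens P X Y Z ω) 0) =
      mi P X Y Z + P.ex (fun ω => max (-dens P X Y Z ω) 0) := by
    rw [← ex_dens, ← P.ex_add]
    refine P.ex_congr fun ω _ => ?_
    rcases le_total 0 (dens P X Y Z ω) with h4 | h4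
    · rw [max_eq_left h4, max_eq_right (by linarith)]
      ring
    · rw [max_eq_right h4, max_eq_left (by linarith)]
      ring
  have h4 := dens_neg_le P X Y Z
  have h5 : P.ex (fun ω => max (dens P X Y Z ω) 0) ≤ mi P X Y Z + 1 := by linarith
  calc _ ≤ _ := h1
    _ ≤ _ := h2
    _ ≤ _ := mul_le_mul_of_nonneg_left h5 hK

end dens

section progressions

variable {Ω : Type} [Fintype Ω] {S S' T T' U' V : Type*}

open Classical in
/-- progressions of length `p + 1` in `[0, M)` -/
noncomputable def apC (M p : ℕ) : Finset (Fin (p + 1) → ℤ) :=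
  (Fintype.piFinset fun _ => Ico (0 : ℤ) M).filter
    fun c => ∃ μ : ℤ, ∀ j : Fin (p + 1), c j = c 0 + (j : ℕ) * μ

theorem mem_apC {M p : ℕ} {c : Fin (p + 1) → ℤ} : c ∈ apC M p ↔
    (∀ j, 0 ≤ c j ∧ c j < M) ∧ ∃ μ : ℤ, ∀ j : Fin (p + 1), c j = c 0 + (j : ℕ) * μ := by
  simp [apC, Fintype.mem_piFinset, and_assoc]

theorem apC_inj {M p : ℕ} {c c' : Fin (p + 1) → ℤ} (hc : c ∈ apC M p) (hc' : c' ∈ apC M p)
    {i j : Fin (p + 1)} (hij : i ≠ j) (hi : c i = c' i) (hj : c j = c' j) : c = c' := by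
  obtain ⟨_, μ, h⟩ := mem_apC.1 hc
  obtain ⟨_, μ', h'⟩ := mem_apC.1 hc'
  have h1 : ((i : ℕ) : ℤ) * (μ - μ') = ((j : ℕ) : ℤ) * (μ - μ') := by
    have e1 := h i
    have e2 := h' i
    have e3 := h j
    have e4 := h' j
    linear_combination -e1 + e2 + e3 - e4 + hi - hj
  have h2 : μ = μ' := by
    by_contra hne
    have h3 : ((i : ℕ) : ℤ) = ((j : ℕ) : ℤ) := mul_right_cancel₀ (sub_ne_zero.2 hne) h1
    apply hij
    apply Fin.ext
    exact_mod_cast h3
  funext k
  have e1 := h i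
  have e2 := h' i
  have e5 := h k
  have e6 := h' k
  rw [h2] at e1 e5
  linear_combination e5 - e6 - e1 + e2 + hi

theorem apC_card_fix2 {M p : ℕ} {i j : Fin (p + 1)} (hij : i ≠ j) (x y : ℤ) :
    ((apC M p).filter fun c => c i = x ∧ c j = y).card ≤ 1 := by
  classical
  rw [Finset.card_le_one]
  intro c hc c' hc'
  rw [mem_filter] at hc hc'
  exact apC_inj hc.1 hc'.1 hij (hc.2.1.trans hc'.2.1.symm) (hc.2.2.trans hc'.2.2.symm)

theorem apC_card_fix {M p : ℕ} (hp : 1 ≤ p) (i : Fin (p + 1)) (x : ℤ) :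
    ((apC M p).filter fun c => c i = x).card ≤ M := by
  classical
  obtain ⟨j, hij⟩ : ∃ j : Fin (p + 1), i ≠ j := by
    by_cases h0 : i = 0
    · refine ⟨Fin.last p, ?_⟩
      rw [h0]
      intro h
      have := congrArg Fin.val h
      simp at this
      omega
    · exact ⟨0, h0⟩
  have : ((apC M p).filter fun c => c i = x).card ≤ (Ico (0 : ℤ) M).card := by
    refine Finset.card_le_card_of_injOn (fun c => c j) ?_ ?_
    · intro c hc
      have hc1 := (mem_filter.1 (Finset.mem_coe.1 hc)).1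
      have := (mem_apC.1 hc1).1 j
      simpa using this
    · intro c hc c' hc' he
      have h1 := mem_filter.1 (Finset.mem_coe.1 hc)
      have h2 := mem_filter.1 (Finset.mem_coe.1 hc')
      exact apC_inj h1.1 h2.1 hij (h1.2.trans h2.2.symm) he
  simpa using this

theorem apC_card {M p : ℕ} (hp : 1 ≤ p) : (apC M p).card ≤ M ^ 2 := by
  classical
  have h0 : (0 : Fin (p + 1)) ≠ Fin.last p := by
    intro h
    have := congrArg Fin.val h
    simp at this
    omega
  have : (apC M p).card ≤ (Ico (0 : ℤ) M ×ˢ Ico (0 : ℤ) M).card := by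
    refine Finset.card_le_card_of_injOn (fun c => (c 0, c (Fin.last p))) ?_ ?_
    · intro c hc
      have h1 := (mem_apC.1 (Finset.mem_coe.1 hc)).1 0
      have h2 := (mem_apC.1 (Finset.mem_coe.1 hc)).1 (Fin.last p)
      simp only [Finset.coe_product, Set.mem_prod, Finset.mem_coe, mem_Ico]
      exact ⟨h1, h2⟩
    · intro c hc c' hc' he
      simp only [Prod.mk.injEq] at he
      exact apC_inj (Finset.mem_coe.1 hc) (Finset.mem_coe.1 hc') h0 he.1 he.2
  rw [Finset.card_product] at this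
  simp only [Int.card_Ico, sub_zero, Int.toNat_natCast] at this
  rw [sq]
  exact this

open Classical in
/-- product formula for sums over tuples whose positions lie in a set of configurations -/
theorem sum_conf {ι : Type} [Fintype ι] [DecidableEq ι] (U : Ω → ℤ) (F : ι → Ω → ℝ) (𝒞 : Finset (ι → ℤ)) :
    ∑ w : ι → Ω, (if (fun j => U (w j)) ∈ 𝒞 then ∏ j, F j (w j) else 0) =
      ∑ c ∈ 𝒞, ∏ j, ∑ ω with U ω = c j, F j ω := by
  rw [← Finset.sum_filter]
  rw [← Finset.sum_fiberwise_of_maps_to (g := fun w : ι → Ω => fun j => U (w j)) (t := 𝒞)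
    (s := univ.filter fun w : ι → Ω => (fun j => U (w j)) ∈ 𝒞)]
  · refine Finset.sum_congr rfl fun c hc => ?_
    rw [Finset.prod_univ_sum]
    refine Finset.sum_congr ?_ fun _ _ => rfl
    ext w
    simp only [mem_filter, mem_univ, true_and, Fintype.mem_piFinset]
    constructor
    · rintro ⟨_, h2⟩ j
      exact congrFun h2 j
    · intro h
      have h2 : (fun j => U (w j)) = c := funext h
      exact ⟨by rw [h2]; exact hc, h2⟩
  · intro w hw
    simpa using hw

/-- product formula without constraint -/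
theorem sum_prod_tuple {ι : Type} [Fintype ι] [DecidableEq ι] (F : ι → Ω → ℝ) :
    ∑ w : ι → Ω, ∏ j, F j (w j) = ∏ j, ∑ ω, F j ω := by
  classical
  rw [Finset.prod_univ_sum]
  simp

open Classical in
/-- the conditional weight of a good point given the key and the position -/
noncomputable def gF (P : Law Ω) (W : Ω → S) (U : Ω → ℤ) (M : ℕ) (ω : Ω) : ℝ :=
  if P.pr W (W ω) ≤ 2 * M * P.pr (fun ω => (W ω, U ω)) (W ω, U ω) then
    P.w ω / P.pr (fun ω => (W ω, U ω)) (W ω, U ω) else 0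

theorem gF_nonneg (P : Law Ω) (W : Ω → S) (U : Ω → ℤ) (M : ℕ) (ω : Ω) : 0 ≤ gF P W U M ω := by
  unfold gF
  split_ifs
  · exact div_nonneg (P.nn _) (P.pr_nonneg _ _)
  · exact le_rfl

theorem gF_le (P : Law Ω) (W : Ω → S) (U : Ω → ℤ) (M : ℕ) (ω : Ω) :
    gF P W U M ω ≤ P.w ω / P.pr (fun ω => (W ω, U ω)) (W ω, U ω) := by
  unfold gF
  split_ifs
  · exact le_rfl
  · exact div_nonneg (P.nn _) (P.pr_nonneg _ _)

theorem gF_pos {P : Law Ω} {W : Ω → S} {U : Ω → ℤ} {M : ℕ} {ω : Ω} (h : 0 < gF P W U M ω) :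
    0 < P.w ω := by
  rcases (P.nn ω).eq_or_lt with h0 | h0
  · have := gF_le P W U M ω
    rw [← h0, zero_div] at this
    exact absurd h (not_lt.2 this)
  · exact h0

/-- the upper bound for a good point -/
theorem gF_le_key (P : Law Ω) (W : Ω → S) (U : Ω → ℤ) (M : ℕ) (ω : Ω) :
    P.pr W (W ω) * gF P W U M ω ≤ 2 * M * P.w ω := by
  unfold gF
  split_ifs with h
  · rcases (P.nn ω).eq_or_lt with h0 | h0
    · rw [← h0]
      simp
    · have h1 := P.pr_pos (fun ω => (W ω, U ω)) h0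
      rw [mul_div_assoc', div_le_iff₀ h1]
      have := mul_le_mul_of_nonneg_right h h0.le
      nlinarith
  · have := P.nn ω
    rw [mul_zero]
    positivity

theorem clw_eq (P : Law Ω) (W : Ω → S) (U : Ω → ℤ) {M p : ℕ} (hM : 1 ≤ M)
    (w : Fin (p + 1) → Ω) :
    apw P W U M p w = open Classical in
      if (∀ j, W (w j) = W (w 0)) ∧ ∃ μ : ℤ, ∀ j : Fin (p + 1), U (w j) = U (w 0) + (j : ℕ) * μ
      then P.pr W (W (w 0)) / (M : ℝ) ^ (p + 1) * ∏ j, gF P W U M (w j) else 0 := by
  classical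
  unfold apw cw
  by_cases h1 : ∃ μ : ℤ, ∀ j : Fin (p + 1), U (w j) = U (w 0) + (j : ℕ) * μ
  · by_cases h2 : ∀ j, W (w j) = W (w 0)
    · rw [if_pos h1, if_pos h2, if_pos ⟨h2, h1⟩]
      have hM0 : (0 : ℝ) < M := by exact_mod_cast hM
      rcases (P.pr_nonneg W (W (w 0))).eq_or_lt with h0 | h0
      · have h3 : P.w (w 0) = 0 := by
          have := P.w_le_pr W (w 0)
          rw [← h0] at this
          exact le_antisymm this (P.nn _)
        have h4 : ∏ i, P.w (w i) = 0 := Finset.prod_eq_zero (mem_univ 0) h3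
        rw [h4, ← h0]
        simp
      · have h3 : ∀ j, P.w (w j) * idn P W U M (w j) =
            P.pr W (W (w 0)) / M * gF P W U M (w j) := by
          intro j
          unfold idn gF
          rw [h2 j]
          split_ifs
          · field_simp
          · simp
        have h4 : (∏ i, P.w (w i)) * ∏ j, idn P W U M (w j) =
            (P.pr W (W (w 0)) / M) ^ (p + 1) * ∏ j, gF P W U M (w j) := by
          rw [← Finset.prod_mul_distrib, Finset.prod_congr rfl fun j _ => h3 j,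
            Finset.prod_mul_distrib, Finset.prod_const, Finset.card_univ, Fintype.card_fin]
        rw [div_mul_eq_mul_div, h4, div_pow, pow_succ (P.pr W (W (w 0))) p]
        field_simp
    · rw [if_pos h1, if_neg h2, if_neg fun h => h2 h.1, zero_mul]
  · rw [if_neg h1, if_neg fun h => h1 h.2]

theorem clw_nonneg (P : Law Ω) (W : Ω → S) (U : Ω → ℤ) {M p : ℕ} (hM : 1 ≤ M)
    (w : Fin (p + 1) → Ω) : 0 ≤ apw P W U M p w := by
  classical
  rw [clw_eq P W U hM w]
  split_ifs
  · exact mul_nonneg (div_nonneg (P.pr_nonneg _ _) (by positivity))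
      (Finset.prod_nonneg fun j _ => gF_nonneg P W U M _)
  · exact le_rfl

/-- support of the progression weights -/
theorem clw_pos {P : Law Ω} {W : Ω → S} {U : Ω → ℤ} {M p : ℕ} (hM : 1 ≤ M)
    {w : Fin (p + 1) → Ω} (h : 0 < apw P W U M p w) :
    (∀ j, W (w j) = W (w 0)) ∧
    (∃ μ : ℤ, ∀ j : Fin (p + 1), U (w j) = U (w 0) + (j : ℕ) * μ) ∧ ∀ j, 0 < P.w (w j) := by
  classical
  rw [clw_eq P W U hM w] at h
  split_ifs at h with h1
  · refine ⟨h1.1, h1.2, fun j => ?_⟩
    refine gF_pos (M := M) (W := W) (U := U) ?_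
    rcases (gF_nonneg P W U M (w j)).eq_or_lt with h0 | h0
    · exfalso
      rw [Finset.prod_eq_zero (mem_univ j) h0.symm, mul_zero] at h
      exact lt_irrefl _ h
    · exact h0
  · exact absurd h (lt_irrefl _)

/-- the kernel of a sample with given key and position is at most a probability -/
theorem sum_gF_le (P : Law Ω) (W : Ω → S) (U : Ω → ℤ) (M : ℕ) (s : S) (u : ℤ) :
    open Classical in
    ∑ ω with U ω = u, (if W ω = s then gF P W U M ω else 0) ≤ 1 := by
  classical
  rw [← Finset.sum_filter, Finset.filter_filter]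
  have h1 : ∑ ω with U ω = u ∧ W ω = s, gF P W U M ω ≤
      ∑ ω with U ω = u ∧ W ω = s, P.w ω / P.pr (fun ω => (W ω, U ω)) (s, u) := by
    refine Finset.sum_le_sum fun ω hω => ?_
    have h2 : U ω = u ∧ W ω = s := by simpa using hω
    have := gF_le P W U M ω
    rw [h2.1, h2.2] at this
    exact this
  refine h1.trans ?_
  rw [← Finset.sum_div]
  have h3 : ∑ ω with U ω = u ∧ W ω = s, P.w ω = P.pr (fun ω => (W ω, U ω)) (s, u) := by
    unfold Law.pr
    refine Finset.sum_congr ?_ fun _ _ => rfl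
    ext ω
    simp [and_comm]
  rw [h3]
  exact div_self_le_one _

open Classical in
/-- sums of the progression weights with some vertices prescribed -/
theorem clw_marg (P : Law Ω) (W : Ω → S) (U : Ω → ℤ) {M p : ℕ} (hM : 1 ≤ M)
    (hU : ∀ ω, 0 < P.w ω → 0 ≤ U ω ∧ U ω < M) (J : Finset (Fin (p + 1))) (hJ : J.Nonempty)
    (v : Fin (p + 1) → Ω) (s : S) (hs : ∀ j ∈ J, W (v j) = s) :
    ∑ w with (∀ j ∈ J, w j = v j), apw P W U M p w ≤
      P.pr W s / (M : ℝ) ^ (p + 1) *
        (((apC M p).filter fun c => ∀ j ∈ J, c j = U (v j)).card * ∏ j ∈ J, gF P W U M (v j)) := by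
  set F : Fin (p + 1) → Ω → ℝ := fun j ω =>
    if j ∈ J then (if ω = v j then gF P W U M ω else 0)
    else (if W ω = s then gF P W U M ω else 0) with hF
  have hF0 : ∀ j ω, 0 ≤ F j ω := by
    intro j ω
    simp only [hF]
    have := gF_nonneg P W U M ω
    split_ifs <;> simp [this]
  have hc0 : 0 ≤ P.pr W s / (M : ℝ) ^ (p + 1) := div_nonneg (P.pr_nonneg _ _) (by positivity)
  have h1 : ∑ w with (∀ j ∈ J, w j = v j), apw P W U M p w ≤
      ∑ w : Fin (p + 1) → Ω, P.pr W s / (M : ℝ) ^ (p + 1) *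
        (if (fun j => U (w j)) ∈ apC M p then ∏ j, F j (w j) else 0) := by
    rw [Finset.sum_filter]
    refine Finset.sum_le_sum fun w _ => ?_
    have hr : 0 ≤ P.pr W s / (M : ℝ) ^ (p + 1) *
        (if (fun j => U (w j)) ∈ apC M p then ∏ j, F j (w j) else 0) := by
      refine mul_nonneg hc0 ?_
      split_ifs
      · exact Finset.prod_nonneg fun j _ => hF0 j _
      · exact le_rfl
    by_cases h2 : ∀ j ∈ J, w j = v j
    · rw [if_pos h2]
      rcases (clw_nonneg P W U hM w).eq_or_lt with h3 | h3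
      · rw [← h3]
        exact hr
      · obtain ⟨g1, g2, g3⟩ := clw_pos hM h3
        obtain ⟨j0, hj0⟩ := hJ
        have g4 : W (w 0) = s := by
          rw [← g1 j0, h2 j0 hj0, hs j0 hj0]
        have g5 : (fun j => U (w j)) ∈ apC M p := mem_apC.2 ⟨fun j => hU _ (g3 j), g2⟩
        rw [if_pos g5, clw_eq P W U hM w, if_pos ⟨g1, g2⟩, g4]
        refine mul_le_mul_of_nonneg_left ?_ hc0
        refine le_of_eq (Finset.prod_congr rfl fun j _ => ?_)
        simp only [hF]
        by_cases hj : j ∈ J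
        · rw [if_pos hj, if_pos (h2 j hj)]
        · rw [if_neg hj, if_pos ((g1 j).trans g4)]
    · rw [if_neg h2]
      exact hr
  refine h1.trans ?_
  have hconf : ∑ w : Fin (p + 1) → Ω,
      (if (fun j => U (w j)) ∈ apC M p then ∏ j, F j (w j) else 0) =
      ∑ c ∈ apC M p, ∏ j, ∑ ω with U ω = c j, F j ω := by
    refine Eq.trans ?_ ((sum_conf U F (apC M p)).trans ?_)
    · refine Finset.sum_congr rfl fun w _ => ?_
      by_cases hw : (fun j => U (w j)) ∈ apC M p
      · simp only [if_pos hw]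
      · simp only [if_neg hw]
    · refine Finset.sum_congr rfl fun c _ => Finset.prod_congr rfl fun j _ =>
        Finset.sum_congr ?_ fun _ _ => rfl
      ext ω
      simp only [mem_filter]
  rw [← Finset.mul_sum, hconf]
  refine mul_le_mul_of_nonneg_left ?_ hc0
  have h2 : ∀ c : Fin (p + 1) → ℤ, ∏ j, ∑ ω with U ω = c j, F j ω ≤
      if ∀ j ∈ J, c j = U (v j) then ∏ j ∈ J, gF P W U M (v j) else 0 := by
    intro c
    have h3 : ∏ j, ∑ ω with U ω = c j, F j ω ≤
        ∏ j, (if j ∈ J then (if c j = U (v j) then gF P W U M (v j) else 0) else 1) := by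
      refine Finset.prod_le_prod (fun j _ => Finset.sum_nonneg fun ω _ => hF0 j ω)
        fun j _ => ?_
      by_cases hj : j ∈ J
      · simp only [hF, if_pos hj]
        rw [Finset.sum_ite_eq']
        by_cases h4 : c j = U (v j)
        · simp [h4]
        · have : ¬ (v j ∈ univ.filter fun ω => U ω = c j) := by
            simp only [mem_filter, mem_univ, true_and]
            exact fun h => h4 h.symm
          rw [if_neg this, if_neg h4]
      · simp only [hF, if_neg hj]
        exact sum_gF_le P W U M s (c j)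
    refine h3.trans ?_
    rw [Finset.prod_ite_mem]
    by_cases h4 : ∀ j ∈ J, c j = U (v j)
    · rw [if_pos h4]
      refine le_of_eq ?_
      rw [Finset.univ_inter]
      exact Finset.prod_congr rfl fun j hj => by rw [if_pos (h4 j hj)]
    · rw [if_neg h4]
      push_neg at h4
      obtain ⟨j, hj, h5⟩ := h4
      rw [Finset.univ_inter, Finset.prod_eq_zero hj (by rw [if_neg h5])]
  refine (Finset.sum_le_sum fun c _ => h2 c).trans ?_
  rw [← Finset.sum_filter, Finset.sum_const, nsmul_eq_mul]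

/-- domination of single vertices -/
theorem ap_dom1 {P : Law Ω} {W : Ω → S} {U : Ω → ℤ} {M p : ℕ} (hM : 1 ≤ M) (hp : 1 ≤ p)
    (hU : ∀ ω, 0 < P.w ω → 0 ≤ U ω ∧ U ω < M) {Q : Law (Fin (p + 1) → Ω)} {Z c : ℝ}
    (hQ : ∀ w, Q.w w = apw P W U M p w / Z) (hZ : 0 < Z)
    (hc : c / (M : ℝ) ^ (p - 1) ≤ Z) (hc0 : 0 < c) (i : Fin (p + 1)) :
    Dom Q (fun w => w i) P (8 / c) := by
  classical
  intro ω
  have hM0 : (0 : ℝ) < M := by exact_mod_cast hM
  have h1 := clw_marg P W U hM hU {i} ⟨i, mem_singleton_self i⟩ (fun _ => ω) (W ω)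
    (fun j _ => rfl)
  have h2 : (((apC M p).filter fun c => ∀ j ∈ ({i} : Finset (Fin (p + 1))), c j = U ω).card
      : ℝ) ≤ M := by
    have := apC_card_fix (M := M) hp i (U ω)
    simp only [mem_singleton, forall_eq]
    exact_mod_cast this
  rw [Finset.prod_singleton] at h1
  have h3 : Q.pr (fun w => w i) ω = (∑ w with (∀ j ∈ ({i} : Finset (Fin (p + 1))), w j = ω),
      apw P W U M p w) / Z := by
    unfold Law.pr
    rw [Finset.sum_div]
    refine Finset.sum_congr ?_ fun w _ => hQ w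
    ext w
    simp
  rw [h3, div_le_iff₀ hZ]
  refine h1.trans ?_
  have h4 := gF_le_key P W U M ω
  have h5 := gF_nonneg P W U M ω
  have h6 := P.pr_nonneg W (W ω)
  have h7 : P.pr W (W ω) / (M : ℝ) ^ (p + 1) *
      ((((apC M p).filter fun c => ∀ j ∈ ({i} : Finset (Fin (p + 1))), c j = U ω).card : ℝ) *
        gF P W U M ω) ≤ P.pr W (W ω) / (M : ℝ) ^ (p + 1) * (M * gF P W U M ω) := by
    refine mul_le_mul_of_nonneg_left ?_ (div_nonneg h6 (by positivity))
    exact mul_le_mul_of_nonneg_right h2 h5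
  refine h7.trans ?_
  obtain ⟨q, rfl⟩ : ∃ q, p = q + 1 := ⟨p - 1, by omega⟩
  have h8 : P.pr W (W ω) / (M : ℝ) ^ (q + 1 + 1) * (M * gF P W U M ω) =
      (P.pr W (W ω) * gF P W U M ω) / (M : ℝ) ^ (q + 1) := by
    rw [pow_succ]
    field_simp
  rw [h8]
  have h9 : (P.pr W (W ω) * gF P W U M ω) / (M : ℝ) ^ (q + 1) ≤
      (2 * M * P.w ω) / (M : ℝ) ^ (q + 1) := div_le_div_of_nonneg_right h4 (by positivity)
  refine h9.trans ?_
  have h10 : 2 * M * P.w ω / (M : ℝ) ^ (q + 1) = 2 / (M : ℝ) ^ q * P.w ω := by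
    rw [pow_succ]
    field_simp
  rw [h10]
  have h11 : 2 / (M : ℝ) ^ q ≤ 8 / c * Z := by
    have : c / (M : ℝ) ^ q ≤ Z := by simpa using hc
    calc 2 / (M : ℝ) ^ q ≤ 8 / c * (c / (M : ℝ) ^ q) := by
          rw [div_mul_div_comm, mul_comm c, mul_div_mul_right _ _ hc0.ne']
          exact div_le_div_of_nonneg_right (by norm_num) (by positivity)
      _ ≤ 8 / c * Z := mul_le_mul_of_nonneg_left this (by positivity)
  calc 2 / (M : ℝ) ^ q * P.w ω ≤ 8 / c * Z * P.w ω := mul_le_mul_of_nonneg_right h11 (P.nn ω)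
    _ = 8 / c * P.w ω * Z := by ring

/-- domination of pairs of vertices -/
theorem ap_dom2 {P : Law Ω} {W : Ω → S} {U : Ω → ℤ} {M p : ℕ} (hM : 1 ≤ M) (hp : 1 ≤ p)
    (hU : ∀ ω, 0 < P.w ω → 0 ≤ U ω ∧ U ω < M) {Q : Law (Fin (p + 1) → Ω)} {Z c : ℝ}
    (hQ : ∀ w, Q.w w = apw P W U M p w / Z) (hZ : 0 < Z)
    (hc : c / (M : ℝ) ^ (p - 1) ≤ Z) (hc0 : 0 < c) {i j : Fin (p + 1)} (hij : i ≠ j)
    (v : Fin 2 → Ω) :
    Q.pr (fun w => ![w i, w j]) v ≤ 4 / c * cw P W 1 v := by
  classical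
  have hM0 : (0 : ℝ) < M := by exact_mod_cast hM
  by_cases hv : W (v 1) = W (v 0)
  · have hcw : cw P W 1 v = P.w (v 0) * P.w (v 1) / P.pr W (W (v 0)) := by
      unfold cw
      rw [if_pos (by
        intro k
        fin_cases k
        · rfl
        · exact hv)]
      rw [Fin.prod_univ_two, pow_one]
    have h1 := clw_marg P W U hM hU {i, j} ⟨i, by simp⟩
      (fun k => if k = i then v 0 else v 1) (W (v 0)) (by
        intro k hk
        by_cases hki : k = i
        · simp [hki]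
        · simp [hki, hv])
    have h2 : (((apC M p).filter fun c => ∀ k ∈ ({i, j} : Finset (Fin (p + 1))),
        c k = U (if k = i then v 0 else v 1)).card : ℝ) ≤ 1 := by
      have := apC_card_fix2 (M := M) hij (U (v 0)) (U (v 1))
      have h3 : ((apC M p).filter fun c => ∀ k ∈ ({i, j} : Finset (Fin (p + 1))),
          c k = U (if k = i then v 0 else v 1)) =
          ((apC M p).filter fun c => c i = U (v 0) ∧ c j = U (v 1)) := by
        ext c
        simp [Ne.symm hij]
      rw [h3]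
      exact_mod_cast this
    rw [Finset.prod_pair hij, if_pos rfl, if_neg (Ne.symm hij)] at h1
    have h3 : Q.pr (fun w => ![w i, w j]) v = (∑ w with
        (∀ k ∈ ({i, j} : Finset (Fin (p + 1))), w k = if k = i then v 0 else v 1),
        apw P W U M p w) / Z := by
      unfold Law.pr
      rw [Finset.sum_div]
      refine Finset.sum_congr ?_ fun w _ => hQ w
      ext w
      simp only [mem_filter, mem_univ, true_and, mem_insert, mem_singleton, forall_eq_or_imp,
        forall_eq, if_true, if_neg (Ne.symm hij)]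
      constructor
      · intro h
        exact ⟨by have := congrFun h 0; simpa using this,
          by have := congrFun h 1; simpa using this⟩
      · rintro ⟨h4, h5⟩
        funext k
        fin_cases k
        · simpa using h4
        · simpa using h5
    rw [h3, div_le_iff₀ hZ, hcw]
    refine h1.trans ?_
    have g0 := gF_nonneg P W U M (v 0)
    have g1 := gF_nonneg P W U M (v 1)
    have g2 := gF_le_key P W U M (v 0)
    have g3 := gF_le_key P W U M (v 1)
    rw [hv] at g3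
    have h6 := P.pr_nonneg W (W (v 0))
    set s := P.pr W (W (v 0)) with hs
    have h7 : s / (M : ℝ) ^ (p + 1) * ((((apC M p).filter fun c =>
        ∀ k ∈ ({i, j} : Finset (Fin (p + 1))), c k = U (if k = i then v 0 else v 1)).card : ℝ) *
        (gF P W U M (v 0) * gF P W U M (v 1))) ≤
        s / (M : ℝ) ^ (p + 1) * (gF P W U M (v 0) * gF P W U M (v 1)) := by
      refine mul_le_mul_of_nonneg_left ?_ (div_nonneg h6 (by positivity))
      have := mul_le_mul_of_nonneg_right h2 (mul_nonneg g0 g1)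
      simpa using this
    refine h7.trans ?_
    rcases h6.eq_or_lt with h8 | h8
    · rw [← h8]
      simp
    · obtain ⟨q, rfl⟩ : ∃ q, p = q + 1 := ⟨p - 1, by omega⟩
      have h9 : s / (M : ℝ) ^ (q + 1 + 1) * (gF P W U M (v 0) * gF P W U M (v 1)) =
          ((s * gF P W U M (v 0)) * (s * gF P W U M (v 1))) / (s * (M : ℝ) ^ (q + 2)) := by
        field_simp
      rw [h9]
      have h10 : (s * gF P W U M (v 0)) * (s * gF P W U M (v 1)) ≤
          (2 * M * P.w (v 0)) * (2 * M * P.w (v 1)) :=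
        mul_le_mul g2 g3 (mul_nonneg h8.le g1) (by have := P.nn (v 0); positivity)
      have h11 : ((s * gF P W U M (v 0)) * (s * gF P W U M (v 1))) / (s * (M : ℝ) ^ (q + 2)) ≤
          ((2 * M * P.w (v 0)) * (2 * M * P.w (v 1))) / (s * (M : ℝ) ^ (q + 2)) :=
        div_le_div_of_nonneg_right h10 (by positivity)
      refine h11.trans ?_
      have h12 : ((2 * M * P.w (v 0)) * (2 * M * P.w (v 1))) / (s * (M : ℝ) ^ (q + 2)) =
          4 / (M : ℝ) ^ q * (P.w (v 0) * P.w (v 1) / s) := by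
        rw [pow_add]
        field_simp
        ring
      rw [h12]
      have h13 : 4 / (M : ℝ) ^ q ≤ 4 / c * Z := by
        have : c / (M : ℝ) ^ q ≤ Z := by simpa using hc
        calc 4 / (M : ℝ) ^ q = 4 / c * (c / (M : ℝ) ^ q) := by
              rw [div_mul_div_comm, mul_comm c, mul_div_mul_right _ _ hc0.ne']
          _ ≤ 4 / c * Z := mul_le_mul_of_nonneg_left this (by positivity)
      have h14 : 0 ≤ P.w (v 0) * P.w (v 1) / s :=
        div_nonneg (mul_nonneg (P.nn _) (P.nn _)) h8.le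
      calc 4 / (M : ℝ) ^ q * (P.w (v 0) * P.w (v 1) / s) ≤
            4 / c * Z * (P.w (v 0) * P.w (v 1) / s) := mul_le_mul_of_nonneg_right h13 h14
        _ = 4 / c * (P.w (v 0) * P.w (v 1) / s) * Z := by ring
  · have h3 : Q.pr (fun w => ![w i, w j]) v = 0 := by
      unfold Law.pr
      refine Finset.sum_eq_zero fun w hw => ?_
      have h4 : ![w i, w j] = v := by simpa using hw
      rw [hQ w]
      rcases (clw_nonneg P W U hM w).eq_or_lt with h5 | h5
      · rw [← h5, zero_div]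
      · exfalso
        obtain ⟨g1, _, _⟩ := clw_pos hM h5
        apply hv
        have e0 : w i = v 0 := by have := congrFun h4 0; simpa using this
        have e1 : w j = v 1 := by have := congrFun h4 1; simpa using this
        rw [← e0, ← e1, g1 i, g1 j]
    rw [h3]
    have : 0 ≤ cw P W 1 v := by
      unfold cw
      split_ifs
      · exact div_nonneg (Finset.prod_nonneg fun _ _ => P.nn _)
          (pow_nonneg (P.pr_nonneg _ _) _)
      · exact le_rfl
    positivity

end progressions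

end Vale.Agent.P127.Stk
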