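import Vale.Agent.P127.Stk.CCost

/-!
# P127 / Stk / CNodes : adding independent samples over the key (helper662)
-/

namespace Vale.Agent.P127.Stk

open Finset Vale.Agent.P127

section nodes

variable {Ω Ω' : Type} [Fintype Ω] [Fintype Ω'] {S S' T T' V : Type*}

theorem pr_ite (P : Law Ω) (X : Ω → S) (x : S) [∀ ω, Decidable (X ω = x)] :
    P.pr X x = ∑ ω, if X ω = x then P.w ω else 0 := by
  unfold Law.pr
  rw [Finset.sum_filter]
  refine Finset.sum_congr rfl fun ω _ => ?_
  split_ifs <;> rfl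

open Classical in
/-- conditional weight of `ω` given the key `s` -/
noncomputable def kerw (P : Law Ω) (W : Ω → S) (s : S) (ω : Ω) : ℝ :=
  if W ω = s then P.w ω / P.pr W s else 0

theorem kerw_nonneg (P : Law Ω) (W : Ω → S) (s : S) (ω : Ω) : 0 ≤ kerw P W s ω := by
  unfold kerw
  split_ifs
  · exact div_nonneg (P.nn _) (P.pr_nonneg _ _)
  · exact le_rfl

theorem kerw_sum {P : Law Ω} {W : Ω → S} {s : S} (hs : 0 < P.pr W s) :
    ∑ ω, kerw P W s ω = 1 := by
  classical
  unfold kerw
  rw [← Finset.sum_filter, ← Finset.sum_div]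
  have : ∑ ω with W ω = s, P.w ω = P.pr W s := by
    unfold Law.pr
    exact Finset.sum_congr (by ext; simp) fun _ _ => rfl
  rw [this]
  exact div_self hs.ne'

theorem kerw_pos {P : Law Ω} {W : Ω → S} {s : S} {ω : Ω} (h : 0 < kerw P W s ω) :
    W ω = s ∧ 0 < P.w ω := by
  unfold kerw at h
  split_ifs at h with h1
  · refine ⟨h1, ?_⟩
    rcases (P.nn ω).eq_or_lt with h2 | h2
    · rw [← h2, zero_div] at h
      exact absurd h (lt_irrefl _)
    · exact h2
  · exact absurd h (lt_irrefl _)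

/-- weights of the extension of `Q` by `n` samples over the key of `π` -/
noncomputable def nodew (P : Law Ω) (W : Ω → S) (Q : Law Ω') (π : Ω' → Ω) (n : ℕ)
    (x : Ω' × (Fin n → Ω)) : ℝ :=
  Q.w x.1 * ∏ l, kerw P W (W (π x.1)) (x.2 l)

theorem nodes_exists (P : Law Ω) (W : Ω → S) (Q : Law Ω') (π : Ω' → Ω) (n : ℕ)
    (hπ : ∀ w, 0 < Q.w w → 0 < P.w (π w)) :
    ∃ Q' : Law (Ω' × (Fin n → Ω)), ∀ x, Q'.w x = nodew P W Q π n x := by
  classical
  refine ⟨⟨nodew P W Q π n, fun x => ?_, ?_⟩, fun _ => rfl⟩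
  · exact mul_nonneg (Q.nn _) (Finset.prod_nonneg fun l _ => kerw_nonneg _ _ _ _)
  · rw [Fintype.sum_prod_type]
    rw [← Q.sum_one]
    refine Finset.sum_congr rfl fun w _ => ?_
    unfold nodew
    simp only
    rw [← Finset.mul_sum, sum_prod_tuple (fun _ => kerw P W (W (π w)))]
    rcases (Q.nn w).eq_or_lt with h | h
    · rw [← h, zero_mul]
    · have := kerw_sum (P.pr_pos W (hπ w h))
      rw [this]
      simp

variable {P : Law Ω} {W : Ω → S} {Q : Law Ω'} {π : Ω' → Ω} {n : ℕ}
  {Q' : Law (Ω' × (Fin n → Ω))}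

theorem nodes_supp (hQ' : ∀ x, Q'.w x = nodew P W Q π n x) {x : Ω' × (Fin n → Ω)}
    (hx : 0 < Q'.w x) : 0 < Q.w x.1 ∧ ∀ l, W (x.2 l) = W (π x.1) ∧ 0 < P.w (x.2 l) := by
  rw [hQ' x] at hx
  unfold nodew at hx
  have h1 : 0 < Q.w x.1 := by
    rcases (Q.nn x.1).eq_or_lt with h | h
    · rw [← h, zero_mul] at hx
      exact absurd hx (lt_irrefl _)
    · exact h
  refine ⟨h1, fun l => ?_⟩
  refine kerw_pos (P := P) (W := W) (s := W (π x.1)) ?_
  rcases (kerw_nonneg P W (W (π x.1)) (x.2 l)).eq_or_lt with h | h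
  · rw [Finset.prod_eq_zero (mem_univ l) h.symm, mul_zero] at hx
    exact absurd hx (lt_irrefl _)
  · exact h

theorem nodes_fst (hQ' : ∀ x, Q'.w x = nodew P W Q π n x)
    (hπ : ∀ w, 0 < Q.w w → 0 < P.w (π w)) (w : Ω') : Q'.pr Prod.fst w = Q.w w := by
  classical
  unfold Law.pr
  rw [Finset.sum_filter, Fintype.sum_prod_type]
  simp only
  rw [Finset.sum_eq_single w]
  · have h1 : ∀ ν : Fin n → Ω, (if w = w then Q'.w (w, ν) else 0) =
        Q.w w * ∏ l, kerw P W (W (π w)) (ν l) := fun ν => by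
      rw [if_pos rfl, hQ']
      rfl
    rw [Finset.sum_congr rfl fun ν _ => h1 ν, ← Finset.mul_sum,
      sum_prod_tuple (fun _ => kerw P W (W (π w)))]
    rcases (Q.nn w).eq_or_lt with h | h
    · rw [← h, zero_mul]
    · rw [kerw_sum (P.pr_pos W (hπ w h))]
      simp
  · intro b _ hb
    exact Finset.sum_eq_zero fun ν _ => if_neg hb
  · intro h
    exact absurd (mem_univ w) h

/-- domination of the tuple (nodes, vertex) -/
theorem nodes_dom (hQ' : ∀ x, Q'.w x = nodew P W Q π n x) {K : ℝ} (ρ : Ω' → Ω)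
    (hρ : ∀ w, 0 < Q.w w → W (ρ w) = W (π w)) (hd : Dom Q ρ P K) (v : Fin (n + 1) → Ω) :
    Q'.pr (fun x => (Fin.snoc x.2 (ρ x.1) : Fin (n + 1) → Ω)) v ≤ K * cw P W n v := by
  classical
  have hK : 0 ≤ K := zero_le_one.trans hd.one_le
  have h1 : Q'.pr (fun x => (Fin.snoc x.2 (ρ x.1) : Fin (n + 1) → Ω)) v ≤
      ∑ w with ρ w = v (Fin.last n), Q.w w *
        ∏ l : Fin n, kerw P W (W (v (Fin.last n))) (v l.castSucc) := by
    rw [pr_ite, Finset.sum_filter, Fintype.sum_prod_type]
    refine Finset.sum_le_sum fun w _ => ?_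
    by_cases hw : ρ w = v (Fin.last n)
    · rw [if_pos hw]
      have h2 : ∀ ν : Fin n → Ω, (if (Fin.snoc ν (ρ w) : Fin (n + 1) → Ω) = v then
          Q'.w (w, ν) else 0) ≤ if ν = (fun l => v l.castSucc) then
          Q.w w * ∏ l : Fin n, kerw P W (W (v (Fin.last n))) (v l.castSucc) else 0 := by
        intro ν
        by_cases h3 : (Fin.snoc ν (ρ w) : Fin (n + 1) → Ω) = v
        · have h4 : ν = fun l => v l.castSucc := by
            funext l
            rw [← h3, Fin.snoc_castSucc]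
          rw [if_pos h3, if_pos h4, hQ']
          unfold nodew
          simp only
          rcases (Q.nn w).eq_or_lt with h5 | h5
          · rw [← h5, zero_mul, zero_mul]
          · rw [← hρ w h5, hw, h4]
        · rw [if_neg h3]
          split_ifs
          · exact mul_nonneg (Q.nn _) (Finset.prod_nonneg fun l _ => kerw_nonneg _ _ _ _)
          · exact le_rfl
      refine (Finset.sum_le_sum fun ν _ => h2 ν).trans ?_
      rw [Finset.sum_ite_eq' univ (fun l : Fin n => v l.castSucc)]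
      simp
    · rw [if_neg hw]
      refine Finset.sum_nonpos fun ν _ => ?_
      have : ¬ (Fin.snoc ν (ρ w) : Fin (n + 1) → Ω) = v := by
        intro h
        apply hw
        rw [← h, Fin.snoc_last]
      simp [this]
  refine h1.trans ?_
  rw [← Finset.sum_mul]
  have h2 : ∑ w with ρ w = v (Fin.last n), Q.w w ≤ K * P.w (v (Fin.last n)) := by
    have := hd (v (Fin.last n))
    unfold Law.pr at this
    convert this
  have h3 : 0 ≤ ∏ l : Fin n, kerw P W (W (v (Fin.last n))) (v l.castSucc) :=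
    Finset.prod_nonneg fun l _ => kerw_nonneg _ _ _ _
  refine (mul_le_mul_of_nonneg_right h2 h3).trans ?_
  rw [mul_assoc]
  refine mul_le_mul_of_nonneg_left ?_ hK
  by_cases h4 : ∀ l : Fin n, W (v l.castSucc) = W (v (Fin.last n))
  · have h5 : ∀ i : Fin (n + 1), W (v i) = W (v 0) := by
      have h6 : ∀ i : Fin (n + 1), W (v i) = W (v (Fin.last n)) := fun i =>
        Fin.lastCases rfl h4 i
      intro i
      rw [h6 i, h6 0]
    unfold cw
    rw [if_pos h5, Fin.prod_univ_castSucc]
    have h6 : ∏ l : Fin n, kerw P W (W (v (Fin.last n))) (v l.castSucc) =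
        (∏ l : Fin n, P.w (v l.castSucc)) / (P.pr W (W (v 0))) ^ n := by
      have h7 : ∀ l : Fin n, kerw P W (W (v (Fin.last n))) (v l.castSucc) =
          P.w (v l.castSucc) / P.pr W (W (v 0)) := by
        intro l
        unfold kerw
        rw [if_pos (h4 l), h5 (Fin.last n)]
      rw [Finset.prod_congr rfl fun l _ => h7 l, Finset.prod_div_distrib, Finset.prod_const,
        Finset.card_univ, Fintype.card_fin]
    rw [h6]
    apply le_of_eq
    ring
  · push Not at h4
    obtain ⟨l, hl⟩ := h4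
    have h5 : kerw P W (W (v (Fin.last n))) (v l.castSucc) = 0 := by
      unfold kerw
      exact if_neg hl
    rw [Finset.prod_eq_zero (mem_univ l) h5, mul_zero]
    unfold cw
    split_ifs
    · exact div_nonneg (Finset.prod_nonneg fun _ _ => P.nn _)
        (pow_nonneg (P.pr_nonneg _ _) _)
    · exact le_rfl

/-- domination of one node -/
theorem nodes_dom1 (hQ' : ∀ x, Q'.w x = nodew P W Q π n x) {K : ℝ}
    (hd : Dom Q π P K) (l : Fin n) : Dom Q' (fun x => x.2 l) P K := by
  classical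
  have hK : 0 ≤ K := zero_le_one.trans hd.one_le
  intro ω
  have h1 : Q'.pr (fun x => x.2 l) ω ≤ ∑ w, Q.w w * kerw P W (W (π w)) ω := by
    unfold Law.pr
    rw [Finset.sum_filter, Fintype.sum_prod_type]
    refine Finset.sum_le_sum fun w _ => ?_
    have h2 : ∀ ν : Fin n → Ω, (if ν l = ω then Q'.w (w, ν) else 0) =
        Q.w w * ∏ l', (fun l' ω' => if l' = l then (if ω' = ω then kerw P W (W (π w)) ω' else 0)
          else kerw P W (W (π w)) ω') l' (ν l') := by
      intro ν
      by_cases h3 : ν l = ω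
      · rw [if_pos h3, hQ']
        unfold nodew
        simp only
        congr 1
        refine Finset.prod_congr rfl fun l' _ => ?_
        by_cases h4 : l' = l
        · rw [if_pos h4, if_pos (by rw [h4, h3])]
        · rw [if_neg h4]
      · rw [if_neg h3]
        symm
        apply mul_eq_zero_of_right
        refine Finset.prod_eq_zero (mem_univ l) ?_
        simp [h3]
    rw [Finset.sum_congr rfl fun ν _ => h2 ν, ← Finset.mul_sum,
      sum_prod_tuple (fun l' ω' => if l' = l then (if ω' = ω then kerw P W (W (π w)) ω' else 0)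
          else kerw P W (W (π w)) ω')]
    rcases (Q.nn w).eq_or_lt with h3 | h3
    · rw [← h3, zero_mul, zero_mul]
    · refine mul_le_mul_of_nonneg_left ?_ h3.le
      have h4 : 0 < P.pr W (W (π w)) := P.pr_pos W (hd.pos h3)
      have h5 : ∀ l' ∈ (univ : Finset (Fin n)), ∑ ω', (if l' = l then
          (if ω' = ω then kerw P W (W (π w)) ω' else 0) else kerw P W (W (π w)) ω') =
          if l' = l then kerw P W (W (π w)) ω else 1 := by
        intro l' _
        by_cases h6 : l' = l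
        · simp [h6]
        · simp only [if_neg h6]
          exact kerw_sum h4
      rw [Finset.prod_congr rfl h5, Finset.prod_ite_eq' univ l]
      simp
  refine h1.trans ?_
  have h2 : ∀ w, Q.w w * kerw P W (W (π w)) ω =
      (if W (π w) = W ω then Q.w w else 0) * (P.w ω / P.pr W (W ω)) := by
    intro w
    unfold kerw
    by_cases h3 : W ω = W (π w)
    · rw [if_pos h3, if_pos h3.symm, h3]
    · rw [if_neg h3, if_neg (Ne.symm h3)]
      ring
  rw [Finset.sum_congr rfl fun w _ => h2 w, ← Finset.sum_mul, ← Finset.sum_filter]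
  have h3 : ∑ w with W (π w) = W ω, Q.w w ≤ K * P.pr W (W ω) := by
    have h4 : ∑ w with W (π w) = W ω, Q.w w = ∑ ω' with W ω' = W ω, Q.pr π ω' := by
      unfold Law.pr
      rw [← Finset.sum_fiberwise_of_maps_to (g := π) (t := univ.filter fun ω' => W ω' = W ω)
        (s := univ.filter fun w => W (π w) = W ω)]
      · refine Finset.sum_congr rfl fun ω' hω' => Finset.sum_congr ?_ fun _ _ => rfl
        ext w
        simp only [mem_filter, mem_univ, true_and] at hω' ⊢
        constructor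
        · rintro ⟨_, h⟩
          exact h
        · intro h
          exact ⟨by rw [h, hω'], h⟩
      · intro w hw
        simpa using hw
    rw [h4]
    unfold Law.pr
    rw [Finset.mul_sum]
    refine (Finset.sum_le_sum fun ω' _ => hd ω').trans (le_of_eq ?_)
    exact Finset.sum_congr (by ext; simp) fun _ _ => rfl
  have h4 : 0 ≤ P.w ω / P.pr W (W ω) := div_nonneg (P.nn _) (P.pr_nonneg _ _)
  refine (mul_le_mul_of_nonneg_right h3 h4).trans ?_
  rcases (P.nn ω).eq_or_lt with h5 | h5
  · rw [← h5]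
    simp
  · have h6 := P.pr_pos W h5
    apply le_of_eq
    field_simp

/-- a product of sub-kernels is a sub-kernel -/
theorem prod_kernel_le (g : Fin n → V → ℝ) (hg : ∀ l b, 0 ≤ g l b)
    (h1 : ∀ l, ∀ F : Finset V, ∑ b ∈ F, g l b ≤ 1) (F : Finset (Fin n → V)) :
    ∑ N ∈ F, ∏ l, g l (N l) ≤ 1 := by
  classical
  have h2 : F ⊆ Fintype.piFinset fun l => F.image fun N => N l := by
    intro N hN
    rw [Fintype.mem_piFinset]
    exact fun l => mem_image_of_mem _ hN
  refine (Finset.sum_le_sum_of_subset_of_nonneg h2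
    fun N _ _ => Finset.prod_nonneg fun l _ => hg l _).trans ?_
  rw [← Finset.prod_univ_sum]
  exact Finset.prod_le_one (fun l _ => Finset.sum_nonneg fun b _ => hg l b) fun l _ => h1 l _

/-- the joint law of the data of the nodes and the old sample point -/
theorem nodes_pr (hQ' : ∀ x, Q'.w x = nodew P W Q π n x) (B : Ω → V) (x : Ω' × (Fin n → Ω)) :
    Q'.pr (fun x => ((fun l => B (x.2 l)), x.1)) ((fun l => B (x.2 l)), x.1) =
      Q.w x.1 * ∏ l, (P.pr (fun ω => (B ω, W ω)) (B (x.2 l), W (π x.1)) /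
        P.pr W (W (π x.1))) := by
  classical
  rw [pr_ite, Fintype.sum_prod_type, Finset.sum_eq_single x.1]
  · set f : Fin n → Ω → ℝ := fun l ω => if B ω = B (x.2 l) then kerw P W (W (π x.1)) ω else 0
      with hf
    have h1 : ∀ ν : Fin n → Ω, (if ((fun l => B (ν l)), x.1) = ((fun l => B (x.2 l)), x.1) then
        Q'.w (x.1, ν) else 0) = Q.w x.1 * ∏ l, f l (ν l) := by
      intro ν
      by_cases h2 : ∀ l, B (ν l) = B (x.2 l)
      · rw [if_pos (by rw [Prod.mk.injEq]; exact ⟨funext h2, rfl⟩), hQ']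
        unfold nodew
        simp only
        congr 1
        refine Finset.prod_congr rfl fun l _ => ?_
        simp only [hf]
        rw [if_pos (h2 l)]
      · rw [if_neg (by rw [Prod.mk.injEq]; exact fun h => h2 fun l => congrFun h.1 l)]
        push Not at h2
        obtain ⟨l, hl⟩ := h2
        rw [Finset.prod_eq_zero (mem_univ l) (by simp only [hf]; rw [if_neg hl]), mul_zero]
    rw [Finset.sum_congr rfl fun ν _ => h1 ν, ← Finset.mul_sum, sum_prod_tuple f]
    congr 1
    refine Finset.prod_congr rfl fun l _ => ?_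
    simp only [hf, kerw]
    rw [pr_ite P (fun ω => (B ω, W ω)) (B (x.2 l), W (π x.1)), Finset.sum_div]
    refine Finset.sum_congr rfl fun ω _ => ?_
    by_cases h3 : B ω = B (x.2 l)
    · by_cases h4 : W ω = W (π x.1)
      · rw [if_pos h3, if_pos h4, if_pos (by rw [h3, h4])]
      · rw [if_pos h3, if_neg h4, if_neg (by rw [Prod.mk.injEq]; exact fun h => h4 h.2),
          zero_div]
    · rw [if_neg h3, if_neg (by rw [Prod.mk.injEq]; exact fun h => h3 h.1), zero_div]
  · intro w _ hw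
    refine Finset.sum_eq_zero fun ν _ => if_neg ?_
    rw [Prod.mk.injEq]
    exact fun h => hw h.2
  · intro h
    exact absurd (mem_univ _) h

/-- cost of the nodes -/
theorem nodes_cost (hQ' : ∀ x, Q'.w x = nodew P W Q π n x) {K : ℝ} (hd : Dom Q π P K)
    (l : Ω → T) (A : Ω → T') (B : Ω → V) (I : Ω → S') {τ : Type*} (D : Ω' → τ)
    (hI : Fn P I B) (hW : Fn P W (fun ω => (l ω, A ω, I ω)))
    (hW' : Fn P (fun ω => (l ω, A ω, I ω)) W) (hD : Fn Q (fun w => I (π w)) D) :
    mi Q' (fun x => l (π x.1)) (fun x => (D x.1, fun l => B (x.2 l))) (fun x => A (π x.1)) ≤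
      mi Q (fun w => l (π w)) D (fun w => A (π w)) + n * (K * (mi P l B A + 1)) := by
  classical
  have hK : 0 ≤ K := zero_le_one.trans hd.one_le
  have hπ : ∀ w, 0 < Q.w w → 0 < P.w (π w) := fun w hw => hd.pos hw
  have hfst := nodes_fst hQ' hπ
  set N : Ω' × (Fin n → Ω) → (Fin n → V) := fun x l => B (x.2 l) with hN
  have h1 := mi_pair Q' (fun x => l (π x.1)) (fun x => D x.1) N (fun x => A (π x.1))
  have h2 : mi Q' (fun x => l (π x.1)) (fun x => D x.1) (fun x => A (π x.1)) =
      mi Q (fun w => l (π w)) D (fun w => A (π w)) := by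
    have e1 := hc_of_law Q' Q Prod.fst hfst (fun w => l (π w)) (fun w => A (π w))
    have e2 := hc_of_law Q' Q Prod.fst hfst (fun w => l (π w)) (fun w => (D w, A (π w)))
    unfold mi
    rw [← e1, ← e2]
    rfl
  have h3 : mi Q' (fun x => l (π x.1)) N (fun x => (D x.1, A (π x.1))) =
      hc Q' N (fun x => (D x.1, A (π x.1))) -
        hc Q' N (fun x => (l (π x.1), D x.1, A (π x.1))) := by
    rw [mi_symm]
    rfl
  have h4 : hc Q' N (fun x => (D x.1, A (π x.1))) ≤
      hc Q' N (fun x => (I (π x.1), A (π x.1))) := by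
    refine hc_mono_right Q' N ?_
    intro x x' hx hx' he
    simp only [Prod.mk.injEq] at he ⊢
    exact ⟨hD x.1 x'.1 (nodes_supp hQ' hx).1 (nodes_supp hQ' hx').1 he.1, he.2⟩
  have h5 : hc Q' N Prod.fst ≤ hc Q' N (fun x => (l (π x.1), D x.1, A (π x.1))) := by
    refine hc_mono_right Q' N ?_
    intro x x' _ _ he
    simp only [he]
  -- the support
  have hsup : ∀ x, 0 < Q'.w x → ∀ j, 0 < P.w (x.2 j) ∧ W (x.2 j) = W (π x.1) ∧
      l (x.2 j) = l (π x.1) ∧ A (x.2 j) = A (π x.1) ∧ I (x.2 j) = I (π x.1) := by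
    intro x hx j
    obtain ⟨g1, g2⟩ := nodes_supp hQ' hx
    have g3 := hW' (x.2 j) (π x.1) (g2 j).2 (hπ _ g1) (g2 j).1
    simp only [Prod.mk.injEq] at g3
    exact ⟨(g2 j).2, (g2 j).1, g3.1, g3.2.1, g3.2.2⟩
  set b : Ω → ℝ := fun ω => P.pr (fun ω => (B ω, I ω, A ω)) (B ω, I ω, A ω) with hb
  set a : Ω → ℝ := fun ω => P.pr (fun ω => (I ω, A ω)) (I ω, A ω) with ha
  set d : Ω → ℝ := fun ω => P.pr (fun ω => (l ω, B ω, I ω, A ω)) (l ω, B ω, I ω, A ω) with hd'
  set e : Ω → ℝ := fun ω => P.pr (fun ω => (l ω, I ω, A ω)) (l ω, I ω, A ω) with he'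
  have hb0 : ∀ {ω}, 0 < P.w ω → 0 < b ω := fun h => P.pr_pos (fun ω => (B ω, I ω, A ω)) h
  have ha0 : ∀ {ω}, 0 < P.w ω → 0 < a ω := fun h => P.pr_pos (fun ω => (I ω, A ω)) h
  have hd0 : ∀ {ω}, 0 < P.w ω → 0 < d ω :=
    fun h => P.pr_pos (fun ω => (l ω, B ω, I ω, A ω)) h
  have he0 : ∀ {ω}, 0 < P.w ω → 0 < e ω := fun h => P.pr_pos (fun ω => (l ω, I ω, A ω)) h
  have hdens : ∀ ω, dens P l B (fun ω => (I ω, A ω)) ω =
      Real.log (d ω) + Real.log (a ω) - Real.log (e ω) - Real.log (b ω) := fun ω => rfl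
  have h6 : hc Q' N (fun x => (I (π x.1), A (π x.1))) ≤
      Q'.ex (fun x => - ∑ j, (Real.log (b (x.2 j)) - Real.log (a (x.2 j)))) := by
    have g := Q'.gibbs_cond N (fun x => (I (π x.1), A (π x.1)))
      (fun v y => ∏ j, P.pr (fun ω => (B ω, I ω, A ω)) (v j, y) /
        P.pr (fun ω => (I ω, A ω)) y)
      (fun v y => Finset.prod_nonneg fun j _ => div_nonneg (P.pr_nonneg _ _) (P.pr_nonneg _ _))
      (fun y F => prod_kernel_le (fun _ v => P.pr (fun ω => (B ω, I ω, A ω)) (v, y) /
        P.pr (fun ω => (I ω, A ω)) y)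
        (fun _ v => div_nonneg (P.pr_nonneg _ _) (P.pr_nonneg _ _))
        (fun _ F => by
          rw [← Finset.sum_div]
          exact div_le_one_of_le₀ (P.sum_pr_pair_le B (fun ω => (I ω, A ω)) y F)
            (P.pr_nonneg _ _)) F)
      (fun x hx => by
        refine Finset.prod_pos fun j _ => ?_
        obtain ⟨g1, _, _, g4, g5⟩ := hsup x hx j
        have q1 := hb0 g1
        have q2 := ha0 g1
        simp only [hb, ha] at q1 q2
        rw [g4, g5] at q1 q2
        exact div_pos q1 q2)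
    refine g.trans (le_of_eq (Q'.ex_congr fun x hx => ?_))
    rw [Real.log_prod (s := univ) (fun j _ => by
      obtain ⟨g1, _, _, g4, g5⟩ := hsup x hx j
      have q1 := hb0 g1
      have q2 := ha0 g1
      simp only [hb, ha] at q1 q2
      rw [g4, g5] at q1 q2
      exact (div_pos q1 q2).ne')]
    congr 1
    refine Finset.sum_congr rfl fun j _ => ?_
    obtain ⟨g1, _, _, g4, g5⟩ := hsup x hx j
    have q1 := hb0 g1
    have q2 := ha0 g1
    simp only [hb, ha] at q1 q2 ⊢
    rw [g4, g5] at q1 q2 ⊢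
    exact Real.log_div q1.ne' q2.ne'
  have h7 : Q'.ex (fun x => - ∑ j, (Real.log (d (x.2 j)) - Real.log (e (x.2 j)))) ≤
      hc Q' N Prod.fst := by
    have e1 : hc Q' N Prod.fst = Q'.ex (fun x =>
        -Real.log (Q'.pr (fun x => (N x, x.1)) (N x, x.1)) - (-Real.log (Q'.pr Prod.fst x.1))) := by
      rw [Q'.ex_sub]
      rfl
    rw [e1]
    refine Q'.ex_mono fun x hx => ?_
    obtain ⟨k1, _⟩ := nodes_supp hQ' hx
    have e2 := nodes_pr hQ' B x
    have e3 : ∏ j, (P.pr (fun ω => (B ω, W ω)) (B (x.2 j), W (π x.1)) / P.pr W (W (π x.1))) =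
        ∏ j, (d (x.2 j) / e (x.2 j)) := by
      refine Finset.prod_congr rfl fun j _ => ?_
      obtain ⟨g1, g2, g3, g4, g5⟩ := hsup x hx j
      rw [← g2]
      have q1 : P.pr (fun ω => (B ω, W ω)) (B (x.2 j), W (x.2 j)) = d (x.2 j) := by
        refine claw_pr_congr P (X := fun ω => (B ω, W ω))
          (Y := fun ω => (l ω, B ω, I ω, A ω)) ?_ ?_ g1
        · intro ω ω' r1 r2 hh
          simp only [Prod.mk.injEq] at hh ⊢
          exact ⟨hh.2.1, hW ω ω' r1 r2 (by simp only [Prod.mk.injEq]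
                                           exact ⟨hh.1, hh.2.2.2, hh.2.2.1⟩)⟩
        · intro ω ω' r1 r2 hh
          simp only [Prod.mk.injEq] at hh ⊢
          have := hW' ω ω' r1 r2 hh.2
          simp only [Prod.mk.injEq] at this
          exact ⟨this.1, hh.1, this.2.2, this.2.1⟩
      have q2 : P.pr W (W (x.2 j)) = e (x.2 j) := by
        refine claw_pr_congr P (X := W) (Y := fun ω => (l ω, I ω, A ω)) ?_ ?_ g1
        · intro ω ω' r1 r2 hh
          simp only [Prod.mk.injEq] at hh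
          exact hW ω ω' r1 r2 (by simp only [Prod.mk.injEq]; exact ⟨hh.1, hh.2.2, hh.2.1⟩)
        · intro ω ω' r1 r2 hh
          have := hW' ω ω' r1 r2 hh
          simp only [Prod.mk.injEq] at this ⊢
          exact ⟨this.1, this.2.2, this.2.1⟩
      rw [q1, q2]
    have e4 : Q'.pr (fun x => (N x, x.1)) (N x, x.1) = Q.w x.1 * ∏ j, (d (x.2 j) / e (x.2 j)) := by
      rw [← e3]
      exact e2
    rw [e4, hfst x.1]
    have e5 : 0 < ∏ j, (d (x.2 j) / e (x.2 j)) :=
      Finset.prod_pos fun j _ => div_pos (hd0 (hsup x hx j).1) (he0 (hsup x hx j).1)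
    rw [Real.log_mul k1.ne' e5.ne', Real.log_prod (s := univ)
      (fun j _ => (div_pos (hd0 (hsup x hx j).1) (he0 (hsup x hx j).1)).ne'),
      Finset.sum_congr rfl fun j _ =>
        Real.log_div (hd0 (hsup x hx j).1).ne' (he0 (hsup x hx j).1).ne']
    linarith
  have h8 : Q'.ex (fun x => - ∑ j, (Real.log (b (x.2 j)) - Real.log (a (x.2 j)))) -
      Q'.ex (fun x => - ∑ j, (Real.log (d (x.2 j)) - Real.log (e (x.2 j)))) =
      ∑ j, Q'.ex (fun x => dens P l B (fun ω => (I ω, A ω)) (x.2 j)) := by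
    rw [← Q'.ex_sub]
    unfold Law.ex
    rw [Finset.sum_comm]
    refine Finset.sum_congr rfl fun x _ => ?_
    rw [← Finset.mul_sum]
    congr 1
    simp only
    rw [neg_sub_neg, ← Finset.sum_sub_distrib]
    refine Finset.sum_congr rfl fun j _ => ?_
    rw [hdens]
    ring
  have h9 : ∑ j, Q'.ex (fun x => dens P l B (fun ω => (I ω, A ω)) (x.2 j)) ≤
      n * (K * (mi P l B A + 1)) := by
    have g1 : mi P l B (fun ω => (I ω, A ω)) ≤ mi P l B A := by
      rw [mi_symm P l B (fun ω => (I ω, A ω)), mi_symm P l B A]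
      refine mi_cond_le P (X := B) l (W := I) A ?_
      intro ω ω' q1 q2 hh
      simp only [Prod.mk.injEq] at hh
      exact hI ω ω' q1 q2 hh.1
    have g2 : ∀ j ∈ (univ : Finset (Fin n)),
        Q'.ex (fun x => dens P l B (fun ω => (I ω, A ω)) (x.2 j)) ≤ K * (mi P l B A + 1) := by
      intro j _
      refine (dens_dom (nodes_dom1 hQ' hd j) l B (fun ω => (I ω, A ω))).trans ?_
      exact mul_le_mul_of_nonneg_left (by linarith) hK
    refine (Finset.sum_le_sum g2).trans (le_of_eq ?_)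
    rw [Finset.sum_const, Finset.card_univ, Fintype.card_fin, nsmul_eq_mul]
  rw [h1, h2, h3]
  linarith

end nodes

end Vale.Agent.P127.Stk
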