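import Vale.Agent.P127.Stk.CDefs
import Vale.Agent.P127.Stk.AbsBridge

/-!
# P127 / Stk : skeleton of the step for `Γ` (PROOF.md, section 8) : statements, all `sorry`.
Nothing imports this file.
-/

namespace Vale.Agent.P127.Stk

open Finset Vale.Agent.P127

/-! ### C1 : cubes and polynomials -/

/-- cube sums of polynomials of small degree vanish -/
theorem cube_poly {p : ℕ} (f : Polynomial ℝ) (hf : f.natDegree < p) (u : ℝ) (lam : Fin p → ℝ) :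
    ∑ S : Finset (Fin p), (-1 : ℝ) ^ S.card * f.eval (u + ∑ i ∈ S, lam i) = 0 := sorry

section det

variable {Ω Ω' : Type} {m κ k : ℕ}

/-- the sum in the formula for `W`, `t_S` within `2^{-L}` of an exact cube -/
theorem cube_interp (a w L : ℕ) (c : Cf Ω m) (o : Ob Ω m κ) (π : CI k → Ω' → Ω) (ω : Ω')
    (h01 : ∀ ω, 0 ≤ c.t ω ∧ c.t ω < 1)
    (hk : ∀ i j, fl1 a (c.t (π i ω)) = fl1 a (c.t (π j ω)))
    (hc : IsCube (fun S => fl1 L (c.t (π (Sum.inl S) ω)))) (haL : a ≤ L)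
    (ht : CTyp a w c o π ω) (i j : Fin m) (hi : i ∉ o.J) (hj : j ∈ o.J) :
    |∑ S : Finset (Fin (k + 2)), (-1 : ℝ) ^ S.card * c.t (π (Sum.inl S) ω)| ≤
        2 ^ (k + 2) * (1 / 2) ^ L ∧
    |∑ S : Finset (Fin (k + 2)), (-1 : ℝ) ^ S.card *
        (c.t (π (Sum.inl S) ω) - c.t (π (vb k) ω)) * o.Γ (π (Sum.inl S) ω) i j| ≤
      2 ^ (k + 2) * (1 / 2) ^ a * (2 ^ w * (1 / 2) ^ ((k + 1) * a)) +
        2 ^ (k + 2) * ((k + 1) ^ 2 * 2 ^ (k + 1) * 3 ^ κ * 2 ^ (k * w) * (1 / 2) ^ L) ∧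
    |cS o π ω i j| ≤ 2 ^ (k + 2) * (2 ^ w * (1 / 2) ^ ((k + 1) * a)) +
        2 ^ (k + 2) * ((k + 1) ^ 2 * 2 ^ (k + 1) * 3 ^ κ * 2 ^ (k * w) * 2 ^ a * (1 / 2) ^ L) :=
  sorry

/-- noise -/
theorem cphi_noise (a w n N : ℕ) (c : Cf Ω m) (o : Ob Ω m κ) (π : CI k → Ω' → Ω) (ω : Ω')
    (hx : ∀ ω i, 0 ≤ c.x ω i ∧ c.x ω i < 1) (hy : ∀ ω i, 0 ≤ c.y ω i ∧ c.y ω i < 1)
    (h01 : ∀ ω, 0 ≤ c.t ω ∧ c.t ω < 1)
    (hk : ∀ i j, key c a (π i ω) = key c a (π j ω)) (ht : CTyp a w c o π ω)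
    (hN : N + 2 * w ≤ n + a) (hw : 1 + 2 * κ + κ * 3 ^ κ ≤ 2 ^ w) (S : Finset (Fin (k + 2)))
    (i : Fin m) :
    |cX N c o π S ω i - cX N c o π ∅ ω i - cphi n N c o S (cB n c o π ω) (cq n c π ω) i| ≤ 4 :=
  sorry

/-- the formula for `W` -/
theorem cW_formula (a w n N L : ℕ) (c : Cf Ω m) (o : Ob Ω m κ) (π : CI k → Ω' → Ω) (ω ω1 ω2 : Ω')
    (hx : ∀ ω i, 0 ≤ c.x ω i ∧ c.x ω i < 1) (hy : ∀ ω i, 0 ≤ c.y ω i ∧ c.y ω i < 1)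
    (h01 : ∀ ω, 0 ≤ c.t ω ∧ c.t ω < 1)
    (hk : ∀ i j, key c a (π i ω) = key c a (π j ω))
    (hc : IsCube (fun S => fl1 L (c.t (π (Sum.inl S) ω)))) (ht : CTyp a w c o π ω)
    (hN : N + w + 2 * k + 4 + 2 * κ ≤ (k + 2) * a)
    (hL : (k + 2) * a + k * w + 4 * k + 8 + 4 * κ ≤ L)
    (i : Fin m) :
    (i ∉ o.J → |((∑ S : Finset (Fin (k + 2)), (-1 : ℤ) ^ S.card *
        (cphi n N c o S (cB n c o π ω) (cq n c π ω2) i -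
          cphi n N c o S (cB n c o π ω) (cq n c π ω1) i) : ℤ) : ℝ) +
      2 ^ N * ∑ j ∈ o.J, cE c o (cB n c o π ω) i j *
        (cC n c o (cB n c o π ω) (cq n c π ω2) j - cC n c o (cB n c o π ω) (cq n c π ω1) j)| ≤
      2 ^ (k + 3)) ∧
    (i ∈ o.J → (∑ S : Finset (Fin (k + 2)), (-1 : ℤ) ^ S.card *
        (cphi n N c o S (cB n c o π ω) (cq n c π ω2) i -
          cphi n N c o S (cB n c o π ω) (cq n c π ω1) i)) = 0) := sorry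

end det

/-! ### C2 : the displacement lemma (abstract) -/

section disp

variable {Ω Ω' β γ ζ : Type} [Fintype Ω] [Fintype Ω'] {d : ℕ}

/-- full entropy of one coordinate of `z` -/
theorem disp_z {P : Law Ω} {P' : Law Ω'} {B : Ω → β} {q : Ω → γ} {X0 : Ω → Fin d → ℤ}
    {Z : Ω' → ζ} {π π1 π2 : Ω' → Ω} {e1 : ℝ} (h : AbsOut P P' B q X0 Z π π1 π2 e1)
    (J : Finset (Fin d)) (C : β → γ → Fin d → ℝ) (j0 : Fin d) (hj0 : j0 ∈ J) (e3 : ℝ) (s σ : ℕ)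
    (hs : s ≤ σ)
    (H3 : (J.card : ℝ) * σ * Real.log 2 - e3 ≤
      hc P (fun ω => fl σ (fun j : {j // j ∈ J} => C (B ω) (q ω) j)) (fun ω => (X0 ω, B ω)))
    (hz : ∀ ω, 0 < P'.w ω → ∀ j ∈ J,
      |C (B (π ω)) (q (π2 ω)) j - C (B (π ω)) (q (π1 ω)) j| ≤ 2) :
    s * Real.log 2 - e3 - e1 - 2 * J.card * Real.log 5 ≤
      hc P' (fun ω => fl1 s (C (B (π ω)) (q (π2 ω)) j0 - C (B (π ω)) (q (π1 ω)) j0))
        (fun ω => (zd B q π π1 π2 J C j0 σ ω, B (π ω), Z ω)) := sorry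

/-- first half of the displacement lemma: subtract the digits before `r` -/
theorem disp_A {P : Law Ω} {P' : Law Ω'} {B : Ω → β} {q : Ω → γ} {X0 : Ω → Fin d → ℤ}
    {Z : Ω' → ζ} {π π1 π2 : Ω' → Ω} {e1 : ℝ} (h : AbsOut P P' B q X0 Z π π1 π2 e1)
    (J : Finset (Fin d)) (C : β → γ → Fin d → ℝ) (E : β → Fin d → Fin d → ℝ) (W : Ω' → Fin d → ℤ)
    (i0 j0 : Fin d) (hi0 : i0 ∉ J) (hj0 : j0 ∈ J) (f e2 : ℝ) (n r r' w N1 : ℕ)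
    (hnr : n ≤ r) (hrr : r ≤ r')
    (hE : ∀ ω, 0 < P.w ω → (∀ i j, i ∉ J → j ∈ J → |E (B ω) i j| ≤ |E (B ω) i0 j0|) ∧
      (2 : ℝ) ^ r * |E (B ω) i0 j0| ≤ 1 ∧ 1 < (2 : ℝ) ^ (r + w) * |E (B ω) i0 j0|)
    (hW : ∀ ω, 0 < P'.w ω → (∀ i, i ∉ J → |(W ω i : ℝ) + 2 ^ r' * ∑ j ∈ J, E (B (π ω)) i j *
      (C (B (π ω)) (q (π2 ω)) j - C (B (π ω)) (q (π1 ω)) j)| ≤ N1) ∧ ∀ i ∈ J, W ω i = 0)
    (hz : ∀ ω, 0 < P'.w ω → ∀ j ∈ J,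
      |C (B (π ω)) (q (π2 ω)) j - C (B (π ω)) (q (π1 ω)) j| ≤ 2)
    (H1 : hc P' (fun ω i => X0 (π ω) i + W ω i) (fun ω => (q (π ω), B (π ω), Z ω)) ≤
      f * ((r' : ℝ) - n) * Real.log 2 + e1)
    (H2 : f * ((r : ℝ) - n) * Real.log 2 - e2 ≤
      hc P (fun ω => fl r (fun i => (X0 ω i : ℝ) / 2 ^ r')) (fun ω => (q ω, B ω))) :
    hc P' (fun ω i => X0 (π ω) i + W ω i)
      (fun ω => (fl r (fun i => (X0 (π ω) i : ℝ) / 2 ^ r'), q (π ω), B (π ω), Z ω,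
        zd B q π π1 π2 J C j0 (r' - r) ω)) ≤
      f * ((r' : ℝ) - r) * Real.log 2 + 2 * e1 + e2 + d * Real.log (8 * d + 8 * N1 + 8) := sorry

/-- second half of the displacement lemma: the projection along the direction of the
displacement loses the entropy of the displacement -/
theorem disp_B {P : Law Ω} {P' : Law Ω'} {B : Ω → β} {q : Ω → γ} {X0 : Ω → Fin d → ℤ}
    {Z : Ω' → ζ} {π π1 π2 : Ω' → Ω} {e1 : ℝ} (h : AbsOut P P' B q X0 Z π π1 π2 e1)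
    (J : Finset (Fin d)) (C : β → γ → Fin d → ℝ) (E : β → Fin d → Fin d → ℝ) (W : Ω' → Fin d → ℤ)
    (i0 j0 : Fin d) (hi0 : i0 ∉ J) (hj0 : j0 ∈ J) (r r' w N1 : ℕ) (hrr : r ≤ r')
    (hE : ∀ ω, 0 < P.w ω → (∀ i j, i ∉ J → j ∈ J → |E (B ω) i j| ≤ |E (B ω) i0 j0|) ∧
      (2 : ℝ) ^ r * |E (B ω) i0 j0| ≤ 1 ∧ 1 < (2 : ℝ) ^ (r + w) * |E (B ω) i0 j0|)
    (hW : ∀ ω, 0 < P'.w ω → (∀ i, i ∉ J → |(W ω i : ℝ) + 2 ^ r' * ∑ j ∈ J, E (B (π ω)) i j *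
      (C (B (π ω)) (q (π2 ω)) j - C (B (π ω)) (q (π1 ω)) j)| ≤ N1) ∧ ∀ i ∈ J, W ω i = 0)
    (hz : ∀ ω, 0 < P'.w ω → ∀ j ∈ J,
      |C (B (π ω)) (q (π2 ω)) j - C (B (π ω)) (q (π1 ω)) j| ≤ 2) :
    hc P' (fun ω => fl r' (fun i => (X0 (π ω) i : ℝ) / 2 ^ r' - (X0 (π ω) i0 : ℝ) / 2 ^ r' *
          (if i ∈ J then 0 else E (B (π ω)) i j0 / E (B (π ω)) i0 j0)))
        (fun ω => (fl r (fun i => (X0 (π ω) i : ℝ) / 2 ^ r'), q (π ω), B (π ω), Z ω,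
          zd B q π π1 π2 J C j0 (r' - r) ω)) +
      hc P' (fun ω => fl1 (r' - r - w)
          (C (B (π ω)) (q (π2 ω)) j0 - C (B (π ω)) (q (π1 ω)) j0))
        (fun ω => (zd B q π π1 π2 J C j0 (r' - r) ω, B (π ω), Z ω)) ≤
      hc P' (fun ω i => X0 (π ω) i + W ω i)
        (fun ω => (fl r (fun i => (X0 (π ω) i : ℝ) / 2 ^ r'), q (π ω), B (π ω), Z ω,
          zd B q π π1 π2 J C j0 (r' - r) ω)) +
      (d + 2) * Real.log (8 * d + 8 * N1 + 8) := sorry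

/-- the displacement lemma -/
theorem disp {P : Law Ω} {P' : Law Ω'} {B : Ω → β} {q : Ω → γ} {X0 : Ω → Fin d → ℤ}
    {Z : Ω' → ζ} {π π1 π2 : Ω' → Ω} {e1 : ℝ} (h : AbsOut P P' B q X0 Z π π1 π2 e1)
    (J : Finset (Fin d)) (C : β → γ → Fin d → ℝ) (E : β → Fin d → Fin d → ℝ) (W : Ω' → Fin d → ℤ)
    (i0 j0 : Fin d) (hi0 : i0 ∉ J) (hj0 : j0 ∈ J) (f e2 e3 : ℝ) (n r r' w N1 : ℕ)
    (hnr : n ≤ r) (hrr : r ≤ r') (he1 : 0 ≤ e1)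
    (hE : ∀ ω, 0 < P.w ω → (∀ i j, i ∉ J → j ∈ J → |E (B ω) i j| ≤ |E (B ω) i0 j0|) ∧
      (2 : ℝ) ^ r * |E (B ω) i0 j0| ≤ 1 ∧ 1 < (2 : ℝ) ^ (r + w) * |E (B ω) i0 j0|)
    (hW : ∀ ω, 0 < P'.w ω → (∀ i, i ∉ J → |(W ω i : ℝ) + 2 ^ r' * ∑ j ∈ J, E (B (π ω)) i j *
      (C (B (π ω)) (q (π2 ω)) j - C (B (π ω)) (q (π1 ω)) j)| ≤ N1) ∧ ∀ i ∈ J, W ω i = 0)
    (hz : ∀ ω, 0 < P'.w ω → ∀ j ∈ J,
      |C (B (π ω)) (q (π2 ω)) j - C (B (π ω)) (q (π1 ω)) j| ≤ 2)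
    (H1 : hc P' (fun ω i => X0 (π ω) i + W ω i) (fun ω => (q (π ω), B (π ω), Z ω)) ≤
      f * ((r' : ℝ) - n) * Real.log 2 + e1)
    (H2 : f * ((r : ℝ) - n) * Real.log 2 - e2 ≤
      hc P (fun ω => fl r (fun i => (X0 ω i : ℝ) / 2 ^ r')) (fun ω => (q ω, B ω)))
    (H3 : (J.card : ℝ) * (r' - r : ℕ) * Real.log 2 - e3 ≤
      hc P (fun ω => fl (r' - r) (fun j : {j // j ∈ J} => C (B ω) (q ω) j))
        (fun ω => (X0 ω, B ω))) :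
    hc P (fun ω => fl r' (fun i => (X0 ω i : ℝ) / 2 ^ r' -
        (X0 ω i0 : ℝ) / 2 ^ r' * (if i ∈ J then 0 else E (B ω) i j0 / E (B ω) i0 j0)))
      (fun ω => (fl r (fun i => (X0 ω i : ℝ) / 2 ^ r'), q ω, B ω)) ≤
      (f - 1) * ((r' : ℝ) - r) * Real.log 2 + 4 * e1 + e2 + e3 + w * Real.log 2 +
        (4 * d + 8) * Real.log (8 * d + 8 * N1 + 8) := sorry

end disp

/-! ### C3 : entropies of a cube family -/

section fam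

variable {Ω Ω' : Type} [Fintype Ω] [Fintype Ω'] {m κ k : ℕ}

/-- the condition of a family costs little -/
theorem CubeFam.lower {a : ℕ} {K cost : ℝ} {P : Law Ω} {c : Cf Ω m} {o : Ob Ω m κ} {Q : Law Ω'}
    {π : CI k → Ω' → Ω} (h : CubeFam a k K cost P c o Q π) (i : CI k) {S T : Type}
    (X : Ω' → S) (Y : Ω' → T)
    (hX : Fn Q X (fun ω => (c.x (π (vb k) ω), c.y (π (vb k) ω), TT c o π ω i)))
    (hY : Fn Q Y (fun ω => (c.x (π (vb k) ω), c.y (π (vb k) ω), TT c o π ω i,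
      c.A (π (vb k) ω)))) :
    hc Q X (fun ω => (Y ω, c.t (π i ω), o.G (π i ω), c.A (π i ω))) - cost ≤
      hc Q X (fun ω => (Y ω, TT c o π ω, c.A (π (vb k) ω))) := sorry

/-- hypotheses of the absorption lemma and of the displacement lemma -/
theorem cube_ent {a n N w : ℕ} {h K cost εr : ℝ} {P : Law Ω} {c : Cf Ω m} {o : Ob Ω m κ}
    {Q : Law Ω'} {π : CI k → Ω' → Ω} (hf : CubeFam a k K cost P c o Q π)
    (hx : ∀ ω i, 0 ≤ c.x ω i ∧ c.x ω i < 1) (hy : ∀ ω i, 0 ≤ c.y ω i ∧ c.y ω i < 1)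
    (h01 : ∀ ω, 0 ≤ c.t ω ∧ c.t ω < 1)
    (hr : ∀ S, Rates h ((κ + 4) * a) εr c o Q (π (Sum.inl S)))
    (hR : ∀ S, hc Q (fun ω => fl n (cF c o π S ω))
      (fun ω => (fl n (cF c o π ∅ ω), TT c o π ω, c.A (π (vb k) ω))) ≤ εr * ((κ + 4) * a : ℕ))
    (hcost : cost ≤ εr * ((κ + 4) * a : ℕ)) (hnN : n ≤ N) (hN : N ≤ (κ + 4) * a)
    (hbig : 2 ^ (k + 3) * (m + 1) * Real.log (4 * 3 ^ κ * (κ + 1) + 10) ≤ εr * ((κ + 4) * a : ℕ)) :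
    (∀ S, hc Q (cX N c o π S) (cB n c o π) ≤
      (h - κ) * ((N : ℝ) - n) * Real.log 2 + εr * ((κ + 4) * a : ℕ)) ∧
    (∀ r : ℕ, n ≤ r → r ≤ N → (h - κ) * ((r : ℝ) - n) * Real.log 2 -
        3 * εr * ((κ + 4) * a : ℕ) ≤
      hc Q (fun ω => fl r (fun i => (cX N c o π ∅ ω i : ℝ) / 2 ^ N))
        (fun ω => (cq n c π ω, cB n c o π ω))) ∧
    (∀ s : ℕ, s ≤ n → (κ : ℝ) * s * Real.log 2 - 2 ^ (k + 4) * εr * ((κ + 4) * a : ℕ) ≤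
      hc Q (fun ω => fl s (fun j : {j // j ∈ o.J} => cC n c o (cB n c o π ω) (cq n c π ω) j))
        (fun ω => (cX N c o π ∅ ω, cB n c o π ω))) := sorry

end fam

section fam2

variable {Ω Ω' : Type} [Fintype Ω] [Fintype Ω'] {m κ k : ℕ}

/-- conditioning a family on an event -/
theorem CubeFam.on {a : ℕ} {K cost p : ℝ} {P : Law Ω} {c : Cf Ω m} {o : Ob Ω m κ} {Q : Law Ω'}
    {π : CI k → Ω' → Ω} (h : CubeFam a k K cost P c o Q π) {E : Ω' → Prop} (hp : 0 < p)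
    (hE : p ≤ prE Q E) : CubeFam a k (K / p) ((cost + Real.log 2) / p) P c o (on Q E) π := sorry

/-- the laws of the digits are close to uniform on average -/
theorem ktv_sum {h ι εu e0 C : ℝ} {a : ℕ} {P : Law Ω} {c : Cf Ω m} {o : Ob Ω m κ}
    (hH : Hyp h κ a ι εu e0 C P c o) :
    0 ≤ εu ∧ ∑ s ∈ img (key c a), P.pr (key c a) s * ktv P c κ a s ≤ 2 * Real.sqrt εu := sorry

/-- the times of two copies are separated -/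
theorem copies_sep {h ι εu e0 C : ℝ} {a : ℕ} {P : Law Ω} {c : Cf Ω m} {o : Ob Ω m κ}
    (hH : Hyp h κ a ι εu e0 C P c o) (w : ℕ) (hw : w ≤ (κ + 3) * a) (Q2 : Law (Fin 2 → Ω))
    (hQ2 : ∀ v, Q2.w v = cw P (key c a) 1 v) :
    prE Q2 (fun v => (2 : ℝ) ^ (a + w) * |c.t (v 0) - c.t (v 1)| < 1) ≤
      3 / 2 ^ w + 2 * Real.sqrt εu := sorry

end fam2

/-! ### C4 : core, main part, cube law, end -/

theorem pccore (R : Gr) (habs : AbsB.PAbsV) (hkill : PKill R) (hrates : PRates R) :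
    PCCore R := sorry

theorem pcmain (R : Gr) (hcore : PCCore R) : PCMain R := sorry

theorem pclaw : PCLaw := sorry

theorem stepC_of (R : Gr) (hp : PInterp R) (hl : PCLaw) (hm : PCMain R) : PStepC R := sorry

end Vale.Agent.P127.Stk
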