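import Vale.Agent.P127.Stk.CDefs
import Vale.Agent.P127.Stk.PolyLaw
import Vale.Agent.P127.Stk.PolyUnif

/-!
# P127 / Stk : the family of progressions as a cube family
-/

namespace Vale.Agent.P127.Stk

open Finset Vale.Agent.P127

section wrap

variable {Ω : Type} {m : ℕ}

/-- the low digits lie in `[0, 2^(L-a))` -/
theorem cwr_floor {a L : ℕ} (h : a ≤ L) (t : ℝ) :
    0 ≤ fl1 L t - 2 ^ (L - a) * fl1 a t ∧ fl1 L t - 2 ^ (L - a) * fl1 a t < 2 ^ (L - a) := by
  have h1 : fl1 a t = fl1 L t / ((2 ^ (L - a) : ℕ) : ℤ) := floor_pow_aux h t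
  have h2 : ((2 ^ (L - a) : ℕ) : ℤ) = 2 ^ (L - a) := by push_cast; rfl
  rw [h2] at h1
  have hpos : (0 : ℤ) < 2 ^ (L - a) := by positivity
  have h3 : fl1 L t - 2 ^ (L - a) * fl1 a t = fl1 L t % 2 ^ (L - a) := by
    rw [h1]
    have := Int.emod_add_mul_ediv (fl1 L t) (2 ^ (L - a))
    linarith
  rw [h3]
  exact ⟨Int.emod_nonneg _ hpos.ne', Int.emod_lt_of_pos _ hpos⟩

theorem cwr_low (c : Cf Ω m) (κ a : ℕ) (ω : Ω) :
    0 ≤ low c a ((κ + 4) * a) ω ∧ low c a ((κ + 4) * a) ω < ((2 ^ ((κ + 3) * a) : ℕ) : ℤ) := by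
  have haL : a ≤ (κ + 4) * a := by nlinarith
  have hLa : (κ + 4) * a - a = (κ + 3) * a := by
    have : (κ + 4) * a = (κ + 3) * a + a := by ring
    omega
  have := cwr_floor haL (c.t ω)
  rw [hLa] at this
  unfold low
  rw [hLa]
  push_cast
  exact this

/-- the entropy hypothesis in terms of the low digits -/
theorem cwr_hc [Fintype Ω] (P : Law Ω) (c : Cf Ω m) (a L : ℕ) :
    hc P (low c a L) (key c a) =
      hc P (fun ω => fl1 L (c.t ω)) (fun ω => (fl1 a (c.t ω), c.x ω, c.y ω, c.A ω)) := by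
  refine hc_congr P ?_ ?_ ?_ ?_
  · intro ω ω' _ _ e
    simp only [key, Prod.mk.injEq] at e
    simp only [low, e.1, e.2.2.2.2]
  · intro ω ω' _ _ e
    simp only [key, Prod.mk.injEq] at e
    have h1 := e.1
    simp only [low, e.2.2.2.2] at h1
    linarith
  · intro ω ω' _ _ e
    simp only [Prod.mk.injEq] at e
    simp only [key, Prod.mk.injEq]
    exact ⟨e.2.1, e.2.2.1, e.2.2.2, e.1⟩
  · intro ω ω' _ _ e
    simp only [key, Prod.mk.injEq] at e
    simp only [Prod.mk.injEq]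
    exact ⟨e.2.2.2, e.1, e.2.1, e.2.2.1⟩

end wrap

/-- lower bound for the normalising constant of the law of progressions -/
theorem ap_Z (k : ℕ) : ∃ a0 : ℕ, ∃ εu0 : ℝ, 0 < εu0 ∧
    ∀ (κ m : ℕ) (h ι εu e C : ℝ) (a : ℕ) (Ω : Type) [Fintype Ω] (P : Law Ω) (c : Cf Ω m)
      (o : Ob Ω m κ) (Q0 : Law (Fin (k + 3) → Ω)) (Z : ℝ), a0 ≤ a → εu ≤ εu0 →
      Hyp h κ a ι εu e C P c o → 0 < Z →
      (∀ w, Q0.w w =
        apw P (key c a) (low c a ((κ + 4) * a)) (2 ^ ((κ + 3) * a)) (k + 2) w / Z) →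
      1 / (4 * ((k + 2 : ℕ) : ℝ)) / (((2 ^ ((κ + 3) * a) : ℕ) : ℝ)) ^ (k + 2 - 1) ≤ Z := by
  obtain ⟨δ, hδ, M0, hM0⟩ := apw_mass_ge (k + 2) (by omega)
  refine ⟨M0, (δ / 2) ^ 2, by positivity, ?_⟩
  intro κ m h ι εu e C a Ω _ P c o Q0 Z ha hεu hyp hZ hQ
  rw [ap_norm hZ hQ]
  have hM : M0 ≤ 2 ^ ((κ + 3) * a) := by
    have h1 : a ≤ (κ + 3) * a := by nlinarith
    have h2 : a < 2 ^ a := Nat.lt_two_pow_self
    have h3 : 2 ^ a ≤ 2 ^ ((κ + 3) * a) := Nat.pow_le_pow_right (by norm_num) h1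
    omega
  refine hM0 _ hM Ω _ P (key c a) (low c a ((κ + 4) * a)) (fun ω _ => cwr_low c κ a ω) ?_
  have h1 := unif_l1 P (key c a) (low c a ((κ + 4) * a)) (2 ^ ((κ + 3) * a))
    Nat.one_le_two_pow (fun ω _ => cwr_low c κ a ω) ((δ / 2) ^ 2) (by positivity) (by
      rw [cwr_hc]
      have h2 := hyp.unif
      have h3 : Real.log ((2 ^ ((κ + 3) * a) : ℕ) : ℝ) =
          (((κ + 4) * a : ℕ) - (a : ℝ)) * Real.log 2 := by
        push_cast
        rw [Real.log_pow]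
        push_cast
        ring
      rw [h3]
      linarith)
  rw [Real.sqrt_sq (by positivity)] at h1
  linarith

/-- the statement of `ap_family` (helper662) -/
def PAPFam : Prop := ∀ (p n : ℕ) (c0 : ℝ), 1 ≤ p → 0 < c0 → ∃ K : ℝ, 1 ≤ K ∧
  ∀ (Ω S T T' V S' : Type) [Fintype Ω] (P : Law Ω) (W : Ω → S) (U : Ω → ℤ) (M : ℕ)
    (Q0 : Law (Fin (p + 1) → Ω)) (Z : ℝ) (l : Ω → T) (A : Ω → T') (B : Ω → V) (I : Ω → S'),
    1 ≤ M → (∀ ω, 0 < P.w ω → 0 ≤ U ω ∧ U ω < M) →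
    (∀ w, Q0.w w = apw P W U M p w / Z) → 0 < Z → c0 / (M : ℝ) ^ (p - 1) ≤ Z →
    Fn P I B → Fn P U B →
    Fn P W (fun ω => (l ω, A ω, I ω)) → Fn P (fun ω => (l ω, A ω, I ω)) W →
    ∃ (Ω₁ : Type) (_ : Fintype Ω₁) (Q : Law Ω₁) (π : Fin (p + 1) ⊕ Fin n → Ω₁ → Ω),
      (∀ v, Q.pr (fun x j => π (Sum.inl j) x) v = Q0.w v) ∧
      (∀ x, 0 < Q.w x → ∀ i, W (π i x) = W (π (Sum.inl 0) x) ∧ 0 < P.w (π i x)) ∧
      (∀ x, 0 < Q.w x → ∃ μ : ℤ, ∀ j : Fin (p + 1),
        U (π (Sum.inl j) x) = U (π (Sum.inl 0) x) + (j : ℕ) * μ) ∧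
      (∀ i, Dom Q (π i) P K) ∧
      (∀ i j, i ≠ j → ∀ v, Q.pr (fun x => ![π (Sum.inl i) x, π (Sum.inl j) x]) v ≤
        K * cw P W 1 v) ∧
      (∀ j v, Q.pr (fun x => (Fin.snoc (fun l => π (Sum.inr l) x) (π (Sum.inl j) x) :
        Fin (n + 1) → Ω)) v ≤ K * cw P W n v) ∧
      mi Q (fun x => l (π (Sum.inl 0) x)) (fun x i => B (π i x))
        (fun x => A (π (Sum.inl 0) x)) ≤ K * (mi P l B A + 1)

/-- the existence of the family, from `ap_family` -/
theorem pclaw_of (hfam : PAPFam) : PCLaw := by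
  classical
  intro κ k
  obtain ⟨a0, εu0, hεu0, hZ⟩ := ap_Z k
  have hc0 : (0 : ℝ) < 1 / (4 * ((k + 2 : ℕ) : ℝ)) := by positivity
  obtain ⟨K, hK, hF⟩ := hfam (k + 2) (k + 1) (1 / (4 * ((k + 2 : ℕ) : ℝ))) (by omega) hc0
  refine ⟨K, by linarith, a0, εu0, hεu0, ?_⟩
  intro m h ι εu e C a Ω _ P c o Q0 Z ha hεu hyp hZ0 hQ0
  have hZ1 := hZ κ m h ι εu e C a Ω P c o Q0 Z ha hεu hyp hZ0 hQ0
  obtain ⟨Ω₁, inst, Q, π, h1, h2, h3, h4, h5, h6, h7⟩ := hF Ω _ _ _ _ _ P (key c a)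
    (low c a ((κ + 4) * a)) (2 ^ ((κ + 3) * a)) Q0 Z (fun ω => (c.x ω, c.y ω)) c.A
    (fun ω => (c.t ω, o.G ω)) (fun ω => fl1 a (c.t ω)) Nat.one_le_two_pow
    (fun ω _ => cwr_low c κ a ω) hQ0 hZ0 hZ1
    (by
      intro ω ω' _ _ e
      have : c.t ω = c.t ω' := congrArg Prod.fst e
      simp only [this])
    (by
      intro ω ω' _ _ e
      have : c.t ω = c.t ω' := congrArg Prod.fst e
      simp only [low, this])
    (by
      intro ω ω' _ _ e
      simp only [Prod.mk.injEq] at e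
      simp only [key, Prod.mk.injEq]
      exact ⟨e.1.1, e.1.2, e.2.1, e.2.2⟩)
    (by
      intro ω ω' _ _ e
      simp only [key, Prod.mk.injEq] at e
      simp only [Prod.mk.injEq]
      exact ⟨⟨e.1, e.2.1⟩, e.2.2.1, e.2.2.2⟩)
  have hvx0 : vx (∅ : Finset (Fin (k + 2))) = 0 := by
    unfold vx
    rfl
  have hkeys : ∀ x, 0 < Q.w x → ∀ i j, key c a (π i x) = key c a (π j x) := fun x hx i j =>
    ((h2 x hx i).1).trans ((h2 x hx j).1).symm
  refine ⟨Ω₁, inst, Q, Sum.elim (fun S => π (Sum.inl (vx S))) (fun l => π (Sum.inr l)),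
    ⟨?_, ?_, ?_, ?_, ?_, ?_⟩, ?_⟩
  · intro x hx i j
    rcases i with i | i <;> rcases j with j | j <;> exact hkeys x hx _ _
  · intro i
    rcases i with i | i
    · exact h4 _
    · exact h4 _
  · intro S hS w
    simp only [Sum.elim_inl]
    rw [hvx0]
    refine h5 0 (vx S) ?_ w
    intro e
    apply hS
    have e1 : ((0 : Fin (k + 3)) : ℕ) = (vx S : ℕ) := congrArg Fin.val e
    have e2 : S.card = 0 := e1.symm
    exact Finset.card_eq_zero.1 e2
  · intro S w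
    exact h6 (vx S) w
  · have e1 : mi P (fun ω => (c.x ω, c.y ω)) (fun ω => (c.t ω, o.G ω)) c.A ≤
        C + ι * ((κ + 4) * a : ℕ) := by
      rw [mi_pair]
      have := hyp.good.ind
      have := hyp.cost
      linarith
    have e2 : K * (mi P (fun ω => (c.x ω, c.y ω)) (fun ω => (c.t ω, o.G ω)) c.A + 1) ≤
        K * (C + ι * ((κ + 4) * a : ℕ) + 1) :=
      mul_le_mul_of_nonneg_left (by linarith) (by linarith)
    refine le_trans ?_ (h7.trans e2)
    simp only [Sum.elim_inl]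
    rw [hvx0]
    refine mi_mono_right Q _ ?_
    intro x x' _ _ e
    have e3 := congrArg Prod.fst e
    simp only at e3
    funext i
    rcases i with i | i
    · exact congrFun e3 (Sum.inl (vx i))
    · exact congrFun e3 (Sum.inr i)
  · intro x hx
    simp only [Sum.elim_inl]
    obtain ⟨μ, hμ⟩ := h3 x hx
    refine isCube_ap (fun l => fl1 ((κ + 4) * a) (c.t (π (Sum.inl l) x))) μ ?_
    intro l
    have e1 := hμ l
    have e2 := hkeys x hx (Sum.inl l) (Sum.inl 0)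
    simp only [key, Prod.mk.injEq] at e2
    simp only [low, e2.2.2.2] at e1
    linarith
  · intro thr
    set F : (Fin (k + 3) → Ω) → Prop := fun w => ∃ i, i ∉ o.J ∧ ∃ j ∈ o.J,
      thr < |∑ l : Fin (k + 3), (-1 : ℝ) ^ (l : ℕ) * ((k + 2).choose l : ℝ) * o.Γ (w l) i j| with hF
    have e1 : ∀ x, cBad o (Sum.elim (fun S => π (Sum.inl (vx S))) (fun l => π (Sum.inr l)))
        thr x ↔ F (fun j => π (Sum.inl j) x) := fun x =>
      cBad_ap o _ (fun l x => π (Sum.inl l) x) (fun S => rfl) thr x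
    have e2 : ∑ w with F w, Q0.w w = ∑ w with F w, Q.pr (fun x j => π (Sum.inl j) x) w :=
      Finset.sum_congr rfl fun w _ => (h1 w).symm
    refine le_of_eq ?_
    calc ∑ w with F w, Q0.w w = ∑ w with F w, Q.pr (fun x j => π (Sum.inl j) x) w := e2
      _ = ∑ x with F (fun j => π (Sum.inl j) x), Q.w x := by
          rw [Finset.sum_filter]
          have e3 : ∀ w : Fin (k + 3) → Ω, (if F w then
              Q.pr (fun x j => π (Sum.inl j) x) w else 0) =
              ∑ x, if (fun j => π (Sum.inl j) x) = w then (if F w then Q.w x else 0) else 0 := by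
            intro w
            unfold Law.pr
            by_cases hw : F w
            · rw [if_pos hw, Finset.sum_filter]
              refine Finset.sum_congr rfl fun x _ => ?_
              split_ifs <;> rfl
            · rw [if_neg hw]
              symm
              refine Finset.sum_eq_zero fun x _ => ?_
              split_ifs <;> rfl
          rw [Finset.sum_congr rfl fun w _ => e3 w, Finset.sum_comm, Finset.sum_filter]
          refine Finset.sum_congr rfl fun x _ => ?_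
          rw [Finset.sum_ite_eq]
          simp
      _ = prE Q (cBad o (Sum.elim (fun S => π (Sum.inl (vx S))) (fun l => π (Sum.inr l))) thr) := by
          unfold prE
          refine Finset.sum_congr ?_ fun _ _ => rfl
          ext x
          simp only [Finset.mem_filter, Finset.mem_univ, true_and]
          exact (e1 x).symm

end Vale.Agent.P127.Stk
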