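import Vale.Agent.P127.Stk.LibEnt

/-!
# P127 / Stk : the stationary chain law (section 4.1 of PROOF.md)

`P` is a law on the state space `Ω`, `a b : Ω → S` two maps with the same law. `chL P a b hab N` is the law
of a chain `w_0, ..., w_N` of states, each of law `P`, with `b (w_i) = a (w_{i+1})`, and conditionally
independent given this value.
-/

namespace Vale.Agent.P127.Stk.Chain

open Finset Vale.Agent.P127 Vale.Agent.P127.Stk

variable {Ω : Type} [Fintype Ω] {Ω' : Type} [Fintype Ω'] {S T U V : Type*}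

/-- a map preserving expectations preserves the law of every function -/
theorem pr_of_ex {Q : Law Ω'} {P : Law Ω} {π : Ω' → Ω}
    (h : ∀ F : Ω → ℝ, Q.ex (fun w => F (π w)) = P.ex F) (f : Ω → T) (y : T) :
    Q.pr (fun w => f (π w)) y = P.pr f y := by
  rw [Law.pr_eq_ex, Law.pr_eq_ex]
  exact h fun ω => Law.ind (f ω = y)

theorem H_of_ex {Q : Law Ω'} {P : Law Ω} {π : Ω' → Ω}
    (h : ∀ F : Ω → ℝ, Q.ex (fun w => F (π w)) = P.ex F) (f : Ω → T) :
    Q.H (fun w => f (π w)) = P.H f := by
  unfold Law.H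
  simp only [pr_of_ex h]
  exact h fun ω => - Real.log (P.pr f (f ω))

theorem hc_of_ex {Q : Law Ω'} {P : Law Ω} {π : Ω' → Ω}
    (h : ∀ F : Ω → ℝ, Q.ex (fun w => F (π w)) = P.ex F) (f : Ω → T) (g : Ω → U) :
    hc Q (fun w => f (π w)) (fun w => g (π w)) = hc P f g := by
  unfold hc
  rw [H_of_ex h (fun ω => (f ω, g ω)), H_of_ex h g]

variable (P : Law Ω) (a b : Ω → S)

open Classical in
/-- edge weight -/
noncomputable def ew (s s' : Ω) : ℝ := if b s = a s' then 1 / P.pr a (a s') else 0

/-- weight of a chain -/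
noncomputable def chw (N : ℕ) (w : Fin (N + 1) → Ω) : ℝ :=
  (∏ i, P.w (w i)) * ∏ i : Fin N, ew P a b (w i.castSucc) (w i.succ)

lemma ew_nonneg (s s' : Ω) : 0 ≤ ew P a b s s' := by
  unfold ew
  split_ifs
  · exact one_div_nonneg.2 (P.pr_nonneg _ _)
  · exact le_rfl

lemma chw_nonneg (N : ℕ) (w : Fin (N + 1) → Ω) : 0 ≤ chw P a b N w :=
  mul_nonneg (Finset.prod_nonneg fun _ _ => P.nn _)
    (Finset.prod_nonneg fun _ _ => ew_nonneg P a b _ _)

lemma chw_snoc (N : ℕ) (v : Fin (N + 1) → Ω) (x : Ω) :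
    chw P a b (N + 1) (Fin.snoc (α := fun _ => Ω) v x) =
      chw P a b N v * (P.w x * ew P a b (v (Fin.last N)) x) := by
  have e1 : ∀ i : Fin (N + 1), (Fin.snoc (α := fun _ => Ω) v x : Fin (N + 2) → Ω) i.castSucc =
      v i := fun i => Fin.snoc_castSucc (α := fun _ => Ω) x v i
  have e2 : (Fin.snoc (α := fun _ => Ω) v x : Fin (N + 2) → Ω) (Fin.last (N + 1)) = x :=
    Fin.snoc_last (α := fun _ => Ω) x v
  have e3 : ∀ i : Fin N, (Fin.snoc (α := fun _ => Ω) v x : Fin (N + 2) → Ω) i.castSucc.succ =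
      v i.succ := fun i => by
    rw [Fin.succ_castSucc]
    exact e1 i.succ
  have e4 : (Fin.snoc (α := fun _ => Ω) v x : Fin (N + 2) → Ω) (Fin.last N).succ = x := e2
  have h1 : ∏ i : Fin (N + 2), P.w ((Fin.snoc (α := fun _ => Ω) v x : Fin (N + 2) → Ω) i) =
      (∏ i, P.w (v i)) * P.w x := by
    rw [Fin.prod_univ_castSucc]
    simp only [e1, e2]
  have h2 : ∏ i : Fin (N + 1), ew P a b
      ((Fin.snoc (α := fun _ => Ω) v x : Fin (N + 2) → Ω) i.castSucc)
      ((Fin.snoc (α := fun _ => Ω) v x : Fin (N + 2) → Ω) i.succ) =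
      (∏ i : Fin N, ew P a b (v i.castSucc) (v i.succ)) * ew P a b (v (Fin.last N)) x := by
    rw [Fin.prod_univ_castSucc]
    simp only [e1, e3, e4]
  unfold chw
  rw [h1, h2]
  ring

lemma chw_cons (N : ℕ) (v : Fin (N + 1) → Ω) (x : Ω) :
    chw P a b (N + 1) (Fin.cons (α := fun _ => Ω) x v) =
      (P.w x * ew P a b x (v 0)) * chw P a b N v := by
  have e1 : ∀ i : Fin (N + 1), (Fin.cons (α := fun _ => Ω) x v : Fin (N + 2) → Ω) i.succ =
      v i := fun i => Fin.cons_succ (α := fun _ => Ω) x v i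
  have e2 : (Fin.cons (α := fun _ => Ω) x v : Fin (N + 2) → Ω) 0 = x :=
    Fin.cons_zero (α := fun _ => Ω) x v
  have e3 : ∀ i : Fin N, (Fin.cons (α := fun _ => Ω) x v : Fin (N + 2) → Ω) i.succ.castSucc =
      v i.castSucc := fun i => by
    rw [← Fin.succ_castSucc]
    exact e1 i.castSucc
  have e4 : (Fin.cons (α := fun _ => Ω) x v : Fin (N + 2) → Ω) (Fin.castSucc 0) = x := e2
  have h1 : ∏ i : Fin (N + 2), P.w ((Fin.cons (α := fun _ => Ω) x v : Fin (N + 2) → Ω) i) =
      P.w x * (∏ i, P.w (v i)) := by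
    rw [Fin.prod_univ_succ]
    simp only [e1, e2]
  have h2 : ∏ i : Fin (N + 1), ew P a b
      ((Fin.cons (α := fun _ => Ω) x v : Fin (N + 2) → Ω) i.castSucc)
      ((Fin.cons (α := fun _ => Ω) x v : Fin (N + 2) → Ω) i.succ) =
      ew P a b x (v 0) * ∏ i : Fin N, ew P a b (v i.castSucc) (v i.succ) := by
    rw [Fin.prod_univ_succ]
    simp only [e1, e3, e4]
  unfold chw
  rw [h1, h2]
  ring

lemma sum_snoc {N : ℕ} (F : (Fin (N + 2) → Ω) → ℝ) :
    ∑ w, F w = ∑ v : Fin (N + 1) → Ω, ∑ x, F (Fin.snoc (α := fun _ => Ω) v x) := by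
  rw [← (Fin.snocEquiv (fun _ : Fin (N + 2) => Ω)).sum_comp, Fintype.sum_prod_type_right]
  rfl

lemma sum_cons {N : ℕ} (F : (Fin (N + 2) → Ω) → ℝ) :
    ∑ w, F w = ∑ v : Fin (N + 1) → Ω, ∑ x, F (Fin.cons (α := fun _ => Ω) x v) := by
  rw [← (Fin.consEquiv (fun _ : Fin (N + 2) => Ω)).sum_comp, Fintype.sum_prod_type_right]
  rfl

variable {P a b}

lemma pr_b_pos (hab : ∀ x, P.pr a x = P.pr b x) {s : Ω} (hs : 0 < P.w s) :
    0 < P.pr a (b s) := by
  rw [hab]
  exact P.pr_pos b hs

lemma sum_right (hab : ∀ x, P.pr a x = P.pr b x) {s : Ω} (hs : 0 < P.w s) :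
    ∑ x, P.w x * ew P a b s x = 1 := by
  classical
  have h1 : ∀ x, P.w x * ew P a b s x =
      (if a x = b s then P.w x else 0) * (1 / P.pr a (b s)) := by
    intro x
    unfold ew
    by_cases h : b s = a x
    · rw [if_pos h, if_pos h.symm, h]
    · rw [if_neg h, if_neg (fun h' => h h'.symm)]
      ring
  simp only [h1]
  rw [← Finset.sum_mul, ← Finset.sum_filter]
  have h2 : ∑ x with a x = b s, P.w x = P.pr a (b s) := rfl
  rw [h2, mul_one_div, div_self (pr_b_pos hab hs).ne']

lemma sum_left (hab : ∀ x, P.pr a x = P.pr b x) {s : Ω} (hs : 0 < P.w s) :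
    ∑ x, P.w x * ew P a b x s = 1 := by
  classical
  have h1 : ∀ x, P.w x * ew P a b x s =
      (if b x = a s then P.w x else 0) * (1 / P.pr a (a s)) := by
    intro x
    unfold ew
    by_cases h : b x = a s
    · rw [if_pos h, if_pos h]
    · rw [if_neg h, if_neg h]
      ring
  simp only [h1]
  rw [← Finset.sum_mul, ← Finset.sum_filter]
  have h2 : ∑ x with b x = a s, P.w x = P.pr b (a s) := rfl
  rw [h2, ← hab, mul_one_div, div_self (P.pr_pos a hs).ne']

lemma chw_pos_w {N : ℕ} {w : Fin (N + 1) → Ω} (h : chw P a b N w ≠ 0) (i : Fin (N + 1)) :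
    0 < P.w (w i) := by
  rcases (P.nn (w i)).eq_or_lt with h0 | h0
  · exfalso
    apply h
    unfold chw
    rw [Finset.prod_eq_zero (Finset.mem_univ i) h0.symm, zero_mul]
  · exact h0

lemma chw_edge {N : ℕ} {w : Fin (N + 1) → Ω} (h : chw P a b N w ≠ 0) (i : Fin N) :
    b (w i.castSucc) = a (w i.succ) := by
  by_contra hc
  apply h
  unfold chw
  rw [Finset.prod_eq_zero (s := univ) (f := fun i : Fin N => ew P a b (w i.castSucc) (w i.succ))
    (Finset.mem_univ i) (by unfold ew; rw [if_neg hc]), mul_zero]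

lemma chw_sum_init (hab : ∀ x, P.pr a x = P.pr b x) (N : ℕ) (F : (Fin (N + 1) → Ω) → ℝ) :
    ∑ w, chw P a b (N + 1) w * F (Fin.init w) = ∑ v, chw P a b N v * F v := by
  rw [sum_snoc]
  refine Finset.sum_congr rfl fun v _ => ?_
  simp only [chw_snoc]
  have : ∀ x, (Fin.init (Fin.snoc (α := fun _ => Ω) v x : Fin (N + 2) → Ω)) = v := fun x =>
    Fin.init_snoc (α := fun _ => Ω) x v
  simp only [this]
  rw [← Finset.sum_mul, ← Finset.mul_sum]
  by_cases h : chw P a b N v = 0
  · rw [h]; ring
  · rw [sum_right hab (chw_pos_w h _), mul_one]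

lemma chw_sum_tail (hab : ∀ x, P.pr a x = P.pr b x) (N : ℕ) (F : (Fin (N + 1) → Ω) → ℝ) :
    ∑ w, chw P a b (N + 1) w * F (Fin.tail w) = ∑ v, chw P a b N v * F v := by
  rw [sum_cons]
  refine Finset.sum_congr rfl fun v _ => ?_
  simp only [chw_cons]
  have : ∀ x, (Fin.tail (Fin.cons (α := fun _ => Ω) x v : Fin (N + 2) → Ω)) = v := fun x =>
    Fin.tail_cons (α := fun _ => Ω) x v
  simp only [this]
  rw [← Finset.sum_mul, ← Finset.sum_mul]
  by_cases h : chw P a b N v = 0
  · rw [h]; ring
  · rw [sum_left hab (chw_pos_w h _), one_mul]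

lemma chw_sum (hab : ∀ x, P.pr a x = P.pr b x) (N : ℕ) : ∑ w, chw P a b N w = 1 := by
  induction N with
  | zero =>
    have h1 : ∀ w : Fin 1 → Ω, chw P a b 0 w = P.w (w 0) := by
      intro w
      unfold chw
      simp
    simp only [h1]
    rw [← P.sum_one]
    exact Fintype.sum_equiv (Equiv.funUnique (Fin 1) Ω) _ _ fun w => rfl
  | succ N ih =>
    have := chw_sum_init hab N (fun _ => 1)
    simpa [ih] using this

/-- the stationary chain law -/
noncomputable def chL (P : Law Ω) (a b : Ω → S) (hab : ∀ x, P.pr a x = P.pr b x) (N : ℕ) :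
    Law (Fin (N + 1) → Ω) where
  w := chw P a b N
  nn := chw_nonneg P a b N
  sum_one := chw_sum hab N

theorem chL_pos {hab : ∀ x, P.pr a x = P.pr b x} {N : ℕ} {w : Fin (N + 1) → Ω}
    (h : 0 < (chL P a b hab N).w w) (i : Fin (N + 1)) : 0 < P.w (w i) :=
  chw_pos_w (ne_of_gt h) i

theorem chL_edge {hab : ∀ x, P.pr a x = P.pr b x} {N : ℕ} {w : Fin (N + 1) → Ω}
    (h : 0 < (chL P a b hab N).w w) (i : Fin N) : b (w i.castSucc) = a (w i.succ) :=
  chw_edge (ne_of_gt h) i

theorem chL_ex_init (hab : ∀ x, P.pr a x = P.pr b x) (N : ℕ) (F : (Fin (N + 1) → Ω) → ℝ) :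
    (chL P a b hab (N + 1)).ex (fun w => F (Fin.init w)) = (chL P a b hab N).ex F :=
  chw_sum_init hab N F

theorem chL_ex_tail (hab : ∀ x, P.pr a x = P.pr b x) (N : ℕ) (F : (Fin (N + 1) → Ω) → ℝ) :
    (chL P a b hab (N + 1)).ex (fun w => F (Fin.tail w)) = (chL P a b hab N).ex F :=
  chw_sum_tail hab N F

theorem chL_ex_zero (hab : ∀ x, P.pr a x = P.pr b x) (F : Ω → ℝ) :
    (chL P a b hab 0).ex (fun w => F (w 0)) = P.ex F := by
  unfold Law.ex
  have h1 : ∀ w : Fin 1 → Ω, (chL P a b hab 0).w w = P.w (w 0) := by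
    intro w
    simp [chL, chw]
  simp only [h1]
  exact Fintype.sum_equiv (Equiv.funUnique (Fin 1) Ω) _ _ fun w => rfl

/-- restriction to a block -/
theorem chL_ex_block (hab : ∀ x, P.pr a x = P.pr b x) {N : ℕ} :
    ∀ {j M : ℕ} (h : j + M ≤ N) (F : (Fin (M + 1) → Ω) → ℝ),
      (chL P a b hab N).ex (fun w => F (fun i => w ⟨j + i, by omega⟩)) =
        (chL P a b hab M).ex F := by
  induction N with
  | zero =>
    intro j M h F
    obtain rfl : j = 0 := by omega
    obtain rfl : M = 0 := by omega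
    congr 1
    funext w
    congr 1
    funext i
    congr 1
    ext
    simp
  | succ N ih =>
    intro j M h F
    by_cases h1 : j + M ≤ N
    · rw [← ih h1 F, ← chL_ex_init hab N]
      rfl
    · cases j with
      | zero =>
        obtain rfl : M = N + 1 := by omega
        congr 1
        funext w
        congr 1
        funext i
        congr 1
        ext
        simp
      | succ j =>
        have h2 : j + M ≤ N := by omega
        rw [← ih h2 F, ← chL_ex_tail hab N]
        congr 1
        funext w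
        congr 1
        funext i
        unfold Fin.tail
        congr 1
        ext
        simp
        omega

/-- each state has the law `P` -/
theorem chL_ex_one (hab : ∀ x, P.pr a x = P.pr b x) {N : ℕ} (i : Fin (N + 1)) (F : Ω → ℝ) :
    (chL P a b hab N).ex (fun w => F (w i)) = P.ex F := by
  have h := chL_ex_block hab (N := N) (j := i) (M := 0) (by omega) (fun w => F (w 0))
  rw [chL_ex_zero] at h
  rw [← h]
  rfl

/-- the last state is conditionally independent of the previous ones -/
theorem chL_markov (hab : ∀ x, P.pr a x = P.pr b x) (N : ℕ) (f : (Fin (N + 1) → Ω) → T)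
    (g : Ω → U) :
    (chL P a b hab (N + 1)).H (fun w => (f (Fin.init w), g (w (Fin.last (N + 1))),
        a (w (Fin.last (N + 1))))) =
      (chL P a b hab N).H (fun v => (f v, b (v (Fin.last N)))) + P.H (fun x => (g x, a x)) -
        P.H a := by
  classical
  have hX : ∀ x, (chL P a b hab N).pr (fun v => b (v (Fin.last N))) x = P.pr a x := by
    intro x
    rw [hab]
    exact pr_of_ex (fun F => chL_ex_one hab (Fin.last N) F) b x
  have hg := Law.glue_indep (P := chL P a b hab N) (Q := P)
    (X₁ := fun v => b (v (Fin.last N))) (X₂ := a) hX f g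
  have hHa : (chL P a b hab N).H (fun v => b (v (Fin.last N))) = P.H a := by
    rw [H_of_ex (fun F => chL_ex_one hab (Fin.last N) F) b]
    unfold Law.H
    have : ∀ x, P.pr a x = P.pr b x := hab
    have h2 := Law.ex_comp P b (fun y => - Real.log (P.pr b y))
    have h3 := Law.ex_comp P a (fun y => - Real.log (P.pr a y))
    rw [h2, h3]
    have h4 : ∀ {X : Ω → S} {x : S}, x ∉ img X → P.pr X x = 0 := by
      intro X x hx
      unfold Law.pr
      refine Finset.sum_eq_zero fun ω hω => ?_
      exact absurd ((Finset.mem_filter.1 hω).2) (fun h => hx (by rw [mem_img]; exact ⟨ω, h⟩))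
    rw [Finset.sum_subset (Finset.subset_union_right (s₁ := img a) (s₂ := img b))
      (fun x _ hx => by rw [h4 hx, zero_mul]),
      Finset.sum_subset (Finset.subset_union_left (s₁ := img a) (s₂ := img b))
      (fun x _ hx => by rw [h4 hx, zero_mul])]
    refine Finset.sum_congr rfl fun x _ => ?_
    rw [hab]
  rw [hHa] at hg
  rw [← hg]
  -- transfer of expectations from the chain to the fibre product
  have key : ∀ F : (Fin (N + 2) → Ω) → ℝ, (chL P a b hab (N + 1)).ex F =
      (Law.glue (chL P a b hab N) P (fun v => b (v (Fin.last N))) a hX).ex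
        (fun p => F (Fin.snoc (α := fun _ => Ω) p.fst p.snd)) := by
    intro F
    show ∑ w, chw P a b (N + 1) w * F w = ∑ p : Law.GT (fun v : Fin (N + 1) → Ω =>
      b (v (Fin.last N))) a, chw P a b N p.fst * P.w p.snd /
        (chL P a b hab N).pr (fun v => b (v (Fin.last N))) (b (p.fst (Fin.last N))) *
          F (Fin.snoc (α := fun _ => Ω) p.fst p.snd)
    rw [Law.GT_sum (fun v : Fin (N + 1) → Ω => b (v (Fin.last N))) a
      (fun v x => chw P a b N v * P.w x / (chL P a b hab N).pr (fun v => b (v (Fin.last N)))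
        (b (v (Fin.last N))) * F (Fin.snoc (α := fun _ => Ω) v x)), sum_snoc]
    refine Finset.sum_congr rfl fun v _ => ?_
    rw [Finset.sum_filter]
    refine Finset.sum_congr rfl fun x _ => ?_
    rw [chw_snoc]
    unfold ew
    by_cases h : b (v (Fin.last N)) = a x
    · rw [if_pos h, if_pos h.symm, hX, h]
      ring
    · rw [if_neg h, if_neg (fun h' => h h'.symm)]
      ring
  have h1 : ∀ y, (chL P a b hab (N + 1)).pr (fun w => (f (Fin.init w), g (w (Fin.last (N + 1))),
        a (w (Fin.last (N + 1))))) y =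
      (Law.glue (chL P a b hab N) P (fun v => b (v (Fin.last N))) a hX).pr
        (fun p => (f p.fst, g p.snd, b (p.fst (Fin.last N)))) y := by
    intro y
    rw [Law.pr_eq_ex, Law.pr_eq_ex, key]
    refine congrArg _ (funext fun p => ?_)
    have e := p.eq
    simp only [Fin.init_snoc, Fin.snoc_last]
    rw [← e]
  unfold Law.H
  rw [key]
  refine congrArg _ (funext fun p => ?_)
  rw [h1]
  have e := p.eq
  simp only [Fin.init_snoc, Fin.snoc_last]
  rw [← e]

/-- Markov property in the form of conditional entropies: given the value `a (w_{N+1}) = b (w_N)` and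
anything about the past, `g (w_{N+1})` has the conditional entropy `H(g | a)` -/
theorem chL_markov_hc (hab : ∀ x, P.pr a x = P.pr b x) (N : ℕ) (f : (Fin (N + 1) → Ω) → T)
    (g : Ω → U) :
    hc (chL P a b hab (N + 1)) (fun w => g (w (Fin.last (N + 1))))
      (fun w => (f (Fin.init w), a (w (Fin.last (N + 1))))) = hc P g a := by
  have h1 := chL_markov hab N f g
  have h2 := chL_markov hab N f (fun _ => ())
  have h3 : P.H (fun x => ((), a x)) = P.H a := P.H_congr fun x x' => by simp
  have h4 : (chL P a b hab (N + 1)).H (fun w => (g (w (Fin.last (N + 1))), f (Fin.init w),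
      a (w (Fin.last (N + 1))))) = (chL P a b hab (N + 1)).H (fun w => (f (Fin.init w),
        g (w (Fin.last (N + 1))), a (w (Fin.last (N + 1))))) :=
    Law.H_congr _ fun x x' => by
      simp only [Prod.mk.injEq]
      tauto
  have h5 : (chL P a b hab (N + 1)).H (fun w => (f (Fin.init w), (),
      a (w (Fin.last (N + 1))))) = (chL P a b hab (N + 1)).H (fun w => (f (Fin.init w),
        a (w (Fin.last (N + 1))))) :=
    Law.H_congr _ fun x x' => by
      simp only [Prod.mk.injEq]
      tauto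
  unfold hc
  linarith

/-- The variables `a (w_0), g (w_0), ..., g (w_N)` are almost independent given the common value `K`
if `H(g|a)` is almost `H(g|K)`. -/
theorem chL_tc (hab : ∀ x, P.pr a x = P.pr b x) (K : Ω → V) (k : S → V) (hka : ∀ s, K s = k (a s))
    (hkb : ∀ s, K s = k (b s)) (g : Ω → U) (N : ℕ) :
    hc P a K + (N + 1) * hc P g a ≤
      hc (chL P a b hab N) (fun w => (a (w 0), fun i => g (w i))) (fun w => K (w 0)) := by
  induction N with
  | zero =>
    have h1 : hc (chL P a b hab 0) (fun w => (a (w 0), fun i => g (w i))) (fun w => K (w 0)) =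
        hc (chL P a b hab 0) (fun w => (a (w 0), g (w 0))) (fun w => K (w 0)) := by
      refine hc_congr _ ?_ ?_ (fun _ _ _ _ e => e) (fun _ _ _ _ e => e)
      · intro w w' _ _ e
        simp only [Prod.mk.injEq] at e ⊢
        refine ⟨e.1.1, funext fun i => ?_⟩
        have hi : i = 0 := Fin.ext (by have := i.2; simp only [Fin.val_zero]; omega)
        rw [hi]
        exact e.1.2
      · intro w w' _ _ e
        simp only [Prod.mk.injEq] at e ⊢
        exact ⟨e.1.1, congrFun e.1.2 0⟩
    rw [h1, hc_of_ex (fun F => chL_ex_one hab (0 : Fin 1) F) (fun s => (a s, g s)) K,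
      hc_pair P a g K]
    have h2 : hc P g (fun ω => (a ω, K ω)) = hc P g a := by
      refine hc_congr P (fun ω ω' _ _ e => congrArg Prod.fst e)
        (fun ω ω' _ _ e => congrArg Prod.fst e) (fun ω ω' _ _ e => ?_)
        (fun ω ω' _ _ e => congrArg Prod.fst e)
      simp only [Prod.mk.injEq]
      exact ⟨e, by rw [hka, hka, e]⟩
    rw [h2]
    simp
  | succ N ih =>
    set Q := chL P a b hab (N + 1) with hQ
    have hK : ∀ w, 0 < Q.w w → ∀ n (hn : n < N + 2), K (w ⟨n, hn⟩) = K (w 0) := by
      intro w hw n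
      induction n with
      | zero => intro hn; rfl
      | succ n ihn =>
        intro hn
        rw [← ihn (by omega)]
        have := chL_edge hw ⟨n, by omega⟩
        rw [hkb (w ⟨n, _⟩), hka (w ⟨n + 1, hn⟩)]
        exact congrArg k this.symm
    have h0 : hc Q (fun w => (a (w 0), fun i => g (w i))) (fun w => K (w 0)) =
        hc Q (fun w => ((a (w 0), fun i : Fin (N + 1) => g (w i.castSucc)),
          g (w (Fin.last (N + 1))))) (fun w => K (w 0)) := by
      refine hc_congr _ ?_ ?_ (fun _ _ _ _ e => e) (fun _ _ _ _ e => e)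
      · intro w w' _ _ e
        simp only [Prod.mk.injEq] at e ⊢
        refine ⟨e.1.1.1, funext fun i => ?_⟩
        refine Fin.lastCases ?_ (fun j => ?_) i
        · exact e.1.2
        · exact congrFun e.1.1.2 j
      · intro w w' _ _ e
        simp only [Prod.mk.injEq] at e ⊢
        exact ⟨⟨e.1.1, funext fun i => congrFun e.1.2 i.castSucc⟩,
          congrFun e.1.2 (Fin.last (N + 1))⟩
    rw [h0, hc_pair]
    have h1 : hc Q (fun w => (a (w 0), fun i : Fin (N + 1) => g (w i.castSucc)))
        (fun w => K (w 0)) =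
        hc (chL P a b hab N) (fun w => (a (w 0), fun i => g (w i))) (fun w => K (w 0)) :=
      hc_of_ex (fun F => chL_ex_init hab N F)
        (fun w : Fin (N + 1) → Ω => (a (w 0), fun i => g (w i))) (fun w => K (w 0))
    have h2 := chL_markov_hc hab N (fun w => (a (w 0), fun i => g (w i))) g
    have h3 : hc Q (fun w => g (w (Fin.last (N + 1))))
        (fun w => ((fun w : Fin (N + 1) → Ω => (a (w 0), fun i => g (w i))) (Fin.init w),
          a (w (Fin.last (N + 1))))) ≤
        hc Q (fun w => g (w (Fin.last (N + 1))))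
          (fun w => ((a (w 0), fun i : Fin (N + 1) => g (w i.castSucc)), K (w 0))) := by
      refine hc_mono_right Q _ ?_
      intro w w' hw hw' e
      simp only [Prod.mk.injEq] at e ⊢
      refine ⟨e.1, ?_⟩
      have e1 := hK w hw (N + 1) (by omega)
      have e2 := hK w' hw' (N + 1) (by omega)
      rw [← e1, ← e2, hka, hka]
      exact congrArg k e.2
    rw [h1]
    rw [h2] at h3
    push_cast
    linarith

end Vale.Agent.P127.Stk.Chain
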