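import Vale.Agent.P127.Entropy

/-!
# P127 / Stk : definitions for the sticky Kakeya project

Natural logarithms everywhere, `Real.log 2` per binary digit.
-/

namespace Vale.Agent.P127.Stk

open Finset Vale.Agent.P127

section basic

variable {Ω Ω' : Type} [Fintype Ω] [Fintype Ω'] {S T U : Type*}

/-- conditional entropy `H(X | Y)` -/
noncomputable def hc (P : Law Ω) (X : Ω → S) (Y : Ω → T) : ℝ :=
  P.H (fun ω => (X ω, Y ω)) - P.H Y

/-- conditional mutual information `I(X ; Y | Z)` -/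
noncomputable def mi (P : Law Ω) (X : Ω → S) (Y : Ω → T) (Z : Ω → U) : ℝ :=
  hc P X Z - hc P X (fun ω => (Y ω, Z ω))

/-- the first `s` binary digits of a vector -/
noncomputable def fl {ι : Type} (s : ℕ) (v : ι → ℝ) : ι → ℤ := fun i => ⌊(2 : ℝ) ^ s * v i⌋

/-- the first `s` binary digits of a number -/
noncomputable def fl1 (s : ℕ) (v : ℝ) : ℤ := ⌊(2 : ℝ) ^ s * v⌋

/-- the law of `π` under `Q` is at most `K` times `P` -/
def Dom (Q : Law Ω') (π : Ω' → Ω) (P : Law Ω) (K : ℝ) : Prop := ∀ ω, Q.pr π ω ≤ K * P.w ω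

open Classical in
/-- `N` copies of `P`, conditionally independent given the common value of `W` -/
noncomputable def cw (P : Law Ω) (W : Ω → S) (N : ℕ) (w : Fin (N + 1) → Ω) : ℝ :=
  if ∀ i, W (w i) = W (w 0) then (∏ i, P.w (w i)) / (P.pr W (W (w 0))) ^ N else 0

end basic

/-- a random line `x + t y` with a random time `t` and side information `A` -/
structure Cf (Ω : Type) (m : ℕ) where
  α : Type
  A : Ω → α
  x : Ω → Fin m → ℝ
  y : Ω → Fin m → ℝ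
  t : Ω → ℝ

namespace Cf

variable {Ω Ω' : Type} {m : ℕ}

/-- pull back along a map -/
def comp (c : Cf Ω m) (π : Ω' → Ω) : Cf Ω' m where
  α := c.α
  A := c.A ∘ π
  x := c.x ∘ π
  y := c.y ∘ π
  t := c.t ∘ π

/-- the point of the line at the time `t` -/
def pt (c : Cf Ω m) (ω : Ω) : Fin m → ℝ := fun i => c.x ω i + c.t ω * c.y ω i

/-- the part of the configuration below the scale `2^{-r}` -/
noncomputable def sub (c : Cf Ω m) (r : ℕ) : Cf Ω m where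
  α := c.α × (Fin m → ℤ) × (Fin m → ℤ)
  A := fun ω => (c.A ω, fl r (c.x ω), fl r (c.y ω))
  x := fun ω i => Int.fract ((2 : ℝ) ^ r * c.x ω i)
  y := fun ω i => Int.fract ((2 : ℝ) ^ r * c.y ω i)
  t := c.t

end Cf

/-- the class of configurations with `L` digits, error `e` and time deficit `C` -/
structure Good {Ω : Type} [Fintype Ω] {m : ℕ} (P : Law Ω) (c : Cf Ω m) (L : ℕ) (e C : ℝ) :
    Prop where
  x01 : ∀ ω i, 0 ≤ c.x ω i ∧ c.x ω i < 1
  y01 : ∀ ω i, 0 ≤ c.y ω i ∧ c.y ω i < 1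
  t01 : ∀ ω, 0 ≤ c.t ω ∧ c.t ω < 1
  ind : mi P (fun ω => (c.x ω, c.y ω)) c.t c.A ≤ C
  dir : ∀ s ≤ L, (m * s : ℝ) * Real.log 2 - e ≤ hc P (fun ω => fl s (c.y ω)) c.A
  lin : ∀ s ≤ L, hc P (fun ω => (fl s (c.x ω), fl s (c.y ω))) c.A ≤ (m * s : ℝ) * Real.log 2 + e
  tim : ∀ s ≤ L, (s : ℝ) * Real.log 2 - C ≤ hc P (fun ω => fl1 s (c.t ω)) c.A

/-- an object of type `κ`: a random linear projection killing a `κ`-dimensional subspace which is
a graph over the coordinates in `J`; `G` is the random data on which it depends -/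
structure Ob (Ω : Type) (m κ : ℕ) where
  γ : Type
  G : Ω → γ
  J : Finset (Fin m)
  Γ : Ω → Fin m → Fin m → ℝ
  card : J.card = κ
  bd : ∀ ω i j, |Γ ω i j| ≤ 3 ^ κ
  fn : ∀ ω ω', G ω = G ω' → Γ ω = Γ ω'

namespace Ob

variable {Ω Ω' : Type} {m κ : ℕ}

/-- pull back along a map -/
def comp (o : Ob Ω m κ) (π : Ω' → Ω) : Ob Ω' m κ where
  γ := o.γ
  G := o.G ∘ π
  J := o.J
  Γ := o.Γ ∘ π
  card := o.card
  bd := fun ω i j => o.bd (π ω) i j
  fn := fun ω ω' h => o.fn (π ω) (π ω') h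

open Classical in
/-- the projection of a vector -/
noncomputable def app (o : Ob Ω m κ) (ω : Ω) (v : Fin m → ℝ) : Fin m → ℝ := fun i =>
  if i ∈ o.J then 0 else v i - ∑ j ∈ o.J, o.Γ ω i j * v j

/-- the projected point of the line -/
noncomputable def F (c : Cf Ω m) (o : Ob Ω m κ) (ω : Ω) : Fin m → ℝ := o.app ω (c.pt ω)

end Ob

/-- Growth classes. `ok g n L e C` says that for the grade `g` and the level `n` the error `e` and
the time deficit `C` are admissible for configurations with `L` digits. Two instances matter: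
(M) `G = ℝ`, `ok C₀ n L e C ↔ C ≤ C₀ ∧ n ≤ L ∧ e ≤ L / (n + 1)`, and
(H) `G = ℝ × ℝ`, errors `≤ K L^{1-c}` and time deficits `≤ K log log L`. -/
structure Gr where
  G : Type
  ok : G → ℕ → ℕ → ℝ → ℝ → Prop
  anti : ∀ g n n' L e C, n ≤ n' → ok g n' L e C → ok g n L e C
  mono : ∀ g n L e C e' C', e' ≤ e → C' ≤ C → ok g n L e C → ok g n L e' C'
  dom : ∀ g (K : ℝ), 0 ≤ K → ∃ g', ∀ n', ∃ n, ∀ L e C, ok g n L e C →
    ok g' n' L (K * (e + 1)) (K * (C + 1))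
  sub : ∀ g (η : ℝ), 0 < η → ∃ g', ∀ n', ∃ n, ∀ (L L' : ℕ) e C, ok g n L e C →
    η * L ≤ L' → L' ≤ L → ok g' n' L' e C
  small : ∀ g (ε : ℝ), 0 < ε → ∃ n, ∀ (L : ℕ) e C, ok g n L e C →
    1 ≤ ε * L ∧ e ≤ ε * L ∧ C ≤ ε * L
  win : ∀ g (κ : ℕ) (εu : ℝ), 0 < εu → ∃ g', ∀ n', ∃ n, ∀ (L L' : ℕ) e C, ok g n L e C →
    (L : ℝ) ≤ (κ + 4 : ℝ) ^ (8 * (max C 0 + 1) / εu + 3) * L' → L' ≤ L → ok g' n' L' e C

/-- lower bound `h` for the entropy rate of `x + t y` -/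
def LB (R : Gr) (m : ℕ) (h : ℝ) : Prop :=
  ∀ ι : ℝ, 0 < ι → ∀ g : R.G, ∃ n : ℕ, ∀ (L : ℕ) (e C : ℝ), R.ok g n L e C →
    ∀ (Ω : Type) [Fintype Ω] (P : Law Ω) (c : Cf Ω m), Good P c L e C →
      (h - ι) * L * Real.log 2 ≤ hc P (fun ω => fl L (c.pt ω)) (fun ω => (c.t ω, c.A ω))

/-- there are objects of type `κ` with the extremal rate `h - κ` -/
def YK (R : Gr) (m : ℕ) (h : ℝ) (κ : ℕ) : Prop :=
  ∀ ι : ℝ, 0 < ι → ∃ g : R.G, ∀ n : ℕ, ∃ (L : ℕ) (e C : ℝ), R.ok g n L e C ∧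
    ∃ (Ω : Type) (_ : Fintype Ω) (P : Law Ω) (c : Cf Ω m) (o : Ob Ω m κ),
      Good P c L e C ∧
      mi P (fun ω => (c.x ω, c.y ω)) o.G (fun ω => (c.t ω, c.A ω)) ≤ ι * L ∧
      hc P (fun ω => fl L (o.F c ω)) (fun ω => (c.t ω, o.G ω, c.A ω)) ≤
        (h - κ + ι) * L * Real.log 2

/-- there are no objects of type `κ` with the extremal rate `h - κ` -/
def NK (R : Gr) (m : ℕ) (h : ℝ) (κ : ℕ) : Prop :=
  ∃ ι : ℝ, 0 < ι ∧ ∀ g : R.G, ∃ n : ℕ, ∀ (L : ℕ) (e C : ℝ), R.ok g n L e C →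
    ∀ (Ω : Type) [Fintype Ω] (P : Law Ω) (c : Cf Ω m) (o : Ob Ω m κ),
      Good P c L e C →
      mi P (fun ω => (c.x ω, c.y ω)) o.G (fun ω => (c.t ω, c.A ω)) ≤ ι * L →
      (h - κ + ι) * L * Real.log 2 ≤
        hc P (fun ω => fl L (o.F c ω)) (fun ω => (c.t ω, o.G ω, c.A ω))

/-- the standing hypotheses of the inductive steps; `L = (κ + 4) a` -/
structure Hyp {Ω : Type} [Fintype Ω] {m : ℕ} (h : ℝ) (κ a : ℕ) (ι εu e C : ℝ) (P : Law Ω)
    (c : Cf Ω m) (o : Ob Ω m κ) : Prop where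
  good : Good P c ((κ + 4) * a) e C
  cost : mi P (fun ω => (c.x ω, c.y ω)) o.G (fun ω => (c.t ω, c.A ω)) ≤ ι * ((κ + 4) * a : ℕ)
  rate : hc P (fun ω => fl ((κ + 4) * a) (o.F c ω)) (fun ω => (c.t ω, o.G ω, c.A ω)) ≤
    (h - κ + ι) * ((κ + 4) * a : ℕ) * Real.log 2
  unif : (((κ + 4) * a : ℕ) - (a : ℝ)) * Real.log 2 - εu ≤
    hc P (fun ω => fl1 ((κ + 4) * a) (c.t ω))
      (fun ω => (fl1 a (c.t ω), c.x ω, c.y ω, c.A ω))

end Vale.Agent.P127.Stk
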