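import Mathlib

/-!
# P127 / Stk : covering numbers, packing dimension, the space of affine lines
-/

namespace Vale.Agent.P127.Stk

open Filter Topology

/-- `N_δ(S)`: the smallest number of closed balls of radius `δ` which cover `S`. -/
noncomputable def cov {X : Type*} [PseudoEMetricSpace X] (δ : ℝ) (S : Set X) : ENNReal :=
  (Metric.externalCoveringNumber δ.toNNReal S : ENNReal)

/-- The upper Minkowski dimension: the limit superior of `log N_δ(S) / log (1/δ)` as `δ → 0+`. -/
noncomputable def upperMinkowskiDim {X : Type*} [PseudoEMetricSpace X] (S : Set X) : EReal :=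
  limsup (fun δ : ℝ => ENNReal.log (cov δ S) / ((Real.log (1 / δ) : ℝ) : EReal)) (𝓝[>] 0)

/-- The packing dimension (equal to the modified upper Minkowski dimension): the infimum, over the
covers of `S` by countably many sets `T i`, of the supremum of the upper Minkowski dimensions of
the sets `T i`. -/
noncomputable def packingDim {X : Type*} [PseudoEMetricSpace X] (S : Set X) : EReal :=
  ⨅ (T : ℕ → Set X) (_ : S ⊆ ⋃ i, T i), ⨆ i, upperMinkowskiDim (T i)

/-- The line `a + ℝ e` (`e ≠ 0`) as a point of the manifold of affine lines: the orthogonal
projection onto its direction and the point of the line nearest to the origin. The standard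
distance of two lines is the distance of these pairs. -/
noncomputable def toLine {n : ℕ} (a e : EuclideanSpace ℝ (Fin n)) :
    (EuclideanSpace ℝ (Fin n) →L[ℝ] EuclideanSpace ℝ (Fin n)) × EuclideanSpace ℝ (Fin n) :=
  ((Submodule.span ℝ {e}).starProjection, a - (Submodule.span ℝ {e}).starProjection a)

end Vale.Agent.P127.Stk
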