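import Vale.Agent.P127.Stk.EndMain

set_option linter.all false

/-!
# P127 / Stk / END, part E : the contradiction at fixed parameters
-/

namespace Vale.Agent.P127.Stk.EndP

open Finset Vale.Agent.P127

variable {Ω : Type} [Fintype Ω] {m κ : ℕ}

/-- the coincidences are rare -/
theorem fin_EE [NeZero m] {P : Law Ω} {c : Cf Ω m} {o : Ob Ω m κ} {L a n s : ℕ}
    {e C σ q p0 Gm : ℝ} (hg : Good P c L e C) (hsL : s ≤ L)
    (H1 : (κ + σ) * s * Real.log 2 - Gm ≤ hc P (fun ω => (fl s (c.x ω), fl s (c.y ω)))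
      (fun ω => (fl n (o.F c ω), c.t ω, o.G ω, c.A ω)))
    (H2 : mi P (fun ω => (c.x ω, c.y ω)) o.G (fun ω => (c.t ω, c.A ω)) ≤ Gm)
    (H3 : ∀ Q : Law (Fin 2 → Ω), (∀ w, Q.w w = cw P (key c a) 1 w) →
        hc Q (fun w => fl n (o.F c (w 1)))
          (fun w => (fl n (o.F c (w 0)), (fun i => (c.t (w i), o.G (w i))), c.A (w 0))) ≤ Gm)
    (HU : ∀ (Ω' : Type) [Fintype Ω'] (Q : Law Ω') (π : Ω' → Ω), Dom Q π P (1 / p0) →
      hc Q (fun ω => (fl s (c.x (π ω)), fl s (c.y (π ω))))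
          (fun ω => (fl n (o.F c (π ω)), c.t (π ω), o.G (π ω), c.A (π ω))) ≤
        (κ + σ) * s * Real.log 2 + Gm)
    (hGm : 0 ≤ Gm) (he : e ≤ Gm) (hC : C ≤ Gm) (hp0 : 0 < p0) (hp0m : p0 * m ≤ σ / 2)
    (hσs : 0 < σ * s * Real.log 2) (hq2 : q < 1 / 2)
    (hG : (3 * κ + 11) * Gm + Gm + Real.log 2 + m * Real.log (κ + 3) ≤
      q * (σ * s * Real.log 2))
    {Q : Law (Fin (κ + 1 + 1) → Ω)} (hQ : ∀ w, Q.w w = cw P (key c a) (κ + 1) w)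
    {Q2 : Law (Fin (κ + 1 + 1) → (Fin (κ + 1 + 1) → Ω))}
    (hQ2 : ∀ w, Q2.w w = cw Q (WW c o n) (κ + 1) w) (l : ℕ) (hl : l < κ + 1) :
    prE Q2 (EE (fun v : Fin (κ + 1 + 1) → Ω => c.y (v 0)) s l) ≤ q := by
  have hlow := low hg (N := κ + 1) hsL hGm H1 H2 H3 Q hQ
  have hlow' : (κ + σ) * s * Real.log 2 - (3 * κ + 11) * Gm ≤
      hc Q (fun w => fl s (c.y (w 0))) (WW c o n) := by
    refine le_trans ?_ hlow
    push_cast
    have e2 : ((κ : ℝ) + 1 + 2) * (C + Gm) ≤ (κ + 3) * (2 * Gm) := by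
      have : C + Gm ≤ 2 * Gm := by linarith
      calc ((κ : ℝ) + 1 + 2) * (C + Gm) = (κ + 3) * (C + Gm) := by ring
        _ ≤ _ := mul_le_mul_of_nonneg_left this (by positivity)
    linarith
  have hl' : l + 1 < κ + 1 + 1 := by omega
  refine ev_small (fun v i => hg.y01 (v 0) i) hQ2 hlow' l hl' (by omega) ?_ hσs
      hGm hq2 hp0m hG
  intro hp
  exact up_aux hp0 le_rfl HU hQ hQ2 ⟨l + 1, hl'⟩ _ hp

/-- the times are separated -/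
theorem fin_sep {P : Law Ω} {c : Cf Ω m} {o : Ob Ω m κ} {L a n d : ℕ} {εu : ℝ}
    (hunif : ((L : ℝ) - a) * Real.log 2 - εu ≤
      hc P (fun ω => fl1 L (c.t ω)) (fun ω => (fl1 a (c.t ω), c.x ω, c.y ω, c.A ω)))
    (hεu : εu ≤ 1 / 2) (hd : a + d ≤ L) (hdl : 16 * ((κ : ℝ) + 2) ^ 2 + 2 ≤ d)
    {Q : Law (Fin (κ + 1 + 1) → Ω)} (hQ : ∀ w, Q.w w = cw P (key c a) (κ + 1) w)
    {Q2 : Law (Fin (κ + 1 + 1) → (Fin (κ + 1 + 1) → Ω))}
    (hQ2 : ∀ w, Q2.w w = cw Q (WW c o n) (κ + 1) w) {i j : Fin (κ + 1 + 1)} (hij : i ≠ j) :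
    prE Q2 (fun w => |c.t (w 0 i) - c.t (w 0 j)| < (1 / 2 : ℝ) ^ (a + d)) ≤
        1 / (4 * ((κ : ℝ) + 2) ^ 2) := by
  have hb : 0 < Real.log 2 := Real.log_pos (by norm_num)
  have hb1 : (1 : ℝ) / 2 ≤ Real.log 2 := by
    have := Real.log_two_gt_d9
    linarith
  have e1 := sep hunif hd hQ hij
  have e2 := prE_comp (fun v => cw_marg hQ2 0 v)
    (fun w : Fin (κ + 1 + 1) → Ω => |c.t (w i) - c.t (w j)| < (1 / 2 : ℝ) ^ (a + d))
  rw [e2]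
  generalize prE Q (fun w : Fin (κ + 1 + 1) → Ω =>
    |c.t (w i) - c.t (w j)| < (1 / 2 : ℝ) ^ (a + d)) = p at e1 ⊢
  by_cases hp : 0 ≤ p
  · have e4 : p * (16 * ((κ : ℝ) + 2) ^ 2) * Real.log 2 ≤ Real.log 2 + εu := by
      refine le_trans ?_ e1
      have : p * (16 * ((κ : ℝ) + 2) ^ 2) ≤ p * ((d : ℝ) - 2) :=
        mul_le_mul_of_nonneg_left (by linarith) hp
      calc p * (16 * ((κ : ℝ) + 2) ^ 2) * Real.log 2 ≤ p * ((d : ℝ) - 2) * Real.log 2 :=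
            mul_le_mul_of_nonneg_right this hb.le
        _ = _ := by ring
    have e5 : p * (16 * ((κ : ℝ) + 2) ^ 2) * Real.log 2 ≤ 4 * Real.log 2 := by linarith
    have e6 : p * (16 * ((κ : ℝ) + 2) ^ 2) ≤ 4 := le_of_mul_le_mul_right e5 hb
    rw [le_div_iff₀ (by positivity)]
    linarith
  · exact (not_le.mp hp).le.trans (by positivity)

/-- there is a sample without coincidences and with separated times -/
theorem fin_exists {X : Type} [Fintype X] (Q2 : Law X) (κ : ℕ) (E1 : ℕ → X → Prop)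
    (E2 : Fin (κ + 1 + 1) → Fin (κ + 1 + 1) → X → Prop)
    (h1 : ∀ l < κ + 1, prE Q2 (E1 l) ≤ 1 / (4 * ((κ : ℝ) + 1)))
    (h2 : ∀ i j, i ≠ j → prE Q2 (E2 i j) ≤ 1 / (4 * ((κ : ℝ) + 2) ^ 2)) :
    ∃ w, 0 < Q2.w w ∧ (∀ l < κ + 1, ¬ E1 l w) ∧ ∀ i j, i ≠ j → ¬ E2 i j w := by
  classical
  let prs : Finset (Fin (κ + 1 + 1) × Fin (κ + 1 + 1)) := Finset.univ.filter fun p => p.1 ≠ p.2
  let idx : Finset (ℕ ⊕ (Fin (κ + 1 + 1) × Fin (κ + 1 + 1))) :=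
    (Finset.range (κ + 1)).disjSum prs
  let Ev' : ℕ ⊕ (Fin (κ + 1 + 1) × Fin (κ + 1 + 1)) → X → Prop :=
    Sum.elim E1 (fun p => E2 p.1 p.2)
  have hsum : ∑ i ∈ idx, prE Q2 (Ev' i) < 1 := by
    rw [Finset.sum_disjSum]
    have s1 : ∑ l ∈ Finset.range (κ + 1), prE Q2 (Ev' (Sum.inl l)) ≤ 1 / 4 := by
      calc ∑ l ∈ Finset.range (κ + 1), prE Q2 (Ev' (Sum.inl l)) ≤
            ∑ l ∈ Finset.range (κ + 1), (1 / (4 * ((κ : ℝ) + 1))) :=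
              Finset.sum_le_sum fun l hl => h1 l (Finset.mem_range.mp hl)
        _ = 1 / 4 := by
            rw [Finset.sum_const, Finset.card_range, nsmul_eq_mul]
            push_cast
            field_simp
    have s2 : ∑ p ∈ prs, prE Q2 (Ev' (Sum.inr p)) ≤ 1 / 4 := by
      calc ∑ p ∈ prs, prE Q2 (Ev' (Sum.inr p)) ≤
          ∑ p ∈ prs, (1 / (4 * ((κ : ℝ) + 2) ^ 2)) :=
            Finset.sum_le_sum fun p hp => h2 p.1 p.2 (Finset.mem_filter.mp hp).2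
        _ ≤ ∑ p : Fin (κ + 1 + 1) × Fin (κ + 1 + 1), (1 / (4 * ((κ : ℝ) + 2) ^ 2)) :=
            Finset.sum_le_sum_of_subset_of_nonneg (Finset.filter_subset _ _)
              fun _ _ _ => by positivity
        _ = 1 / 4 := by
            rw [Finset.sum_const, Finset.card_univ, Fintype.card_prod, Fintype.card_fin,
              nsmul_eq_mul]
            have : ((κ : ℝ) + 2) ≠ 0 := by positivity
            push_cast
            field_simp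
            ring
    linarith
  obtain ⟨w, hw, hgood⟩ := exists_good idx Q2 Ev' hsum
  refine ⟨w, hw, fun l hl => ?_, fun i j hij => ?_⟩
  · exact hgood (Sum.inl l) (Finset.inl_mem_disjSum.mpr (Finset.mem_range.mpr hl))
  · exact hgood (Sum.inr (i, j)) (Finset.inr_mem_disjSum.mpr
      (Finset.mem_filter.mpr ⟨Finset.mem_univ _, hij⟩))

theorem fin_size {C0 : ℝ} (hC00 : 0 ≤ C0) {k0 κ s a d n : ℕ} (hk0 : C0 < 2 ^ k0)
    (hsz : (κ + 1) * (s + (a + d)) + k0 ≤ n) :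
    C0 * (1 / 2) ^ n / ((1 / 2 : ℝ) ^ (a + d)) ^ (κ + 1) < ((1 / 2 : ℝ) ^ s) ^ (κ + 1) := by
  rw [div_lt_iff₀ (by positivity), ← mul_pow, ← pow_add, ← pow_mul]
  have e1 : (1 / 2 : ℝ) ^ n ≤ (1 / 2) ^ ((κ + 1) * (s + (a + d)) + k0) :=
    pow_le_pow_of_le_one (by norm_num) (by norm_num) hsz
  have e2 : (s + (a + d)) * (κ + 1) = (κ + 1) * (s + (a + d)) := by ring
  rw [e2]
  have e3 : (0 : ℝ) < (1 / 2) ^ ((κ + 1) * (s + (a + d))) := by positivity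
  calc C0 * (1 / 2) ^ n ≤ C0 * (1 / 2) ^ ((κ + 1) * (s + (a + d)) + k0) :=
        mul_le_mul_of_nonneg_left e1 hC00
    _ < 2 ^ k0 * (1 / 2) ^ ((κ + 1) * (s + (a + d)) + k0) :=
        mul_lt_mul_of_pos_right hk0 (by positivity)
    _ = (1 / 2) ^ ((κ + 1) * (s + (a + d))) * (2 ^ k0 * (1 / 2) ^ k0) := by
        rw [pow_add]; ring
    _ = (1 / 2) ^ ((κ + 1) * (s + (a + d))) := by
        rw [← mul_pow]; norm_num

/-- the contradiction at fixed parameters -/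
theorem fin_contra [NeZero m] {P : Law Ω} {c : Cf Ω m} {o : Ob Ω m κ} {L a n s d k0 : ℕ}
    {e C σ p0 Gm εu C0 : ℝ} (hg : Good P c L e C) (hsL : s ≤ L)
    (H1 : (κ + σ) * s * Real.log 2 - Gm ≤ hc P (fun ω => (fl s (c.x ω), fl s (c.y ω)))
      (fun ω => (fl n (o.F c ω), c.t ω, o.G ω, c.A ω)))
    (H2 : mi P (fun ω => (c.x ω, c.y ω)) o.G (fun ω => (c.t ω, c.A ω)) ≤ Gm)
    (H3 : ∀ Q : Law (Fin 2 → Ω), (∀ w, Q.w w = cw P (key c a) 1 w) →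
        hc Q (fun w => fl n (o.F c (w 1)))
          (fun w => (fl n (o.F c (w 0)), (fun i => (c.t (w i), o.G (w i))), c.A (w 0))) ≤ Gm)
    (HU : ∀ (Ω' : Type) [Fintype Ω'] (Q : Law Ω') (π : Ω' → Ω), Dom Q π P (1 / p0) →
      hc Q (fun ω => (fl s (c.x (π ω)), fl s (c.y (π ω))))
          (fun ω => (fl n (o.F c (π ω)), c.t (π ω), o.G (π ω), c.A (π ω))) ≤
        (κ + σ) * s * Real.log 2 + Gm)
    (hGm : 0 ≤ Gm) (he : e ≤ Gm) (hC : C ≤ Gm) (hp0 : 0 < p0) (hp0m : p0 * m ≤ σ / 2)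
    (hσs : 0 < σ * s * Real.log 2)
    (hG : (3 * κ + 11) * Gm + Gm + Real.log 2 + m * Real.log (κ + 3) ≤
      1 / (4 * ((κ : ℝ) + 1)) * (σ * s * Real.log 2))
    (hunif : ((L : ℝ) - a) * Real.log 2 - εu ≤
      hc P (fun ω => fl1 L (c.t ω)) (fun ω => (fl1 a (c.t ω), c.x ω, c.y ω, c.A ω)))
    (hεu : εu ≤ 1 / 2) (hd : a + d ≤ L) (hdl : 16 * ((κ : ℝ) + 2) ^ 2 + 2 ≤ d)
    (hC0 : ∀ (X Y : Fin (κ + 1) → Fin m → ℝ)
      (t : Fin (κ + 2) → ℝ) (J : Finset (Fin m)) (Γ : Fin (κ + 2) → Fin m → Fin m → ℝ) (ρ δ : ℝ),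
      (∀ j i, |X j i| ≤ 1) → (∀ j i, |Y j i| ≤ 1) → (∀ i, |t i| ≤ 1) → J.card = κ →
      (∀ l i j, |Γ l i j| ≤ 3 ^ κ) → 0 ≤ ρ → 0 < δ → (∀ i l, i ≠ l → δ ≤ |t i - t l|) →
      (∀ l j i, i ∉ J →
        |(X j i + t l * Y j i) - ∑ j' ∈ J, Γ l i j' * (X j j' + t l * Y j j')| ≤ ρ) →
      ∀ I : Fin (κ + 1) → Fin m,
        |(Matrix.of fun a b => Y a (I b)).det| ≤ C0 * ρ / δ ^ (κ + 1))
    (hC00 : 0 ≤ C0) (hk0 : C0 < 2 ^ k0)
    (hsz : (κ + 1) * (s + (a + d)) + k0 ≤ n) : False := by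
  obtain ⟨Q, hQ⟩ := cw_exists P (key c a) (κ + 1)
  obtain ⟨Q2, hQ2⟩ := cw_exists Q (WW c o n : (Fin (κ + 1 + 1) → Ω) → _) (κ + 1)
  have hq2 : 1 / (4 * ((κ : ℝ) + 1)) < 1 / 2 := by
    rw [div_lt_div_iff₀ (by positivity) (by norm_num)]
    have : (0 : ℝ) ≤ κ := by positivity
    linarith
  obtain ⟨w, hw, hE, hS⟩ := fin_exists Q2 κ
    (fun l => EE (fun v : Fin (κ + 1 + 1) → Ω => c.y (v 0)) s l)
    (fun i j w => |c.t (w 0 i) - c.t (w 0 j)| < (1 / 2 : ℝ) ^ (a + d))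
    (fun l hl => fin_EE hg hsL H1 H2 H3 HU hGm he hC hp0 hp0m hσs hq2 hG hQ hQ2 l hl)
    (fun i j hij => fin_sep hunif hεu hd hdl hQ hQ2 hij)
  have hfin := det_contra hg.x01 hg.y01 hg.t01 hQ hQ2 hw
    (show (0 : ℝ) < (1 / 2) ^ (a + d) by positivity)
    (fun i j hij => not_lt.mp (hS i j hij)) hE hC0
  exact absurd hfin (not_le.mpr (fin_size hC00 hk0 hsz))

end Vale.Agent.P127.Stk.EndP
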