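import Mathlib

set_option linter.all false

/-!
# P127 / Stk / END, part A : minors of a few vectors
-/

namespace Vale.Agent.P127.Stk.EndP

open Finset

/-- maximal minor of `l` vectors in `ℝ^m` -/
noncomputable def mx {l m : ℕ} (u : Fin l → Fin m → ℝ) : ℝ :=
  ⨆ I : Fin l → Fin m, |(Matrix.of fun a b => u a (I b)).det|

theorem le_mx {l m : ℕ} (u : Fin l → Fin m → ℝ) (I : Fin l → Fin m) :
    |(Matrix.of fun a b => u a (I b)).det| ≤ mx u :=
  le_ciSup (f := fun I : Fin l → Fin m => |(Matrix.of fun a b => u a (I b)).det|)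
    (Set.finite_range _).bddAbove I

theorem mx_nonneg {l m : ℕ} (u : Fin l → Fin m → ℝ) : 0 ≤ mx u :=
  Real.iSup_nonneg fun _ => abs_nonneg _

theorem mx_zero {m : ℕ} (u : Fin 0 → Fin m → ℝ) : mx u = 1 := by
  unfold mx
  rw [ciSup_unique]
  simp

theorem exists_mx {l m : ℕ} [NeZero m] (u : Fin l → Fin m → ℝ) :
    ∃ I : Fin l → Fin m, |(Matrix.of fun a b => u a (I b)).det| = mx u :=
  exists_eq_ciSup_of_finite (f := fun I : Fin l → Fin m => |(Matrix.of fun a b => u a (I b)).det|)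

theorem mx_le {l m : ℕ} [NeZero m] (u : Fin l → Fin m → ℝ) (B : ℝ)
    (h : ∀ I : Fin l → Fin m, |(Matrix.of fun a b => u a (I b)).det| ≤ B) : mx u ≤ B :=
  ciSup_le h

/-- the vectors `v` with a small minor together with `u` are close to combinations of `l` of their
coordinates -/
theorem piv {l m : ℕ} [NeZero m] (u : Fin l → Fin m → ℝ) :
    ∃ I : Fin l → Fin m, ∃ lam : Fin m → Fin l → ℝ, (∀ i b, |lam i b| ≤ 1) ∧
      ∀ (v : Fin m → ℝ) (θ : ℝ), mx (Fin.snoc u v : Fin (l + 1) → Fin m → ℝ) < θ * mx u →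
        ∀ i, |v i - ∑ b : Fin l, lam i b * v (I b)| ≤ θ := by
  obtain ⟨I, hI⟩ := exists_mx u
  set D : ℝ := (Matrix.of fun a b => u a (I b)).det with hD
  let N : Fin m → Fin l → ℝ := fun i b =>
    (Matrix.of fun (a : Fin l) (b' : Fin l) =>
      u a ((Fin.snoc I i : Fin (l + 1) → Fin m) (b.castSucc.succAbove b'))).det
  have hN : ∀ i b, |N i b| ≤ |D| := fun i b => by
    rw [hI]
    exact le_mx u (fun b' => (Fin.snoc I i : Fin (l + 1) → Fin m) (b.castSucc.succAbove b'))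
  refine ⟨I, fun i b => -((-1) ^ (l + (b : ℕ)) * N i b / D), ?_, ?_⟩
  · intro i b
    rw [abs_neg, abs_div, abs_mul, abs_pow, abs_neg, abs_one, one_pow, one_mul]
    by_cases hD0 : D = 0
    · simp [hD0]
    · exact (div_le_one (abs_pos.mpr hD0)).mpr (hN i b)
  · intro v θ hv i
    have hm := mx_nonneg (Fin.snoc u v : Fin (l + 1) → Fin m → ℝ)
    have hpos : 0 < θ * mx u := lt_of_le_of_lt hm hv
    have hD0 : D ≠ 0 := by
      intro h0
      rw [h0, abs_zero] at hI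
      rw [← hI, mul_zero] at hpos
      exact lt_irrefl _ hpos
    have hdet := le_mx (Fin.snoc u v : Fin (l + 1) → Fin m → ℝ) (Fin.snoc I i)
    rw [Matrix.det_succ_row _ (Fin.last l), Fin.sum_univ_castSucc] at hdet
    have e1 : (Matrix.of fun (a : Fin (l + 1)) (b : Fin (l + 1)) =>
        (Fin.snoc u v : Fin (l + 1) → Fin m → ℝ) a
          ((Fin.snoc I i : Fin (l + 1) → Fin m) b)).submatrix
        (Fin.last l).succAbove (Fin.last l).succAbove = Matrix.of fun a b => u a (I b) := by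
      ext a b
      simp [Fin.succAbove_last]
    have e2 : ∀ b : Fin l, (Matrix.of fun (a : Fin (l + 1)) (b : Fin (l + 1)) =>
        (Fin.snoc u v : Fin (l + 1) → Fin m → ℝ) a
          ((Fin.snoc I i : Fin (l + 1) → Fin m) b)).submatrix
        (Fin.last l).succAbove (b.castSucc).succAbove = Matrix.of fun (a : Fin l) (b' : Fin l) =>
      u a ((Fin.snoc I i : Fin (l + 1) → Fin m) (b.castSucc.succAbove b')) := by
      intro b
      ext a b'
      simp [Fin.succAbove_last]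
    rw [e1] at hdet
    simp only [e2] at hdet
    have e3 : ∀ b : Fin l, ((Fin.snoc u v : Fin (l + 1) → Fin m → ℝ) (Fin.last l)
        ((Fin.snoc I i : Fin (l + 1) → Fin m) b.castSucc)) = v (I b) := by
      intro b; simp
    have e4 : ((Fin.snoc u v : Fin (l + 1) → Fin m → ℝ) (Fin.last l)
        ((Fin.snoc I i : Fin (l + 1) → Fin m) (Fin.last l))) = v i := by
      simp
    simp only [Matrix.of_apply, e3, e4, Fin.val_last, Fin.val_castSucc, ← hD] at hdet
    have e5 : ((-1 : ℝ)) ^ (l + l) = 1 := by rw [← two_mul, pow_mul]; simp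
    rw [e5, one_mul] at hdet
    have key : (v i - ∑ b : Fin l, -((-1) ^ (l + (b : ℕ)) * N i b / D) * v (I b)) * D =
        (∑ x : Fin l, (-1) ^ (l + (x : ℕ)) * v (I x) * N i x) + v i * D := by
      rw [sub_mul, Finset.sum_mul, sub_eq_add_neg, ← Finset.sum_neg_distrib, add_comm]
      congr 1
      refine Finset.sum_congr rfl fun b _ => ?_
      field_simp
    have h1 : |(v i - ∑ b : Fin l, -((-1) ^ (l + (b : ℕ)) * N i b / D) * v (I b))| * |D| ≤ θ * |D| := by
      rw [← abs_mul, key, hI]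
      exact hdet.trans hv.le
    exact le_of_mul_le_mul_right h1 (abs_pos.mpr hD0)


/-- counting the digits of the vectors with a small minor -/
theorem code {l m : ℕ} [NeZero m] (u : Fin l → Fin m → ℝ) (y0 : Fin m → ℝ) (s : ℕ) :
    ∃ F : Finset (Fin m → ℤ), F.card ≤ (2 ^ s) ^ l * (l + 3) ^ m ∧
      ∀ y : Fin m → ℝ, (∀ i, 0 ≤ y i ∧ y i < 1) →
        mx (Fin.snoc u (fun i => y i - y0 i) : Fin (l + 1) → Fin m → ℝ) < (1 / 2 : ℝ) ^ s * mx u →
        (fun i => ⌊(2 : ℝ) ^ s * y i⌋) ∈ F := by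
  classical
  obtain ⟨I, lam, hlam, hI⟩ := piv u
  have h2 : (0 : ℝ) < 2 ^ s := by positivity
  have h2' : (2 : ℝ) ^ s * (1 / 2) ^ s = 1 := by rw [← mul_pow]; norm_num
  let S0 : Set (Fin m → ℤ) := {z | ∃ y : Fin m → ℝ, (∀ i, 0 ≤ y i ∧ y i < 1) ∧
    mx (Fin.snoc u (fun i => y i - y0 i) : Fin (l + 1) → Fin m → ℝ) < (1 / 2 : ℝ) ^ s * mx u ∧
    (fun i => ⌊(2 : ℝ) ^ s * y i⌋) = z}
  let f : (Fin m → ℤ) → (Fin l → ℤ) × (Fin m → ℤ) := fun z =>
    (fun b => z (I b), fun i => z i % ((l : ℤ) + 3))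
  let t : Finset ((Fin l → ℤ) × (Fin m → ℤ)) :=
    (Fintype.piFinset fun _ : Fin l => Finset.Ico (0 : ℤ) (2 ^ s)) ×ˢ
      (Fintype.piFinset fun _ : Fin m => Finset.Ico (0 : ℤ) ((l : ℤ) + 3))
  have ht : t.card = (2 ^ s) ^ l * (l + 3) ^ m := by
    simp only [t, Finset.card_product, Fintype.card_piFinset_const, Int.card_Ico, sub_zero,
      Fintype.card_fin]
    congr 2
  have hmaps : Set.MapsTo f S0 (t : Set _) := by
    rintro z ⟨y, hy, -, rfl⟩
    simp only [t, Finset.coe_product, Set.mem_prod, Finset.mem_coe, Fintype.mem_piFinset,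
      Finset.mem_Ico, f]
    refine ⟨fun b => ⟨?_, ?_⟩, fun i => ⟨Int.emod_nonneg _ (by positivity),
      Int.emod_lt_of_pos _ (by positivity)⟩⟩
    · exact Int.floor_nonneg.mpr (mul_nonneg h2.le (hy _).1)
    · have : (2 : ℝ) ^ s * y (I b) < ((2 ^ s : ℤ) : ℝ) := by
        push_cast
        nlinarith [(hy (I b)).2]
      exact Int.floor_lt.mpr this
  have hinj : Set.InjOn f S0 := by
    rintro z ⟨y, hy, hm, rfl⟩ z' ⟨y', hy', hm', rfl⟩ hff
    simp only [f, Prod.mk.injEq] at hff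
    obtain ⟨h1, h3⟩ := hff
    have hv := hI _ _ hm
    have hv' := hI _ _ hm'
    funext i
    have hb : ∀ b, |2 ^ s * y (I b) - 2 ^ s * y' (I b)| ≤ 1 := fun b => by
      have := congrFun h1 b
      exact (Int.abs_sub_lt_one_of_floor_eq_floor this).le
    have e : 2 ^ s * y i - 2 ^ s * y' i =
        2 ^ s * ((y i - y0 i) - ∑ b, lam i b * (y (I b) - y0 (I b))) -
        2 ^ s * ((y' i - y0 i) - ∑ b, lam i b * (y' (I b) - y0 (I b))) +
        ∑ b, lam i b * (2 ^ s * y (I b) - 2 ^ s * y' (I b)) := by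
      have : ∑ b, lam i b * (2 ^ s * y (I b) - 2 ^ s * y' (I b)) =
          2 ^ s * ∑ b, lam i b * (y (I b) - y0 (I b)) -
          2 ^ s * ∑ b, lam i b * (y' (I b) - y0 (I b)) := by
        rw [Finset.mul_sum, Finset.mul_sum, ← Finset.sum_sub_distrib]
        exact Finset.sum_congr rfl fun b _ => by ring
      rw [this]; ring
    have b1 : |2 ^ s * ((y i - y0 i) - ∑ b, lam i b * (y (I b) - y0 (I b)))| ≤ 1 := by
      rw [abs_mul, abs_of_pos h2]
      calc (2 : ℝ) ^ s * _ ≤ 2 ^ s * (1 / 2) ^ s := mul_le_mul_of_nonneg_left (hv i) h2.le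
        _ = 1 := h2'
    have b2 : |2 ^ s * ((y' i - y0 i) - ∑ b, lam i b * (y' (I b) - y0 (I b)))| ≤ 1 := by
      rw [abs_mul, abs_of_pos h2]
      calc (2 : ℝ) ^ s * _ ≤ 2 ^ s * (1 / 2) ^ s := mul_le_mul_of_nonneg_left (hv' i) h2.le
        _ = 1 := h2'
    have b3 : |∑ b, lam i b * (2 ^ s * y (I b) - 2 ^ s * y' (I b))| ≤ l := by
      refine (Finset.abs_sum_le_sum_abs _ _).trans ?_
      calc ∑ b, |lam i b * (2 ^ s * y (I b) - 2 ^ s * y' (I b))| ≤ ∑ b : Fin l, (1 : ℝ) := by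
            refine Finset.sum_le_sum fun b _ => ?_
            rw [abs_mul]
            exact mul_le_one₀ (hlam i b) (abs_nonneg _) (hb b)
        _ = l := by simp
    have b4 : |2 ^ s * y i - 2 ^ s * y' i| ≤ l + 2 := by
      rw [e]
      rw [abs_le] at b1 b2 b3 ⊢
      constructor <;> linarith [b1.1, b1.2, b2.1, b2.2, b3.1, b3.2]
    have b5 : |⌊2 ^ s * y i⌋ - ⌊2 ^ s * y' i⌋| < (l : ℤ) + 3 := by
      rw [abs_lt]
      rw [abs_le] at b4
      have f1 := Int.floor_le (2 ^ s * y i)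
      have f2 := Int.lt_floor_add_one (2 ^ s * y i)
      have f3 := Int.floor_le (2 ^ s * y' i)
      have f4 := Int.lt_floor_add_one (2 ^ s * y' i)
      constructor
      · have : (-((l : ℤ) + 3 : ℤ) : ℝ) < ((⌊2 ^ s * y i⌋ - ⌊2 ^ s * y' i⌋ : ℤ) : ℝ) := by
          push_cast; linarith [b4.1]
        exact_mod_cast this
      · have : ((⌊2 ^ s * y i⌋ - ⌊2 ^ s * y' i⌋ : ℤ) : ℝ) < (((l : ℤ) + 3 : ℤ) : ℝ) := by
          push_cast; linarith [b4.2]
        exact_mod_cast this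
    have b6 : ⌊2 ^ s * y' i⌋ ≡ ⌊2 ^ s * y i⌋ [ZMOD ((l : ℤ) + 3)] := (congrFun h3 i).symm
    have b7 : ((l : ℤ) + 3) ∣ ⌊2 ^ s * y i⌋ - ⌊2 ^ s * y' i⌋ := Int.ModEq.dvd b6
    have b8 := Int.eq_zero_of_abs_lt_dvd b7 b5
    linarith
  have hfin : S0.Finite := Set.Finite.of_injOn hmaps hinj t.finite_toSet
  refine ⟨hfin.toFinset, ?_, ?_⟩
  · rw [← ht, ← Set.ncard_eq_toFinset_card S0 hfin, ← Set.ncard_coe_finset t]
    exact Set.ncard_le_ncard_of_injOn f hmaps hinj t.finite_toSet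
  · intro y hy hm
    rw [Set.Finite.mem_toFinset]
    exact ⟨y, hy, hm, rfl⟩

theorem snoc_seq {l m : ℕ} (u : ℕ → Fin m → ℝ) :
    (Fin.snoc (fun a : Fin l => u a) (u l) : Fin (l + 1) → Fin m → ℝ) =
      fun a : Fin (l + 1) => u a := by
  funext a
  refine Fin.lastCases ?_ (fun b => ?_) a
  · simp
  · simp

theorem chain {m : ℕ} (u : ℕ → Fin m → ℝ) (θ : ℝ) (hθ : 0 ≤ θ) (k : ℕ)
    (h : ∀ l < k, θ * mx (fun a : Fin l => u a) ≤ mx (fun a : Fin (l + 1) => u a)) :
    θ ^ k ≤ mx (fun a : Fin k => u a) := by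
  induction k with
  | zero => rw [mx_zero, pow_zero]
  | succ k ih =>
    have h1 := ih fun l hl => h l (by omega)
    have h2 := h k (Nat.lt_succ_self k)
    calc θ ^ (k + 1) = θ * θ ^ k := by ring
      _ ≤ θ * mx (fun a : Fin k => u a) := mul_le_mul_of_nonneg_left h1 hθ
      _ ≤ _ := h2

end Vale.Agent.P127.Stk.EndP
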