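import Mathlib

set_option linter.all false

/-!
# P127 / Stk / END, part B : vectors close to `κ`-dimensional graphs at `κ + 2` times
-/

namespace Vale.Agent.P127.Stk.EndP

open Finset

theorem prod_lip {ι : Type*} [DecidableEq ι] (s : Finset ι) (a b : ι → ℝ) (R ρ : ℝ) (hR : 1 ≤ R)
    (ha : ∀ i, |a i| ≤ R) (hb : ∀ i, |b i| ≤ R) (h : ∀ i, |a i - b i| ≤ ρ) (hρ : 0 ≤ ρ) :
    |∏ i ∈ s, a i - ∏ i ∈ s, b i| ≤ s.card * R ^ s.card * ρ := by
  have hR0 : (0 : ℝ) ≤ R := by linarith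
  have hpb : ∀ s : Finset ι, |∏ i ∈ s, b i| ≤ R ^ s.card := by
    intro s
    rw [Finset.abs_prod]
    calc ∏ i ∈ s, |b i| ≤ ∏ i ∈ s, R := Finset.prod_le_prod (fun _ _ => abs_nonneg _)
          (fun i _ => hb i)
      _ = R ^ s.card := by simp
  induction s using Finset.induction_on with
  | empty => simp
  | insert i s hi ih =>
    rw [Finset.prod_insert hi, Finset.prod_insert hi, Finset.card_insert_of_notMem hi]
    have e : a i * ∏ i ∈ s, a i - b i * ∏ i ∈ s, b i =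
        a i * (∏ i ∈ s, a i - ∏ i ∈ s, b i) + (a i - b i) * ∏ i ∈ s, b i := by ring
    rw [e]
    refine (abs_add_le _ _).trans ?_
    rw [abs_mul, abs_mul]
    have h1 : |a i| * |∏ i ∈ s, a i - ∏ i ∈ s, b i| ≤ R * (s.card * R ^ s.card * ρ) :=
      mul_le_mul (ha i) ih (abs_nonneg _) hR0
    have h2 : |a i - b i| * |∏ i ∈ s, b i| ≤ ρ * R ^ s.card :=
      mul_le_mul (h i) (hpb s) (abs_nonneg _) hρ
    have h3 : ρ * R ^ s.card ≤ ρ * R ^ (s.card + 1) :=
      mul_le_mul_of_nonneg_left (pow_le_pow_right₀ hR (Nat.le_succ _)) hρ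
    push_cast
    calc _ ≤ R * (s.card * R ^ s.card * ρ) + ρ * R ^ (s.card + 1) := by linarith
      _ = (s.card + 1) * R ^ (s.card + 1) * ρ := by ring

theorem det_lip {k : ℕ} (A B : Matrix (Fin k) (Fin k) ℝ) (R ρ : ℝ) (hR : 1 ≤ R)
    (ha : ∀ i j, |A i j| ≤ R) (hb : ∀ i j, |B i j| ≤ R) (h : ∀ i j, |A i j - B i j| ≤ ρ)
    (hρ : 0 ≤ ρ) :
    |A.det - B.det| ≤ (k.factorial : ℝ) * (k * R ^ k * ρ) := by
  rw [Matrix.det_apply', Matrix.det_apply', ← Finset.sum_sub_distrib]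
  refine (Finset.abs_sum_le_sum_abs _ _).trans ?_
  calc ∑ σ : Equiv.Perm (Fin k), |((Equiv.Perm.sign σ : ℤ) : ℝ) * ∏ i, A (σ i) i -
        ((Equiv.Perm.sign σ : ℤ) : ℝ) * ∏ i, B (σ i) i| ≤
      ∑ σ : Equiv.Perm (Fin k), (k * R ^ k * ρ) := by
        refine Finset.sum_le_sum fun σ _ => ?_
        rw [← mul_sub, abs_mul]
        have h1 : |((Equiv.Perm.sign σ : ℤ) : ℝ)| = 1 := by
          rcases Int.units_eq_one_or (Equiv.Perm.sign σ) with h | h <;> rw [h] <;> simp
        rw [h1, one_mul]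
        have := prod_lip (Finset.univ : Finset (Fin k)) (fun i => A (σ i) i) (fun i => B (σ i) i)
          R ρ hR (fun i => ha _ _) (fun i => hb _ _) (fun i => h _ _) hρ
        simpa using this
    _ = (k.factorial : ℝ) * (k * R ^ k * ρ) := by
        simp [Fintype.card_perm]

theorem det_rank {k : ℕ} {τ : Type*} [Fintype τ] [DecidableEq τ] (V : Matrix (Fin k) τ ℝ)
    (G : Matrix τ (Fin k) ℝ) (h : Fintype.card τ < k) : (V * G).det = 0 := by
  by_contra h0
  have h1 : IsUnit (V * G) := (Matrix.isUnit_iff_isUnit_det _).mpr (isUnit_iff_ne_zero.mpr h0)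
  have h2 := Matrix.rank_of_isUnit _ h1
  have h3 := Matrix.rank_mul_le_left V G
  have h4 := Matrix.rank_le_card_width V
  rw [Fintype.card_fin] at h2
  omega

/-- the determinant of vectors close to a `κ`-dimensional graph -/
theorem det_graph {κ m : ℕ} (v : Fin (κ + 1) → Fin m → ℝ) (J : Finset (Fin m))
    (Γ : Fin m → Fin m → ℝ) (ρ : ℝ) (hv : ∀ j i, |v j i| ≤ 2) (hJ : J.card = κ)
    (hΓ : ∀ i j, |Γ i j| ≤ 3 ^ κ) (hρ : 0 ≤ ρ)
    (h : ∀ j i, i ∉ J → |v j i - ∑ j' ∈ J, Γ i j' * v j j'| ≤ ρ) (I : Fin (κ + 1) → Fin m) :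
    |(Matrix.of fun a b => v a (I b)).det| ≤
      ((κ + 1).factorial : ℝ) * ((κ + 1 : ℕ) * (2 + 2 * κ * 3 ^ κ) ^ (κ + 1) * ρ) := by
  classical
  set R : ℝ := 2 + 2 * κ * 3 ^ κ with hR
  have hk : (0 : ℝ) ≤ 2 * κ * 3 ^ κ := by positivity
  have hR1 : 1 ≤ R := by linarith
  let V : Matrix (Fin (κ + 1)) J ℝ := Matrix.of fun j j' => v j j'
  let G : Matrix J (Fin (κ + 1)) ℝ := Matrix.of fun j' b =>
    if I b ∈ J then (if (j' : Fin m) = I b then 1 else 0) else Γ (I b) j'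
  have hG0 : (V * G).det = 0 := by
    refine det_rank V G ?_
    rw [Fintype.card_coe, hJ]; omega
  have hin : ∀ a b, I b ∈ J → (V * G) a b = v a (I b) := by
    intro a b hb
    rw [Matrix.mul_apply]
    rw [Finset.sum_eq_single ⟨I b, hb⟩]
    · simp [V, G, hb]
    · intro j' _ hj'
      have : (j' : Fin m) ≠ I b := fun h => hj' (Subtype.ext h)
      simp [V, G, hb, this]
    · simp
  have hout : ∀ a b, I b ∉ J → (V * G) a b = ∑ j' ∈ J, Γ (I b) j' * v a j' := by
    intro a b hb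
    rw [Matrix.mul_apply, ← Finset.sum_coe_sort J]
    refine Finset.sum_congr rfl fun j' _ => ?_
    simp [V, G, hb, mul_comm]
  have hB : ∀ a b, |(V * G) a b| ≤ R := by
    intro a b
    by_cases hb : I b ∈ J
    · rw [hin a b hb]; exact (hv _ _).trans (by linarith)
    · rw [hout a b hb]
      refine (Finset.abs_sum_le_sum_abs _ _).trans ?_
      calc ∑ j' ∈ J, |Γ (I b) j' * v a j'| ≤ ∑ j' ∈ J, (3 ^ κ * 2 : ℝ) := by
            refine Finset.sum_le_sum fun j' _ => ?_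
            rw [abs_mul]
            exact mul_le_mul (hΓ _ _) (hv _ _) (abs_nonneg _) (by positivity)
        _ = 2 * κ * 3 ^ κ := by
            rw [Finset.sum_const, hJ, nsmul_eq_mul]; ring
        _ ≤ R := by linarith
  have := det_lip (Matrix.of fun a b => v a (I b)) (V * G) R ρ hR1
    (fun i j => by rw [Matrix.of_apply]; exact (hv _ _).trans (by linarith)) hB
    (fun a b => by
      rw [Matrix.of_apply]
      by_cases hb : I b ∈ J
      · rw [hin a b hb, sub_self, abs_zero]; exact hρ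
      · rw [hout a b hb]; exact h a (I b) hb) hρ
  rw [hG0, sub_zero] at this
  exact this

/-- vectors close to `κ`-dimensional graphs at `κ + 2` separated times -/
theorem det_small (m κ : ℕ) : ∃ C0 : ℝ, 0 ≤ C0 ∧ ∀ (X Y : Fin (κ + 1) → Fin m → ℝ)
    (t : Fin (κ + 2) → ℝ) (J : Finset (Fin m)) (Γ : Fin (κ + 2) → Fin m → Fin m → ℝ) (ρ δ : ℝ),
    (∀ j i, |X j i| ≤ 1) → (∀ j i, |Y j i| ≤ 1) → (∀ i, |t i| ≤ 1) → J.card = κ →
    (∀ l i j, |Γ l i j| ≤ 3 ^ κ) → 0 ≤ ρ → 0 < δ → (∀ i l, i ≠ l → δ ≤ |t i - t l|) →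
    (∀ l j i, i ∉ J → |(X j i + t l * Y j i) - ∑ j' ∈ J, Γ l i j' * (X j j' + t l * Y j j')| ≤ ρ) →
    ∀ I : Fin (κ + 1) → Fin m,
      |(Matrix.of fun a b => Y a (I b)).det| ≤ C0 * ρ / δ ^ (κ + 1) := by
  classical
  set D : ℝ := ((κ + 1).factorial : ℝ) * ((κ + 1 : ℕ) * (2 + 2 * κ * 3 ^ κ) ^ (κ + 1)) with hD
  have hD0 : 0 ≤ D := by positivity
  refine ⟨(κ + 2 : ℕ) * D, by positivity, ?_⟩
  intro X Y t J Γ ρ δ hX hY ht hJ hΓ hρ hδ hsep h I
  let A : Matrix (Fin (κ + 1)) (Fin (κ + 1)) ℝ := Matrix.of fun a b => Y a (I b)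
  let B : Matrix (Fin (κ + 1)) (Fin (κ + 1)) ℝ := Matrix.of fun a b => X a (I b)
  let P : Polynomial ℝ := Matrix.det ((Polynomial.X : Polynomial ℝ) • A.map Polynomial.C +
    B.map Polynomial.C)
  have hPev : ∀ τ, P.eval τ = (Matrix.of fun a b => X a (I b) + τ * Y a (I b)).det := by
    intro τ
    have e := (Polynomial.evalRingHom τ).map_det
      ((Polynomial.X : Polynomial ℝ) • A.map Polynomial.C + B.map Polynomial.C)
    rw [Polynomial.coe_evalRingHom] at e
    show P.eval τ = _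
    rw [show P.eval τ = _ from e]
    congr 1
    ext a b
    simp [A, B]
    ring
  have hPdeg : P.natDegree ≤ κ + 1 := by
    have := Polynomial.natDegree_det_X_add_C_le A B
    rwa [Fintype.card_fin] at this
  have hPc : P.coeff (κ + 1) = A.det := by
    have := Polynomial.coeff_det_X_add_C_card A B
    rwa [Fintype.card_fin] at this
  have hinj : Set.InjOn t (Finset.univ : Finset (Fin (κ + 2))) := by
    intro i _ l _ hil
    by_contra hne
    have := hsep i l hne
    rw [hil, sub_self, abs_zero] at this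
    linarith
  have hdeg : P.degree < ((Finset.univ : Finset (Fin (κ + 2))).card : WithBot ℕ) := by
    rw [Finset.card_univ, Fintype.card_fin]
    refine lt_of_le_of_lt Polynomial.degree_le_natDegree ?_
    exact_mod_cast Nat.lt_succ_of_le hPdeg
  have hL := Lagrange.coeff_eq_sum hinj hdeg
  have hcard : (Finset.univ : Finset (Fin (κ + 2))).card - 1 = κ + 1 := by simp
  rw [hcard, hPc] at hL
  show |A.det| ≤ _
  rw [hL]
  refine (Finset.abs_sum_le_sum_abs _ _).trans ?_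
  have hterm : ∀ l : Fin (κ + 2),
      |P.eval (t l) / ∏ j ∈ (Finset.univ : Finset (Fin (κ + 2))).erase l, (t l - t j)| ≤
        D * ρ / δ ^ (κ + 1) := by
    intro l
    rw [abs_div]
    have h1 : |P.eval (t l)| ≤ D * ρ := by
      rw [hPev]
      have := det_graph (fun j i => X j i + t l * Y j i) J (Γ l) ρ (fun j i => by
          refine (abs_add_le _ _).trans ?_
          rw [abs_mul]
          have := mul_le_one₀ (ht l) (abs_nonneg _) (hY j i)
          linarith [hX j i]) hJ (hΓ l) hρ (h l) I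
      calc _ ≤ _ := this
        _ = D * ρ := by rw [hD]; ring
    have h2 : δ ^ (κ + 1) ≤ |∏ j ∈ (Finset.univ : Finset (Fin (κ + 2))).erase l, (t l - t j)| := by
      rw [Finset.abs_prod]
      calc δ ^ (κ + 1) = ∏ j ∈ (Finset.univ : Finset (Fin (κ + 2))).erase l, δ := by
            rw [Finset.prod_const, Finset.card_erase_of_mem (Finset.mem_univ _)]
            simp
        _ ≤ _ := Finset.prod_le_prod (fun _ _ => hδ.le) (fun j hj => by
            exact hsep l j (Finset.ne_of_mem_erase hj).symm)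
    exact div_le_div₀ (by positivity) h1 (by positivity) h2
  calc ∑ l, |P.eval (t l) / ∏ j ∈ (Finset.univ : Finset (Fin (κ + 2))).erase l, (t l - t j)| ≤
      ∑ l : Fin (κ + 2), D * ρ / δ ^ (κ + 1) := Finset.sum_le_sum fun l _ => hterm l
    _ = (κ + 2 : ℕ) * D * ρ / δ ^ (κ + 1) := by
      rw [Finset.sum_const, Finset.card_univ, Fintype.card_fin, nsmul_eq_mul]; ring

end Vale.Agent.P127.Stk.EndP
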