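import Vale.Agent.P127.Stk.Lib
import Vale.Agent.P127.Stk.Props
import Vale.Agent.P127.Stk.EndDet

set_option linter.all false

/-!
# P127 / Stk / END, part C : entropy lemmas
-/

namespace Vale.Agent.P127.Stk.EndP

open Finset Vale.Agent.P127

variable {Ω Ω' : Type} [Fintype Ω] [Fintype Ω'] {S T U V : Type*}

theorem hc_pi_le (P : Law Ω) (N : ℕ) (X : Fin N → Ω → S) (Y : Ω → T) :
    hc P (fun ω i => X i ω) Y ≤ ∑ i, hc P (X i) Y := by
  induction N with
  | zero =>
    rw [hc_zero P (X := fun ω (i : Fin 0) => X i ω) (Y := Y)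
      (fun ω ω' _ _ _ => Subsingleton.elim _ _)]
    simp
  | succ N ih =>
    have h1 : hc P (fun ω i => X i ω) Y ≤
        hc P (fun ω => ((fun i : Fin N => X i.castSucc ω), X (Fin.last N) ω)) Y := by
      refine hc_mono_left P ?_
      intro ω ω' _ _ h
      simp only [Prod.mk.injEq] at h
      funext i
      refine Fin.lastCases ?_ (fun b => ?_) i
      · exact h.1.2
      · exact congrFun h.1.1 b
    have h2 := hc_pair P (fun ω => (fun i : Fin N => X i.castSucc ω)) (X (Fin.last N)) Y
    have h3 : hc P (X (Fin.last N)) (fun ω => ((fun i : Fin N => X i.castSucc ω), Y ω)) ≤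
        hc P (X (Fin.last N)) Y := by
      refine hc_mono_right P _ ?_
      intro ω ω' _ _ h
      simp only [Prod.mk.injEq] at h
      exact h.2
    have h4 := ih fun i => X i.castSucc
    rw [Fin.sum_univ_castSucc]
    linarith

theorem law_ext {P Q : Law Ω} (h : ∀ ω, P.w ω = Q.w ω) : P = Q := by
  cases P; cases Q
  congr
  exact funext h

theorem prE_nonneg (P : Law Ω) (E : Ω → Prop) : 0 ≤ prE P E :=
  Finset.sum_nonneg fun ω _ => P.nn ω

theorem prE_compl (P : Law Ω) (E : Ω → Prop) : prE P E + prE P (fun ω => ¬ E ω) = 1 := by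
  classical
  rw [← P.sum_one]
  unfold prE
  rw [← Finset.sum_filter_add_sum_filter_not Finset.univ E P.w]
  congr 1
  refine Finset.sum_congr ?_ fun _ _ => rfl
  ext ω
  simp

theorem prE_le_one (P : Law Ω) (E : Ω → Prop) : prE P E ≤ 1 := by
  linarith [prE_compl P E, prE_nonneg P fun ω => ¬ E ω]

theorem w_le_prE (P : Law Ω) (E : Ω → Prop) {ω : Ω} (h : E ω) : P.w ω ≤ prE P E := by
  classical
  unfold prE
  exact Finset.single_le_sum (f := P.w) (fun i _ => P.nn i)
    (Finset.mem_filter.mpr ⟨Finset.mem_univ ω, h⟩)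

theorem on_full (P : Law Ω) (E : Ω → Prop) (h : prE P (fun ω => ¬ E ω) ≤ 0) : on P E = P := by
  have h1 : prE P E = 1 := by
    have := prE_compl P E
    have h2 := prE_nonneg P fun ω => ¬ E ω
    linarith
  refine law_ext fun ω => ?_
  rw [on_w (by rw [h1]; norm_num) ω, h1, div_one]
  split_ifs with hE
  · rfl
  · have := w_le_prE P (fun ω => ¬ E ω) hE
    linarith [P.nn ω]

theorem on_congr (P : Law Ω) {E F : Ω → Prop} (h : ∀ ω, E ω ↔ F ω) : on P E = on P F := by
  have : E = F := funext fun ω => propext (h ω)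
  rw [this]

theorem hc_le_on' (P : Law Ω) (E : Ω → Prop) (X : Ω → S) (Y : Ω → T) (a1 a2 : ℝ)
    (h1 : 0 < prE P E → hc (on P E) X Y ≤ a1)
    (h2 : prE P E < 1 → hc (on P fun ω => ¬ E ω) X Y ≤ a2) :
    hc P X Y ≤ Real.log 2 + prE P E * a1 + (1 - prE P E) * a2 := by
  have hl : 0 < Real.log 2 := Real.log_pos (by norm_num)
  rcases (prE_nonneg P E).eq_or_lt with h0 | h0
  · have e : on P (fun ω => ¬ E ω) = P := by
      refine on_full P _ ?_
      have : prE P (fun ω => ¬ ¬ E ω) = prE P E := by simp only [not_not]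
      rw [this, ← h0]
    have := h2 (by rw [← h0]; norm_num)
    rw [e] at this
    rw [← h0]
    linarith
  · rcases (prE_le_one P E).eq_or_lt with h3 | h3
    · have e : on P E = P := on_full P _ (by linarith [prE_compl P E])
      have := h1 h0
      rw [e] at this
      rw [h3]
      linarith
    · have := hc_le_on P E h0 h3 X Y
      have e1 := mul_le_mul_of_nonneg_left (h1 h0) h0.le
      have e2 := mul_le_mul_of_nonneg_left (h2 h3) (sub_nonneg.mpr h3.le)
      linarith

theorem exists_good {ι : Type*} (s : Finset ι) (P : Law Ω) (E : ι → Ω → Prop)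
    (h : ∑ i ∈ s, prE P (E i) < 1) : ∃ ω, 0 < P.w ω ∧ ∀ i ∈ s, ¬ E i ω := by
  classical
  by_contra hcon
  push Not at hcon
  have h1 : (1 : ℝ) ≤ ∑ i ∈ s, prE P (E i) := by
    have e : ∀ i, prE P (E i) = ∑ ω, if E i ω then P.w ω else 0 := by
      intro i
      unfold prE
      rw [Finset.sum_filter]
    simp only [e]
    rw [Finset.sum_comm, ← P.sum_one]
    refine Finset.sum_le_sum fun ω _ => ?_
    rcases (P.nn ω).eq_or_lt with h0 | h0
    · rw [← h0]
      exact Finset.sum_nonneg fun i _ => by split_ifs <;> simp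
    · obtain ⟨i, hi, hE⟩ := hcon ω h0
      calc P.w ω = if E i ω then P.w ω else 0 := by rw [if_pos hE]
        _ ≤ _ := Finset.single_le_sum (f := fun i => if E i ω then P.w ω else 0)
            (fun j _ => by split_ifs <;> simp [P.nn ω]) hi
  linarith

theorem prE_comp {P : Law Ω'} {Q : Law Ω} {π : Ω' → Ω} (h : ∀ ω, P.pr π ω = Q.w ω)
    (E : Ω → Prop) : prE P (fun ω => E (π ω)) = prE Q E := by
  classical
  unfold prE
  rw [← Finset.sum_fiberwise_of_maps_to (s := Finset.univ.filter fun ω => E (π ω))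
    (t := Finset.univ.filter E) (g := π) (fun ω hω => by simpa using hω)]
  refine Finset.sum_congr (by ext; simp) fun ω hω => ?_
  rw [← h ω]
  unfold Law.pr
  refine Finset.sum_congr ?_ fun _ _ => rfl
  ext ω'
  simp only [Finset.mem_filter, Finset.mem_univ, true_and]
  constructor
  · rintro ⟨h1, h2⟩; exact h2
  · intro h2
    refine ⟨?_, h2⟩
    rw [h2]
    simpa using hω

end Vale.Agent.P127.Stk.EndP
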