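import Vale.Agent.P127.Stk.EndCon

set_option linter.all false

/-!
# P127 / Stk / END, part F : `PEnd` from the rates R5
-/

namespace Vale.Agent.P127.Stk.EndP

open Finset Vale.Agent.P127

theorem small' (R : Gr) (g : R.G) (κ : ℕ) (ε : ℝ) (hε : 0 < ε) (A : ℝ) :
    ∃ n, ∀ (a : ℕ) e C, R.ok g n ((κ + 4) * a) e C →
      A ≤ a ∧ e ≤ ε * ((κ + 4) * a : ℕ) ∧ C ≤ ε * ((κ + 4) * a : ℕ) ∧
        A ≤ ε * ((κ + 4) * a : ℕ) := by
  obtain ⟨n1, h1⟩ := R.small g ε hε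
  have hA : 0 < 1 / ((|A| + 1) * (κ + 4)) := by positivity
  obtain ⟨n2, h2⟩ := R.small g _ hA
  have hA' : 0 < ε / (|A| + 1) := by positivity
  obtain ⟨n3, h3⟩ := R.small g _ hA'
  refine ⟨max n1 (max n2 n3), ?_⟩
  intro a e C hok
  have k1 := h1 _ _ _ (R.anti g n1 _ _ _ _ (le_max_left _ _) hok)
  have k2 := h2 _ _ _ (R.anti g n2 _ _ _ _ ((le_max_left _ _).trans (le_max_right _ _)) hok)
  have k3 := h3 _ _ _ (R.anti g n3 _ _ _ _ ((le_max_right _ _).trans (le_max_right _ _)) hok)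
  refine ⟨?_, k1.2.1, k1.2.2, ?_⟩
  · have h := k2.1
    push_cast at h
    rw [div_mul_eq_mul_div, one_mul, le_div_iff₀ (by positivity), one_mul] at h
    have h4 : |A| + 1 ≤ a := by
      have : (|A| + 1) * ((κ : ℝ) + 4) ≤ a * ((κ : ℝ) + 4) := by linarith
      exact le_of_mul_le_mul_right this (by positivity)
    linarith [le_abs_self A]
  · have h := k3.1
    rw [div_mul_eq_mul_div, le_div_iff₀ (by positivity), one_mul] at h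
    linarith [le_abs_self A]

/-- the choice of the scales -/
theorem scales (κ a k0 : ℕ) (G : ℝ) (hG : 0 ≤ G) (hGa : 8 * G ≤ a)
    (ha : 4 * ((κ : ℝ) + 2) * (16 * (κ + 2) ^ 2 + 3) + 8 * k0 + 8 * κ + 16 ≤ a) :
    ∃ n s d : ℕ, s ≤ n ∧ n ≤ (κ + 4) * a ∧ (n : ℝ) + G ≤ (κ + 2) * a ∧ a + d ≤ (κ + 4) * a ∧
      (a : ℝ) ≤ s * (8 * κ + 8) ∧ 16 * ((κ : ℝ) + 2) ^ 2 + 2 ≤ d ∧
      (κ + 1) * (s + (a + d)) + k0 ≤ n := by
  have hpos1 : (0 : ℝ) ≤ 4 * (κ + 2) * (16 * (κ + 2) ^ 2 + 3) := by positivity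
  have hpos2 : (0 : ℝ) ≤ k0 := by positivity
  have hpos3 : (0 : ℝ) ≤ κ := by positivity
  have hz2 := Nat.ceil_lt_add_one hG
  have hz1 : G ≤ ⌈G⌉₊ := Nat.le_ceil _
  generalize ⌈G⌉₊ = z at hz1 hz2
  have hz4 : 8 * z ≤ a + 8 := by
    have : (8 * z : ℝ) ≤ a + 8 := by linarith
    exact_mod_cast this
  have ha1 : 8 * k0 + 8 * κ + 16 ≤ a := by
    have : (8 * k0 + 8 * κ + 16 : ℝ) ≤ a := by linarith
    exact_mod_cast this
  have hza : z ≤ a := by omega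
  have hza2 : z ≤ (κ + 2) * a := hza.trans (Nat.le_mul_of_pos_left a (by omega))
  obtain ⟨n, hnz⟩ : ∃ n, n + z = (κ + 2) * a := ⟨(κ + 2) * a - z, Nat.sub_add_cancel hza2⟩
  have hs1 : 4 * (κ + 1) * (a / (4 * (κ + 1))) ≤ a := Nat.mul_div_le a _
  have hd1 : 4 * (κ + 2) * (a / (4 * (κ + 2))) ≤ a := Nat.mul_div_le a _
  have hs2 := Nat.lt_mul_div_succ a (show 0 < 4 * (κ + 1) by omega)
  have hd2 := Nat.lt_mul_div_succ a (show 0 < 4 * (κ + 2) by omega)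
  have hda : a / (4 * (κ + 2)) ≤ a := Nat.div_le_self _ _
  generalize a / (4 * (κ + 1)) = s at hs1 hs2
  generalize a / (4 * (κ + 2)) = d at hd1 hd2 hda
  refine ⟨n, s, d, ?_, ?_, ?_, ?_, ?_, ?_, ?_⟩
  · have e1 : 4 * s ≤ a := by
      calc 4 * s = 4 * 1 * s := by ring
        _ ≤ 4 * (κ + 1) * s := by
          apply Nat.mul_le_mul_right; omega
        _ ≤ a := hs1
    have e2 : 2 * a ≤ (κ + 2) * a := Nat.mul_le_mul_right _ (by omega)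
    omega
  · calc n ≤ (κ + 2) * a := by omega
      _ ≤ (κ + 4) * a := Nat.mul_le_mul_right _ (by omega)
  · have : ((n + z : ℕ) : ℝ) = (((κ + 2) * a : ℕ) : ℝ) := by rw [hnz]
    push_cast at this
    linarith
  · have : (κ + 4) * a = (κ + 2) * a + 2 * a := by ring
    omega
  · have e1 : (a : ℝ) < 4 * (κ + 1) * (s + 1) := by exact_mod_cast hs2
    have e2 : (8 * κ + 8 : ℝ) ≤ a := by linarith
    have e3 : (4 * (κ + 1) * (s + 1) : ℝ) = s * (8 * κ + 8) / 2 + (8 * κ + 8) / 2 := by ring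
    linarith
  · have e1 : (a : ℝ) < 4 * (κ + 2) * (d + 1) := by exact_mod_cast hd2
    have e3 : 4 * ((κ : ℝ) + 2) * (16 * (κ + 2) ^ 2 + 3) < 4 * (κ + 2) * (d + 1) := by linarith
    have e4 := lt_of_mul_lt_mul_left e3 (by positivity)
    linarith
  · have e2 : 4 * ((κ + 1) * s) ≤ a := by
      calc 4 * ((κ + 1) * s) = 4 * (κ + 1) * s := by ring
        _ ≤ a := hs1
    have e3 : 4 * ((κ + 1) * d) ≤ a := by
      calc 4 * ((κ + 1) * d) = 4 * (κ + 1) * d := by ring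
        _ ≤ 4 * (κ + 2) * d := Nat.mul_le_mul_right _ (by omega)
        _ ≤ a := hd1
    have e4 : (κ + 1) * (s + (a + d)) = (κ + 1) * s + ((κ + 1) * a + (κ + 1) * d) := by ring
    have e5 : n + z = (κ + 1) * a + a := by rw [hnz]; ring
    omega

theorem Hyp.mono' {Ω : Type} [Fintype Ω] {m : ℕ} {h : ℝ} {κ a : ℕ} {ι ι' εu εu' e C : ℝ}
    {P : Law Ω} {c : Cf Ω m} {o : Ob Ω m κ} (hyp : Hyp h κ a ι εu e C P c o) (h1 : ι ≤ ι')
    (h2 : εu ≤ εu') : Hyp h κ a ι' εu' e C P c o := by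
  have hb : 0 < Real.log 2 := Real.log_pos (by norm_num)
  refine ⟨hyp.good, hyp.cost.trans ?_, hyp.rate.trans ?_, ?_⟩
  · exact mul_le_mul_of_nonneg_right h1 (Nat.cast_nonneg _)
  · refine mul_le_mul_of_nonneg_right (mul_le_mul_of_nonneg_right ?_ (Nat.cast_nonneg _)) hb.le
    linarith
  · exact le_trans (by linarith) hyp.unif

/-- at fixed parameters, from the statements with quantifiers removed -/
theorem fin_params {Ω : Type} [Fintype Ω] {m κ : ℕ} [NeZero m] {P : Law Ω} {c : Cf Ω m}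
    {o : Ob Ω m κ} {h : ℝ} (hm : h < m) {a k0 : ℕ} {e C γ ι εu p0 C0 : ℝ}
    (hγ0 : 0 < γ) (hγ1 : γ * ((3 * κ + 13) * (κ + 4) * (8 * κ + 8)) ≤
      1 / (4 * ((κ : ℝ) + 1)) * (m - h) * Real.log 2)
    (hγ2 : γ * (8 * (κ + 4)) ≤ 1)
    (hp0 : 0 < p0) (hp0m : p0 * m ≤ (m - h) / 2)
    (hyp : Hyp h κ a ι εu e C P c o) (hι : ι ≤ γ) (hεu : εu ≤ 1 / 2)
    (hRK : ∀ Q : Law (Fin 2 → Ω), (∀ w, Q.w w = cw P (key c a) 1 w) →
      ∀ s : ℕ, (s : ℝ) + γ * ((κ + 4) * a : ℕ) ≤ (κ + 2 : ℕ) * a →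
        hc Q (fun w => fl s (o.F c (w 1)))
          (fun w => (fl s (o.F c (w 0)), (fun i => (c.t (w i), o.G (w i))), c.A (w 0))) ≤
        γ * ((κ + 4) * a : ℕ))
    (hRL : ∀ s s' : ℕ, s ≤ s' → s' ≤ (κ + 4) * a →
        (m - (h - κ)) * s * Real.log 2 - γ * ((κ + 4) * a : ℕ) ≤
          hc P (fun ω => (fl s (c.x ω), fl s (c.y ω)))
            (fun ω => (fl s' (o.F c ω), c.t ω, o.G ω, c.A ω)))
    (hRU : ∀ (Ω' : Type) [Fintype Ω'] (Q : Law Ω') (π : Ω' → Ω), Dom Q π P (1 / p0) →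
      ∀ s s' : ℕ, s ≤ s' → s' ≤ (κ + 4) * a →
        hc Q (fun ω => (fl s (c.x (π ω)), fl s (c.y (π ω))))
          (fun ω => (fl s' (o.F c (π ω)), c.t (π ω), o.G (π ω), c.A (π ω))) ≤
        (m - (h - κ)) * s * Real.log 2 + γ * ((κ + 4) * a : ℕ))
    (he : e ≤ γ * ((κ + 4) * a : ℕ)) (hC : C ≤ γ * ((κ + 4) * a : ℕ))
    (hA1 : Real.log 2 + m * Real.log (κ + 3) ≤ γ * ((κ + 4) * a : ℕ))
    (hA2 : 4 * ((κ : ℝ) + 2) * (16 * (κ + 2) ^ 2 + 3) + 8 * k0 + 8 * κ + 16 ≤ a)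
    (hC0 : ∀ (X Y : Fin (κ + 1) → Fin m → ℝ)
      (t : Fin (κ + 2) → ℝ) (J : Finset (Fin m)) (Γ : Fin (κ + 2) → Fin m → Fin m → ℝ) (ρ δ : ℝ),
      (∀ j i, |X j i| ≤ 1) → (∀ j i, |Y j i| ≤ 1) → (∀ i, |t i| ≤ 1) → J.card = κ →
      (∀ l i j, |Γ l i j| ≤ 3 ^ κ) → 0 ≤ ρ → 0 < δ → (∀ i l, i ≠ l → δ ≤ |t i - t l|) →
      (∀ l j i, i ∉ J →
        |(X j i + t l * Y j i) - ∑ j' ∈ J, Γ l i j' * (X j j' + t l * Y j j')| ≤ ρ) →
      ∀ I : Fin (κ + 1) → Fin m,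
        |(Matrix.of fun a b => Y a (I b)).det| ≤ C0 * ρ / δ ^ (κ + 1))
    (hC00 : 0 ≤ C0) (hk0 : C0 < 2 ^ k0) : False := by
  have hb : 0 < Real.log 2 := Real.log_pos (by norm_num)
  have hpos3 : (0 : ℝ) ≤ κ := by positivity
  have ha0 : (0 : ℝ) < a := by
    have : (0 : ℝ) ≤ 4 * (κ + 2) * (16 * (κ + 2) ^ 2 + 3) := by positivity
    have : (0 : ℝ) ≤ k0 := by positivity
    linarith
  have hG0 : 0 ≤ γ * ((κ + 4) * a : ℕ) := by positivity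
  have hGa : 8 * (γ * ((κ + 4) * a : ℕ)) ≤ a := by
    have := mul_le_mul_of_nonneg_right hγ2 ha0.le
    push_cast
    linarith
  obtain ⟨n, s, d, hsn, hnL, hn, hdL, hsl, hdl, hsz⟩ := scales κ a k0 _ hG0 hGa hA2
  have hs0 : (0 : ℝ) < s := by
    by_contra hcon
    have : (s : ℝ) = 0 := le_antisymm (not_lt.mp hcon) (by positivity)
    rw [this, zero_mul] at hsl
    linarith
  have hσ : 0 < (m : ℝ) - h := sub_pos.mpr hm
  have e1 : ((m : ℝ) - (h - κ)) = κ + (m - h) := by ring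
  have H1 := hRL s n hsn hnL
  have HU := fun (Ω' : Type) [Fintype Ω'] (Q : Law Ω') (π : Ω' → Ω)
    (hD : Dom Q π P (1 / p0)) => hRU Ω' Q π hD s n hsn hnL
  rw [e1] at H1
  simp only [e1] at HU
  have hιG : ι * ((κ + 4) * a : ℕ) ≤ γ * ((κ + 4) * a : ℕ) :=
    mul_le_mul_of_nonneg_right hι (Nat.cast_nonneg _)
  refine fin_contra (k0 := k0) (C0 := C0) hyp.good (hsn.trans hnL) H1 (hyp.cost.trans hιG)
    (fun Q hQ => hRK Q hQ n (by push_cast at hn ⊢; linarith)) HU hG0 he hC hp0 hp0m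
    (by positivity) ?_ hyp.unif hεu hdL hdl hC0 hC00 hk0 hsz
  have f1 : (3 * κ + 11) * (γ * ((κ + 4) * a : ℕ)) + γ * ((κ + 4) * a : ℕ) + Real.log 2 +
      m * Real.log (κ + 3) ≤ (3 * κ + 13) * (γ * ((κ + 4) * a : ℕ)) := by
    linarith
  refine f1.trans ?_
  push_cast
  have f2 : γ * ((3 * κ + 13) * (κ + 4) * (8 * κ + 8)) * s ≤
      1 / (4 * ((κ : ℝ) + 1)) * (m - h) * Real.log 2 * s :=
    mul_le_mul_of_nonneg_right hγ1 hs0.le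
  have f3 : (3 * (κ : ℝ) + 13) * (γ * ((κ + 4) * a)) ≤
      (3 * κ + 13) * (γ * ((κ + 4) * (s * (8 * κ + 8)))) := by
    refine mul_le_mul_of_nonneg_left (mul_le_mul_of_nonneg_left
      (mul_le_mul_of_nonneg_left hsl (by positivity)) hγ0.le) (by positivity)
  linarith

/-- section 10 from the rates R5 -/
theorem pEnd_of (R : Gr) (hL : ∀ (m : ℕ) (h : ℝ) (κ : ℕ), κ ≤ m → LB R m h → R5L R m h κ)
    (hU : ∀ (m : ℕ) (h : ℝ) (κ : ℕ), κ ≤ m → LB R m h → R5U R m h κ) : PEnd R := by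
  intro m h κ hm hκ hLB hYU hRK
  have : NeZero m := ⟨by omega⟩
  have hb : 0 < Real.log 2 := Real.log_pos (by norm_num)
  have hσ : 0 < (m : ℝ) - h := sub_pos.mpr hm
  obtain ⟨p0, hp0, hp0m⟩ : ∃ p0 : ℝ, 0 < p0 ∧ p0 * m ≤ (m - h) / 2 := by
    refine ⟨((m : ℝ) - h) / (2 * (m + 1)), by positivity, ?_⟩
    rw [div_mul_eq_mul_div, div_le_div_iff₀ (by positivity) (by norm_num)]
    nlinarith
  obtain ⟨γ, hγ0, hγ1, hγ2⟩ : ∃ γ : ℝ, 0 < γ ∧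
      γ * ((3 * κ + 13) * (κ + 4) * (8 * κ + 8)) ≤
        1 / (4 * ((κ : ℝ) + 1)) * (m - h) * Real.log 2 ∧ γ * (8 * (κ + 4)) ≤ 1 := by
    refine ⟨min (1 / (4 * ((κ : ℝ) + 1)) * (m - h) * Real.log 2 /
      ((3 * κ + 13) * (κ + 4) * (8 * κ + 8))) (1 / (8 * (κ + 4))),
      lt_min (by positivity) (by positivity), ?_, ?_⟩
    · rw [← le_div_iff₀ (by positivity)]
      exact min_le_left _ _
    · rw [← le_div_iff₀ (by positivity)]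
      exact min_le_right _ _
  obtain ⟨C0, hC00, hC0⟩ := det_small m κ
  obtain ⟨k0, hk0⟩ := pow_unbounded_of_one_lt C0 (one_lt_two (α := ℝ))
  obtain ⟨ι1, hι1, εu1, hεu1, RK1⟩ := hRK γ hγ0
  obtain ⟨ι2, hι2, RL⟩ := hL m h κ hκ.le hLB γ hγ0
  obtain ⟨ι3, hι3, RU⟩ := hU m h κ hκ.le hLB γ hγ0 (1 / p0)
  obtain ⟨ι, hι0, hιa, hιb, hιc, hιd⟩ : ∃ ι : ℝ, 0 < ι ∧ ι ≤ ι1 ∧ ι ≤ ι2 ∧ ι ≤ ι3 ∧ ι ≤ γ :=
    ⟨min (min ι1 ι2) (min ι3 γ), lt_min (lt_min hι1 hι2) (lt_min hι3 hγ0),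
      (min_le_left _ _).trans (min_le_left _ _), (min_le_left _ _).trans (min_le_right _ _),
      (min_le_right _ _).trans (min_le_left _ _), (min_le_right _ _).trans (min_le_right _ _)⟩
  obtain ⟨εu, hεu0, hεua, hεub⟩ : ∃ εu : ℝ, 0 < εu ∧ εu ≤ εu1 ∧ εu ≤ 1 / 2 :=
    ⟨min εu1 (1 / 2), lt_min hεu1 (by norm_num), min_le_left _ _, min_le_right _ _⟩
  obtain ⟨g, hY⟩ := hYU ι hι0 εu hεu0
  obtain ⟨n1, RK2⟩ := RK1 g
  obtain ⟨n2, RL2⟩ := RL g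
  obtain ⟨n3, RU2⟩ := RU g
  obtain ⟨n4, hn4⟩ := small' R g κ γ hγ0 (Real.log 2 + m * Real.log (κ + 3))
  obtain ⟨n5, hn5⟩ := small' R g κ γ hγ0
    (4 * ((κ : ℝ) + 2) * (16 * (κ + 2) ^ 2 + 3) + 8 * k0 + 8 * κ + 16)
  obtain ⟨a, e, C, hok, Ω, _, P, c, o, hyp⟩ := hY (max (max n1 n2) (max n3 (max n4 n5)))
  have ok1 := R.anti g n1 _ _ _ _ ((le_max_left _ _).trans (le_max_left _ _)) hok
  have ok2 := R.anti g n2 _ _ _ _ ((le_max_right _ _).trans (le_max_left _ _)) hok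
  have ok3 := R.anti g n3 _ _ _ _ ((le_max_left _ _).trans (le_max_right _ _)) hok
  have ok4 := R.anti g n4 _ _ _ _
    ((le_max_left _ _).trans ((le_max_right _ _).trans (le_max_right _ _))) hok
  have ok5 := R.anti g n5 _ _ _ _
    ((le_max_right _ _).trans ((le_max_right _ _).trans (le_max_right _ _))) hok
  obtain ⟨-, he, hC, hA1⟩ := hn4 _ _ _ ok4
  obtain ⟨hA2, -, -, -⟩ := hn5 _ _ _ ok5
  have hypL := Hyp.mono' hyp hιb le_rfl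
  have hypU := Hyp.mono' hyp hιc le_rfl
  exact fin_params hm hγ0 hγ1 hγ2 hp0 hp0m hyp hιd hεub
    (RK2 a e C ok1 Ω P c o (Hyp.mono' hyp hιa hεua))
    (RL2 _ e C ok2 Ω P c o hypL.good hypL.cost hypL.rate)
    (fun Ω' _ Q π hD => RU2 _ e C ok3 Ω P c o hypU.good hypU.cost hypU.rate Ω' Q π hD)
    he hC hA1 hA2 hC0 hC00 hk0

end Vale.Agent.P127.Stk.EndP
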