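import Vale.Agent.P127.Stk.EndEnt

set_option linter.all false

/-!
# P127 / Stk / END, part C1 : the direction has large entropy given all projections
-/

namespace Vale.Agent.P127.Stk.EndP

open Finset Vale.Agent.P127

variable {Ω : Type} [Fintype Ω] {m κ : ℕ}

/-- all projections, times and objects -/
noncomputable def WW (c : Cf Ω m) (o : Ob Ω m κ) (n : ℕ) {N : ℕ} (w : Fin (N + 1) → Ω) :
    (Fin (N + 1) → Fin m → ℤ) × (Fin (N + 1) → ℝ × o.γ) × c.α :=
  (fun i => fl n (o.F c (w i)), fun i => (c.t (w i), o.G (w i)), c.A (w 0))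

theorem F_fn (c : Cf Ω m) (o : Ob Ω m κ) {ω ω' : Ω} (hx : c.x ω = c.x ω') (hy : c.y ω = c.y ω')
    (ht : c.t ω = c.t ω') (hG : o.G ω = o.G ω') : o.F c ω = o.F c ω' := by
  have h1 : c.pt ω = c.pt ω' := by
    unfold Cf.pt
    rw [hx, hy, ht]
  have h2 := o.fn _ _ hG
  unfold Ob.F Ob.app
  rw [h1, h2]

theorem low {P : Law Ω} {c : Cf Ω m} {o : Ob Ω m κ} {L : ℕ} {e C : ℝ} (hg : Good P c L e C)
    {n s a N : ℕ} (hs : s ≤ L) {lo cst rk : ℝ} (hrk : 0 ≤ rk)
    (H1 : lo ≤ hc P (fun ω => (fl s (c.x ω), fl s (c.y ω)))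
      (fun ω => (fl n (o.F c ω), c.t ω, o.G ω, c.A ω)))
    (H2 : mi P (fun ω => (c.x ω, c.y ω)) o.G (fun ω => (c.t ω, c.A ω)) ≤ cst)
    (H3 : ∀ Q : Law (Fin 2 → Ω), (∀ w, Q.w w = cw P (key c a) 1 w) →
        hc Q (fun w => fl n (o.F c (w 1)))
          (fun w => (fl n (o.F c (w 0)), (fun i => (c.t (w i), o.G (w i))), c.A (w 0))) ≤ rk)
    (Q : Law (Fin (N + 1) → Ω)) (hQ : ∀ w, Q.w w = cw P (key c a) N w) :
    lo - (N + 2) * (C + cst) - (N + 1) * rk - 2 * e ≤
      hc Q (fun w => fl s (c.y (w 0))) (WW c o n) := by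
  -- step a
  have ha : hc Q (fun w (i : Fin (N + 1)) => fl n (o.F c (w i)))
      (fun w => (fl n (o.F c (w 0)), (fun i => (c.t (w i), o.G (w i))), c.A (w 0))) ≤
      (N + 1) * rk := by
    refine (hc_pi_le Q (N + 1) (fun i w => fl n (o.F c (w i))) _).trans ?_
    have : ∀ i : Fin (N + 1), hc Q (fun w => fl n (o.F c (w i)))
      (fun w => (fl n (o.F c (w 0)), (fun i => (c.t (w i), o.G (w i))), c.A (w 0))) ≤ rk := by
      intro i
      by_cases hi : i = 0
      · subst hi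
        refine le_trans (le_of_eq ?_) hrk
        refine hc_zero Q ?_
        intro w w' _ _ h
        exact congrArg Prod.fst h
      · obtain ⟨Q', hQ'⟩ := cw_exists P (key c a) 1
        have h1 := H3 Q' hQ'
        have hinj : Function.Injective (![0, i] : Fin 2 → Fin (N + 1)) := by
          intro p q hpq
          fin_cases p <;> fin_cases q <;> simp_all
        have h2 := hc_of_law Q Q' (fun w => w ∘ (![0, i] : Fin 2 → Fin (N + 1)))
          (fun v => by rw [cw_sub hQ _ hinj v, hQ' v])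
          (fun w => fl n (o.F c (w 1)))
          (fun w => (fl n (o.F c (w 0)), (fun i => (c.t (w i), o.G (w i))), c.A (w 0)))
        rw [← h2] at h1
        refine le_trans ?_ h1
        refine hc_mono_right Q _ ?_
        intro w w' _ _ h
        simp only [Prod.mk.injEq] at h
        obtain ⟨e1, e2, e3⟩ := h
        simp only [Function.comp, Prod.mk.injEq]
        refine ⟨e1, ?_, e3⟩
        funext p
        exact congrFun e2 _
    refine (Finset.sum_le_sum fun i _ => this i).trans (le_of_eq ?_)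
    simp
  -- step c
  have hcst : mi P (fun ω => (c.x ω, c.y ω)) (fun ω => (c.t ω, o.G ω)) c.A ≤ C + cst := by
    rw [mi_pair P _ c.t o.G c.A]
    exact add_le_add hg.ind H2
  -- step b
  have hcost := cw_cost hQ (fun ω => (c.x ω, c.y ω)) c.A (fun ω => (c.t ω, o.G ω))
    (fun ω => fl1 a (c.t ω))
    (fun ω ω' _ _ h => by
      simp only [Prod.mk.injEq] at h
      show fl1 a (c.t ω) = fl1 a (c.t ω')
      rw [h.1])
    (fun ω ω' _ _ h => by
      simp only [Prod.mk.injEq] at h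
      obtain ⟨⟨h1, h2⟩, h3, h4⟩ := h
      unfold key
      rw [h1, h2, h3, h4])
    (fun ω ω' _ _ h => by
      unfold key at h
      simp only [Prod.mk.injEq] at h
      obtain ⟨h1, h2, h3, h4⟩ := h
      show ((c.x ω, c.y ω), c.A ω, fl1 a (c.t ω)) = _
      rw [h1, h2, h3, h4]) 0
  have hcost' : mi Q (fun w => (c.x (w 0), c.y (w 0))) (fun w j => (c.t (w j), o.G (w j)))
      (fun w => c.A (w 0)) ≤ (N + 2) * (C + cst) :=
    hcost.trans (mul_le_mul_of_nonneg_left hcst (by positivity))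
  -- step d
  have d1 : lo ≤ hc Q (fun w => (fl s (c.x (w 0)), fl s (c.y (w 0))))
      (fun w => (fl n (o.F c (w 0)), c.t (w 0), o.G (w 0), c.A (w 0))) := by
    have := cw_hc hQ 0 (fun ω => (fl s (c.x ω), fl s (c.y ω)))
      (fun ω => (fl n (o.F c ω), c.t ω, o.G ω, c.A ω))
    rw [this]; exact H1
  have d2 : mi Q (fun w => (fl s (c.x (w 0)), fl s (c.y (w 0))))
      (fun w j => (c.t (w j), o.G (w j)))
      (fun w => (fl n (o.F c (w 0)), c.t (w 0), o.G (w 0), c.A (w 0))) ≤ (N + 2) * (C + cst) := by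
    have e1 : mi Q (fun w => (fl s (c.x (w 0)), fl s (c.y (w 0))))
        (fun w j => (c.t (w j), o.G (w j)))
        (fun w => (fl n (o.F c (w 0)), c.t (w 0), o.G (w 0), c.A (w 0))) ≤
        mi Q (fun w => (c.x (w 0), c.y (w 0))) (fun w j => (c.t (w j), o.G (w j)))
          (fun w => (fl n (o.F c (w 0)), c.t (w 0), o.G (w 0), c.A (w 0))) := by
      refine mi_mono_left Q _ ?_
      intro w w' _ _ h
      simp only [Prod.mk.injEq] at h
      obtain ⟨⟨h1, h2⟩, -⟩ := h
      simp only [Prod.mk.injEq]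
      exact ⟨by rw [h1], by rw [h2]⟩
    have e2 := mi_cond_le Q (X := fun w : Fin (N + 1) → Ω => (c.x (w 0), c.y (w 0)))
      (fun w j => (c.t (w j), o.G (w j))) (W := fun w => fl n (o.F c (w 0)))
      (fun w => (c.t (w 0), o.G (w 0), c.A (w 0))) (by
        intro w w' _ _ h
        simp only [Prod.mk.injEq] at h
        obtain ⟨⟨h1, h2⟩, h3, h4, h5⟩ := h
        show fl n (o.F c (w 0)) = fl n (o.F c (w' 0))
        rw [F_fn c o h1 h2 h3 h4])
    have e3 := mi_pair Q (fun w : Fin (N + 1) → Ω => (c.x (w 0), c.y (w 0)))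
      (fun w => (c.t (w 0), o.G (w 0))) (fun w j => (c.t (w j), o.G (w j)))
      (fun w => c.A (w 0))
    have e4 := mi_nonneg Q (fun w : Fin (N + 1) → Ω => (c.x (w 0), c.y (w 0)))
      (fun w => (c.t (w 0), o.G (w 0))) (fun w => c.A (w 0))
    have e5 : mi Q (fun w : Fin (N + 1) → Ω => (c.x (w 0), c.y (w 0)))
        (fun w => ((c.t (w 0), o.G (w 0)), fun j => (c.t (w j), o.G (w j))))
        (fun w => c.A (w 0)) ≤ mi Q (fun w => (c.x (w 0), c.y (w 0)))
        (fun w j => (c.t (w j), o.G (w j))) (fun w => c.A (w 0)) := by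
      refine mi_mono_right Q _ ?_
      intro w w' _ _ h
      simp only [Prod.mk.injEq] at h
      obtain ⟨h1, -⟩ := h
      have h2 := congrFun h1 0
      simp only [Prod.mk.injEq] at h2
      simp only [Prod.mk.injEq]
      exact ⟨h2, h1⟩
    have e6 : mi Q (fun w : Fin (N + 1) → Ω => (c.x (w 0), c.y (w 0)))
        (fun w j => (c.t (w j), o.G (w j))) (fun w => ((c.t (w 0), o.G (w 0)), c.A (w 0))) =
        mi Q (fun w : Fin (N + 1) → Ω => (c.x (w 0), c.y (w 0)))
        (fun w j => (c.t (w j), o.G (w j))) (fun w => (c.t (w 0), o.G (w 0), c.A (w 0))) := by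
      refine mi_congr_cond Q _ _ ?_ ?_
      · intro w w' _ _ h
        simp only [Prod.mk.injEq] at h ⊢
        obtain ⟨h1, h2, h3⟩ := h
        exact ⟨⟨h1, h2⟩, h3⟩
      · intro w w' _ _ h
        simp only [Prod.mk.injEq] at h ⊢
        obtain ⟨⟨h1, h2⟩, h3⟩ := h
        exact ⟨h1, h2, h3⟩
    linarith
  have d3 : hc Q (fun w => (fl s (c.x (w 0)), fl s (c.y (w 0))))
      (fun w => ((fun j => (c.t (w j), o.G (w j))),
        (fl n (o.F c (w 0)), c.t (w 0), o.G (w 0), c.A (w 0)))) ≤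
      hc Q (fun w => (fl s (c.x (w 0)), fl s (c.y (w 0))))
      (fun w => (fl n (o.F c (w 0)), (fun i => (c.t (w i), o.G (w i))), c.A (w 0))) := by
    refine hc_mono_right Q _ ?_
    intro w w' _ _ h
    simp only [Prod.mk.injEq] at h ⊢
    obtain ⟨h1, h2, h3, h4, h5⟩ := h
    exact ⟨h2, h1, h5⟩
  have d4 : lo - (N + 2) * (C + cst) ≤
      hc Q (fun w => (fl s (c.x (w 0)), fl s (c.y (w 0))))
      (fun w => (fl n (o.F c (w 0)), (fun i => (c.t (w i), o.G (w i))), c.A (w 0))) := by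
    have : mi Q (fun w => (fl s (c.x (w 0)), fl s (c.y (w 0))))
      (fun w j => (c.t (w j), o.G (w j)))
      (fun w => (fl n (o.F c (w 0)), c.t (w 0), o.G (w 0), c.A (w 0))) =
      hc Q (fun w => (fl s (c.x (w 0)), fl s (c.y (w 0))))
      (fun w => (fl n (o.F c (w 0)), c.t (w 0), o.G (w 0), c.A (w 0))) -
      hc Q (fun w => (fl s (c.x (w 0)), fl s (c.y (w 0))))
      (fun w => ((fun j => (c.t (w j), o.G (w j))),
        (fl n (o.F c (w 0)), c.t (w 0), o.G (w 0), c.A (w 0)))) := rfl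
    linarith
  -- step e
  have e1 := hc_le_add' Q (fun w => (fl s (c.x (w 0)), fl s (c.y (w 0))))
    (fun w (i : Fin (N + 1)) => fl n (o.F c (w i)))
    (fun w => (fl n (o.F c (w 0)), (fun i => (c.t (w i), o.G (w i))), c.A (w 0)))
  have e2 : hc Q (fun w => (fl s (c.x (w 0)), fl s (c.y (w 0))))
      (fun w => ((fun (i : Fin (N + 1)) => fl n (o.F c (w i))),
        (fl n (o.F c (w 0)), (fun i => (c.t (w i), o.G (w i))), c.A (w 0)))) ≤
      hc Q (fun w => (fl s (c.x (w 0)), fl s (c.y (w 0)))) (WW c o n) := by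
    refine hc_mono_right Q _ ?_
    intro w w' _ _ h
    simp only [Prod.mk.injEq] at h
    obtain ⟨h1, h2, h3, h4⟩ := h
    unfold WW
    simp only [Prod.mk.injEq]
    exact ⟨h1, h3, h4⟩
  -- step f
  have f1 : hc Q (fun w => (fl s (c.x (w 0)), fl s (c.y (w 0)))) (WW c o n) ≤
      hc Q (fun w => (fl s (c.y (w 0)), fl s (c.x (w 0)))) (WW c o n) := by
    refine hc_mono_left Q ?_
    intro w w' _ _ h
    simp only [Prod.mk.injEq] at h
    obtain ⟨⟨h1, h2⟩, -⟩ := h
    simp only [Prod.mk.injEq]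
    exact ⟨h2, h1⟩
  have f2 := hc_pair Q (fun w : Fin (N + 1) → Ω => fl s (c.y (w 0))) (fun w => fl s (c.x (w 0)))
    (WW c o n)
  have f3 : hc Q (fun w => fl s (c.x (w 0))) (fun w => (fl s (c.y (w 0)), WW c o n w)) ≤
      hc Q (fun w => fl s (c.x (w 0))) (fun w => (fl s (c.y (w 0)), c.A (w 0))) := by
    refine hc_mono_right Q _ ?_
    intro w w' _ _ h
    unfold WW at h
    simp only [Prod.mk.injEq] at h
    obtain ⟨h1, h2, h3, h4⟩ := h
    simp only [Prod.mk.injEq]
    exact ⟨h1, h4⟩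
  have f4 := cw_hc hQ 0 (fun ω => fl s (c.x ω)) (fun ω => (fl s (c.y ω), c.A ω))
  have f5 : hc P (fun ω => fl s (c.x ω)) (fun ω => (fl s (c.y ω), c.A ω)) ≤ 2 * e := by
    have g1 := hc_pair P (fun ω => fl s (c.y ω)) (fun ω => fl s (c.x ω)) c.A
    have g2 := hg.dir s hs
    have g3 := hg.lin s hs
    have g4 : hc P (fun ω => (fl s (c.y ω), fl s (c.x ω))) c.A ≤
        hc P (fun ω => (fl s (c.x ω), fl s (c.y ω))) c.A := by
      refine hc_mono_left P ?_
      intro w w' _ _ h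
      simp only [Prod.mk.injEq] at h
      obtain ⟨⟨h1, h2⟩, -⟩ := h
      simp only [Prod.mk.injEq]
      exact ⟨h2, h1⟩
    linarith
  linarith

end Vale.Agent.P127.Stk.EndP
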