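import Vale.Agent.P127.Stk.EndStep

set_option linter.all false

/-!
# P127 / Stk / END, part D : the end of the proof from the rates R5
-/

namespace Vale.Agent.P127.Stk.EndP

open Finset Vale.Agent.P127

/-- R5, lower bound -/
def R5L (R : Gr) (m : ℕ) (h : ℝ) (κ : ℕ) : Prop :=
  ∀ ε : ℝ, 0 < ε → ∃ ι : ℝ, 0 < ι ∧ ∀ g : R.G, ∃ n : ℕ, ∀ (L : ℕ) (e C : ℝ), R.ok g n L e C →
    ∀ (Ω : Type) [Fintype Ω] (P : Law Ω) (c : Cf Ω m) (o : Ob Ω m κ),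
      Good P c L e C →
      mi P (fun ω => (c.x ω, c.y ω)) o.G (fun ω => (c.t ω, c.A ω)) ≤ ι * L →
      hc P (fun ω => fl L (o.F c ω)) (fun ω => (c.t ω, o.G ω, c.A ω)) ≤
        (h - κ + ι) * L * Real.log 2 →
      ∀ s s' : ℕ, s ≤ s' → s' ≤ L →
        (m - (h - κ)) * s * Real.log 2 - ε * L ≤
          hc P (fun ω => (fl s (c.x ω), fl s (c.y ω)))
            (fun ω => (fl s' (o.F c ω), c.t ω, o.G ω, c.A ω))

/-- R5, upper bound for dominated laws -/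
def R5U (R : Gr) (m : ℕ) (h : ℝ) (κ : ℕ) : Prop :=
  ∀ ε : ℝ, 0 < ε → ∀ K : ℝ, ∃ ι : ℝ, 0 < ι ∧ ∀ g : R.G, ∃ n : ℕ, ∀ (L : ℕ) (e C : ℝ),
    R.ok g n L e C →
    ∀ (Ω : Type) [Fintype Ω] (P : Law Ω) (c : Cf Ω m) (o : Ob Ω m κ),
      Good P c L e C →
      mi P (fun ω => (c.x ω, c.y ω)) o.G (fun ω => (c.t ω, c.A ω)) ≤ ι * L →
      hc P (fun ω => fl L (o.F c ω)) (fun ω => (c.t ω, o.G ω, c.A ω)) ≤
        (h - κ + ι) * L * Real.log 2 →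
      ∀ (Ω' : Type) [Fintype Ω'] (Q : Law Ω') (π : Ω' → Ω), Dom Q π P K →
      ∀ s s' : ℕ, s ≤ s' → s' ≤ L →
        hc Q (fun ω => (fl s (c.x (π ω)), fl s (c.y (π ω))))
          (fun ω => (fl s' (o.F c (π ω)), c.t (π ω), o.G (π ω), c.A (π ω))) ≤
        (m - (h - κ)) * s * Real.log 2 + ε * L

variable {Ω : Type} [Fintype Ω] {m κ : ℕ}

/-- the deterministic part of the contradiction -/
theorem det_contra [NeZero m] {P : Law Ω} {c : Cf Ω m} {o : Ob Ω m κ} {a n s : ℕ}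
    (hx : ∀ ω i, 0 ≤ c.x ω i ∧ c.x ω i < 1) (hy : ∀ ω i, 0 ≤ c.y ω i ∧ c.y ω i < 1)
    (ht : ∀ ω, 0 ≤ c.t ω ∧ c.t ω < 1)
    {Q : Law (Fin (κ + 1 + 1) → Ω)} (hQ : ∀ w, Q.w w = cw P (key c a) (κ + 1) w)
    {Q2 : Law (Fin (κ + 1 + 1) → (Fin (κ + 1 + 1) → Ω))}
    (hQ2 : ∀ w, Q2.w w = cw Q (WW c o n) (κ + 1) w)
    {w : Fin (κ + 1 + 1) → (Fin (κ + 1 + 1) → Ω)} (hw : 0 < Q2.w w) {δ : ℝ} (hδ : 0 < δ)
    (hsep : ∀ i j, i ≠ j → δ ≤ |c.t (w 0 i) - c.t (w 0 j)|)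
    (hE : ∀ l < κ + 1, ¬ EE (fun v : Fin (κ + 1 + 1) → Ω => c.y (v 0)) s l w)
    {C0 : ℝ} (hC0 : ∀ (X Y : Fin (κ + 1) → Fin m → ℝ)
      (t : Fin (κ + 2) → ℝ) (J : Finset (Fin m)) (Γ : Fin (κ + 2) → Fin m → Fin m → ℝ) (ρ δ : ℝ),
      (∀ j i, |X j i| ≤ 1) → (∀ j i, |Y j i| ≤ 1) → (∀ i, |t i| ≤ 1) → J.card = κ →
      (∀ l i j, |Γ l i j| ≤ 3 ^ κ) → 0 ≤ ρ → 0 < δ → (∀ i l, i ≠ l → δ ≤ |t i - t l|) →
      (∀ l j i, i ∉ J →
        |(X j i + t l * Y j i) - ∑ j' ∈ J, Γ l i j' * (X j j' + t l * Y j j')| ≤ ρ) →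
      ∀ I : Fin (κ + 1) → Fin m,
        |(Matrix.of fun a b => Y a (I b)).det| ≤ C0 * ρ / δ ^ (κ + 1)) :
    ((1 / 2 : ℝ) ^ s) ^ (κ + 1) ≤ C0 * (1 / 2) ^ n / δ ^ (κ + 1) := by
  obtain ⟨s1, s2⟩ := cw_supp hQ2 hw
  have s3 : ∀ j l, key c a (w j l) = key c a (w j 0) := fun j l => (cw_supp hQ (s2 j)).1 l
  let X : Fin (κ + 1) → Fin m → ℝ := fun j i => c.x (w j.succ 0) i - c.x (w 0 0) i
  let Y : Fin (κ + 1) → Fin m → ℝ := fun j i => c.y (w j.succ 0) i - c.y (w 0 0) i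
  have hY : (fun j : Fin (κ + 1) =>
      uu (fun v : Fin (κ + 1 + 1) → Ω => c.y (v 0)) w j) = Y := by
    funext j
    unfold uu
    have hj : (j : ℕ) + 1 < κ + 1 + 1 := by have := j.2; omega
    rw [dif_pos hj]
    rfl
  have h1 := chain (uu (fun v : Fin (κ + 1 + 1) → Ω => c.y (v 0)) w) ((1 / 2 : ℝ) ^ s)
    (by positivity) (κ + 1) (fun l hl => not_lt.mp (hE l hl))
  rw [hY] at h1
  refine h1.trans (mx_le Y _ ?_)
  have abs1 : ∀ p q : ℝ, 0 ≤ p ∧ p < 1 → 0 ≤ q ∧ q < 1 → |p - q| ≤ 1 := by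
    intro p q hp hq
    rw [abs_le]; constructor <;> linarith [hp.1, hp.2, hq.1, hq.2]
  refine hC0 X Y (fun l => c.t (w 0 l)) o.J (fun l => o.Γ (w 0 l)) ((1 / 2) ^ n) δ
    (fun j i => abs1 _ _ (hx _ _) (hx _ _)) (fun j i => abs1 _ _ (hy _ _) (hy _ _))
    (fun i => by
      have := ht (w 0 i)
      rw [abs_le]; constructor <;> linarith [this.1, this.2]) o.card
    (fun l i j => o.bd _ _ _) (by positivity) hδ hsep ?_
  intro l j i hi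
  have hWW := s1 j.succ
  unfold WW at hWW
  simp only [Prod.mk.injEq] at hWW
  obtain ⟨w1, w2, w3⟩ := hWW
  have e1 : fl n (o.F c (w j.succ l)) = fl n (o.F c (w 0 l)) := congrFun w1 l
  have e2 := congrFun w2 l
  simp only [Prod.mk.injEq] at e2
  obtain ⟨e2, e3⟩ := e2
  have e4 := o.fn _ _ e3
  have k1 := s3 j.succ l
  have k2 := s3 0 l
  unfold key at k1 k2
  simp only [Prod.mk.injEq] at k1 k2
  obtain ⟨k11, k12, -, -⟩ := k1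
  obtain ⟨k21, k22, -, -⟩ := k2
  have F1 : o.F c (w j.succ l) i = (c.x (w j.succ 0) i + c.t (w 0 l) * c.y (w j.succ 0) i) -
      ∑ j' ∈ o.J, o.Γ (w 0 l) i j' *
        (c.x (w j.succ 0) j' + c.t (w 0 l) * c.y (w j.succ 0) j') := by
    unfold Ob.F Ob.app Cf.pt
    rw [if_neg hi, e4, e2, k11, k12]
  have F2 : o.F c (w 0 l) i = (c.x (w 0 0) i + c.t (w 0 l) * c.y (w 0 0) i) -
      ∑ j' ∈ o.J, o.Γ (w 0 l) i j' * (c.x (w 0 0) j' + c.t (w 0 l) * c.y (w 0 0) j') := by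
    unfold Ob.F Ob.app Cf.pt
    rw [if_neg hi, k21, k22]
  have e5 : |2 ^ n * o.F c (w j.succ l) i - 2 ^ n * o.F c (w 0 l) i| < 1 :=
    Int.abs_sub_lt_one_of_floor_eq_floor (congrFun e1 i)
  have e6 : (X j i + c.t (w 0 l) * Y j i) -
      ∑ j' ∈ o.J, o.Γ (w 0 l) i j' * (X j j' + c.t (w 0 l) * Y j j') =
      o.F c (w j.succ l) i - o.F c (w 0 l) i := by
    rw [F1, F2]
    have : ∑ j' ∈ o.J, o.Γ (w 0 l) i j' * (X j j' + c.t (w 0 l) * Y j j') =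
        ∑ j' ∈ o.J, o.Γ (w 0 l) i j' *
          (c.x (w j.succ 0) j' + c.t (w 0 l) * c.y (w j.succ 0) j') -
        ∑ j' ∈ o.J, o.Γ (w 0 l) i j' * (c.x (w 0 0) j' + c.t (w 0 l) * c.y (w 0 0) j') := by
      rw [← Finset.sum_sub_distrib]
      refine Finset.sum_congr rfl fun j' _ => ?_
      simp only [X, Y]
      ring
    rw [this]
    simp only [X, Y]
    ring
  show |(X j i + c.t (w 0 l) * Y j i) -
      ∑ j' ∈ o.J, o.Γ (w 0 l) i j' * (X j j' + c.t (w 0 l) * Y j j')| ≤ _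
  rw [e6]
  have h2n : (0 : ℝ) < 2 ^ n := by positivity
  rw [← mul_sub, abs_mul, abs_of_pos h2n] at e5
  have e7 : (2 : ℝ) ^ n * (1 / 2) ^ n = 1 := by rw [← mul_pow]; norm_num
  have e8 : (2 : ℝ) ^ n * |o.F c (w j.succ l) i - o.F c (w 0 l) i| ≤ 2 ^ n * (1 / 2) ^ n := by
    rw [e7]; exact e5.le
  exact le_of_mul_le_mul_left e8 h2n

/-- the upper bound on the complement of a coincidence -/
theorem up_aux {P : Law Ω} {c : Cf Ω m} {o : Ob Ω m κ} {n s a N : ℕ} {p0 K up : ℝ}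
    (hp0 : 0 < p0) (hK : 1 / p0 ≤ K)
    (hU : ∀ (Ω' : Type) [Fintype Ω'] (Q : Law Ω') (π : Ω' → Ω), Dom Q π P K →
      hc Q (fun ω => (fl s (c.x (π ω)), fl s (c.y (π ω))))
          (fun ω => (fl n (o.F c (π ω)), c.t (π ω), o.G (π ω), c.A (π ω))) ≤ up)
    {Q : Law (Fin (N + 1) → Ω)} (hQ : ∀ w, Q.w w = cw P (key c a) N w)
    {Q2 : Law (Fin (N + 1) → (Fin (N + 1) → Ω))}
    (hQ2 : ∀ w, Q2.w w = cw Q (WW c o n) N w) (i : Fin (N + 1))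
    (E : (Fin (N + 1) → (Fin (N + 1) → Ω)) → Prop) (hE : p0 ≤ prE Q2 E) :
    hc (on Q2 E) (fun w => fl s (c.y (w i 0))) (fun w => WW c o n (w i)) ≤ up := by
  have d1 : Dom (on Q2 E) id Q2 (1 / p0) := Dom.on hp0 hE
  have d2 : Dom Q2 (fun w => w i) Q 1 := fun v => by rw [cw_marg hQ2 i v, one_mul]
  have d3 : Dom Q (fun v => v 0) P 1 := fun v => by rw [cw_marg hQ 0 v, one_mul]
  have d4 : Dom (on Q2 E) ((fun v : Fin (N + 1) → Ω => v 0) ∘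
      ((fun w : Fin (N + 1) → (Fin (N + 1) → Ω) => w i) ∘ id)) P (1 / p0 * 1 * 1) :=
    Dom.comp (Dom.comp d1 d2) d3
  have d5 : Dom (on Q2 E) (fun w : Fin (N + 1) → (Fin (N + 1) → Ω) => w i 0) P K := by
    refine Dom.mono ?_ (show 1 / p0 * 1 * 1 ≤ K by simpa using hK)
    exact d4
  have h0 := hU _ (on Q2 E) (fun w => w i 0) d5
  refine le_trans ?_ h0
  have h1 : hc (on Q2 E) (fun w => fl s (c.y (w i 0))) (fun w => WW c o n (w i)) ≤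
      hc (on Q2 E) (fun w => (fl s (c.x (w i 0)), fl s (c.y (w i 0))))
        (fun w => WW c o n (w i)) := by
    refine hc_mono_left _ ?_
    intro w w' _ _ h
    exact congrArg (fun p => p.1.2) h
  refine h1.trans ?_
  refine hc_mono_right _ _ ?_
  intro w w' _ _ h
  unfold WW at h
  simp only [Prod.mk.injEq] at h
  obtain ⟨h1, h2, h3⟩ := h
  have h4 := congrFun h1 0
  have h5 := congrFun h2 0
  simp only [Prod.mk.injEq] at h4 h5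
  simp only [Prod.mk.injEq]
  exact ⟨h4, h5.1, h5.2, h3⟩

end Vale.Agent.P127.Stk.EndP
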