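import Vale.Agent.P127.Stk.EndLow
import Vale.Agent.P127.Stk.EndDetB

set_option linter.all false

/-!
# P127 / Stk / END, part C2 : few coincidences
-/

namespace Vale.Agent.P127.Stk.EndP

open Finset Vale.Agent.P127

section step

variable {Ω₁ : Type} [Fintype Ω₁] {S : Type*} {m : ℕ}

theorem step_aux {Q : Law Ω₁} {W : Ω₁ → S} {yv : Ω₁ → Fin m → ℝ}
    (hy : ∀ ω i, 0 ≤ yv ω i ∧ yv ω i < 1) {N : ℕ} {Q2 : Law (Fin (N + 1) → Ω₁)}
    (hQ2 : ∀ w, Q2.w w = cw Q W N w) {s : ℕ} {lo : ℝ} (hlo : lo ≤ hc Q (fun ω => fl s (yv ω)) W)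
    (i : Fin (N + 1)) (E : (Fin (N + 1) → Ω₁) → Prop) (Nc : ℕ)
    (hE : ∀ w : Fin (N + 1) → Ω₁, ∃ F : Finset (Fin m → ℤ), F.card ≤ Nc ∧
      ∀ w' : Fin (N + 1) → Ω₁, (∀ j, j ≠ i → w' j = w j) → E w' → fl s (yv (w' i)) ∈ F)
    (up p0 : ℝ) (hup : p0 ≤ prE Q2 (fun w => ¬ E w) →
      hc (on Q2 fun w => ¬ E w) (fun w => fl s (yv (w i))) (fun w => W (w i)) ≤ up) :
    (lo ≤ Real.log 2 + prE Q2 E * Real.log Nc + (1 - prE Q2 E) * up) ∨
      (1 - prE Q2 E < p0 ∧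
        lo ≤ Real.log 2 + prE Q2 E * Real.log Nc + (1 - prE Q2 E) * (m * s * Real.log 2)) := by
  let Y : (Fin (N + 1) → Ω₁) → ({j : Fin (N + 1) // j ≠ i} → Ω₁) := fun w j => w j
  have h0 := cw_indep hQ2 i (fun ω => fl s (yv ω)) Y (fun w w' h => by
    funext j
    exact h j.1 j.2)
  rw [← h0] at hlo
  have h1 : 0 < prE Q2 E →
      hc (on Q2 E) (fun w => fl s (yv (w i))) (fun w => (Y w, W (w i))) ≤ Real.log Nc := by
    intro hp
    refine hc_le_log (on Q2 E) _ _ Nc ?_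
    intro w hw
    obtain ⟨F, hF, hF'⟩ := hE w
    refine ⟨F, hF, ?_⟩
    intro w' hw' heq
    refine hF' w' ?_ (on_pos hp hw').1
    intro j hj
    exact congrFun (congrArg Prod.fst heq) ⟨j, hj⟩
  by_cases hp : p0 ≤ prE Q2 (fun w => ¬ E w)
  · left
    refine hlo.trans (hc_le_on' Q2 E _ _ _ _ h1 fun _ => ?_)
    refine le_trans ?_ (hup hp)
    refine hc_mono_right _ _ ?_
    intro w w' _ _ h
    exact congrArg Prod.snd h
  · right
    refine ⟨by linarith [prE_compl Q2 E], ?_⟩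
    refine hlo.trans (hc_le_on' Q2 E _ _ _ _ h1 fun _ => ?_)
    have := hc_fl_le (on Q2 fun w => ¬ E w) s (fun w => yv (w i)) (fun w => (Y w, W (w i)))
      (fun w _ j => hy _ _)
    rwa [Fintype.card_fin] at this

/-- the differences of the directions -/
noncomputable def uu (yv : Ω₁ → Fin m → ℝ) {N : ℕ} (w : Fin (N + 1) → Ω₁) (j : ℕ) : Fin m → ℝ :=
  if h : j + 1 < N + 1 then fun i => yv (w ⟨j + 1, h⟩) i - yv (w 0) i else 0

/-- the `l`-th coincidence -/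
def EE (yv : Ω₁ → Fin m → ℝ) (s : ℕ) {N : ℕ} (l : ℕ) (w : Fin (N + 1) → Ω₁) : Prop :=
  mx (fun a : Fin (l + 1) => uu yv w a) < (1 / 2 : ℝ) ^ s * mx (fun a : Fin l => uu yv w a)

theorem EE_count [NeZero m] {yv : Ω₁ → Fin m → ℝ}
    (hy : ∀ ω i, 0 ≤ yv ω i ∧ yv ω i < 1) {N : ℕ} (s l : ℕ) (hl : l + 1 < N + 1)
    (w : Fin (N + 1) → Ω₁) :
    ∃ F : Finset (Fin m → ℤ), F.card ≤ (2 ^ s) ^ l * (l + 3) ^ m ∧
      ∀ w' : Fin (N + 1) → Ω₁, (∀ j, j ≠ ⟨l + 1, hl⟩ → w' j = w j) → EE yv s l w' →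
        fl s (yv (w' ⟨l + 1, hl⟩)) ∈ F := by
  obtain ⟨F, hF, hF'⟩ := code (fun a : Fin l => uu yv w a) (yv (w 0)) s
  refine ⟨F, hF, ?_⟩
  intro w' hw' hE
  refine hF' (yv (w' ⟨l + 1, hl⟩)) (hy _) ?_
  have h0 : w' 0 = w 0 := hw' 0 (by
    intro h
    have := congrArg Fin.val h
    simp at this)
  have h1 : (fun a : Fin l => uu yv w a) = fun a : Fin l => uu yv w' a := by
    funext a
    unfold uu
    have ha : (a : ℕ) + 1 < N + 1 := by have := a.2; omega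
    rw [dif_pos ha, dif_pos ha, h0, hw' ⟨a + 1, ha⟩ (by
      intro h
      have := congrArg Fin.val h
      simp at this
      have := a.2
      omega)]
  have h2 : (fun i => yv (w' ⟨l + 1, hl⟩) i - yv (w 0) i) = uu yv w' l := by
    unfold uu
    rw [dif_pos hl, h0]
  rw [h1, h2, snoc_seq]
  exact hE

/-- coincidences are rare -/
theorem ev_small [NeZero m] {Q : Law Ω₁} {W : Ω₁ → S} {yv : Ω₁ → Fin m → ℝ}
    (hy : ∀ ω i, 0 ≤ yv ω i ∧ yv ω i < 1) {N : ℕ} {Q2 : Law (Fin (N + 1) → Ω₁)}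
    (hQ2 : ∀ w, Q2.w w = cw Q W N w) {s κ : ℕ} {σ g1 g2 q p0 : ℝ}
    (hlo : (κ + σ) * s * Real.log 2 - g1 ≤ hc Q (fun ω => fl s (yv ω)) W)
    (l : ℕ) (hl : l + 1 < N + 1) (hlk : l ≤ κ)
    (hup : p0 ≤ prE Q2 (fun w => ¬ EE yv s l w) →
      hc (on Q2 fun w => ¬ EE yv s l w) (fun w => fl s (yv (w ⟨l + 1, hl⟩)))
        (fun w => W (w ⟨l + 1, hl⟩)) ≤ (κ + σ) * s * Real.log 2 + g2)
    (hσ : 0 < σ * s * Real.log 2) (hg2 : 0 ≤ g2) (hq : q < 1 / 2) (hp0 : p0 * m ≤ σ / 2)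
    (hG : g1 + g2 + Real.log 2 + m * Real.log (κ + 3) ≤ q * (σ * s * Real.log 2)) :
    prE Q2 (EE yv s l) ≤ q := by
  have hb : 0 < Real.log 2 := Real.log_pos (by norm_num)
  have hlog : Real.log (((2 ^ s) ^ l * (l + 3) ^ m : ℕ) : ℝ) ≤
      κ * (s * Real.log 2) + m * Real.log (κ + 3) := by
    push_cast
    rw [Real.log_mul (by positivity) (by positivity), Real.log_pow, Real.log_pow, Real.log_pow]
    have h1 : (l : ℝ) * (s * Real.log 2) ≤ κ * (s * Real.log 2) :=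
      mul_le_mul_of_nonneg_right (by exact_mod_cast hlk) (by positivity)
    have h2 : Real.log ((l : ℝ) + 3) ≤ Real.log (κ + 3) :=
      Real.log_le_log (by positivity) (by
        have : (l : ℝ) ≤ κ := by exact_mod_cast hlk
        linarith)
    have h3 : (m : ℝ) * Real.log ((l : ℝ) + 3) ≤ m * Real.log (κ + 3) :=
      mul_le_mul_of_nonneg_left h2 (by positivity)
    linarith
  have hlog3 : 0 ≤ (m : ℝ) * Real.log (κ + 3) :=
    mul_nonneg (by positivity) (Real.log_nonneg (by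
      have : (0 : ℝ) ≤ κ := by positivity
      linarith))
  set p : ℝ := prE Q2 (EE yv s l) with hp
  have hp0' : 0 ≤ p := prE_nonneg _ _
  have hp1 : p ≤ 1 := prE_le_one _ _
  have hks : 0 ≤ (κ : ℝ) * (s * Real.log 2) := by positivity
  have h1 : p * Real.log (((2 ^ s) ^ l * (l + 3) ^ m : ℕ) : ℝ) ≤
      p * (κ * (s * Real.log 2)) + m * Real.log (κ + 3) := by
    have := mul_le_mul_of_nonneg_left hlog hp0'
    have h2 : p * (m * Real.log (κ + 3)) ≤ m * Real.log (κ + 3) :=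
      mul_le_of_le_one_left hlog3 hp1
    linarith
  rcases step_aux hy hQ2 hlo ⟨l + 1, hl⟩ (EE yv s l) _ (EE_count hy s l hl) _ p0 hup with h | ⟨h', h⟩
  · rw [← hp] at h
    have h2 : (1 - p) * g2 ≤ g2 := mul_le_of_le_one_left hg2 (by linarith)
    have h3 : p * (σ * s * Real.log 2) ≤ q * (σ * s * Real.log 2) := by
      have e : (1 - p) * ((κ + σ) * s * Real.log 2 + g2) =
          (κ + σ) * s * Real.log 2 - p * (κ * (s * Real.log 2)) - p * (σ * s * Real.log 2) +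
            (1 - p) * g2 := by ring
      rw [e] at h
      linarith
    exact le_of_mul_le_mul_right h3 hσ
  · exfalso
    rw [← hp] at h h'
    have h2 : p * (κ * (s * Real.log 2)) ≤ κ * (s * Real.log 2) :=
      mul_le_of_le_one_left hks hp1
    have h3 : (1 - p) * (m * s * Real.log 2) ≤ p0 * m * (s * Real.log 2) := by
      have : (1 - p) * ((m : ℝ) * s * Real.log 2) ≤ p0 * (m * s * Real.log 2) :=
        mul_le_mul_of_nonneg_right h'.le (by positivity)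
      linarith
    have h4 : p0 * m * (s * Real.log 2) ≤ σ / 2 * (s * Real.log 2) :=
      mul_le_mul_of_nonneg_right hp0 (by positivity)
    have h5 : q * (σ * s * Real.log 2) < 1 / 2 * (σ * s * Real.log 2) :=
      mul_lt_mul_of_pos_right hq hσ
    nlinarith

end step

section sep

variable {Ω : Type} [Fintype Ω] {m κ : ℕ}

/-- the times are separated -/
theorem sep {P : Law Ω} {c : Cf Ω m} {L a d N : ℕ} {εu : ℝ}
    (hunif : ((L : ℝ) - a) * Real.log 2 - εu ≤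
      hc P (fun ω => fl1 L (c.t ω)) (fun ω => (fl1 a (c.t ω), c.x ω, c.y ω, c.A ω)))
    (hd : a + d ≤ L)
    {Q : Law (Fin (N + 1) → Ω)} (hQ : ∀ w, Q.w w = cw P (key c a) N w)
    {i j : Fin (N + 1)} (hij : i ≠ j) :
    prE Q (fun w => |c.t (w i) - c.t (w j)| < (1 / 2 : ℝ) ^ (a + d)) *
      (((d : ℝ) - 2) * Real.log 2) ≤ Real.log 2 + εu := by
  have hb : 0 < Real.log 2 := Real.log_pos (by norm_num)
  have h0 := cw_indep hQ i (fun ω => fl1 L (c.t ω)) (fun w => fl1 L (c.t (w j)))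
    (fun w w' h => by
      show fl1 L (c.t (w j)) = fl1 L (c.t (w' j))
      rw [h j hij.symm])
  have h1 : hc P (fun ω => fl1 L (c.t ω)) (fun ω => (fl1 a (c.t ω), c.x ω, c.y ω, c.A ω)) =
      hc P (fun ω => fl1 L (c.t ω)) (key c a) := by
    refine hc_congr P ?_ ?_ ?_ ?_
    · intro ω ω' _ _ h
      exact congrArg Prod.fst h
    · intro ω ω' _ _ h
      exact congrArg Prod.fst h
    · intro ω ω' _ _ h
      unfold key at h
      simp only [Prod.mk.injEq] at h ⊢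
      tauto
    · intro ω ω' _ _ h
      unfold key
      simp only [Prod.mk.injEq] at h ⊢
      tauto
  rw [h1, ← h0] at hunif
  set E : (Fin (N + 1) → Ω) → Prop := fun w => |c.t (w i) - c.t (w j)| < (1 / 2 : ℝ) ^ (a + d)
    with hEdef
  set M : ℕ := 2 ^ (L - (a + d)) with hM
  have hMr : (2 : ℝ) ^ L * (1 / 2) ^ (a + d) = M := by
    rw [hM]; push_cast
    have : (2 : ℝ) ^ L = 2 ^ (L - (a + d)) * 2 ^ (a + d) := by
      rw [← pow_add]; congr 1; omega
    rw [this, mul_assoc, ← mul_pow]; norm_num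
  have a1 : 0 < prE Q E → hc (on Q E) (fun w => fl1 L (c.t (w i)))
      (fun w => (fl1 L (c.t (w j)), key c a (w i))) ≤ Real.log ((2 * M + 1 : ℕ) : ℝ) := by
    intro hp
    refine hc_le_log (on Q E) _ _ (2 * M + 1) ?_
    intro w hw
    refine ⟨Finset.Icc (fl1 L (c.t (w j)) - M) (fl1 L (c.t (w j)) + M), ?_, ?_⟩
    · rw [Int.card_Icc]
      omega
    · intro w' hw' heq
      have e1 : fl1 L (c.t (w' j)) = fl1 L (c.t (w j)) := congrArg Prod.fst heq
      have e2 : |c.t (w' i) - c.t (w' j)| < (1 / 2 : ℝ) ^ (a + d) := (on_pos hp hw').1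
      rw [Finset.mem_Icc, ← e1]
      have h2L : (0 : ℝ) < 2 ^ L := by positivity
      have e3 : |2 ^ L * c.t (w' i) - 2 ^ L * c.t (w' j)| < M := by
        rw [← mul_sub, abs_mul, abs_of_pos h2L, ← hMr]
        exact mul_lt_mul_of_pos_left e2 h2L
      rw [abs_lt] at e3
      unfold fl1
      have f1 := Int.floor_le (2 ^ L * c.t (w' i))
      have f2 := Int.lt_floor_add_one (2 ^ L * c.t (w' i))
      have f3 := Int.floor_le (2 ^ L * c.t (w' j))
      have f4 := Int.lt_floor_add_one (2 ^ L * c.t (w' j))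
      constructor
      · have : ((⌊2 ^ L * c.t (w' j)⌋ - M : ℤ) : ℝ) < ((⌊2 ^ L * c.t (w' i)⌋ + 1 : ℤ) : ℝ) := by
          push_cast; linarith [e3.1]
        have := (Int.cast_lt (R := ℝ)).mp this
        omega
      · have : ((⌊2 ^ L * c.t (w' i)⌋ : ℤ) : ℝ) < ((⌊2 ^ L * c.t (w' j)⌋ + M + 1 : ℤ) : ℝ) := by
          push_cast; linarith [e3.2]
        have := (Int.cast_lt (R := ℝ)).mp this
        omega
  have a2 : prE Q E < 1 → hc (on Q fun w => ¬ E w) (fun w => fl1 L (c.t (w i)))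
      (fun w => (fl1 L (c.t (w j)), key c a (w i))) ≤ ((L - a : ℕ) : ℝ) * Real.log 2 := by
    intro _
    have := hc_fl1_digits_le (on Q fun w => ¬ E w) (s := a) (s' := L) (by omega)
      (fun w => c.t (w i)) (fun _ => ())
    refine le_trans (hc_mono_right _ _ ?_) this
    intro w w' _ _ h
    unfold key at h
    simp only [Prod.mk.injEq] at h ⊢
    tauto
  have h3 := hc_le_on' Q E _ _ _ _ a1 a2
  have hp0 := prE_nonneg Q E
  have hM2 : Real.log ((2 * M + 1 : ℕ) : ℝ) ≤ ((L : ℝ) - a - d + 2) * Real.log 2 := by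
    have e1 : ((2 * M + 1 : ℕ) : ℝ) ≤ (2 : ℝ) ^ (L - (a + d) + 2) := by
      rw [hM]; push_cast
      have : (1 : ℝ) ≤ 2 ^ (L - (a + d)) := one_le_pow₀ (by norm_num)
      rw [pow_add]; norm_num; linarith
    calc Real.log ((2 * M + 1 : ℕ) : ℝ) ≤ Real.log ((2 : ℝ) ^ (L - (a + d) + 2)) :=
          Real.log_le_log (by positivity) e1
      _ = ((L : ℝ) - a - d + 2) * Real.log 2 := by
          rw [Real.log_pow]; push_cast [Nat.cast_sub hd]; ring
  have hLa : ((L - a : ℕ) : ℝ) = (L : ℝ) - a := by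
    rw [Nat.cast_sub (by omega)]
  rw [hLa] at h3
  have h4 := mul_le_mul_of_nonneg_left hM2 hp0
  nlinarith

end sep

end Vale.Agent.P127.Stk.EndP
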