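import Vale.Agent.P127.Stk.InstP

/-!
# P127 / Stk : from the entropic theorem `LB GrP m m` to finite families of lines
-/

namespace Vale.Agent.P127.Stk.Ext

open Finset Vale.Agent.P127

section entropy

variable {Ω : Type} [Fintype Ω]

lemma H_pair_le (P : Law Ω) {S T : Type*} (X : Ω → S) (Y : Ω → T) :
    P.H (fun ω => (X ω, Y ω)) ≤ P.H X + P.H Y := by
  have h := P.submod X Y (fun _ => ())
  have h1 : P.H (fun ω => (X ω, Y ω, ())) = P.H (fun ω => (X ω, Y ω)) :=
    P.H_congr fun ω ω' => by simp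
  have h2 : P.H (fun ω => (X ω, ())) = P.H X := P.H_congr fun ω ω' => by simp
  have h3 : P.H (fun ω => (Y ω, ())) = P.H Y := P.H_congr fun ω ω' => by simp
  have h4 := P.H_nonneg (fun _ => ())
  linarith

lemma H_le_card (P : Law Ω) {β : Type} (X : Ω → β) (S : Finset β) (h : ∀ ω, X ω ∈ S) :
    P.H X ≤ Real.log S.card := by
  have h1 := P.H_le_log_card (F := {b // b ∈ S}) (fun ω => ⟨X ω, h ω⟩)
  rw [Fintype.card_coe] at h1
  refine le_trans (le_of_eq ?_) h1
  exact P.H_congr fun ω ω' => by simp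

/-- the uniform law -/
noncomputable def unif (Ω : Type) [Fintype Ω] [Nonempty Ω] : Law Ω where
  w := fun _ => 1 / (Fintype.card Ω : ℝ)
  nn := fun _ => by positivity
  sum_one := by
    rw [Finset.sum_const, Finset.card_univ, nsmul_eq_mul, mul_one_div, div_self]
    exact_mod_cast Fintype.card_ne_zero

lemma unif_H [Nonempty Ω] {β : Type*} (X : Ω → β) (hX : Function.Injective X) :
    (unif Ω).H X = Real.log (Fintype.card Ω) := by
  classical
  have h1 : ∀ ω, (unif Ω).pr X (X ω) = 1 / (Fintype.card Ω : ℝ) := by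
    intro ω
    unfold Law.pr
    have : (univ.filter fun ω' => X ω' = X ω) = {ω} := by
      ext ω'
      simp [hX.eq_iff]
    simp only [this, Finset.sum_singleton]
    rfl
  unfold Law.H
  simp only [h1]
  rw [Law.ex_const, one_div, Real.log_inv, neg_neg]

/-- knowing `L` digits of a vector instead of `s` digits costs at most `m (L - s)` bits -/
lemma H_fl_le (P : Law Ω) {m : ℕ} {s L : ℕ} (hs : s ≤ L) (v : Ω → Fin m → ℝ) :
    P.H (fun ω => fl L (v ω)) ≤
      P.H (fun ω => fl s (v ω)) + (m : ℝ) * (L - s) * Real.log 2 := by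
  obtain ⟨d, rfl⟩ := Nat.exists_eq_add_of_le hs
  set R : Ω → Fin m → ℤ := fun ω i => fl (s + d) (v ω) i - 2 ^ d * fl s (v ω) i with hR
  have h1 : P.H (fun ω => fl (s + d) (v ω)) ≤ P.H (fun ω => (fl s (v ω), R ω)) := by
    refine P.H_mono fun ω ω' h => ?_
    simp only [Prod.mk.injEq] at h
    obtain ⟨h1, h2⟩ := h
    funext i
    have h3 := congrFun h2 i
    have h4 := congrFun h1 i
    simp only [hR] at h3
    rw [h4] at h3
    linarith
  have h2 : P.H R ≤ Real.log
      ((Fintype.piFinset (fun _ : Fin m => Finset.Ico (0 : ℤ) (2 ^ d))).card : ℝ) := by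
    refine H_le_card P R _ fun ω => ?_
    rw [Fintype.mem_piFinset]
    intro i
    rw [Finset.mem_Ico]
    have e : (2 : ℝ) ^ (s + d) * v ω i = 2 ^ d * (2 ^ s * v ω i) := by rw [pow_add]; ring
    have h3 := Int.floor_le ((2 : ℝ) ^ (s + d) * v ω i)
    have h4 := Int.lt_floor_add_one ((2 : ℝ) ^ (s + d) * v ω i)
    have h5 := Int.floor_le ((2 : ℝ) ^ s * v ω i)
    have h6 := Int.lt_floor_add_one ((2 : ℝ) ^ s * v ω i)
    have hd : (0 : ℝ) < 2 ^ d := by positivity
    simp only [hR, fl]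
    constructor
    · have h7 : (2 ^ d * ⌊(2 : ℝ) ^ s * v ω i⌋ : ℤ) ≤ ⌊(2 : ℝ) ^ (s + d) * v ω i⌋ := by
        rw [Int.le_floor]
        push_cast
        rw [e]
        exact mul_le_mul_of_nonneg_left h5 hd.le
      linarith
    · have h7 : ((⌊(2 : ℝ) ^ (s + d) * v ω i⌋ : ℤ) : ℝ) <
          ((2 ^ d * ⌊(2 : ℝ) ^ s * v ω i⌋ + 2 ^ d : ℤ) : ℝ) := by
        push_cast
        have h9 := mul_lt_mul_of_pos_left h6 hd
        have h10 : (2 : ℝ) ^ (s + d) * v ω i < 2 ^ d * ⌊(2 : ℝ) ^ s * v ω i⌋ + 2 ^ d := by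
          rw [e]
          linarith
        exact h3.trans_lt h10
      have h8 : ⌊(2 : ℝ) ^ (s + d) * v ω i⌋ < 2 ^ d * ⌊(2 : ℝ) ^ s * v ω i⌋ + 2 ^ d := by
        exact_mod_cast h7
      linarith
  rw [Fintype.card_piFinset] at h2
  simp only [Int.card_Ico, sub_zero, Finset.prod_const, Finset.card_univ, Fintype.card_fin] at h2
  have h3 : ((2 ^ d : ℤ).toNat : ℝ) = (2 : ℝ) ^ d := by
    have : ((2 ^ d : ℤ).toNat) = 2 ^ d := by
      have : (2 ^ d : ℤ) = ((2 ^ d : ℕ) : ℤ) := by push_cast; rfl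
      rw [this, Int.toNat_natCast]
    rw [this]
    push_cast
    rfl
  rw [Nat.cast_pow, h3, Real.log_pow, Real.log_pow] at h2
  have h4 := H_pair_le P (fun ω => fl s (v ω)) R
  have h5 : (m : ℝ) * (((s + d : ℕ) : ℝ) - s) * Real.log 2 = m * (d * Real.log 2) := by
    push_cast
    ring
  rw [h5]
  linarith

end entropy

/-- the first digits of a time, as a vector with one coordinate -/
lemma fl1_eq {Ω : Type} [Fintype Ω] (P : Law Ω) (s : ℕ) (t : Ω → ℝ) :
    P.H (fun ω => fl1 s (t ω)) = P.H (fun ω => fl s (fun _ : Fin 1 => t ω)) :=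
  P.H_congr fun ω ω' => by
    constructor
    · intro h
      funext _
      exact h
    · intro h
      exact congrFun h 0

lemma H_fl1_le {Ω : Type} [Fintype Ω] (P : Law Ω) {s L : ℕ} (hs : s ≤ L) (t : Ω → ℝ) :
    P.H (fun ω => fl1 L (t ω)) ≤ P.H (fun ω => fl1 s (t ω)) + ((L : ℝ) - s) * Real.log 2 := by
  rw [fl1_eq, fl1_eq]
  have := H_fl_le P hs (fun ω => fun _ : Fin 1 => t ω)
  simpa using this

lemma hc_unit {Ω : Type} [Fintype Ω] (P : Law Ω) {S : Type*} (X : Ω → S) :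
    hc P X (fun _ => ()) = P.H X := by
  unfold hc
  have h1 : P.H (fun _ : Ω => ()) = 0 := by
    refine le_antisymm ?_ (P.H_nonneg _)
    have := P.H_le_log_card (fun _ : Ω => ())
    simpa using this
  have h2 : P.H (fun ω => (X ω, ())) = P.H X := P.H_congr fun ω ω' => by simp
  rw [h1, h2, sub_zero]

/-- the lower bound for the entropy rate with bounded time deficits and errors `o(L)` -/
def LBc (m : ℕ) (h : ℝ) : Prop :=
  ∀ ι : ℝ, 0 < ι → ∀ C : ℝ, ∃ e0 : ℝ, 0 < e0 ∧ ∃ L0 : ℕ, ∀ L : ℕ, L0 ≤ L →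
    ∀ (Ω : Type) [Fintype Ω] (P : Law Ω) (c : Cf Ω m), Good P c L (e0 * L) C →
      (h - ι) * L * Real.log 2 ≤ hc P (fun ω => fl L (c.pt ω)) (fun ω => (c.t ω, c.A ω))

theorem LBc_of_LB {m : ℕ} {h : ℝ} (hLB : LB GrP m h) : LBc m h := by
  intro ι hι C
  obtain ⟨n, hn⟩ := hLB ι hι ()
  obtain ⟨L0, hL0⟩ := exists_nat_ge (Real.exp (n * max C 1))
  refine ⟨Real.exp (-(n * max C 1)), Real.exp_pos _, L0, fun L hL Ω _ P c hg => ?_⟩
  exact hn L _ _ ⟨max C 1, le_max_right _ _, le_max_left _ _, le_rfl,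
    hL0.trans (by exact_mod_cast hL)⟩ Ω P c hg

/-- The finite counting theorem: a family of lines `z ↦ x z + t y z` with one line for each cube
`z` of slopes, shadings `E z` of density at least `lam`, all in all few lines at each scale
`2^{-s}`; then the cells met by the family are almost as many as all cells. -/
theorem count_of_LB {m : ℕ} (hLB : LBc m m) {ι : ℝ} (hι : 0 < ι) {lam : ℝ} (hlam : 0 < lam)
    (hlam1 : lam ≤ 1) :
    ∃ η : ℝ, 0 < η ∧ ∀ Cl w : ℝ, 0 < Cl → 0 < w → ∃ L0 : ℕ, ∀ L : ℕ, L0 ≤ L →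
      ∀ (Z : Finset (Fin m → ℤ)) (x y : (Fin m → ℤ) → Fin m → ℝ),
        w * ((2 : ℝ) ^ L) ^ m ≤ Z.card →
        (∀ z ∈ Z, ∀ i, 0 ≤ x z i ∧ x z i < 1) → (∀ z ∈ Z, ∀ i, 0 ≤ y z i ∧ y z i < 1) →
        (∀ z ∈ Z, fl L (y z) = z) →
        (∀ s ≤ L, ((Z.image (fun z => (fl s (x z), fl s (y z)))).card : ℝ) ≤
          Cl * (2 : ℝ) ^ ((m + η) * s)) →
        ∀ E : (Fin m → ℤ) → Finset ℕ, (∀ z ∈ Z, E z ⊆ range (2 ^ L)) →
          (∀ z ∈ Z, lam * (2 : ℝ) ^ L ≤ (E z).card) →
          ∀ S : Finset (ℤ × (Fin m → ℤ)),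
            (∀ z ∈ Z, ∀ k ∈ E z,
              (((k : ℕ) : ℤ), fl L (fun i => x z i + (k : ℝ) / 2 ^ L * y z i)) ∈ S) →
            (m + 1 - ι) * L * Real.log 2 + Real.log lam ≤ Real.log S.card := by
  classical
  have hl2 : 0 < Real.log 2 := Real.log_pos (by norm_num)
  have hloglam : Real.log lam ≤ 0 := Real.log_nonpos hlam.le hlam1
  obtain ⟨e0, he0, L0, hL0⟩ := hLB ι hι (-Real.log lam)
  refine ⟨e0 / (2 * Real.log 2), by positivity, fun Cl w hCl hw => ?_⟩
  obtain ⟨L1, hL1⟩ := exists_nat_ge ((|Real.log Cl| + |Real.log w|) / (e0 / 2))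
  refine ⟨L0 + L1, fun L hL Z x y hZ hx hy hyz hlin E hE hEc S hS => ?_⟩
  have hLe : |Real.log Cl| + |Real.log w| ≤ e0 / 2 * L := by
    have h1 : (|Real.log Cl| + |Real.log w|) / (e0 / 2) ≤ L :=
      hL1.trans (by exact_mod_cast (by omega : L1 ≤ L))
    rw [div_le_iff₀ (by positivity)] at h1
    linarith
  have h2L : (0 : ℝ) < 2 ^ L := by positivity
  have hZpos : 0 < Z.card := by
    have h1 : (0 : ℝ) < Z.card := lt_of_lt_of_le (by positivity) hZ
    exact_mod_cast h1
  -- number of times on each line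
  obtain ⟨k, hk⟩ : ∃ k : ℕ, k = ⌈lam * (2 : ℝ) ^ L⌉₊ := ⟨_, rfl⟩
  have hk1 : lam * (2 : ℝ) ^ L ≤ k := by rw [hk]; exact Nat.le_ceil _
  have hkpos : 0 < k := by
    have h1 : (0 : ℝ) < k := lt_of_lt_of_le (by positivity) hk1
    exact_mod_cast h1
  have hEk : ∀ z : {z // z ∈ Z}, k ≤ (E z.1).card := by
    intro z
    rw [hk]
    exact Nat.ceil_le.2 (hEc z.1 z.2)
  choose E' hE'1 hE'2 using fun z : {z // z ∈ Z} => Finset.exists_subset_card_eq (hEk z)
  have : Nonempty (Fin k) := ⟨⟨0, hkpos⟩⟩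
  have : Nonempty {z // z ∈ Z} := by
    obtain ⟨z, hz⟩ := Finset.card_pos.1 hZpos
    exact ⟨⟨z, hz⟩⟩
  let Ω := {z // z ∈ Z} × Fin k
  have : Nonempty Ω := inferInstanceAs (Nonempty ({z // z ∈ Z} × Fin k))
  let _ : Fintype Ω := inferInstanceAs (Fintype ({z // z ∈ Z} × Fin k))
  let P : Law Ω := unif Ω
  let κ : Ω → ℕ := fun ω => (E' ω.1).orderEmbOfFin (hE'2 ω.1) ω.2
  have hκE : ∀ ω, κ ω ∈ E' ω.1 := fun ω => Finset.orderEmbOfFin_mem _ _ _
  have hκlt : ∀ ω, κ ω < 2 ^ L := fun ω => Finset.mem_range.1 (hE _ ω.1.2 (hE'1 _ (hκE ω)))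
  have hκinj : ∀ ω ω' : Ω, ω.1 = ω'.1 → κ ω = κ ω' → ω = ω' := by
    rintro ⟨z, i⟩ ⟨z', i'⟩ h1 h2
    simp only at h1
    subst h1
    have h3 : i = i' := ((E' z).orderEmbOfFin (hE'2 z)).injective h2
    rw [h3]
  let c : Cf Ω m :=
    { α := Unit
      A := fun _ => ()
      x := fun ω => x ω.1.1
      y := fun ω => y ω.1.1
      t := fun ω => (κ ω : ℝ) / 2 ^ L }
  have hflt : ∀ ω, fl1 L (c.t ω) = κ ω := by
    intro ω
    simp only [fl1, c]
    rw [mul_div_cancel₀ _ h2L.ne']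
    simp
  have hcardΩ : (Fintype.card Ω : ℝ) = Z.card * k := by
    have h1 : Fintype.card Ω = Fintype.card ({z // z ∈ Z} × Fin k) := rfl
    rw [h1, Fintype.card_prod, Fintype.card_coe, Fintype.card_fin]
    push_cast
    rfl
  have hk0 : (0 : ℝ) < k := by exact_mod_cast hkpos
  have hZ0 : (0 : ℝ) < Z.card := by exact_mod_cast hZpos
  have hlogΩ : Real.log (Fintype.card Ω) = Real.log Z.card + Real.log k := by
    rw [hcardΩ, Real.log_mul hZ0.ne' hk0.ne']
  have hlogk : L * Real.log 2 + Real.log lam ≤ Real.log k := by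
    have h1 := Real.log_le_log (by positivity) hk1
    rw [Real.log_mul hlam.ne' h2L.ne', Real.log_pow] at h1
    linarith
  -- entropies of the line
  have hH1 : P.H (fun ω => ω.1) ≤ Real.log Z.card := by
    have := P.H_le_log_card (fun ω : Ω => ω.1)
    rwa [Fintype.card_coe] at this
  have hH2 : Real.log Z.card ≤ P.H (fun ω : Ω => ω.1) := by
    have h1 := H_pair_le P (fun ω : Ω => ω.1) (fun ω : Ω => ω.2)
    have h2 : P.H (fun ω : Ω => (ω.1, ω.2)) = Real.log (Fintype.card Ω) :=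
      unif_H _ (fun ω ω' h => h)
    have h3 := P.H_le_log_card (fun ω : Ω => ω.2)
    rw [Fintype.card_fin] at h3
    linarith
  have hlineinj : ∀ ω ω' : Ω, fl L (y ω.1.1) = fl L (y ω'.1.1) → ω.1 = ω'.1 := by
    intro ω ω' h
    rw [hyz _ ω.1.2, hyz _ ω'.1.2] at h
    exact Subtype.ext h
  have hinj : ∀ ω ω' : Ω, ω.1 = ω'.1 → c.t ω = c.t ω' → ω = ω' := by
    intro ω ω' h1 h2
    refine hκinj ω ω' h1 ?_
    have h3 := hflt ω
    rw [h2, hflt ω'] at h3
    exact_mod_cast h3.symm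
  have hHt : P.H c.t ≤ L * Real.log 2 := by
    have h1 : P.H c.t ≤ P.H κ := P.H_mono fun ω ω' h => by
      simp only [c]
      rw [h]
    have h2 := H_le_card P κ (Finset.range (2 ^ L)) (fun ω => Finset.mem_range.2 (hκlt ω))
    rw [Finset.card_range] at h2
    push_cast at h2
    rw [Real.log_pow] at h2
    exact h1.trans h2
  have hHt' : Real.log k ≤ P.H c.t := by
    have h1 := H_pair_le P (fun ω : Ω => ω.1) c.t
    have h2 : P.H (fun ω : Ω => (ω.1, c.t ω)) = Real.log (Fintype.card Ω) :=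
      unif_H _ (fun ω ω' h => by
        simp only [Prod.mk.injEq] at h
        exact hinj ω ω' h.1 h.2)
    linarith
  have hgood : Good P c L (e0 * L) (-Real.log lam) := by
    refine ⟨fun ω i => hx _ ω.1.2 i, fun ω i => hy _ ω.1.2 i, fun ω => ⟨?_, ?_⟩, ?_, ?_, ?_, ?_⟩
    · simp only [c]; positivity
    · simp only [c]
      rw [div_lt_one h2L]
      exact_mod_cast hκlt ω
    · -- mutual information
      unfold mi
      have e1 : hc P (fun ω => (c.x ω, c.y ω)) c.A = P.H (fun ω => (c.x ω, c.y ω)) :=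
        hc_unit P _
      have e2 : hc P (fun ω => (c.x ω, c.y ω)) (fun ω => (c.t ω, c.A ω)) =
          Real.log (Fintype.card Ω) - P.H c.t := by
        unfold hc
        congr 1
        · refine unif_H _ fun ω ω' h => ?_
          simp only [Prod.mk.injEq] at h
          refine hinj ω ω' (hlineinj ω ω' ?_) h.2.1
          have h3 : c.y ω = c.y ω' := h.1.2
          exact congrArg (fl L) h3
        · exact P.H_congr fun ω ω' => by simp [c]
      have e3 : P.H (fun ω => (c.x ω, c.y ω)) ≤ P.H (fun ω : Ω => ω.1) :=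
        P.H_mono fun ω ω' h => by simp only [c]; rw [h]
      rw [e1, e2]
      linarith
    · -- directions
      intro s hs
      have e1 : hc P (fun ω => fl s (c.y ω)) c.A = P.H (fun ω => fl s (c.y ω)) := hc_unit P _
      have e2 := H_fl_le P hs c.y
      have e3 : P.H (fun ω : Ω => ω.1) ≤ P.H (fun ω => fl L (c.y ω)) :=
        P.H_mono fun ω ω' h => hlineinj ω ω' h
      have e4 : Real.log w + m * (L * Real.log 2) ≤ Real.log Z.card := by
        have h1 := Real.log_le_log (by positivity) hZ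
        rw [Real.log_mul hw.ne' (by positivity), Real.log_pow, Real.log_pow] at h1
        exact h1
      have e5 : -|Real.log w| ≤ Real.log w := neg_abs_le _
      have e6 := abs_nonneg (Real.log Cl)
      have e7 : 0 ≤ e0 / 2 * L := by positivity
      rw [e1]
      nlinarith
    · -- lines
      intro s hs
      have e1 : hc P (fun ω => (fl s (c.x ω), fl s (c.y ω))) c.A =
        P.H (fun ω => (fl s (c.x ω), fl s (c.y ω))) := hc_unit P _
      have e2 := H_le_card P (fun ω => (fl s (c.x ω), fl s (c.y ω)))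
        (Z.image (fun z => (fl s (x z), fl s (y z)))) (fun ω =>
          Finset.mem_image.2 ⟨ω.1.1, ω.1.2, rfl⟩)
      have hpos : (0 : ℝ) < ((Z.image (fun z => (fl s (x z), fl s (y z)))).card : ℝ) := by
        have h1 : (Z.image (fun z => (fl s (x z), fl s (y z)))).Nonempty :=
          (Finset.card_pos.1 hZpos).image _
        exact_mod_cast Finset.card_pos.2 h1
      have e3 := Real.log_le_log hpos (hlin s hs)
      rw [Real.log_mul hCl.ne' (by positivity), Real.log_rpow (by norm_num)] at e3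
      have e4 : ((m : ℝ) + e0 / (2 * Real.log 2)) * s * Real.log 2 =
          m * s * Real.log 2 + e0 / 2 * s := by
        field_simp
      rw [e4] at e3
      have e5 : Real.log Cl ≤ |Real.log Cl| := le_abs_self _
      have e6 := abs_nonneg (Real.log w)
      have e7 : e0 / 2 * (s : ℝ) ≤ e0 / 2 * L :=
        mul_le_mul_of_nonneg_left (by exact_mod_cast hs) (by positivity)
      rw [e1]
      linarith
    · -- times
      intro s hs
      have e1 : hc P (fun ω => fl1 s (c.t ω)) c.A = P.H (fun ω => fl1 s (c.t ω)) := hc_unit P _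
      have e2 := H_fl1_le P hs c.t
      have e3 : P.H c.t ≤ P.H (fun ω => fl1 L (c.t ω)) := P.H_mono fun ω ω' h => by
        rw [hflt, hflt] at h
        have h' : κ ω = κ ω' := by exact_mod_cast h
        simp only [c]
        rw [h']
      rw [e1]
      linarith
  have hmain := hL0 L (by omega) Ω P c hgood
  have e1 : hc P (fun ω => fl L (c.pt ω)) (fun ω => (c.t ω, c.A ω)) ≤
      Real.log S.card - Real.log k := by
    unfold hc
    have h1 : P.H (fun ω => (fl L (c.pt ω), (c.t ω, c.A ω))) ≤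
        P.H (fun ω => (((κ ω : ℕ) : ℤ), fl L (c.pt ω))) := P.H_mono fun ω ω' h => by
      simp only [Prod.mk.injEq] at h
      have h' : κ ω = κ ω' := by exact_mod_cast h.1
      have h2 : c.t ω = c.t ω' := by
        simp only [c]
        rw [h']
      simp only [Prod.mk.injEq]
      exact ⟨h.2, h2, rfl⟩
    have h2 := H_le_card P (fun ω => (((κ ω : ℕ) : ℤ), fl L (c.pt ω))) S (fun ω => by
      exact hS ω.1.1 ω.1.2 (κ ω) (hE'1 _ (hκE ω)))
    have h3 : P.H (fun ω => (c.t ω, c.A ω)) = P.H c.t := P.H_congr fun ω ω' => by simp [c]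
    linarith
  have e2 : ((m : ℝ) - ι) * L * Real.log 2 ≤ Real.log S.card - Real.log k := hmain.trans e1
  nlinarith

end Vale.Agent.P127.Stk.Ext
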