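import Vale.Agent.P127.Stk.ExtResc
import Vale.Agent.P127.OneScale

/-!
# P127 / Stk : covers by balls and dyadic cells; pigeonhole; growth
-/

namespace Vale.Agent.P127.Stk

open Finset Vale.Agent.P127 MeasureTheory

/-- the balls of one block form a small finite set -/
theorem exists_block {ρ : ℕ → ℝ} {s : ℝ} (hs : 0 < s)
    (hsum : ∀ F : Finset ℕ, ∑ i ∈ F, ρ i ^ s ≤ 1) (a b : ℕ) :
    ∃ Cl : Finset ℕ, (∀ n, n ∈ Cl ↔ (1 / 2 : ℝ) ^ b < ρ n ∧ ρ n ≤ (1 / 2) ^ a) ∧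
      (Cl.card : ℝ) ≤ (2 : ℝ) ^ ((b : ℝ) * s) := by
  classical
  have hlow : ∀ F : Finset ℕ, (∀ n ∈ F, (1 / 2 : ℝ) ^ b < ρ n) →
      (F.card : ℝ) ≤ (2 : ℝ) ^ ((b : ℝ) * s) := by
    intro F hF
    have h1 : ∀ n ∈ F, ((1 / 2 : ℝ) ^ b) ^ s ≤ ρ n ^ s := fun n hn =>
      Real.rpow_le_rpow (by positivity) (hF n hn).le hs.le
    have h2 := (Finset.sum_le_sum h1).trans (hsum F)
    rw [Finset.sum_const, nsmul_eq_mul] at h2
    have h3 : ((1 / 2 : ℝ) ^ b) ^ s = ((2 : ℝ) ^ ((b : ℝ) * s))⁻¹ := by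
      rw [one_div, inv_pow, Real.inv_rpow (by positivity), ← Real.rpow_natCast,
        ← Real.rpow_mul (by norm_num)]
    rw [h3, ← div_eq_mul_inv, div_le_one (by positivity)] at h2
    exact h2
  have hfin : {n : ℕ | (1 / 2 : ℝ) ^ b < ρ n ∧ ρ n ≤ (1 / 2) ^ a}.Finite := by
    by_contra hinf
    obtain ⟨F, hF1, hF2⟩ := Set.Infinite.exists_subset_card_eq hinf
      (⌈(2 : ℝ) ^ ((b : ℝ) * s)⌉₊ + 1)
    have h1 := hlow F (fun n hn => (hF1 hn).1)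
    rw [hF2] at h1
    push_cast at h1
    have h2 := Nat.le_ceil ((2 : ℝ) ^ ((b : ℝ) * s))
    linarith
  refine ⟨hfin.toFinset, fun n => by simp, hlow _ fun n hn => ?_⟩
  have := hfin.mem_toFinset.1 hn
  exact this.1

/-- the cells of the points in a finite union of balls -/
theorem cover_cells {m : ℕ} (Cl : Finset ℕ) (xc : ℕ → EuclideanSpace ℝ (Fin (m + 1)))
    (ρ : ℕ → ℝ) (N : ℕ) (hρ : ∀ i ∈ Cl, ρ i ≤ (1 / 2 : ℝ) ^ N) :
    ∃ F0 : Finset ((Fin m → ℤ) × ℤ), (F0.card : ℝ) ≤ Cl.card * 9 ^ (m + 1) ∧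
      ∀ (x y : Fin m → ℝ) (t t' : ℝ), (∀ i, 0 ≤ y i ∧ y i < 1) → fl1 N t = fl1 N t' →
        (∃ i ∈ Cl, pt x y t' ∈ Metric.closedBall (xc i) (2 * ρ i)) →
        (fl N (fun i => x i + t * y i), fl1 N t) ∈ F0 := by
  classical
  have h2N : (0 : ℝ) < 2 ^ N := by positivity
  refine ⟨Cl.biUnion fun n => (Fintype.piFinset fun i : Fin m =>
    Finset.Icc (⌊(2 : ℝ) ^ N * (xc n).ofLp i.castSucc⌋ - 4)
      (⌊(2 : ℝ) ^ N * (xc n).ofLp i.castSucc⌋ + 4)) ×ˢ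
    Finset.Icc (⌊(2 : ℝ) ^ N * (xc n).ofLp (Fin.last m)⌋ - 4)
      (⌊(2 : ℝ) ^ N * (xc n).ofLp (Fin.last m)⌋ + 4), ?_, ?_⟩
  · have h1 := Finset.card_biUnion_le_card_mul Cl (fun n => (Fintype.piFinset fun i : Fin m =>
      Finset.Icc (⌊(2 : ℝ) ^ N * (xc n).ofLp i.castSucc⌋ - 4)
      (⌊(2 : ℝ) ^ N * (xc n).ofLp i.castSucc⌋ + 4)) ×ˢ
      Finset.Icc (⌊(2 : ℝ) ^ N * (xc n).ofLp (Fin.last m)⌋ - 4)
      (⌊(2 : ℝ) ^ N * (xc n).ofLp (Fin.last m)⌋ + 4)) (9 ^ (m + 1)) (by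
        intro n _
        rw [Finset.card_product, Fintype.card_piFinset]
        have h9 : ∀ z : ℤ, (Finset.Icc (z - 4) (z + 4)).card = 9 := by
          intro z
          rw [Int.card_Icc]
          omega
        simp only [h9, Finset.prod_const, Finset.card_univ, Fintype.card_fin]
        rw [pow_succ])
    exact_mod_cast h1
  · rintro x y t t' hy htt ⟨n, hn, hball⟩
    refine Finset.mem_biUnion.2 ⟨n, hn, ?_⟩
    have hρn := hρ n hn
    rw [Metric.mem_closedBall] at hball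
    have hdist : dist (pt x y t') (xc n) ≤ 2 * (1 / 2 : ℝ) ^ N := hball.trans (by linarith)
    have hpow : (2 : ℝ) ^ N * (1 / 2) ^ N = 1 := by
      rw [← mul_pow]
      norm_num
    -- times
    have htc : |(2 : ℝ) ^ N * t - (2 : ℝ) ^ N * t'| ≤ 1 := by
      have h1 : ⌊(2 : ℝ) ^ N * t⌋ = ⌊(2 : ℝ) ^ N * t'⌋ := htt
      have h3 := Int.floor_le ((2 : ℝ) ^ N * t)
      have h4 := Int.lt_floor_add_one ((2 : ℝ) ^ N * t)
      have h5 := Int.floor_le ((2 : ℝ) ^ N * t')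
      have h6 := Int.lt_floor_add_one ((2 : ℝ) ^ N * t')
      rw [h1] at h3 h4
      rw [abs_le]
      constructor <;> linarith
    have hcl : ∀ (k : Fin (m + 1)) (u : ℝ), |u - (2 : ℝ) ^ N * (pt x y t').ofLp k| ≤ 1 →
        |⌊u⌋ - ⌊(2 : ℝ) ^ N * (xc n).ofLp k⌋| ≤ 4 := by
      intro k u hu
      have h1 : |(pt x y t').ofLp k - (xc n).ofLp k| ≤ 2 * (1 / 2 : ℝ) ^ N :=
        (coord_le _ _ k).trans hdist
      have h3 : |(2 : ℝ) ^ N * (pt x y t').ofLp k - (2 : ℝ) ^ N * (xc n).ofLp k| ≤ 2 := by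
        rw [← mul_sub, abs_mul, abs_of_pos h2N]
        calc (2 : ℝ) ^ N * |(pt x y t').ofLp k - (xc n).ofLp k|
            ≤ 2 ^ N * (2 * (1 / 2 : ℝ) ^ N) := mul_le_mul_of_nonneg_left h1 h2N.le
          _ = 2 * (2 ^ N * (1 / 2) ^ N) := by ring
          _ = 2 := by rw [hpow, mul_one]
      have h4 : |u - (2 : ℝ) ^ N * (xc n).ofLp k| ≤ ((3 : ℕ) : ℝ) := by
        have h5 := abs_sub_le u ((2 : ℝ) ^ N * (pt x y t').ofLp k) ((2 : ℝ) ^ N * (xc n).ofLp k)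
        push_cast
        linarith
      have h5 := floor_close_aux h4
      push_cast at h5
      linarith
    rw [Finset.mem_product, Fintype.mem_piFinset]
    constructor
    · intro i
      have h1 := hcl i.castSucc ((2 : ℝ) ^ N * (x i + t * y i)) (by
        rw [pt_castSucc]
        have e : (2 : ℝ) ^ N * (x i + t * y i) - (2 : ℝ) ^ N * (x i + t' * y i) =
            ((2 : ℝ) ^ N * t - (2 : ℝ) ^ N * t') * y i := by ring
        rw [e, abs_mul, abs_of_nonneg (hy i).1]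
        calc |(2 : ℝ) ^ N * t - (2 : ℝ) ^ N * t'| * y i ≤ 1 * 1 :=
              mul_le_mul htc (hy i).2.le (hy i).1 (by norm_num)
          _ = 1 := by norm_num)
      rw [Finset.mem_Icc]
      rw [abs_le] at h1
      show _ ≤ ⌊(2 : ℝ) ^ N * (x i + t * y i)⌋ ∧ ⌊(2 : ℝ) ^ N * (x i + t * y i)⌋ ≤ _
      constructor <;> linarith [h1.1, h1.2]
    · have h1 := hcl (Fin.last m) ((2 : ℝ) ^ N * t) (by rw [pt_last]; exact htc)
      rw [Finset.mem_Icc]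
      rw [abs_le] at h1
      show _ ≤ ⌊(2 : ℝ) ^ N * t⌋ ∧ ⌊(2 : ℝ) ^ N * t⌋ ≤ _
      constructor <;> linarith [h1.1, h1.2]

/-- finite pigeonhole principle for an outer measure -/
theorem pigeon_fin {X I : Type*} [MeasurableSpace X] (μ : Measure X) (S : Set X) (Q : Finset I)
    (T : I → Set X) (hS : S ⊆ ⋃ q ∈ Q, T q) {w : ℝ} (hw : 0 < w)
    (hwS : ENNReal.ofReal w ≤ μ S) :
    ∃ q ∈ Q, ENNReal.ofReal (w / Q.card) ≤ μ (T q) := by
  classical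
  have h1 : μ S ≤ ∑ q ∈ Q, μ (T q) := (measure_mono hS).trans (measure_biUnion_finset_le _ _)
  have hne : Q.Nonempty := by
    by_contra h
    rw [Finset.not_nonempty_iff_eq_empty] at h
    rw [h] at h1
    simp only [Finset.sum_empty, nonpos_iff_eq_zero] at h1
    rw [h1] at hwS
    have := ENNReal.ofReal_pos.2 hw
    exact absurd hwS (not_le.2 this)
  have hc : (0 : ℝ) < Q.card := by exact_mod_cast hne.card_pos
  by_contra hcon
  push Not at hcon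
  have h2 : ∑ q ∈ Q, μ (T q) < ∑ _q ∈ Q, ENNReal.ofReal (w / Q.card) :=
    ENNReal.sum_lt_sum_of_nonempty hne hcon
  rw [Finset.sum_const, nsmul_eq_mul, ← ENNReal.ofReal_natCast, ← ENNReal.ofReal_mul hc.le,
    mul_div_cancel₀ _ hc.ne'] at h2
  exact absurd (hwS.trans h1) (not_le.2 h2)

/-- exponentials beat powers -/
lemma choose_u (a : ℝ) (n : ℕ) (M0 : ℝ) :
    ∃ u : ℕ, 1 ≤ u ∧ a * (u : ℝ) ^ n ≤ 2 ^ u ∧ M0 ≤ 2 ^ u := by
  have h1 := tendsto_pow_const_div_const_pow_of_one_lt n (by norm_num : (1 : ℝ) < 2)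
  have h2 : ∀ᶠ u : ℕ in Filter.atTop, (u : ℝ) ^ n / 2 ^ u < 1 / (|a| + 1) :=
    h1.eventually_lt_const (by positivity)
  have h3 : ∀ᶠ u : ℕ in Filter.atTop, M0 ≤ (2 : ℝ) ^ u :=
    (tendsto_pow_atTop_atTop_of_one_lt (by norm_num : (1 : ℝ) < 2)).eventually_ge_atTop M0
  obtain ⟨u, hu1, hu2, hu3⟩ := (h2.and (h3.and (Filter.eventually_ge_atTop 1))).exists
  refine ⟨u, hu3, ?_, hu2⟩
  have h4 : (0 : ℝ) < 2 ^ u := by positivity
  rw [div_lt_div_iff₀ h4 (by positivity)] at hu1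
  have h5 : a * (u : ℝ) ^ n ≤ (|a| + 1) * (u : ℝ) ^ n :=
    mul_le_mul_of_nonneg_right (by linarith [le_abs_self a]) (by positivity)
  linarith

/-- distance of two points of one line -/
lemma dist_pt {m : ℕ} (x y : Fin m → ℝ) (hy : ∀ i, 0 ≤ y i ∧ y i < 1) (t t' : ℝ) :
    dist (pt x y t) (pt x y t') ≤ Real.sqrt (m + 1) * |t - t'| := by
  rw [EuclideanSpace.dist_eq]
  refine Real.sqrt_le_iff.2 ⟨by positivity, ?_⟩
  rw [Fin.sum_univ_castSucc, mul_pow, Real.sq_sqrt (by positivity), sq_abs]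
  simp only [pt_castSucc, pt_last, Real.dist_eq]
  have h1 : ∀ i : Fin m, |x i + t * y i - (x i + t' * y i)| ^ 2 ≤ (t - t') ^ 2 := by
    intro i
    rw [sq_abs]
    have e : x i + t * y i - (x i + t' * y i) = (t - t') * y i := by ring
    rw [e, mul_pow]
    have h3 : y i ^ 2 ≤ 1 := by
      have := hy i
      nlinarith [this.1, this.2]
    nlinarith [sq_nonneg (t - t')]
  have h2 := Finset.sum_le_sum fun i (_ : i ∈ (Finset.univ : Finset (Fin m))) => h1 i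
  rw [Finset.sum_const, Finset.card_univ, Fintype.card_fin, nsmul_eq_mul] at h2
  rw [sq_abs]
  nlinarith

end Vale.Agent.P127.Stk
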