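import Vale.Agent.P127.Stk.Dims

/-!
# P127 / Stk : Minkowski dimensions, packing dimension, sticky families of lines
-/

namespace Vale.Agent.P127.Stk

open Filter Topology

section dims

variable {X : Type*} [PseudoEMetricSpace X]

/-- The lower Minkowski dimension: the limit inferior of `log N_δ(S) / log (1/δ)` as `δ → 0+`. -/
noncomputable def lowerMinkowskiDim (S : Set X) : EReal :=
  liminf (fun δ : ℝ => ENNReal.log (cov δ S) / ((Real.log (1 / δ) : ℝ) : EReal)) (𝓝[>] 0)

end dims

/-- The conclusion of the project: sets which contain a part of positive length of each line of a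
sticky family have modified lower Minkowski dimension `n`. -/
def StickyMain (n : ℕ) : Prop :=
  ∀ a : EuclideanSpace ℝ (Fin n) → EuclideanSpace ℝ (Fin n),
    packingDim {p | ∃ e : EuclideanSpace ℝ (Fin n), ‖e‖ = 1 ∧ p = toLine (a e) e} ≤
      (((n : ℝ) - 1 : ℝ) : EReal) →
    ∀ K : Set (EuclideanSpace ℝ (Fin n)),
      (∀ e : EuclideanSpace ℝ (Fin n), ‖e‖ = 1 →
        MeasureTheory.volume {t : ℝ | a e + t • e ∈ K} ≠ 0) →
      ∀ T : ℕ → Set (EuclideanSpace ℝ (Fin n)), K ⊆ ⋃ i, T i →
        ∃ i, (n : EReal) ≤ lowerMinkowskiDim (T i)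

end Vale.Agent.P127.Stk
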