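import Vale.Agent.P127.Stk.ExtDefs

/-!
# P127 / Stk : covering numbers at dyadic scales
-/

namespace Vale.Agent.P127.Stk

open Filter Topology

section emetric

variable {X : Type*} [PseudoEMetricSpace X]

lemma cov_anti {δ δ' : ℝ} (h : δ ≤ δ') (S : Set X) : cov δ' S ≤ cov δ S := by
  unfold cov
  exact_mod_cast Metric.externalCoveringNumber_anti (Real.toNNReal_le_toNNReal h)

lemma cov_mono (δ : ℝ) {S T : Set X} (h : S ⊆ T) : cov δ S ≤ cov δ T := by
  unfold cov
  exact_mod_cast Metric.externalCoveringNumber_mono_set h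

/-- from the upper Minkowski dimension to covering numbers at dyadic scales -/
theorem cov_le_of_upper {S : Set X} {d : ℝ} (h : upperMinkowskiDim S < (d : EReal)) :
    ∃ C : ℝ, 0 < C ∧ ∀ s : ℕ, cov ((1 / 2 : ℝ) ^ s) S ≤ ENNReal.ofReal (C * (2 : ℝ) ^ (d * s)) := by
  have h1 := eventually_lt_of_limsup_lt h
  have h2 : ∀ᶠ δ : ℝ in 𝓝[>] 0, δ < 1 :=
    mem_nhdsWithin_of_mem_nhds (Iio_mem_nhds one_pos)
  obtain ⟨ε0, hε0, hε⟩ := mem_nhdsGT_iff_exists_Ioo_subset.1 (h1.and h2)
  have hε0' : (0 : ℝ) < ε0 := hε0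
  obtain ⟨s0, hs0⟩ := exists_pow_lt_of_lt_one hε0' (by norm_num : (1 / 2 : ℝ) < 1)
  have key : ∀ s : ℕ, s0 ≤ s →
      cov ((1 / 2 : ℝ) ^ s) S ≤ ENNReal.ofReal ((2 : ℝ) ^ (d * s)) := by
    intro s hs
    have hδ : (1 / 2 : ℝ) ^ s ∈ Set.Ioo 0 ε0 :=
      ⟨by positivity, (pow_le_pow_of_le_one (by norm_num) (by norm_num) hs).trans_lt hs0⟩
    obtain ⟨h3, h4⟩ := hε hδ
    have hlog : Real.log (1 / (1 / 2 : ℝ) ^ s) = s * Real.log 2 := by
      rw [one_div, one_div, inv_pow, inv_inv, Real.log_pow]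
    have hs1 : s ≠ 0 := by
      rintro rfl
      simp at h4
    have hpos : (0 : ℝ) < s * Real.log 2 := by
      have : (0 : ℝ) < s := by exact_mod_cast Nat.pos_of_ne_zero hs1
      have := Real.log_pos (by norm_num : (1 : ℝ) < 2)
      positivity
    rw [hlog, EReal.div_lt_iff (by exact_mod_cast hpos) (EReal.coe_ne_top _)] at h3
    have h5 : ENNReal.log (cov ((1 / 2 : ℝ) ^ s) S) ≤
        ENNReal.log (ENNReal.ofReal ((2 : ℝ) ^ (d * s))) := by
      rw [ENNReal.log_ofReal_of_pos (by positivity), Real.log_rpow (by norm_num)]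
      refine h3.le.trans (le_of_eq ?_)
      rw [← EReal.coe_mul]
      congr 1
      ring
    exact ENNReal.log_le_log_iff.1 h5
  refine ⟨(2 : ℝ) ^ (d * s0) * (2 : ℝ) ^ (|d| * s0) + 1, by positivity, fun s => ?_⟩
  rcases le_total s0 s with hs | hs
  · refine (key s hs).trans (ENNReal.ofReal_le_ofReal ?_)
    have h3 : (0 : ℝ) < (2 : ℝ) ^ (d * s) := by positivity
    have h4 : (0 : ℝ) < (2 : ℝ) ^ (d * s0) * (2 : ℝ) ^ (|d| * s0) := by positivity
    nlinarith
  · have h3 : cov ((1 / 2 : ℝ) ^ s) S ≤ cov ((1 / 2 : ℝ) ^ s0) S :=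
      cov_anti (pow_le_pow_of_le_one (by norm_num) (by norm_num) hs) S
    refine (h3.trans (key s0 le_rfl)).trans (ENNReal.ofReal_le_ofReal ?_)
    have h4 : (1 : ℝ) ≤ (2 : ℝ) ^ (|d| * s0) * (2 : ℝ) ^ (d * s) := by
      rw [← Real.rpow_add (by norm_num)]
      refine Real.one_le_rpow (by norm_num) ?_
      have h5 : -|d| ≤ d := neg_abs_le d
      have h6 : (s : ℝ) ≤ s0 := by exact_mod_cast hs
      have h7 : (0 : ℝ) ≤ s := by positivity
      nlinarith [abs_nonneg d]
    have h5 : (0 : ℝ) < (2 : ℝ) ^ (d * s0) := by positivity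
    have h6 : (0 : ℝ) < (2 : ℝ) ^ (d * s) := by positivity
    nlinarith

/-- from covering numbers at dyadic scales to the lower Minkowski dimension -/
theorem le_lower_of_cov {S : Set X} {d : ℝ} (hd : 0 < d)
    (h : ∀ ι : ℝ, 0 < ι → ∃ c : ℝ, 0 < c ∧ ∃ s0 : ℕ, ∀ s : ℕ, s0 ≤ s →
      ENNReal.ofReal (c * (2 : ℝ) ^ ((d - ι) * s)) ≤ cov ((1 / 2 : ℝ) ^ s) S) :
    (d : EReal) ≤ lowerMinkowskiDim S := by
  have hl2 : 0 < Real.log 2 := Real.log_pos (by norm_num)
  have main : ∀ z : ℝ, 0 < z → z < d → (z : EReal) ≤ lowerMinkowskiDim S := by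
    intro z hz hzd
    obtain ⟨c, hc, s0, hs0⟩ := h ((d - z) / 2) (by linarith)
    set ι := (d - z) / 2 with hι
    have hι0 : 0 < ι := by rw [hι]; linarith
    obtain ⟨s1, hs1⟩ := exists_nat_ge ((z * Real.log 2 - Real.log c) / (ι * Real.log 2))
    refine le_liminf_of_le (by isBoundedDefault) ?_
    have h2 : ∀ᶠ δ : ℝ in 𝓝[>] 0, δ < (1 / 2) ^ (s0 + s1 + 1) :=
      mem_nhdsWithin_of_mem_nhds (Iio_mem_nhds (by positivity))
    filter_upwards [h2, self_mem_nhdsWithin] with δ hδ hδ0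
    have hδ0' : 0 < δ := hδ0
    have hδ1 : δ < 1 := hδ.trans_le (pow_le_one₀ (by norm_num) (by norm_num))
    obtain ⟨s, hs, hs'⟩ := exists_nat_pow_near_of_lt_one hδ0' hδ1.le
      (by norm_num : (0 : ℝ) < 1 / 2) (by norm_num)
    have hss : s0 + s1 ≤ s := by
      have h3 : (1 / 2 : ℝ) ^ (s + 1) < (1 / 2) ^ (s0 + s1 + 1) := hs.trans hδ
      have h4 := (pow_lt_pow_iff_right_of_lt_one₀ (by norm_num : (0 : ℝ) < 1 / 2)
        (by norm_num)).1 h3
      omega
    have h3 : ENNReal.ofReal (c * (2 : ℝ) ^ ((d - ι) * s)) ≤ cov δ S :=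
      (hs0 s (by omega)).trans (cov_anti hs' S)
    have hlogpos : 0 < Real.log (1 / δ) := Real.log_pos (by
      rw [lt_div_iff₀ hδ0']; linarith)
    rw [EReal.le_div_iff_mul_le (by exact_mod_cast hlogpos) (EReal.coe_ne_top _)]
    have h4 := ENNReal.log_le_log h3
    refine le_trans ?_ h4
    rw [ENNReal.log_ofReal_of_pos (by positivity), ← EReal.coe_mul]
    refine EReal.coe_le_coe_iff.2 ?_
    rw [Real.log_mul hc.ne' (by positivity), Real.log_rpow (by norm_num)]
    have h5 : Real.log (1 / δ) ≤ (s + 1) * Real.log 2 := by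
      have h6 : 1 / δ ≤ 2 ^ (s + 1) := by
        rw [div_le_iff₀ hδ0']
        have h7 : (2 : ℝ) ^ (s + 1) * (1 / 2) ^ (s + 1) = 1 := by
          rw [← mul_pow]; norm_num
        nlinarith [pow_pos (by norm_num : (0 : ℝ) < 2) (s + 1)]
      have h7 := Real.log_le_log (by positivity) h6
      rw [Real.log_pow] at h7
      push_cast at h7
      exact h7
    have h6 : (z * Real.log 2 - Real.log c) ≤ s * (ι * Real.log 2) := by
      have h7 : (z * Real.log 2 - Real.log c) / (ι * Real.log 2) ≤ s := by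
        refine hs1.trans ?_
        exact_mod_cast (by omega : s1 ≤ s)
      rwa [div_le_iff₀ (by positivity)] at h7
    have h7 : d - ι = z + ι := by rw [hι]; ring
    rw [h7]
    nlinarith
  rw [← EReal.ge_of_forall_gt_iff_ge]
  intro z hz
  have hz' : z < d := by exact_mod_cast hz
  rcases lt_or_ge 0 z with h0 | h0
  · exact main z h0 hz'
  · refine le_trans ?_ (main (d / 2) (by linarith) (by linarith))
    exact_mod_cast (by linarith : z ≤ d / 2)

end emetric

/-- counting integer vectors by means of a cover -/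
theorem card_le_cov {X : Type*} [PseudoMetricSpace X] {ι : Type*} [Fintype ι] {δ : ℝ}
    (hδ : 0 ≤ δ) (Λ : Set X) (B : ℕ) (V : Finset (ι → ℤ)) (g : (ι → ℤ) → X)
    (hg : ∀ v ∈ V, g v ∈ Λ)
    (h : ∀ v ∈ V, ∀ v' ∈ V, ∀ c : X, dist (g v) c ≤ δ → dist (g v') c ≤ δ →
      ∀ i, |v i - v' i| ≤ B) :
    (V.card : ENNReal) ≤ ((2 * B + 1) ^ Fintype.card ι : ℕ) * cov δ Λ := by
  classical
  unfold cov
  rcases isEmpty_or_nonempty {C : Set X // Metric.IsCover δ.toNNReal Λ C} with hE | hN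
  · exact hE.elim ⟨Λ, Metric.IsCover.refl _ _⟩
  obtain ⟨C, hC⟩ := ENat.exists_eq_iInf
    (fun C : {C : Set X // Metric.IsCover δ.toNNReal Λ C} => (C : Set X).encard)
  have hC' : Metric.externalCoveringNumber δ.toNNReal Λ = (C : Set X).encard := by
    rw [Metric.externalCoveringNumber, hC, iInf_subtype]
  rw [hC']
  rcases Set.finite_or_infinite (C : Set X) with hfin | hinf
  · rw [hfin.encard_eq_coe_toFinset_card]
    have hex : ∀ v : ι → ℤ, ∃ c : X, v ∈ V → c ∈ (C : Set X) ∧ dist (g v) c ≤ δ := by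
      intro v
      by_cases hv : v ∈ V
      · obtain ⟨c, hc, hd⟩ := C.2 (hg v hv)
        refine ⟨c, fun _ => ⟨hc, ?_⟩⟩
        have h1 : edist (g v) c ≤ (δ.toNNReal : ENNReal) := hd
        rw [edist_nndist, ENNReal.coe_le_coe] at h1
        have h2 : (nndist (g v) c : ℝ) ≤ (δ.toNNReal : ℝ) := by exact_mod_cast h1
        rwa [coe_nndist, Real.coe_toNNReal _ hδ] at h2
      · exact ⟨g v, fun h => absurd h hv⟩
    choose f hf using hex
    have h1 : V.card ≤ (2 * B + 1) ^ Fintype.card ι * (V.image f).card := by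
      refine Finset.card_le_mul_card_image V _ fun c hc => ?_
      obtain ⟨v0, hv0, hv0c⟩ := Finset.mem_image.1 hc
      have h2 : V.filter (fun x => f x = c) ⊆
          Fintype.piFinset (fun i => Finset.Icc (v0 i - B) (v0 i + B)) := by
        intro v hv
        obtain ⟨hv1, hv2⟩ := Finset.mem_filter.1 hv
        rw [Fintype.mem_piFinset]
        intro i
        have h3 := h v0 hv0 v hv1 c (by rw [← hv0c]; exact (hf v0 hv0).2)
          (by rw [← hv2]; exact (hf v hv1).2) i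
        rw [abs_le] at h3
        rw [Finset.mem_Icc]
        constructor <;> linarith [h3.1, h3.2]
      refine (Finset.card_le_card h2).trans ?_
      rw [Fintype.card_piFinset]
      have h3 : ∀ i, (Finset.Icc (v0 i - (B : ℤ)) (v0 i + B)).card = 2 * B + 1 := by
        intro i
        rw [Int.card_Icc]
        omega
      simp only [h3, Finset.prod_const, Finset.card_univ]
      exact le_rfl
    have h2 : (V.image f).card ≤ hfin.toFinset.card := by
      refine Finset.card_le_card fun c hc => ?_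
      obtain ⟨v, hv, rfl⟩ := Finset.mem_image.1 hc
      exact hfin.mem_toFinset.2 (hf v hv).1
    have h3 : V.card ≤ (2 * B + 1) ^ Fintype.card ι * hfin.toFinset.card :=
      h1.trans (Nat.mul_le_mul_left _ h2)
    have h4 : (V.card : ENNReal) ≤
        (((2 * B + 1) ^ Fintype.card ι * hfin.toFinset.card : ℕ) : ENNReal) := by
      exact_mod_cast h3
    rw [Nat.cast_mul] at h4
    exact h4
  · rw [hinf.encard_eq, ENat.toENNReal_top, ENNReal.mul_top (by positivity)]
    exact le_top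

end Vale.Agent.P127.Stk
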