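import Vale.Agent.P127.OneScale
import Vale.Agent.P127.Stk.ExtDim
import Vale.Agent.P127.Stk.Defs

/-!
# P127 / Stk : slopes of lines and the metric of the space of lines
-/

namespace Vale.Agent.P127.Stk.Ext

open MeasureTheory Finset Vale.Agent.P127

variable {m : ℕ}

/-- the vector `(v, 1)` -/
noncomputable def dv (v : Fin m → ℝ) : EuclideanSpace ℝ (Fin (m + 1)) := pt 0 v 1

/-- the unit vector with slope `v` -/
noncomputable def ev (v : Fin m → ℝ) : EuclideanSpace ℝ (Fin (m + 1)) := ‖dv v‖⁻¹ • dv v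

/-- the position at height `0` of the line through `a` with slope `v` -/
noncomputable def ps (a : EuclideanSpace ℝ (Fin (m + 1))) (v : Fin m → ℝ) : Fin m → ℝ :=
  fun i => a.ofLp (Fin.castSucc i) - a.ofLp (Fin.last m) * v i

lemma dv_castSucc (v : Fin m → ℝ) (i : Fin m) : (dv v).ofLp (Fin.castSucc i) = v i := by
  simp [dv, pt_castSucc]

lemma dv_last (v : Fin m → ℝ) : (dv v).ofLp (Fin.last m) = 1 := by
  simp [dv, pt_last]

lemma dv_norm_sq (v : Fin m → ℝ) : ‖dv v‖ ^ 2 = ∑ i, v i ^ 2 + 1 := by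
  rw [EuclideanSpace.norm_eq, Real.sq_sqrt (Finset.sum_nonneg fun i _ => by positivity),
    Fin.sum_univ_castSucc]
  simp [dv_castSucc, dv_last]

lemma dv_norm_pos (v : Fin m → ℝ) : 0 < ‖dv v‖ := by
  have h1 := dv_norm_sq v
  have h2 : 0 ≤ ∑ i, v i ^ 2 := Finset.sum_nonneg fun i _ => by positivity
  by_contra h
  have h3 : ‖dv v‖ = 0 := le_antisymm (not_lt.1 h) (norm_nonneg _)
  rw [h3] at h1
  norm_num at h1
  linarith

lemma ev_norm (v : Fin m → ℝ) : ‖ev v‖ = 1 := by
  unfold ev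
  rw [norm_smul, norm_inv, norm_norm, inv_mul_cancel₀ (dv_norm_pos v).ne']

lemma line_eq (a : EuclideanSpace ℝ (Fin (m + 1))) (v : Fin m → ℝ) (t : ℝ) :
    a + t • ev v = pt (ps a v) v (a.ofLp (Fin.last m) + t * ‖dv v‖⁻¹) := by
  unfold ev
  rw [smul_smul]
  ext i
  refine Fin.lastCases ?_ (fun i => ?_) i
  · rw [pt_last]
    simp [dv_last]
  · rw [pt_castSucc]
    simp [dv_castSucc, ps]
    ring

/-- the heights at which the line is in `K` -/
theorem volume_heights {K : Set (EuclideanSpace ℝ (Fin (m + 1)))}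
    {a : EuclideanSpace ℝ (Fin (m + 1))} {v : Fin m → ℝ}
    (h : volume {t : ℝ | a + t • ev v ∈ K} ≠ 0) :
    volume {y : ℝ | pt (ps a v) v y ∈ K} ≠ 0 := by
  intro h0
  apply h
  have e : {t : ℝ | a + t • ev v ∈ K} =
      (fun t => ‖dv v‖⁻¹ * t) ⁻¹' ((fun t => a.ofLp (Fin.last m) + t) ⁻¹'
        {y : ℝ | pt (ps a v) v y ∈ K}) := by
    ext t
    simp only [Set.mem_ofPred_eq, Set.mem_preimage]
    rw [line_eq, mul_comm t]
  rw [e, Real.volume_preimage_mul_left (inv_ne_zero (dv_norm_pos v).ne'), measure_preimage_add, h0,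
    mul_zero]

/-- the last basis vector -/
noncomputable def bl (m : ℕ) : EuclideanSpace ℝ (Fin (m + 1)) :=
  EuclideanSpace.single (Fin.last m) 1

lemma proj_bl (v : Fin m → ℝ) :
    (Submodule.span ℝ {ev v}).starProjection (bl m) = (‖dv v‖ ^ 2)⁻¹ • dv v := by
  rw [Submodule.starProjection_unit_singleton ℝ (ev_norm v)]
  have h1 : inner ℝ (ev v) (bl m) = ‖dv v‖⁻¹ := by
    unfold ev bl
    rw [inner_smul_left, EuclideanSpace.inner_single_right]
    simp [dv_last]
  rw [h1]
  unfold ev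
  rw [smul_smul, sq, mul_inv]

/-- slopes and positions are Lipschitz functions of the line -/
theorem lipschitz_line (m : ℕ) (j : ℤ) (z : Fin m → ℤ) : ∃ C : ℕ,
    ∀ (a a' : EuclideanSpace ℝ (Fin (m + 1))) (v v' : Fin m → ℝ) (ρ : ℝ), 0 ≤ ρ →
      (∀ i, 0 ≤ v i ∧ v i < 1) → (∀ i, 0 ≤ v' i ∧ v' i < 1) →
      (∀ i, ⌊ps a v i + j * v i⌋ = z i) →
      dist (toLine a (ev v)) (toLine a' (ev v')) ≤ ρ →
      ∀ i, |v i - v' i| ≤ C * ρ ∧
        |(ps a v i + j * v i) - (ps a' v' i + j * v' i)| ≤ C * ρ := by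
  set R : ℝ := |(j : ℝ)| + ∑ i, (|(z i : ℝ)| + 1) with hR
  have hR0 : 0 ≤ R := by positivity
  obtain ⟨C, hC⟩ := exists_nat_ge (2 + (|(j : ℝ)| + R) * (2 * (m + 1)) + 2 * (m + 1))
  refine ⟨C, fun a a' v v' ρ hρ hv hv' hz hd i => ?_⟩
  rw [Prod.dist_eq] at hd
  have hd1 : dist (toLine a (ev v)).1 (toLine a' (ev v')).1 ≤ ρ := (le_max_left _ _).trans hd
  have hd2 : dist (toLine a (ev v)).2 (toLine a' (ev v')).2 ≤ ρ := (le_max_right _ _).trans hd
  -- the projections applied to the last basis vector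
  have h1 : ∀ k, |((‖dv v‖ ^ 2)⁻¹ • dv v).ofLp k - ((‖dv v'‖ ^ 2)⁻¹ • dv v').ofLp k| ≤ ρ := by
    intro k
    rw [← proj_bl v, ← proj_bl v']
    refine (coord_le _ _ k).trans ?_
    rw [dist_eq_norm] at hd1 ⊢
    have h2 := ((toLine a (ev v)).1 - (toLine a' (ev v')).1).le_opNorm (bl m)
    have h3 : ‖bl m‖ = 1 := by simp [bl]
    rw [h3, mul_one] at h2
    exact h2.trans hd1
  have hg : (1 : ℝ) / (m + 1) ≤ (‖dv v‖ ^ 2)⁻¹ := by
    rw [one_div]
    refine inv_anti₀ (by have := dv_norm_pos v; positivity) ?_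
    rw [dv_norm_sq]
    have : ∑ i, v i ^ 2 ≤ m := by
      calc ∑ i, v i ^ 2 ≤ ∑ _i : Fin m, (1 : ℝ) := by
            refine Finset.sum_le_sum fun i _ => ?_
            have := hv i
            nlinarith [this.1, this.2]
        _ = m := by simp
    linarith
  have hvd : ∀ i, |v i - v' i| ≤ 2 * (m + 1) * ρ := by
    intro i
    have h2 := h1 (Fin.castSucc i)
    have h3 := h1 (Fin.last m)
    simp only [PiLp.smul_apply, smul_eq_mul, dv_castSucc, dv_last, mul_one] at h2 h3
    set g := (‖dv v‖ ^ 2)⁻¹ with hgdef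
    set g' := (‖dv v'‖ ^ 2)⁻¹ with hgdef'
    have h4 : g * (v i - v' i) = (g * v i - g' * v' i) - v' i * (g - g') := by ring
    have h5 : |g * (v i - v' i)| ≤ 2 * ρ := by
      rw [h4]
      refine (abs_sub _ _).trans ?_
      have h6 : |v' i * (g - g')| ≤ 1 * ρ := by
        rw [abs_mul]
        refine mul_le_mul ?_ h3 (abs_nonneg _) (by norm_num)
        rw [abs_of_nonneg (hv' i).1]
        exact (hv' i).2.le
      linarith
    have hm1 : (0 : ℝ) < m + 1 := by positivity
    have hg0 : 0 < g := lt_of_lt_of_le (by positivity) hg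
    rw [abs_mul, abs_of_pos hg0] at h5
    have h6 : 1 / (m + 1 : ℝ) * |v i - v' i| ≤ 2 * ρ :=
      (mul_le_mul_of_nonneg_right hg (abs_nonneg _)).trans h5
    have h7 : |v i - v' i| = (m + 1) * (1 / (m + 1 : ℝ) * |v i - v' i|) := by
      field_simp
    rw [h7]
    nlinarith
  -- the foot points
  set f := (toLine a (ev v)).2 with hf
  set f' := (toLine a' (ev v')).2 with hf'
  have hfi : ∀ (a : EuclideanSpace ℝ (Fin (m + 1))) (v : Fin m → ℝ) (i : Fin m), ps a v i =
      (toLine a (ev v)).2.ofLp (Fin.castSucc i) -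
        (toLine a (ev v)).2.ofLp (Fin.last m) * v i := by
    intro a v i
    simp only [toLine, ps]
    rw [Submodule.starProjection_unit_singleton ℝ (ev_norm v)]
    unfold ev
    simp only [PiLp.sub_apply, PiLp.smul_apply, smul_eq_mul, dv_castSucc, dv_last]
    ring
  have hfR : |f.ofLp (Fin.last m)| ≤ R := by
    -- the point of the line at height `j`
    set q := pt (ps a v) v j with hq
    have hq1 : ∃ t : ℝ, q = a + t • ev v := by
      refine ⟨(j - a.ofLp (Fin.last m)) * ‖dv v‖, ?_⟩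
      rw [line_eq, mul_assoc, mul_inv_cancel₀ (dv_norm_pos v).ne', mul_one, add_sub_cancel]
    obtain ⟨t, ht⟩ := hq1
    have hfq : f = q - (Submodule.span ℝ {ev v}).starProjection q := by
      rw [hf, ht]
      simp only [toLine]
      rw [map_add]
      have h2 : (Submodule.span ℝ {ev v}).starProjection (t • ev v) = t • ev v :=
        Submodule.starProjection_eq_self_iff.2
          (Submodule.smul_mem _ _ (Submodule.mem_span_singleton_self _))
      rw [h2]
      abel
    have hfn : ‖f‖ ≤ ‖q‖ := by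
      rw [hfq, ← Submodule.starProjection_orthogonal_val]
      exact Submodule.norm_starProjection_apply_le _ _
    have h3 : |f.ofLp (Fin.last m)| ≤ ‖f‖ := by
      have := PiLp.norm_apply_le f (Fin.last m)
      simpa using this
    have h4 : ‖q‖ ≤ R := by
      have h5 : ‖q‖ ^ 2 ≤ (∑ k, |q.ofLp k|) ^ 2 := by
        rw [EuclideanSpace.norm_eq, Real.sq_sqrt (Finset.sum_nonneg fun i _ => by positivity)]
        refine le_trans (le_of_eq ?_) (Finset.sum_sq_le_sq_sum_of_nonneg
          (s := Finset.univ) (f := fun k => |q.ofLp k|) (fun k _ => abs_nonneg _))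
        refine Finset.sum_congr rfl fun k _ => ?_
        simp
      have h6 : ‖q‖ ≤ ∑ k, |q.ofLp k| :=
        (sq_le_sq₀ (norm_nonneg _) (Finset.sum_nonneg fun k _ => abs_nonneg _)).1 h5
      refine h6.trans ?_
      rw [Fin.sum_univ_castSucc, hR, add_comm]
      simp only [hq, pt_castSucc, pt_last]
      refine add_le_add le_rfl (Finset.sum_le_sum fun i _ => ?_)
      have h7 := Int.floor_le (ps a v i + j * v i)
      have h8 := Int.lt_floor_add_one (ps a v i + j * v i)
      rw [hz i] at h7 h8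
      rw [abs_le]
      have h9 := neg_abs_le (z i : ℝ)
      have h10 := le_abs_self (z i : ℝ)
      constructor <;> linarith
    linarith
  have hm0 : (0 : ℝ) ≤ m := by positivity
  have hj0 : 0 ≤ |(j : ℝ)| := abs_nonneg _
  have hCρ : (2 + (|(j : ℝ)| + R) * (2 * (m + 1)) + 2 * (m + 1)) * ρ ≤ C * ρ :=
    mul_le_mul_of_nonneg_right hC hρ
  constructor
  · refine (hvd i).trans (le_trans ?_ hCρ)
    refine mul_le_mul_of_nonneg_right ?_ hρ
    have : 0 ≤ (|(j : ℝ)| + R) * (2 * (m + 1)) := by positivity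
    linarith
  · rw [hfi a v i, hfi a' v' i, ← hf, ← hf']
    have e : f.ofLp (Fin.castSucc i) - f.ofLp (Fin.last m) * v i + j * v i -
        (f'.ofLp (Fin.castSucc i) - f'.ofLp (Fin.last m) * v' i + j * v' i) =
        (f.ofLp (Fin.castSucc i) - f'.ofLp (Fin.castSucc i)) +
        ((j - f.ofLp (Fin.last m)) * (v i - v' i) -
          (f.ofLp (Fin.last m) - f'.ofLp (Fin.last m)) * v' i) := by ring
    rw [e]
    have h2 : |f.ofLp (Fin.castSucc i) - f'.ofLp (Fin.castSucc i)| ≤ ρ :=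
      (coord_le f f' _).trans hd2
    have h3 : |f.ofLp (Fin.last m) - f'.ofLp (Fin.last m)| ≤ ρ := (coord_le f f' _).trans hd2
    have h4 : |(f.ofLp (Fin.last m) - f'.ofLp (Fin.last m)) * v' i| ≤ ρ * 1 := by
      rw [abs_mul]
      refine mul_le_mul h3 ?_ (abs_nonneg _) hρ
      rw [abs_of_nonneg (hv' i).1]
      exact (hv' i).2.le
    have h5 : |(j - f.ofLp (Fin.last m)) * (v i - v' i)| ≤
        (|(j : ℝ)| + R) * (2 * (m + 1) * ρ) := by
      rw [abs_mul]
      refine mul_le_mul ?_ (hvd i) (abs_nonneg _) (by positivity)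
      exact (abs_sub _ _).trans (by linarith)
    have h6 := abs_add_le (f.ofLp (Fin.castSucc i) - f'.ofLp (Fin.castSucc i))
      ((j - f.ofLp (Fin.last m)) * (v i - v' i) -
          (f.ofLp (Fin.last m) - f'.ofLp (Fin.last m)) * v' i)
    have h7 := abs_sub ((j - f.ofLp (Fin.last m)) * (v i - v' i))
      ((f.ofLp (Fin.last m) - f'.ofLp (Fin.last m)) * v' i)
    have h8 : 0 ≤ 2 * ((m : ℝ) + 1) * ρ := by positivity
    nlinarith

end Vale.Agent.P127.Stk.Ext
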