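import Vale.Agent.P127.Stk.Defs

/-!
# P127 / Stk : the growth class for the full Hausdorff version

The admissible error rate is exponentially small in the time deficit: `e ≤ exp (- n D) L` and
`exp (n D) ≤ L` for some `D ≥ max 1 C`.
-/

namespace Vale.Agent.P127.Stk

open Finset Filter Vale.Agent.P127

/-- admissible errors for the Hausdorff dimension of sticky sets -/
def okP (_ : Unit) (n L : ℕ) (e C : ℝ) : Prop :=
  ∃ D : ℝ, 1 ≤ D ∧ C ≤ D ∧ e ≤ Real.exp (-(n * D)) * L ∧ Real.exp (n * D) ≤ L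

theorem okP_anti (g : Unit) (n n' L : ℕ) (e C : ℝ) (hn : n ≤ n') (h : okP g n' L e C) :
    okP g n L e C := by
  obtain ⟨D, h1, h2, h3, h4⟩ := h
  have hnn : (n : ℝ) ≤ n' := by exact_mod_cast hn
  have h5 : (n : ℝ) * D ≤ n' * D := mul_le_mul_of_nonneg_right hnn (by linarith)
  refine ⟨D, h1, h2, h3.trans ?_, (Real.exp_le_exp.2 h5).trans h4⟩
  exact mul_le_mul_of_nonneg_right (Real.exp_le_exp.2 (by linarith)) (Nat.cast_nonneg _)

theorem okP_mono (g : Unit) (n L : ℕ) (e C e' C' : ℝ) (he : e' ≤ e) (hC : C' ≤ C)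
    (h : okP g n L e C) : okP g n L e' C' := by
  obtain ⟨D, h1, h2, h3, h4⟩ := h
  exact ⟨D, h1, hC.trans h2, he.trans h3, h4⟩

/-- shrinking the number of digits by a factor `exp (B D)` -/
theorem okP_shrink {n n' L L' : ℕ} {e D B : ℝ} (h1 : 1 ≤ D)
    (h3 : e ≤ Real.exp (-(n * D)) * L) (h4 : Real.exp (n * D) ≤ L) (hB : n' + B ≤ n)
    (hL : (L : ℝ) ≤ Real.exp (B * D) * L') :
    e ≤ Real.exp (-(n' * D)) * L' ∧ Real.exp (n' * D) ≤ L' := by
  have h5 : (n' : ℝ) * D + B * D ≤ n * D := by nlinarith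
  constructor
  · refine h3.trans ?_
    calc Real.exp (-(n * D)) * L ≤ Real.exp (-(n * D)) * (Real.exp (B * D) * L') :=
          mul_le_mul_of_nonneg_left hL (Real.exp_pos _).le
      _ = Real.exp (-(n * D) + B * D) * L' := by rw [Real.exp_add]; ring
      _ ≤ Real.exp (-(n' * D)) * L' :=
          mul_le_mul_of_nonneg_right (Real.exp_le_exp.2 (by linarith)) (Nat.cast_nonneg _)
  · have h6 : Real.exp (n' * D) * Real.exp (B * D) ≤ Real.exp (B * D) * L' := by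
      rw [← Real.exp_add]
      exact ((Real.exp_le_exp.2 h5).trans h4).trans hL
    have h7 : 0 < Real.exp (B * D) := Real.exp_pos _
    nlinarith

theorem mul_exp_neg_le_one (x : ℝ) : x * Real.exp (-x) ≤ 1 := by
  rw [Real.exp_neg, ← div_eq_mul_inv, div_le_one (Real.exp_pos _)]
  linarith [Real.add_one_le_exp x]

theorem okP_dom (g : Unit) (K : ℝ) (hK : 0 ≤ K) : ∃ g' : Unit, ∀ n' : ℕ, ∃ n : ℕ,
    ∀ (L : ℕ) (e C : ℝ), okP g n L e C → okP g' n' L (K * (e + 1)) (K * (C + 1)) := by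
  refine ⟨(), fun n' => ?_⟩
  set K' : ℝ := max K 1 with hK'
  have hK1 : 1 ≤ K' := le_max_right _ _
  have hKK : K ≤ K' := le_max_left _ _
  obtain ⟨n, hn⟩ := exists_nat_ge (2 * n' * K' + 2 * K)
  refine ⟨n, ?_⟩
  rintro L e C ⟨D, h1, h2, h3, h4⟩
  have hn0 : (0 : ℝ) ≤ n' := Nat.cast_nonneg n'
  have hnD : (n' : ℝ) * (K' * (D + 1)) + 2 * K ≤ n * D := by
    have a1 : (2 * n' * K' + 2 * K) * D ≤ n * D := mul_le_mul_of_nonneg_right hn (by linarith)
    have a2 : 2 * K ≤ 2 * K * D := by nlinarith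
    have a3 : (n' : ℝ) * K' * (D + 1) ≤ n' * K' * (2 * D) :=
      mul_le_mul_of_nonneg_left (by linarith) (by positivity)
    nlinarith
  refine ⟨K' * (D + 1), by nlinarith, ?_, ?_, ?_⟩
  · calc K * (C + 1) ≤ K * (D + 1) := mul_le_mul_of_nonneg_left (by linarith) hK
      _ ≤ K' * (D + 1) := mul_le_mul_of_nonneg_right hKK (by linarith)
  · have b1 : (1 : ℝ) ≤ Real.exp (-(n * D)) * L := by
      rw [Real.exp_neg, ← div_eq_inv_mul, le_div_iff₀ (Real.exp_pos _)]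
      linarith
    have b2 : K * (e + 1) ≤ 2 * K * Real.exp (-(n * D)) * L := by nlinarith
    refine b2.trans (mul_le_mul_of_nonneg_right ?_ (Nat.cast_nonneg _))
    calc 2 * K * Real.exp (-(n * D))
        ≤ 2 * K * (Real.exp (-(2 * K)) * Real.exp (-(n' * (K' * (D + 1))))) := by
          refine mul_le_mul_of_nonneg_left ?_ (by linarith)
          rw [← Real.exp_add]
          exact Real.exp_le_exp.2 (by linarith)
      _ = (2 * K * Real.exp (-(2 * K))) * Real.exp (-(n' * (K' * (D + 1)))) := by ring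
      _ ≤ 1 * Real.exp (-(n' * (K' * (D + 1)))) :=
          mul_le_mul_of_nonneg_right (mul_exp_neg_le_one _) (Real.exp_pos _).le
      _ = _ := one_mul _
  · exact (Real.exp_le_exp.2 (by linarith)).trans h4

theorem okP_sub (g : Unit) (η : ℝ) (hη : 0 < η) : ∃ g' : Unit, ∀ n' : ℕ, ∃ n : ℕ,
    ∀ (L L' : ℕ) (e C : ℝ), okP g n L e C → η * L ≤ L' → L' ≤ L → okP g' n' L' e C := by
  refine ⟨(), fun n' => ?_⟩
  obtain ⟨n0, hn0⟩ := exists_nat_ge (1 / η)
  refine ⟨n' + n0, ?_⟩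
  rintro L L' e C ⟨D, h1, h2, h3, h4⟩ h5 _
  have hB : (n' : ℝ) + 1 / η ≤ ((n' + n0 : ℕ) : ℝ) := by push_cast; linarith
  have hL : (L : ℝ) ≤ Real.exp (1 / η * D) * L' := by
    have c1 : (L : ℝ) ≤ 1 / η * L' := by
      rw [one_div, inv_mul_eq_div, le_div_iff₀ hη]
      linarith
    refine c1.trans (mul_le_mul_of_nonneg_right ?_ (Nat.cast_nonneg _))
    have c2 : 0 < 1 / η := by positivity
    have c3 : 1 / η ≤ 1 / η * D := by nlinarith
    linarith [Real.add_one_le_exp (1 / η * D)]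
  obtain ⟨a, b⟩ := okP_shrink h1 h3 h4 hB hL
  exact ⟨D, h1, h2, a, b⟩

theorem okP_small (g : Unit) (ε : ℝ) (hε : 0 < ε) : ∃ n : ℕ, ∀ (L : ℕ) (e C : ℝ),
    okP g n L e C → 1 ≤ ε * L ∧ e ≤ ε * L ∧ C ≤ ε * L := by
  obtain ⟨n, hn⟩ := exists_nat_ge (1 / ε)
  refine ⟨n, ?_⟩
  rintro L e C ⟨D, h1, h2, h3, h4⟩
  have hn' : 1 ≤ ε * n := by
    rw [div_le_iff₀ hε] at hn
    linarith
  have hn0 : (0 : ℝ) ≤ n := Nat.cast_nonneg n
  have hD : D ≤ ε * (n * D) := by nlinarith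
  have h5 : (n : ℝ) * D + 1 ≤ Real.exp (n * D) := Real.add_one_le_exp _
  have h6 : D ≤ ε * L := by nlinarith
  refine ⟨by linarith, ?_, by linarith⟩
  refine h3.trans (mul_le_mul_of_nonneg_right ?_ (Nat.cast_nonneg _))
  rw [Real.exp_neg, inv_le_comm₀ (Real.exp_pos _) hε]
  rw [← one_div]
  have : (n : ℝ) ≤ n * D := by nlinarith
  linarith

theorem okP_win (g : Unit) (κ : ℕ) (εu : ℝ) (hεu : 0 < εu) : ∃ g' : Unit, ∀ n' : ℕ, ∃ n : ℕ,
    ∀ (L L' : ℕ) (e C : ℝ), okP g n L e C →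
    (L : ℝ) ≤ (κ + 4 : ℝ) ^ (8 * (max C 0 + 1) / εu + 3) * L' → L' ≤ L → okP g' n' L' e C := by
  refine ⟨(), fun n' => ?_⟩
  have hA : (1 : ℝ) ≤ (κ + 4 : ℝ) := by
    have : (0 : ℝ) ≤ κ := Nat.cast_nonneg κ
    linarith
  set B : ℝ := Real.log (κ + 4) * (16 / εu + 3) with hB0
  obtain ⟨n0, hn0⟩ := exists_nat_ge B
  refine ⟨n' + n0, ?_⟩
  rintro L L' e C ⟨D, h1, h2, h3, h4⟩ h5 _
  have hB : (n' : ℝ) + B ≤ ((n' + n0 : ℕ) : ℝ) := by push_cast; linarith
  have hL : (L : ℝ) ≤ Real.exp (B * D) * L' := by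
    refine h5.trans (mul_le_mul_of_nonneg_right ?_ (Nat.cast_nonneg _))
    rw [Real.rpow_def_of_pos (by linarith)]
    refine Real.exp_le_exp.2 ?_
    rw [hB0, mul_assoc]
    refine mul_le_mul_of_nonneg_left ?_ (Real.log_nonneg hA)
    have c1 : max C 0 ≤ D := max_le h2 (by linarith)
    have c2 : 8 * (max C 0 + 1) / εu ≤ 16 / εu * D := by
      rw [div_mul_eq_mul_div]
      exact div_le_div_of_nonneg_right (by linarith) hεu.le
    linarith
  obtain ⟨a, b⟩ := okP_shrink h1 h3 h4 hB hL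
  exact ⟨D, h1, h2, a, b⟩

/-- the growth class for the Hausdorff dimension of sticky sets -/
def GrP : Gr where
  G := Unit
  ok := okP
  anti := okP_anti
  mono := okP_mono
  dom := okP_dom
  sub := okP_sub
  small := okP_small
  win := okP_win

end Vale.Agent.P127.Stk
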