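import Mathlib

/-!
# P127 / Stk : a geometric sequence of scales
-/

namespace Vale.Agent.P127.Stk

open Finset

/-- the sequence of scales -/
def scSeq (q k0 : ℕ) : ℕ → ℕ
  | 0 => k0
  | j + 1 => scSeq q k0 j + scSeq q k0 j / q

theorem scSeq_ge (q k0 : ℕ) (j : ℕ) : k0 ≤ scSeq q k0 j := by
  induction j with
  | zero => exact le_rfl
  | succ j ih => exact ih.trans (Nat.le_add_right _ _)

theorem scSeq_strictMono {q k0 : ℕ} (hq : 1 ≤ q) (hk : q ≤ k0) : StrictMono (scSeq q k0) := by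
  refine strictMono_nat_of_lt_succ fun j => ?_
  have h1 : q ≤ scSeq q k0 j := hk.trans (scSeq_ge q k0 j)
  have h2 : 0 < scSeq q k0 j / q := Nat.div_pos h1 hq
  show scSeq q k0 j < scSeq q k0 j + scSeq q k0 j / q
  omega

theorem scSeq_le {q k0 : ℕ} (j : ℕ) :
    (scSeq q k0 (j + 1) : ℝ) ≤ (1 + 1 / (q : ℝ)) * scSeq q k0 j := by
  show ((scSeq q k0 j + scSeq q k0 j / q : ℕ) : ℝ) ≤ _
  have h : ((scSeq q k0 j / q : ℕ) : ℝ) ≤ (scSeq q k0 j : ℝ) / q := Nat.cast_div_le
  push_cast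
  have : (1 + 1 / (q : ℝ)) * scSeq q k0 j = scSeq q k0 j + (scSeq q k0 j : ℝ) / q := by ring
  rw [this]
  linarith

theorem scSeq_succ_ge {q k0 : ℕ} (hq : 1 ≤ q) (hk : 2 * q ≤ k0) (j : ℕ) :
    (1 + 1 / (2 * q : ℝ)) * scSeq q k0 j ≤ scSeq q k0 (j + 1) := by
  show _ ≤ ((scSeq q k0 j + scSeq q k0 j / q : ℕ) : ℝ)
  set a := scSeq q k0 j with ha
  have h1 : 2 * q ≤ a := hk.trans (scSeq_ge q k0 j)
  have h2 : a < q * (a / q + 1) := Nat.lt_mul_div_succ a hq
  have h3 : (a : ℝ) < q * ((a / q : ℕ) + 1) := by exact_mod_cast h2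
  have h4 : (2 : ℝ) * q ≤ a := by exact_mod_cast h1
  have hq0 : (0 : ℝ) < q := by exact_mod_cast hq
  have h5 : (a : ℝ) / (2 * q) ≤ (a / q : ℕ) := by
    rw [div_le_iff₀ (by positivity)]
    nlinarith
  push_cast
  have : (1 + 1 / (2 * q : ℝ)) * a = a + (a : ℝ) / (2 * q) := by ring
  rw [this]
  linarith

theorem scSeq_pow_le {q k0 : ℕ} (hq : 1 ≤ q) (hk : 2 * q ≤ k0) (j i : ℕ) :
    (1 + 1 / (2 * q : ℝ)) ^ i * scSeq q k0 j ≤ scSeq q k0 (j + i) := by
  induction i with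
  | zero => simp
  | succ i ih =>
    have h1 := scSeq_succ_ge hq hk (j + i)
    have h2 : (0 : ℝ) ≤ 1 + 1 / (2 * q : ℝ) := by positivity
    calc (1 + 1 / (2 * q : ℝ)) ^ (i + 1) * scSeq q k0 j
        = (1 + 1 / (2 * q : ℝ)) * ((1 + 1 / (2 * q : ℝ)) ^ i * scSeq q k0 j) := by ring
      _ ≤ (1 + 1 / (2 * q : ℝ)) * scSeq q k0 (j + i) := mul_le_mul_of_nonneg_left ih h2
      _ ≤ scSeq q k0 (j + i + 1) := h1

/-- the number of scales in a window of ratio `M` -/
theorem scSeq_card {q M k0 : ℕ} (hq : 1 ≤ q) (hM : 1 ≤ M) (hk : 2 * q ≤ k0) (j : ℕ) :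
    (((Finset.range j).filter fun j' => scSeq q k0 j / M < scSeq q k0 j').card : ℝ) ≤
      3 * q * Real.log M := by
  set S := (Finset.range j).filter fun j' => scSeq q k0 j / M < scSeq q k0 j' with hS
  have hq1 : (1 : ℝ) ≤ q := by exact_mod_cast hq
  have hM1 : (1 : ℝ) ≤ M := by exact_mod_cast hM
  have hlog : 0 ≤ Real.log M := Real.log_nonneg hM1
  rcases S.eq_empty_or_nonempty with h | h
  · rw [h]
    simp only [Finset.card_empty, Nat.cast_zero]
    positivity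
  · obtain ⟨j0, hj0, hmin⟩ := S.exists_min_image id h
    have hj0' := hj0
    rw [hS, Finset.mem_filter, Finset.mem_range] at hj0'
    obtain ⟨hlt, hgt⟩ := hj0'
    have hsub : S ⊆ Finset.Ico j0 j := by
      intro i hi
      have h1 : j0 ≤ i := hmin i hi
      rw [hS, Finset.mem_filter, Finset.mem_range] at hi
      exact Finset.mem_Ico.2 ⟨h1, hi.1⟩
    have hcard : S.card ≤ j - j0 := by
      have := Finset.card_le_card hsub
      rwa [Nat.card_Ico] at this
    have hcard' : (S.card : ℝ) ≤ ((j - j0 : ℕ) : ℝ) := by exact_mod_cast hcard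
    refine hcard'.trans ?_
    set i := j - j0 with hi
    have hji : j = j0 + i := by omega
    have hpow := scSeq_pow_le (k0 := k0) hq hk j0 i
    rw [← hji] at hpow
    have hN : scSeq q k0 j < M * scSeq q k0 j0 := by
      have := (Nat.div_lt_iff_lt_mul (by omega : 0 < M)).1 hgt
      rwa [mul_comm] at this
    have hN' : (scSeq q k0 j : ℝ) < M * scSeq q k0 j0 := by exact_mod_cast hN
    have hpos : (0 : ℝ) < scSeq q k0 j0 := by
      have : 0 < scSeq q k0 j0 := by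
        have := scSeq_ge q k0 j0
        omega
      exact_mod_cast this
    have hlt2 : (1 + 1 / (2 * q : ℝ)) ^ i < M := by
      have h1 : (1 + 1 / (2 * q : ℝ)) ^ i * scSeq q k0 j0 < M * scSeq q k0 j0 :=
        lt_of_le_of_lt hpow hN'
      exact lt_of_mul_lt_mul_right h1 hpos.le
    have hb : (0 : ℝ) < 1 + 1 / (2 * q : ℝ) := by positivity
    have hlog2 : (i : ℝ) * Real.log (1 + 1 / (2 * q : ℝ)) ≤ Real.log M := by
      rw [← Real.log_pow]
      exact Real.log_le_log (pow_pos hb _) hlt2.le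
    have hlog3 : 1 / (3 * q : ℝ) ≤ Real.log (1 + 1 / (2 * q : ℝ)) := by
      have h1 := Real.one_sub_inv_le_log_of_pos hb
      refine le_trans ?_ h1
      have h2 : (1 + 1 / (2 * q : ℝ))⁻¹ = 2 * q / (2 * q + 1) := by
        field_simp
      rw [h2]
      have h3 : 1 - 2 * (q : ℝ) / (2 * q + 1) = 1 / (2 * q + 1) := by
        field_simp
        ring
      rw [h3]
      exact one_div_le_one_div_of_le (by positivity) (by linarith)
    have hi0 : (0 : ℝ) ≤ i := Nat.cast_nonneg i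
    have h4 : (i : ℝ) * (1 / (3 * q : ℝ)) ≤ Real.log M :=
      (mul_le_mul_of_nonneg_left hlog3 hi0).trans hlog2
    rw [mul_one_div, div_le_iff₀ (by positivity)] at h4
    linarith

/-- a geometric sequence of scales with ratio at most `1 + 1/q`; a window of ratio `M` contains
at most `3 q log M` scales -/
theorem scales (q M k0 : ℕ) (hq : 1 ≤ q) (hM : 1 ≤ M) (hk0 : 2 * q ≤ k0) :
    ∃ N : ℕ → ℕ, N 0 = k0 ∧ StrictMono N ∧ (∀ j, (N (j + 1) : ℝ) ≤ (1 + 1 / q) * N j) ∧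
      ∀ j, (((Finset.range j).filter fun j' => N j / M < N j').card : ℝ) ≤
        3 * q * Real.log M :=
  ⟨scSeq q k0, rfl, scSeq_strictMono hq (by omega), fun j => scSeq_le j,
    fun j => scSeq_card hq hM hk0 j⟩

end Vale.Agent.P127.Stk
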