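import Vale.Agent.P127.Stk.ExtCov
import Vale.Agent.P127.Stk.InstP
import Vale.Agent.P127.Stk.Scales

/-!
# P127 / Stk : the normalised Hausdorff extraction
-/

namespace Vale.Agent.P127.Stk

open Finset Vale.Agent.P127 MeasureTheory

/-- the selection lemma, as a proposition -/
def SelProp : Prop := ∀ (N p : ℕ → ℕ), StrictMono N → (∀ j, p j ≤ N j) → ∀ B : ℕ,
  (∀ j, ((Finset.range j).filter fun j' => p j < N j').card ≤ B) → ∀ T : ℕ → Set ℝ,
  (∀ j, ∀ t ∈ Set.Ico (0 : ℝ) 1, ∀ t' ∈ Set.Ico (0 : ℝ) 1,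
    fl1 (N j) t = fl1 (N j) t' → t ∈ T j → t' ∈ T j) →
  (∀ t ∈ Set.Icc (0 : ℝ) 1, ∃ j, ∃ δ > 0, ∀ t' ∈ Set.Ico (0 : ℝ) 1, |t' - t| < δ → t' ∈ T j) →
  ∃ j, ∃ i : ℤ, 0 ≤ i ∧ i < 2 ^ p j ∧
    ENNReal.ofReal ((1 / 2) ^ (p j) / (4 * (B + 1))) ≤
      volume (T j ∩ {t | t ∈ Set.Ico (0 : ℝ) 1 ∧ fl1 (p j) t = i})

/-- growth of the dyadic scale beats the logarithmic losses -/
lemma growth' (ε M K0 : ℝ) (hε : 0 < ε) (hM : 0 ≤ M) :
    ∃ k0 : ℕ, ∀ k : ℕ, k0 ≤ k → K0 + M * (-Real.log (aw k)) < ε * k := by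
  set U : ℝ := (4 * M + |K0| + 2 * ε + 1) / ε + 1 with hU
  have hU1 : 1 ≤ U := by
    have : 0 ≤ (4 * M + |K0| + 2 * ε + 1) / ε := by positivity
    linarith
  refine ⟨⌈U ^ 2⌉₊, fun k hk => ?_⟩
  have hk' : U ^ 2 ≤ k := (Nat.le_ceil _).trans (by exact_mod_cast hk)
  set u := Real.sqrt ((k : ℝ) + 2) with hu
  have hu2 : u ^ 2 = k + 2 := Real.sq_sqrt (by positivity)
  have huU : U ≤ u := Real.le_sqrt_of_sq_le (by linarith)
  have hu0 : 0 < u := by linarith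
  have h1 : -Real.log (aw k) ≤ 4 * u := by
    unfold aw
    rw [one_div, Real.log_inv, neg_neg, Real.log_mul (by positivity) (by positivity)]
    have h2 : Real.log ((k : ℝ) + 1) ≤ Real.log (k + 2) :=
      Real.log_le_log (by positivity) (by linarith)
    have h3 : Real.log ((k : ℝ) + 2) ≤ 2 * u := by
      have h4 := Real.log_le_sub_one_of_pos hu0
      have h5 : Real.log ((k : ℝ) + 2) = 2 * Real.log u := by
        rw [← hu2, Real.log_pow]
        norm_num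
      linarith
    linarith
  have h2 : M * (-Real.log (aw k)) ≤ M * (4 * u) := mul_le_mul_of_nonneg_left h1 hM
  have h3 : (k : ℝ) = u ^ 2 - 2 := by linarith
  have h4 : (4 * M + |K0| + 2 * ε + 1) < ε * u := by
    have : (4 * M + |K0| + 2 * ε + 1) / ε < u := by linarith
    rw [div_lt_iff₀ hε] at this
    linarith
  have h5 : (4 * M + |K0| + 2 * ε + 1) * u ≤ ε * u * u := by
    exact mul_le_mul_of_nonneg_right h4.le hu0.le
  have h6 : |K0| ≤ |K0| * u := le_mul_of_one_le_right (abs_nonneg _) (by linarith)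
  have h7 : K0 ≤ |K0| := le_abs_self _
  have h8 : 2 * ε ≤ 2 * ε * u := le_mul_of_one_le_right (by positivity) (by linarith)
  rw [h3]
  nlinarith

/-- ONE SCALE: choice of a class of balls and of a short time interval, and the law -/
theorem one_scale_stk (hsel : SelProp) {m : ℕ} {K' : Set (EuclideanSpace ℝ (Fin (m + 1)))}
    {Y : Set (Fin m → ℝ)} {x : (Fin m → ℝ) → Fin m → ℝ}
    (hY01 : ∀ y ∈ Y, ∀ i, 0 ≤ y i ∧ y i < 1) (hx01 : ∀ y ∈ Y, ∀ i, 0 ≤ x y i ∧ x y i < 1)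
    {w : ℝ} (hw : 0 < w) (hwY : ENNReal.ofReal w ≤ volume Y)
    (hline : ∀ y ∈ Y, ∀ t ∈ Set.Icc (0 : ℝ) 1, pt (x y) y t ∈ K') {A η : ℝ} (hA : 0 < A)
    (hη : 0 ≤ η)
    (hcell : ∀ s : ℕ, ∃ F : Finset ((Fin m → ℤ) × (Fin m → ℤ)),
      (F.card : ℝ) ≤ A * 2 ^ ((m + η) * s) ∧ ∀ y ∈ Y, (fl s (x y), fl s y) ∈ F)
    {s : NNReal} (hs : dimH K' < s) (q M k0 B : ℕ) (hq : 1 ≤ q) (hM : 1 ≤ M) (hk0 : 2 * q ≤ k0)
    (hB : 3 * q * Real.log M ≤ B) :
    ∃ (j N N' : ℕ), k0 ≤ N ∧ j ≤ N ∧ (N' : ℝ) ≤ (1 + 1 / q) * N ∧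
    ∃ (Ω : Type) (_ : Fintype Ω) (P : Law Ω) (c : Cf Ω m),
      Good P c (N - N / M)
        (max (Real.log (3 ^ m * A) + ((m + η) * ((N / M : ℕ) : ℝ) + η * N) * Real.log 2)
          (Real.log (1 / (w / 2 * aw j /
            ((2 : ℝ) ^ (N / M) * ((2 : ℝ) ^ (N / M + 1)) ^ m)))))
        (Real.log (1 / (1 / (4 * ((B : ℝ) + 1))))) ∧
      hc P (fun ω => fl (N - N / M) (c.pt ω)) (fun ω => (c.t ω, c.A ω)) ≤
        (s * N' * Real.log 2 + (m + 1) * Real.log 9) - ((N : ℝ) - ((N / M : ℕ) : ℝ)) * Real.log 2 +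
          Real.log (1 / (1 / (4 * ((B : ℝ) + 1)))) + m * Real.log 3 := by
  classical
  obtain ⟨N, hN0, hNm, hNq, hNB⟩ := scales q M k0 hq hM hk0
  obtain ⟨xc, ρ, hρ0, hρr, hKc, hsum⟩ := exists_cover hs (r := (1 / 2) ^ k0) (by positivity)
  have hs0 : (0 : ℝ) < s := by
    have : (0 : ENNReal) < s := lt_of_le_of_lt zero_le hs
    exact_mod_cast this
  choose Cl hCl hClc using fun j => exists_block hs0 hsum (N j) (N (j + 1))
  -- every ball belongs to a class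
  have hclass : ∀ i, ∃ j, i ∈ Cl j := by
    intro i
    have hex : ∃ j, (1 / 2 : ℝ) ^ (N j) < ρ i := by
      obtain ⟨k, hk⟩ := exists_pow_lt_of_lt_one (hρ0 i) (by norm_num : (1 / 2 : ℝ) < 1)
      exact ⟨k, lt_of_le_of_lt (pow_le_pow_of_le_one (by norm_num) (by norm_num)
        hNm.le_apply) hk⟩
    classical
    have h1 := Nat.find_spec hex
    have h0 : Nat.find hex ≠ 0 := by
      intro h0
      rw [h0, hN0] at h1
      exact absurd (hρr i) (not_le.2 h1)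
    obtain ⟨j, hj⟩ := Nat.exists_eq_succ_of_ne_zero h0
    refine ⟨j, (hCl j i).2 ⟨?_, ?_⟩⟩
    · rw [hj] at h1
      exact h1
    · have := Nat.find_min hex (m := j) (by omega)
      exact not_lt.1 this
  have hk0N : ∀ j, k0 ≤ N j := fun j => by
    rw [← hN0]
    exact hNm.monotone (Nat.zero_le j)
  -- the times
  set T : ℕ → (Fin m → ℝ) → Set ℝ := fun j y =>
    {t | t ∈ Set.Ico (0 : ℝ) 1 ∧ ∃ t' ∈ Set.Ico (0 : ℝ) 1, fl1 (N j) t = fl1 (N j) t' ∧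
      ∃ i ∈ Cl j, pt (x y) y t' ∈ Metric.closedBall (xc i) (2 * ρ i)} with hT
  have hc0 : (0 : ℝ) < 1 / (4 * ((B : ℝ) + 1)) := by positivity
  -- selection
  have hselY : ∀ y ∈ Y, ∃ j, ∃ i : ℤ, 0 ≤ i ∧ i < 2 ^ (N j / M) ∧
      ENNReal.ofReal (1 / (4 * ((B : ℝ) + 1)) * (1 / 2) ^ (N j / M)) ≤
        volume (T j y ∩ {t | fl1 (N j / M) t = i}) := by
    intro y hy
    obtain ⟨j, i, hi0, hi1, hv⟩ := hsel N (fun j => N j / M) hNm
      (fun j => Nat.div_le_self _ _) B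
      (fun j => by
        have h1 := (hNB j).trans hB
        exact_mod_cast h1) (fun j => T j y)
      (by
        intro j t _ t' ht' htt hmem
        obtain ⟨_, t2, ht2, hf, hb⟩ := hmem
        exact ⟨ht', t2, ht2, htt.symm.trans hf, hb⟩)
      (by
        intro t ht
        obtain ⟨i, hi⟩ := Set.mem_iUnion.1 (hKc (hline y hy t ht))
        obtain ⟨j, hj⟩ := hclass i
        have hsq : 0 < Real.sqrt ((m : ℝ) + 1) := Real.sqrt_pos.2 (by positivity)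
        refine ⟨j, ρ i / Real.sqrt (m + 1), div_pos (hρ0 i) hsq, ?_⟩
        intro t' ht' htt
        refine ⟨ht', t', ht', rfl, i, hj, ?_⟩
        rw [Metric.mem_closedBall] at hi ⊢
        have h1 := dist_pt (x y) y (hY01 y hy) t' t
        have h2 : Real.sqrt (m + 1) * |t' - t| ≤ ρ i := by
          rw [lt_div_iff₀ hsq] at htt
          linarith
        have h3 := dist_triangle (pt (x y) y t') (pt (x y) y t) (xc i)
        linarith)
    refine ⟨j, i, hi0, hi1, ?_⟩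
    refine le_trans (le_of_eq ?_) (hv.trans (measure_mono ?_))
    · congr 1
      ring
    · rintro t ⟨h1, h2⟩
      exact ⟨h1, h2.2⟩
  -- pigeonhole on the class
  have hcov : Y ⊆ ⋃ j, {y | y ∈ Y ∧ ∃ i : ℤ, 0 ≤ i ∧ i < 2 ^ (N j / M) ∧
      ENNReal.ofReal (1 / (4 * ((B : ℝ) + 1)) * (1 / 2) ^ (N j / M)) ≤
        volume (T j y ∩ {t | fl1 (N j / M) t = i})} := by
    intro y hy
    obtain ⟨j, hj⟩ := hselY y hy
    exact Set.mem_iUnion.2 ⟨j, hy, hj⟩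
  obtain ⟨j, hj⟩ := pigeon volume _ _ hcov hw hwY
  have hw' : 0 < w / 2 * aw j := mul_pos (by positivity) (aw_pos j)
  -- pigeonhole on the interval and on the cell
  obtain ⟨Q, hQ⟩ : ∃ Q : Finset (ℤ × (Fin m → ℤ)), Q = Finset.Ico (0 : ℤ) (2 ^ (N j / M)) ×ˢ
    (Fintype.piFinset fun _ : Fin m => Finset.Ico (0 : ℤ) (2 ^ (N j / M + 1))) := ⟨_, rfl⟩
  have hQc : (Q.card : ℝ) = (2 : ℝ) ^ (N j / M) * ((2 : ℝ) ^ (N j / M + 1)) ^ m := by
    rw [hQ, Finset.card_product, Fintype.card_piFinset]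
    simp only [Int.card_Ico, sub_zero, Finset.prod_const, Finset.card_univ, Fintype.card_fin,
      toNat_pow_aux]
    push_cast
    ring
  obtain ⟨z, hzQ, hz⟩ := pigeon_fin volume _ Q
    (fun z => {y | y ∈ Y ∧
      ENNReal.ofReal (1 / (4 * ((B : ℝ) + 1)) * (1 / 2) ^ (N j / M)) ≤
        volume (T j y ∩ {t | fl1 (N j / M) t = z.1}) ∧
      fl (N j / M) (fun i => x y i + (z.1 : ℝ) / 2 ^ (N j / M) * y i) = z.2}) (by
      rintro y ⟨hy, i, hi0, hi1, hv⟩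
      refine Set.mem_iUnion₂.2 ⟨(i, fl (N j / M) (fun k => x y k +
        (i : ℝ) / 2 ^ (N j / M) * y k)), ?_, hy, hv, rfl⟩
      rw [hQ, Finset.mem_product, Fintype.mem_piFinset, Finset.mem_Ico]
      refine ⟨⟨hi0, hi1⟩, fun k => ?_⟩
      rw [Finset.mem_Ico]
      have h2p : (0 : ℝ) < 2 ^ (N j / M) := by positivity
      have h1 := hx01 y hy k
      have h2 := hY01 y hy k
      have h3 : (0 : ℝ) ≤ i := by exact_mod_cast hi0
      have h4 : (i : ℝ) < 2 ^ (N j / M) := by exact_mod_cast hi1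
      have h5 : 0 ≤ (i : ℝ) / 2 ^ (N j / M) := by positivity
      have h6 : (i : ℝ) / 2 ^ (N j / M) ≤ 1 := by
        rw [div_le_one h2p]
        exact h4.le
      have h7 : (i : ℝ) / 2 ^ (N j / M) * y k ≤ 1 := by nlinarith [h2.1, h2.2]
      have h8 : 0 ≤ (i : ℝ) / 2 ^ (N j / M) * y k := mul_nonneg h5 h2.1
      constructor
      · exact Int.floor_nonneg.2 (mul_nonneg h2p.le (by linarith [h1.1]))
      · show ⌊(2 : ℝ) ^ (N j / M) * (x y k + (i : ℝ) / 2 ^ (N j / M) * y k)⌋ < 2 ^ (N j / M + 1)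
        rw [Int.floor_lt]
        push_cast
        rw [pow_succ]
        refine mul_lt_mul_of_pos_left ?_ h2p
        linarith [h1.2]) hw' hj
  rw [hQ, Finset.mem_product, Finset.mem_Ico] at hzQ
  rw [hQc] at hz
  -- the covering cells
  obtain ⟨F0, hF0c, hF0⟩ := cover_cells (Cl j) xc ρ (N j) (fun i hi => ((hCl j i).1 hi).2)
  have hres := rescale (m := m) (N := N j) (p := N j / M) (Nat.div_le_self _ _) z.1 hzQ.1 z.2
    _ x (T j) (1 / (4 * ((B : ℝ) + 1)))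
    (w / 2 * aw j / ((2 : ℝ) ^ (N j / M) * ((2 : ℝ) ^ (N j / M + 1)) ^ m)) A η hc0
    (by positivity) hA hη (fun y hy => hY01 y hy.1) (fun y hy => hy.2.2) (fun y hy => hy.2.1) hz
    (fun s _ => by
      obtain ⟨F, h1, h2⟩ := hcell s
      exact ⟨F, h1, fun y hy => h2 y hy.1⟩) F0 (by
      intro y hy t ht _
      obtain ⟨_, t', _, hf, hb⟩ := ht
      exact hF0 (x y) y t t' (hY01 y hy.1) hf hb)
  obtain ⟨Ω, inst, P, c, hgood, hrate⟩ := hres
  refine ⟨j, N j, N (j + 1), hk0N j, hNm.le_apply, hNq j, Ω, inst, P, c, hgood, hrate.trans ?_⟩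
  have h1 : Real.log F0.card ≤ s * N (j + 1) * Real.log 2 + (m + 1) * Real.log 9 := by
    have h2 : (F0.card : ℝ) ≤ (2 : ℝ) ^ ((N (j + 1) : ℝ) * s) * 9 ^ (m + 1) :=
      hF0c.trans (mul_le_mul_of_nonneg_right (hClc j) (by positivity))
    have h3 : Real.log ((2 : ℝ) ^ ((N (j + 1) : ℝ) * s) * 9 ^ (m + 1)) =
        s * N (j + 1) * Real.log 2 + (m + 1) * Real.log 9 := by
      rw [Real.log_mul (by positivity) (by positivity), Real.log_rpow (by norm_num),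
        Real.log_pow]
      push_cast
      ring
    rcases Nat.eq_zero_or_pos F0.card with h0 | h0
    · rw [h0]
      simp only [Nat.cast_zero, Real.log_zero]
      have := Real.log_nonneg (by norm_num : (1 : ℝ) ≤ 2)
      have := Real.log_nonneg (by norm_num : (1 : ℝ) ≤ 9)
      positivity
    · rw [← h3]
      exact Real.log_le_log (by exact_mod_cast h0) h2
  linarith

/-- the lower bound of the entropy rate in the growth class `GrP`, unfolded -/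
lemma lb_unfold {m : ℕ} {h : ℝ} (hLB : LB GrP m h) {ι : ℝ} (hι : 0 < ι) :
    ∃ n : ℕ, ∀ (L : ℕ) (e C D : ℝ), 1 ≤ D → C ≤ D → e ≤ Real.exp (-(n * D)) * L →
      Real.exp (n * D) ≤ L → ∀ (Ω : Type) [Fintype Ω] (P : Law Ω) (c : Cf Ω m), Good P c L e C →
      (h - ι) * L * Real.log 2 ≤ hc P (fun ω => fl L (c.pt ω)) (fun ω => (c.t ω, c.A ω)) := by
  obtain ⟨n, hn⟩ := hLB ι hι ()
  refine ⟨n, ?_⟩
  intro L e C D h1 h2 h3 h4 Ω _ P c hg
  exact hn L e C ⟨D, h1, h2, h3, h4⟩ Ω P c hg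

/-- the numerics of the error -/
lemma err_num {m p : ℕ} {N A w G η aj aN K1 : ℝ} (hG : 0 < G) (hη : η = 1 / (8 * G))
    (hη0 : 0 < η) (hη1 : η ≤ 1) (hN : 0 < N) (hw : 0 < w) (haj : 0 < aj)
    (hK1 : K1 = |Real.log (3 ^ m * A)| + |Real.log (2 / w)| + m)
    (hNG : K1 + 1 * (-Real.log aN) < 1 / (4 * G) * N) (haw : -Real.log aj ≤ -Real.log aN)
    (hlogs : 0 ≤ -Real.log aN) (hsmall : ((m : ℝ) + 1) * (p : ℝ) ≤ 1 / (8 * G) * N) :
    max (Real.log (3 ^ m * A) + ((m + η) * (p : ℝ) + η * N) * Real.log 2)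
      (Real.log (1 / (w / 2 * aj / ((2 : ℝ) ^ p * ((2 : ℝ) ^ (p + 1)) ^ m)))) ≤
      1 / (2 * G) * N := by
  have hm0 : (0 : ℝ) ≤ m := Nat.cast_nonneg m
  have hp0 : (0 : ℝ) ≤ p := Nat.cast_nonneg p
  have hl2 : 0 < Real.log 2 := Real.log_pos (by norm_num)
  have hl21 : Real.log 2 ≤ 1 := by
    have := Real.log_two_lt_d9
    linarith
  have hsum : 1 / (4 * G) * N + 1 / (8 * G) * N + 1 / (8 * G) * N = 1 / (2 * G) * N := by
    field_simp
    norm_num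
  have hηN : η * N = 1 / (8 * G) * N := by rw [hη]
  have h6 : 0 ≤ 1 / (8 * G) * N := by positivity
  have h4 := le_abs_self (Real.log (3 ^ m * A))
  have h5 := abs_nonneg (Real.log (2 / w))
  have h4' := le_abs_self (Real.log (2 / w))
  have h5' := abs_nonneg (Real.log (3 ^ m * A))
  refine max_le ?_ ?_
  · have h0 : 0 ≤ (m + η) * (p : ℝ) + η * N := by positivity
    have h1 : ((m + η) * (p : ℝ) + η * N) * Real.log 2 ≤ (m + η) * (p : ℝ) + η * N :=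
      mul_le_of_le_one_right h0 hl21
    have h3 : (m + η) * (p : ℝ) ≤ ((m : ℝ) + 1) * p :=
      mul_le_mul_of_nonneg_right (by linarith) hp0
    linarith
  · have h1 : Real.log (1 / (w / 2 * aj / ((2 : ℝ) ^ p * ((2 : ℝ) ^ (p + 1)) ^ m))) =
        Real.log (2 / w) - Real.log aj + ((p : ℝ) + m * ((p : ℝ) + 1)) * Real.log 2 := by
      have e : 1 / (w / 2 * aj / ((2 : ℝ) ^ p * ((2 : ℝ) ^ (p + 1)) ^ m)) =
          (2 / w) * aj⁻¹ * ((2 : ℝ) ^ p * ((2 : ℝ) ^ (p + 1)) ^ m) := by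
        field_simp
      rw [e, Real.log_mul (by positivity) (by positivity),
        Real.log_mul (by positivity) (by positivity),
        Real.log_mul (by positivity) (by positivity), Real.log_inv, Real.log_pow, Real.log_pow,
        Real.log_pow]
      push_cast
      ring
    rw [h1]
    have h0 : 0 ≤ (p : ℝ) + m * ((p : ℝ) + 1) := by positivity
    have h3 : ((p : ℝ) + m * ((p : ℝ) + 1)) * Real.log 2 ≤ (p : ℝ) + m * ((p : ℝ) + 1) :=
      mul_le_of_le_one_right h0 hl21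
    have h7 : (p : ℝ) + m * ((p : ℝ) + 1) = ((m : ℝ) + 1) * p + m := by ring
    linarith

/-- the numerics of the contradiction -/
lemma final_num {m p : ℕ} {N N' s ε0 ι q M K3 D R : ℝ} (hε : 0 < ε0) (hι0 : 0 < ι)
    (hι2 : ι ≤ ε0 / 4) (hq : 0 < q) (hM : 0 < M) (hN : 0 < N) (hs0 : 0 < s)
    (hsm : s < m + 1 - ε0) (hqr : 4 * ((m : ℝ) + 1) / ε0 ≤ q)
    (hMr : 4 * ((m : ℝ) + 1) / ε0 ≤ M) (hN' : N' ≤ (1 + 1 / q) * N) (hpN : (p : ℝ) ≤ N / M)
    (hK3 : K3 = ((m : ℝ) + 1) * Real.log 9 + D + m * Real.log 3)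
    (h3N : 4 * K3 / (ε0 * Real.log 2) < N)
    (h1 : (m - ι) * (N - p) * Real.log 2 ≤ R)
    (h2 : R ≤ (s * N' * Real.log 2 + (m + 1) * Real.log 9) - (N - p) * Real.log 2 + D +
      m * Real.log 3) : False := by
  have hm0 : (0 : ℝ) ≤ m := Nat.cast_nonneg m
  have hp0 : (0 : ℝ) ≤ p := Nat.cast_nonneg p
  have hl2 : 0 < Real.log 2 := Real.log_pos (by norm_num)
  have hq4 : ((m : ℝ) + 1) / q ≤ ε0 / 4 := by
    rw [div_le_iff₀ hε] at hqr
    rw [div_le_div_iff₀ hq (by norm_num)]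
    linarith
  have hM4 : ((m : ℝ) + 1) / M ≤ ε0 / 4 := by
    rw [div_le_iff₀ hε] at hMr
    rw [div_le_div_iff₀ hM (by norm_num)]
    linarith
  rw [div_lt_iff₀ (by positivity)] at h3N
  have h5 : ((m : ℝ) + 1 - ι) * p ≤ ε0 / 4 * N := by
    calc ((m : ℝ) + 1 - ι) * p ≤ ((m : ℝ) + 1) * p := mul_le_mul_of_nonneg_right (by linarith) hp0
      _ ≤ ((m : ℝ) + 1) * (N / M) := mul_le_mul_of_nonneg_left hpN (by linarith)
      _ = (((m : ℝ) + 1) / M) * N := by ring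
      _ ≤ ε0 / 4 * N := mul_le_mul_of_nonneg_right hM4 hN.le
  have h8 : s * (1 / q) ≤ ε0 / 4 := by
    refine le_trans ?_ hq4
    rw [mul_one_div]
    exact div_le_div_of_nonneg_right (by linarith) hq.le
  have h6 : s * N' ≤ (s + ε0 / 4) * N := by
    calc s * N' ≤ s * ((1 + 1 / q) * N) := mul_le_mul_of_nonneg_left hN' hs0.le
      _ = (s + s * (1 / q)) * N := by ring
      _ ≤ (s + ε0 / 4) * N := mul_le_mul_of_nonneg_right (by linarith) hN.le
  have h7 : (((m : ℝ) + 1 - ι) * (N - p) - s * N') * Real.log 2 ≤ K3 := by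
    rw [hK3]
    linarith
  have h9 : ε0 / 4 * N ≤ ((m : ℝ) + 1 - ι) * (N - p) - s * N' := by
    have h10 : ((m : ℝ) + 1 - ι) * (N - p) = ((m : ℝ) + 1 - ι) * N - ((m : ℝ) + 1 - ι) * p := by
      ring
    have h11 : (s + ε0 / 4) * N ≤ (((m : ℝ) + 1 - ι) - ε0 / 4 - ε0 / 4) * N :=
      mul_le_mul_of_nonneg_right (by linarith) hN.le
    linarith
  have h12 := mul_le_mul_of_nonneg_right h9 hl2.le
  have h13 : ε0 / 4 * N * Real.log 2 = (N * (ε0 * Real.log 2)) / 4 := by ring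
  linarith

/-- the numerics of the parameters -/
lemma par_num {q u n B : ℕ} (hq : 1 ≤ q) (hu : 1 ≤ u) (hB : B = 3 * q * u) {D : ℝ}
    (hD : D = Real.log (1 / (1 / (4 * ((B : ℝ) + 1))))) :
    1 ≤ D ∧ Real.exp (n * D) ≤ (16 * (q : ℝ) * u) ^ n ∧
      3 * (q : ℝ) * Real.log ((2 ^ u : ℕ) : ℝ) ≤ B := by
  have h1q : (1 : ℝ) ≤ q := by exact_mod_cast hq
  have h1u : (1 : ℝ) ≤ u := by exact_mod_cast hu
  have hqu1 : (1 : ℝ) ≤ (q : ℝ) * u := one_le_mul_of_one_le_of_one_le h1q h1u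
  have hBr : (B : ℝ) = 3 * (q * u) := by rw [hB]; push_cast; ring
  have hD' : D = Real.log (4 * ((B : ℝ) + 1)) := by rw [hD, one_div_one_div]
  have hl21 : Real.log 2 ≤ 1 := by
    have := Real.log_two_lt_d9
    linarith
  refine ⟨?_, ?_, ?_⟩
  · rw [hD', Real.le_log_iff_exp_le (by positivity)]
    have h3 := Real.exp_one_lt_d9
    rw [hBr]
    linarith
  · rw [mul_comm, Real.exp_mul, hD', Real.exp_log (by positivity), Real.rpow_natCast]
    refine pow_le_pow_left₀ (by positivity) ?_ n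
    rw [hBr]
    linarith
  · push_cast
    rw [Real.log_pow, hBr]
    have h1 : (u : ℝ) * Real.log 2 ≤ u := mul_le_of_le_one_right (by positivity) hl21
    have h2 := mul_le_mul_of_nonneg_left h1 (by positivity : (0 : ℝ) ≤ 3 * q)
    linarith

/-- NORMALISED HAUSDORFF THEOREM -/
theorem haus_norm (hsel : SelProp) {m : ℕ} (hLB : LB GrP m m) {ε0 : ℝ} (hε : 0 < ε0) :
    ∃ η : ℝ, 0 < η ∧ ∀ (K' : Set (EuclideanSpace ℝ (Fin (m + 1)))) (Y : Set (Fin m → ℝ))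
      (x : (Fin m → ℝ) → Fin m → ℝ), (∀ y ∈ Y, ∀ i, 0 ≤ y i ∧ y i < 1) →
      (∀ y ∈ Y, ∀ i, 0 ≤ x y i ∧ x y i < 1) → volume Y ≠ 0 →
      (∀ y ∈ Y, ∀ t ∈ Set.Icc (0 : ℝ) 1, pt (x y) y t ∈ K') →
      (∃ A : ℝ, ∀ s : ℕ, ∃ F : Finset ((Fin m → ℤ) × (Fin m → ℤ)),
        (F.card : ℝ) ≤ A * 2 ^ ((m + η) * s) ∧ ∀ y ∈ Y, (fl s (x y), fl s y) ∈ F) →
      ENNReal.ofReal (m + 1 - ε0) ≤ dimH K' := by
  -- parameters
  have hm0 : (0 : ℝ) ≤ m := Nat.cast_nonneg m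
  obtain ⟨ι, hιdef⟩ : ∃ ι : ℝ, ι = min (ε0 / 4) 1 := ⟨_, rfl⟩
  have hι : 0 < ι := by rw [hιdef]; exact lt_min (by linarith) one_pos
  have hι1 : ι ≤ 1 := by rw [hιdef]; exact min_le_right _ _
  have hι2 : ι ≤ ε0 / 4 := by rw [hιdef]; exact min_le_left _ _
  obtain ⟨n, hn⟩ := lb_unfold hLB hι
  obtain ⟨q0, hq0⟩ := exists_nat_ge (4 * ((m : ℝ) + 1) / ε0)
  obtain ⟨q, hqdef⟩ : ∃ q : ℕ, q = max q0 1 := ⟨_, rfl⟩
  have hq1 : 1 ≤ q := by rw [hqdef]; exact le_max_right _ _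
  have hqr : 4 * ((m : ℝ) + 1) / ε0 ≤ q := hq0.trans (by
    rw [hqdef]; exact_mod_cast le_max_left _ _)
  have hqpos : (0 : ℝ) < q := by exact_mod_cast hq1
  obtain ⟨u, hu1, hu2, hu3⟩ := choose_u (8 * ((m : ℝ) + 1) * (16 * (q : ℝ)) ^ n) n
    (4 * ((m : ℝ) + 1) / ε0)
  have hupos : (0 : ℝ) < u := by exact_mod_cast hu1
  obtain ⟨G, hG⟩ : ∃ G : ℝ, G = (16 * (q : ℝ) * u) ^ n := ⟨_, rfl⟩
  have hG1 : 1 ≤ G := by
    rw [hG]
    refine one_le_pow₀ ?_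
    have h1 : (1 : ℝ) ≤ q := by exact_mod_cast hq1
    have h2 : (1 : ℝ) ≤ u := by exact_mod_cast hu1
    have h3 := one_le_mul_of_one_le_of_one_le h1 h2
    linarith
  have hG0 : 0 < G := by linarith
  have hGM : 8 * ((m : ℝ) + 1) * G ≤ 2 ^ u := by
    refine le_trans (le_of_eq ?_) hu2
    rw [hG, mul_pow (16 * (q : ℝ))]
    ring
  have h2u : (0 : ℝ) < 2 ^ u := by positivity
  refine ⟨1 / (8 * G), by positivity, ?_⟩
  obtain ⟨η, hη⟩ : ∃ η : ℝ, η = 1 / (8 * G) := ⟨_, rfl⟩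
  have hη0 : 0 < η := by rw [hη]; positivity
  have hη1 : η ≤ 1 := by
    rw [hη, div_le_one (by positivity)]
    linarith
  rw [← hη]
  intro K' Y x hY01 hx01 hYvol hline hcells
  by_contra hlt
  push Not at hlt
  obtain ⟨s, hs1, hs2⟩ := ENNReal.lt_iff_exists_nnreal_btwn.1 hlt
  have hs0 : (0 : ℝ) < s := by
    have : (0 : ENNReal) < s := lt_of_le_of_lt zero_le hs1
    exact_mod_cast this
  have hsm : (s : ℝ) < (m : ℝ) + 1 - ε0 := by
    rw [← ENNReal.ofReal_coe_nnreal] at hs2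
    by_contra hcon
    exact absurd hs2 (not_lt.2 (ENNReal.ofReal_le_ofReal (not_lt.1 hcon)))
  -- the measure of `Y`
  have hYfin : volume Y ≠ ⊤ := by
    have h1 : Y ⊆ Set.Icc (0 : Fin m → ℝ) 1 := fun y hy =>
      ⟨fun i => (hY01 y hy i).1, fun i => (hY01 y hy i).2.le⟩
    refine ne_top_of_le_ne_top ?_ (measure_mono h1)
    rw [Real.volume_Icc_pi]
    simp
  obtain ⟨w, hwdef⟩ : ∃ w : ℝ, w = (volume Y).toReal := ⟨_, rfl⟩
  have hw : 0 < w := by rw [hwdef]; exact ENNReal.toReal_pos hYvol hYfin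
  have hwY : ENNReal.ofReal w ≤ volume Y := by
    rw [hwdef]; exact (ENNReal.ofReal_toReal hYfin).le
  obtain ⟨A0, hA0⟩ := hcells
  obtain ⟨A, hAdef⟩ : ∃ A : ℝ, A = max A0 1 := ⟨_, rfl⟩
  have hA1 : 1 ≤ A := by rw [hAdef]; exact le_max_right _ _
  have hAA : A0 ≤ A := by rw [hAdef]; exact le_max_left _ _
  -- the constants
  obtain ⟨B, hBdef⟩ : ∃ B : ℕ, B = 3 * q * u := ⟨_, rfl⟩
  obtain ⟨D, hDdef⟩ : ∃ D : ℝ, D = Real.log (1 / (1 / (4 * ((B : ℝ) + 1)))) := ⟨_, rfl⟩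
  obtain ⟨hD1, hexpD, hBM⟩ := par_num (n := n) hq1 hu1 hBdef hDdef
  rw [← hG] at hexpD
  have hexpD' : 1 / G ≤ Real.exp (-(n * D)) := by
    rw [Real.exp_neg, ← one_div]
    exact one_div_le_one_div_of_le (Real.exp_pos _) hexpD
  obtain ⟨K1, hK1⟩ : ∃ K1 : ℝ, K1 = |Real.log (3 ^ m * A)| + |Real.log (2 / w)| + m := ⟨_, rfl⟩
  obtain ⟨K3, hK3⟩ : ∃ K3 : ℝ, K3 = ((m : ℝ) + 1) * Real.log 9 + D + m * Real.log 3 := ⟨_, rfl⟩
  obtain ⟨k1, hk1⟩ := growth' (1 / (4 * G)) 1 K1 (by positivity) zero_le_one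
  obtain ⟨k2, hk2⟩ := exists_nat_ge (2 * G)
  obtain ⟨k3, hk3⟩ := exists_nat_gt (4 * K3 / (ε0 * Real.log 2))
  obtain ⟨k0, hk0def⟩ : ∃ k0 : ℕ, k0 = max (max k1 k2) (max k3 (2 * q)) := ⟨_, rfl⟩
  have hk01 : k1 ≤ k0 := by rw [hk0def]; exact (le_max_left _ _).trans (le_max_left _ _)
  have hk02 : k2 ≤ k0 := by rw [hk0def]; exact (le_max_right _ _).trans (le_max_left _ _)
  have hk03 : k3 ≤ k0 := by rw [hk0def]; exact (le_max_left _ _).trans (le_max_right _ _)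
  have hk04 : 2 * q ≤ k0 := by rw [hk0def]; exact (le_max_right _ _).trans (le_max_right _ _)
  have hMr : (((2 ^ u : ℕ) : ℕ) : ℝ) = 2 ^ u := by push_cast; rfl
  obtain ⟨j, N, N', hN0, hjN, hN', Ω, inst, P, c, hgood, hrate⟩ :=
    one_scale_stk hsel hY01 hx01 hw hwY hline (A := A) (η := η) (by linarith) hη0.le (by
      intro s
      obtain ⟨F, h1, h2⟩ := hA0 s
      exact ⟨F, h1.trans (mul_le_mul_of_nonneg_right hAA (by positivity)), h2⟩)
      hs1 q (2 ^ u) k0 B hq1 Nat.one_le_two_pow hk04 hBM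
  rw [← hDdef] at hgood hrate
  -- the short notation
  obtain ⟨p, hp⟩ : ∃ p : ℕ, p = N / 2 ^ u := ⟨_, rfl⟩
  rw [← hp] at hgood hrate
  have hNr : (0 : ℝ) < N := by
    have : 2 * q ≤ N := hk04.trans hN0
    have : 1 ≤ N := by omega
    exact_mod_cast this
  have hpN : (p : ℝ) ≤ N / 2 ^ u := by
    rw [hp]
    have := Nat.cast_div_le (α := ℝ) (m := N) (n := 2 ^ u)
    rwa [hMr] at this
  have hMbig : 8 ≤ (2 : ℝ) ^ u := by
    refine le_trans ?_ hGM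
    have h1 : (1 : ℝ) ≤ ((m : ℝ) + 1) * G :=
      one_le_mul_of_one_le_of_one_le (by linarith) hG1
    linarith
  have hpN' : p ≤ N := by rw [hp]; exact Nat.div_le_self _ _
  have hLr : ((N - p : ℕ) : ℝ) = (N : ℝ) - p := Nat.cast_sub hpN'
  have hp2 : (p : ℝ) ≤ N / 2 := by
    refine hpN.trans ?_
    exact div_le_div_of_nonneg_left hNr.le (by norm_num) (by linarith)
  have hL2 : (N : ℝ) / 2 ≤ (N - p : ℕ) := by rw [hLr]; linarith
  -- the error
  have hNG := hk1 N (hk01.trans hN0)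
  have haw : -Real.log (aw j) ≤ -Real.log (aw N) := by
    have h1 : aw N ≤ aw j := by
      unfold aw
      have h2 : (j : ℝ) ≤ N := by exact_mod_cast hjN
      have h3 : (0 : ℝ) ≤ j := Nat.cast_nonneg j
      exact one_div_le_one_div_of_le (by positivity)
        (mul_le_mul (by linarith) (by linarith) (by positivity) (by positivity))
    have := Real.log_le_log (aw_pos N) h1
    linarith
  have hsmall : ((m : ℝ) + 1) * (p : ℝ) ≤ 1 / (8 * G) * N := by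
    calc ((m : ℝ) + 1) * (p : ℝ) ≤ ((m : ℝ) + 1) * (N / 2 ^ u) :=
          mul_le_mul_of_nonneg_left hpN (by linarith)
      _ = (((m : ℝ) + 1) / 2 ^ u) * N := by ring
      _ ≤ 1 / (8 * G) * N := by
          refine mul_le_mul_of_nonneg_right ?_ hNr.le
          rw [div_le_div_iff₀ h2u (by positivity)]
          linarith
  have hp0 : (0 : ℝ) ≤ p := Nat.cast_nonneg p
  have he : max (Real.log (3 ^ m * A) + ((m + η) * (p : ℝ) + η * N) * Real.log 2)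
      (Real.log (1 / (w / 2 * aw j / ((2 : ℝ) ^ p * ((2 : ℝ) ^ (p + 1)) ^ m)))) ≤
      1 / (2 * G) * N := by
    refine err_num hG0 hη hη0 hη1 hNr hw (aw_pos j) hK1 hNG haw ?_ hsmall
    have := Real.log_nonpos (aw_pos N).le (aw_le N)
    linarith
  -- the contradiction
  have hLBi := hn (N - p) _ D D hD1 le_rfl (he.trans (by
    calc 1 / (2 * G) * (N : ℝ) = 1 / G * (N / 2) := by ring
      _ ≤ Real.exp (-(n * D)) * ((N - p : ℕ) : ℝ) :=
        mul_le_mul hexpD' hL2 (by positivity) (Real.exp_pos _).le)) (by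
    have h1 : (k2 : ℝ) ≤ N := by exact_mod_cast hk02.trans hN0
    linarith) Ω P c hgood
  have h3N : 4 * K3 / (ε0 * Real.log 2) < N := by
    refine hk3.trans_le ?_
    exact_mod_cast hk03.trans hN0
  rw [hLr] at hLBi
  exact final_num hε hι hι2 hqpos h2u hNr hs0 hsm hqr hu3 hN' hpN hK3 h3N hLBi hrate

end Vale.Agent.P127.Stk
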