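import Vale.Agent.P127.Stk.LibEnt
import Vale.Agent.P127.Stk.LibFloors

/-!
# P127 / Stk : the finite law attached to a family of lines (PROOF.md, section 12)

Common finite lemma of the two extractions.
-/

namespace Vale.Agent.P127.Stk

open Finset Vale.Agent.P127 MeasureTheory

/-- entropy is large if all probabilities are small -/
lemma H_ge_of_pr_le {Ω : Type} [Fintype Ω] {S : Type*} (P : Law Ω) (X : Ω → S) {q : ℝ}
    (h : ∀ ω, 0 < P.w ω → P.pr X (X ω) ≤ q) : -Real.log q ≤ P.H X := by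
  have h1 : P.ex (fun _ => -Real.log q) ≤ P.ex (fun ω => -Real.log (P.pr X (X ω))) := by
    refine P.ex_mono fun ω hω => ?_
    have := Real.log_le_log (P.pr_pos X hω) (h ω hω)
    linarith
  rwa [P.ex_const] at h1

/-- entropy of a variable with values in a finite set -/
lemma H_le_log_finset {Ω : Type} [Fintype Ω] {S : Type} (P : Law Ω) (X : Ω → S) (F : Finset S)
    (h : ∀ ω, X ω ∈ F) : P.H X ≤ Real.log F.card := by
  classical
  have h1 := P.H_le_log_card (F := {x // x ∈ F}) (fun ω => ⟨X ω, h ω⟩)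
  rw [Fintype.card_coe] at h1
  refine le_trans (P.H_mono fun ω ω' hh => ?_) h1
  exact congrArg Subtype.val hh

/-- the volume of a dyadic cell -/
lemma volume_cell (m N : ℕ) (k : Fin m → ℤ) :
    volume {y : Fin m → ℝ | fl N y = k} = ENNReal.ofReal ((1 / 2 : ℝ) ^ N) ^ m := by
  have h2 : (0 : ℝ) < 2 ^ N := by positivity
  have h1 : {y : Fin m → ℝ | fl N y = k} =
      Set.pi Set.univ (fun i => Set.Ico ((k i : ℝ) / 2 ^ N) (((k i : ℝ) + 1) / 2 ^ N)) := by
    ext y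
    simp only [Set.mem_ofPred_eq, Set.mem_pi, Set.mem_univ, true_implies, Set.mem_Ico, fl,
      funext_iff]
    refine forall_congr' fun i => ?_
    rw [Int.floor_eq_iff, div_le_iff₀ h2, lt_div_iff₀ h2, mul_comm (y i)]
  rw [h1, Real.volume_pi_Ico]
  have h3 : ∀ i : Fin m, ((k i : ℝ) + 1) / 2 ^ N - (k i : ℝ) / 2 ^ N = (1 / 2 : ℝ) ^ N := by
    intro i
    rw [← sub_div, add_sub_cancel_left, one_div, one_div, inv_pow]
  simp [h3]

/-- the volume of a dyadic interval -/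
lemma volume_cell1 (N : ℕ) (k : ℤ) :
    volume {t : ℝ | fl1 N t = k} = ENNReal.ofReal ((1 / 2 : ℝ) ^ N) := by
  have h2 : (0 : ℝ) < 2 ^ N := by positivity
  have h1 : {t : ℝ | fl1 N t = k} = Set.Ico ((k : ℝ) / 2 ^ N) (((k : ℝ) + 1) / 2 ^ N) := by
    ext y
    simp only [Set.mem_ofPred_eq, Set.mem_Ico, fl1]
    rw [Int.floor_eq_iff, div_le_iff₀ h2, lt_div_iff₀ h2, mul_comm y]
  rw [h1, Real.volume_Ico]
  congr 1
  rw [← sub_div, add_sub_cancel_left, one_div, one_div, inv_pow]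

open Classical in
/-- the dyadic cells meeting a set -/
noncomputable def cellsOf {m : ℕ} (N : ℕ) (Y : Set (Fin m → ℝ)) : Finset (Fin m → ℤ) :=
  (Fintype.piFinset fun _ => Finset.Ico (0 : ℤ) (2 ^ N)).filter fun k => ∃ y ∈ Y, fl N y = k

open Classical in
/-- the dyadic intervals meeting a set -/
noncomputable def cellsOf1 (N : ℕ) (T : Set ℝ) : Finset ℤ :=
  (Finset.Ico (0 : ℤ) (2 ^ N)).filter fun k => ∃ t ∈ T, fl1 N t = k

lemma mem_cellsOf {m N : ℕ} {Y : Set (Fin m → ℝ)} (hY : ∀ y ∈ Y, ∀ i, 0 ≤ y i ∧ y i < 1)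
    {y : Fin m → ℝ} (hy : y ∈ Y) : fl N y ∈ cellsOf N Y := by
  classical
  unfold cellsOf
  rw [Finset.mem_filter, Fintype.mem_piFinset]
  refine ⟨fun i => ?_, y, hy, rfl⟩
  have h1 := hY y hy i
  have h2 : (0 : ℝ) < 2 ^ N := by positivity
  rw [Finset.mem_Ico]
  constructor
  · exact Int.floor_nonneg.2 (mul_nonneg h2.le h1.1)
  · unfold fl
    rw [Int.floor_lt]
    push_cast
    nlinarith [h1.2]

lemma mem_cellsOf1 {N : ℕ} {T : Set ℝ} (hT : T ⊆ Set.Ico 0 1) {t : ℝ} (ht : t ∈ T) :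
    fl1 N t ∈ cellsOf1 N T := by
  classical
  unfold cellsOf1
  rw [Finset.mem_filter, Finset.mem_Ico]
  have h1 := hT ht
  have h2 : (0 : ℝ) < 2 ^ N := by positivity
  refine ⟨⟨?_, ?_⟩, t, ht, rfl⟩
  · exact Int.floor_nonneg.2 (mul_nonneg h2.le h1.1)
  · unfold fl1
    rw [Int.floor_lt]
    push_cast
    nlinarith [h1.2]

lemma card_cellsOf {m N : ℕ} {Y : Set (Fin m → ℝ)} (hY : ∀ y ∈ Y, ∀ i, 0 ≤ y i ∧ y i < 1)
    {lam : ℝ} (h : ENNReal.ofReal lam ≤ volume Y) :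
    lam * (2 : ℝ) ^ (m * N) ≤ (cellsOf N Y).card := by
  classical
  have h1 : Y ⊆ ⋃ k ∈ cellsOf N Y, {y : Fin m → ℝ | fl N y = k} := by
    intro y hy
    exact Set.mem_iUnion₂.2 ⟨fl N y, mem_cellsOf hY hy, rfl⟩
  have h2 : volume Y ≤ ∑ k ∈ cellsOf N Y, volume {y : Fin m → ℝ | fl N y = k} :=
    (measure_mono h1).trans (measure_biUnion_finset_le _ _)
  simp only [volume_cell, Finset.sum_const, nsmul_eq_mul] at h2
  have h3 : ((cellsOf N Y).card : ENNReal) * ENNReal.ofReal ((1 / 2 : ℝ) ^ N) ^ m =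
      ENNReal.ofReal ((cellsOf N Y).card * ((1 / 2 : ℝ) ^ N) ^ m) := by
    rw [ENNReal.ofReal_mul (by positivity), ENNReal.ofReal_natCast,
      ENNReal.ofReal_pow (p := (1 / 2 : ℝ) ^ N) (by positivity)]
  rw [h3] at h2
  have h4 := (ENNReal.ofReal_le_ofReal_iff (by positivity)).1 (h.trans h2)
  have h5 : (0 : ℝ) < 2 ^ (m * N) := by positivity
  calc lam * (2 : ℝ) ^ (m * N) ≤ ((cellsOf N Y).card * ((1 / 2 : ℝ) ^ N) ^ m) * 2 ^ (m * N) :=
        mul_le_mul_of_nonneg_right h4 h5.le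
    _ = (cellsOf N Y).card := by
        rw [mul_assoc, ← pow_mul, mul_comm N m, ← mul_pow]
        norm_num

lemma card_cellsOf1 {N : ℕ} {T : Set ℝ} (hT : T ⊆ Set.Ico 0 1)
    {p : ℝ} (h : ENNReal.ofReal p ≤ volume T) :
    p * (2 : ℝ) ^ N ≤ (cellsOf1 N T).card := by
  classical
  have h1 : T ⊆ ⋃ k ∈ cellsOf1 N T, {t : ℝ | fl1 N t = k} := by
    intro y hy
    exact Set.mem_iUnion₂.2 ⟨fl1 N y, mem_cellsOf1 hT hy, rfl⟩
  have h2 : volume T ≤ ∑ k ∈ cellsOf1 N T, volume {t : ℝ | fl1 N t = k} :=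
    (measure_mono h1).trans (measure_biUnion_finset_le _ _)
  simp only [volume_cell1, Finset.sum_const, nsmul_eq_mul] at h2
  have h3 : ((cellsOf1 N T).card : ENNReal) * ENNReal.ofReal ((1 / 2 : ℝ) ^ N) =
      ENNReal.ofReal ((cellsOf1 N T).card * ((1 / 2 : ℝ) ^ N)) := by
    rw [ENNReal.ofReal_mul (by positivity), ENNReal.ofReal_natCast]
  rw [h3] at h2
  have h4 := (ENNReal.ofReal_le_ofReal_iff (by positivity)).1 (h.trans h2)
  have h5 : (0 : ℝ) < 2 ^ N := by positivity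
  calc p * (2 : ℝ) ^ N ≤ ((cellsOf1 N T).card * ((1 / 2 : ℝ) ^ N)) * 2 ^ N :=
        mul_le_mul_of_nonneg_right h4 h5.le
    _ = (cellsOf1 N T).card := by
        rw [mul_assoc, ← mul_pow]
        norm_num

section fib

variable {K : Type} (D : Finset K) (I : K → Finset ℤ)

/-- the space of pairs -/
abbrev Fib : Type := (k : {k // k ∈ D}) × {j // j ∈ I k.1}

open Classical in
/-- uniform choice of `k`, then uniform choice of `j` -/
noncomputable def fibLaw (hD : D.Nonempty) (hI : ∀ k ∈ D, (I k).Nonempty) : Law (Fib D I) where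
  w := fun ω => 1 / ((D.card : ℝ) * (I ω.1.1).card)
  nn := fun ω => by positivity
  sum_one := by
    classical
    rw [Fintype.sum_sigma]
    have h1 : ∀ k : {k // k ∈ D}, ∑ _j : {j // j ∈ I k.1}, 1 / ((D.card : ℝ) * (I k.1).card) =
        1 / D.card := by
      intro k
      rw [Finset.sum_const, Finset.card_univ, Fintype.card_coe, nsmul_eq_mul]
      have : ((I k.1).card : ℝ) ≠ 0 := by
        have := (hI k.1 k.2).card_pos
        positivity
      field_simp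
    simp only [h1]
    rw [Finset.sum_const, Finset.card_univ, Fintype.card_coe, nsmul_eq_mul]
    have : (D.card : ℝ) ≠ 0 := by
      have := hD.card_pos
      positivity
    field_simp

lemma fibLaw_pos (hD : D.Nonempty) (hI : ∀ k ∈ D, (I k).Nonempty) (ω : Fib D I) :
    0 < (fibLaw D I hD hI).w ω := by
  have h1 := hD.card_pos
  have h2 := (hI ω.1.1 ω.1.2).card_pos
  show 0 < 1 / ((D.card : ℝ) * (I ω.1.1).card)
  positivity

lemma fibLaw_pr_fst (hD : D.Nonempty) (hI : ∀ k ∈ D, (I k).Nonempty) (ω : Fib D I) :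
    (fibLaw D I hD hI).pr (fun ω => ω.1) ω.1 = 1 / D.card := by
  classical
  unfold Law.pr
  have h0 : (Finset.univ.filter fun ω' : Fib D I => ω'.1 = ω.1) =
      Finset.univ.map ⟨fun j : {j // j ∈ I ω.1.1} => (⟨ω.1, j⟩ : Fib D I), by
        intro a b h
        simpa using h⟩ := by
    ext ω'
    simp only [Finset.mem_filter, Finset.mem_univ, true_and, Finset.mem_map]
    constructor
    · rintro h
      obtain ⟨k, j⟩ := ω'
      simp only at h
      subst h
      exact ⟨j, rfl⟩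
    · rintro ⟨j, rfl⟩
      rfl
  have h1 : ∑ ω' ∈ (Finset.univ.filter fun ω' : Fib D I => ω'.1 = ω.1),
      (fibLaw D I hD hI).w ω' = ∑ _j : {j // j ∈ I ω.1.1}, 1 / ((D.card : ℝ) * (I ω.1.1).card) := by
    rw [h0, Finset.sum_map]
    rfl
  have h2 : ∑ _j : {j // j ∈ I ω.1.1}, 1 / ((D.card : ℝ) * (I ω.1.1).card) = 1 / D.card := by
    rw [Finset.sum_const, Finset.card_univ, Fintype.card_coe, nsmul_eq_mul]
    have : ((I ω.1.1).card : ℝ) ≠ 0 := by
      have := (hI ω.1.1 ω.1.2).card_pos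
      positivity
    field_simp
  rw [← h2, ← h1]
  exact Finset.sum_congr (by ext; simp) fun _ _ => rfl

lemma fibLaw_pr_inj (hD : D.Nonempty) (hI : ∀ k ∈ D, (I k).Nonempty) {S : Type*}
    (X : Fib D I → S) (hX : Function.Injective X) (ω : Fib D I) :
    (fibLaw D I hD hI).pr X (X ω) = 1 / ((D.card : ℝ) * (I ω.1.1).card) := by
  classical
  unfold Law.pr
  have h0 : (Finset.univ.filter fun ω' : Fib D I => X ω' = X ω) = {ω} := by
    ext ω'
    simp only [Finset.mem_filter, Finset.mem_univ, true_and, Finset.mem_singleton]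
    exact ⟨fun h => hX h, fun h => by rw [h]⟩
  have h1 : ∑ ω' ∈ (Finset.univ.filter fun ω' : Fib D I => X ω' = X ω),
      (fibLaw D I hD hI).w ω' = 1 / ((D.card : ℝ) * (I ω.1.1).card) := by
    rw [h0, Finset.sum_singleton]
    rfl
  rw [← h1]

end fib

/-- COMMON FINITE LEMMA -/
theorem ext_law {m N : ℕ} (Y : Set (Fin m → ℝ)) (x : (Fin m → ℝ) → (Fin m → ℝ))
    (T : (Fin m → ℝ) → Set ℝ) (p lam E : ℝ) (hp : 0 < p) (hlam : 0 < lam)
    (hY01 : ∀ y ∈ Y, ∀ i, 0 ≤ y i ∧ y i < 1) (hx01 : ∀ y ∈ Y, ∀ i, 0 ≤ x y i ∧ x y i < 1)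
    (hT01 : ∀ y ∈ Y, T y ⊆ Set.Ico 0 1) (hT : ∀ y ∈ Y, ENNReal.ofReal p ≤ volume (T y))
    (hY : ENNReal.ofReal lam ≤ volume Y)
    (hcell : ∀ s ≤ N, ∃ F : Finset ((Fin m → ℤ) × (Fin m → ℤ)),
      (F.card : ℝ) ≤ 2 ^ (m * s) * Real.exp E ∧ ∀ y ∈ Y, (fl s (x y), fl s y) ∈ F)
    (F : Finset ((Fin m → ℤ) × ℤ))
    (hF : ∀ y ∈ Y, ∀ t ∈ T y, (fl N (fun i => x y i + t * y i), fl1 N t) ∈ F) :
    ∃ (Ω : Type) (_ : Fintype Ω) (P : Law Ω) (c : Cf Ω m),
      Good P c N (max E (Real.log (1 / lam))) (Real.log (1 / p)) ∧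
      hc P (fun ω => fl N (c.pt ω)) (fun ω => (c.t ω, c.A ω)) ≤
        Real.log F.card - N * Real.log 2 + Real.log (1 / p) + m * Real.log 3 := by
  classical
  have h2N : (0 : ℝ) < 2 ^ N := by positivity
  -- the cells
  obtain ⟨D, hDdef⟩ : ∃ D, D = cellsOf N Y := ⟨_, rfl⟩
  have hDcard : lam * (2 : ℝ) ^ (m * N) ≤ D.card := hDdef ▸ card_cellsOf hY01 hY
  have hDpos : (0 : ℝ) < D.card := lt_of_lt_of_le (by positivity) hDcard
  have hDne : D.Nonempty := Finset.card_pos.1 (by exact_mod_cast hDpos)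
  have hex : ∀ k : Fin m → ℤ, ∃ y : Fin m → ℝ, k ∈ D → y ∈ Y ∧ fl N y = k := by
    intro k
    by_cases hk : k ∈ D
    · have : k ∈ cellsOf N Y := hDdef ▸ hk
      unfold cellsOf at this
      obtain ⟨y, hy, hyk⟩ := (Finset.mem_filter.1 this).2
      exact ⟨y, fun _ => ⟨hy, hyk⟩⟩
    · exact ⟨0, fun h => absurd h hk⟩
  choose yk hyk using hex
  obtain ⟨I, hIdef⟩ : ∃ I : (Fin m → ℤ) → Finset ℤ, ∀ k, I k = cellsOf1 N (T (yk k)) :=
    ⟨fun k => cellsOf1 N (T (yk k)), fun _ => rfl⟩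
  have hIcard : ∀ k ∈ D, p * (2 : ℝ) ^ N ≤ (I k).card := by
    intro k hk
    rw [hIdef]
    exact card_cellsOf1 (hT01 _ (hyk k hk).1) (hT _ (hyk k hk).1)
  have hIne : ∀ k ∈ D, (I k).Nonempty := by
    intro k hk
    have h1 : (0 : ℝ) < (I k).card := lt_of_lt_of_le (by positivity) (hIcard k hk)
    exact Finset.card_pos.1 (by exact_mod_cast h1)
  have hIex : ∀ (k : Fin m → ℤ) (j : ℤ), ∃ t : ℝ, k ∈ D → j ∈ I k →
      t ∈ T (yk k) ∧ fl1 N t = j := by
    intro k j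
    by_cases hk : k ∈ D ∧ j ∈ I k
    · have : j ∈ cellsOf1 N (T (yk k)) := hIdef k ▸ hk.2
      unfold cellsOf1 at this
      obtain ⟨t, ht, htj⟩ := (Finset.mem_filter.1 this).2
      exact ⟨t, fun _ _ => ⟨ht, htj⟩⟩
    · exact ⟨0, fun h h' => absurd ⟨h, h'⟩ hk⟩
  choose ts hts using hIex
  have hI01 : ∀ k ∈ D, ∀ j ∈ I k, 0 ≤ j ∧ j < 2 ^ N := by
    intro k _ j hj
    have : j ∈ cellsOf1 N (T (yk k)) := hIdef k ▸ hj
    unfold cellsOf1 at this
    have := (Finset.mem_filter.1 this).1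
    simpa using this
  -- the law and the configuration
  obtain ⟨P, hP⟩ : ∃ P : Law (Fib D I), P = fibLaw D I hDne hIne := ⟨_, rfl⟩
  let c : Cf (Fib D I) m :=
    { α := Unit
      A := fun _ => ()
      x := fun ω => x (yk ω.1.1)
      y := fun ω => yk ω.1.1
      t := fun ω => (ω.2.1 : ℝ) / 2 ^ N }
  have hYω : ∀ ω : Fib D I, yk ω.1.1 ∈ Y := fun ω => (hyk _ ω.1.2).1
  have hkω : ∀ ω : Fib D I, fl N (yk ω.1.1) = ω.1.1 := fun ω => (hyk _ ω.1.2).2
  have hjω : ∀ ω : Fib D I, fl1 N (c.t ω) = ω.2.1 := by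
    intro ω
    show ⌊(2 : ℝ) ^ N * ((ω.2.1 : ℝ) / 2 ^ N)⌋ = ω.2.1
    rw [mul_div_cancel₀ _ h2N.ne']
    exact Int.floor_intCast _
  have ht01 : ∀ ω : Fib D I, 0 ≤ c.t ω ∧ c.t ω < 1 := by
    intro ω
    have h1 := hI01 ω.1.1 ω.1.2 ω.2.1 ω.2.2
    have h3 : (0 : ℝ) ≤ ω.2.1 := by exact_mod_cast h1.1
    have h4 : (ω.2.1 : ℝ) < 2 ^ N := by exact_mod_cast h1.2
    exact ⟨div_nonneg h3 h2N.le, (div_lt_one h2N).2 h4⟩
  -- the two basic entropies
  have hHfst : P.H (fun ω => ((fun ω => (c.x ω, c.y ω)) ω, c.A ω)) ≤ Real.log D.card := by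
    have h1 : P.H (fun ω => ω.1) ≤ Real.log D.card := by
      have := P.H_le_log_card (fun ω => ω.1)
      rwa [Fintype.card_coe] at this
    refine le_trans (P.H_mono fun ω ω' hh => ?_) h1
    have : yk ω.1.1 = yk ω'.1.1 := by rw [hh]
    show ((x (yk ω.1.1), yk ω.1.1), ()) = ((x (yk ω'.1.1), yk ω'.1.1), ())
    rw [this]
  have hHpair : Real.log D.card + (N * Real.log 2 - Real.log (1 / p)) ≤
      P.H (fun ω => (c.t ω, ((fun ω => (c.x ω, c.y ω)) ω, c.A ω))) := by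
    have hinj : Function.Injective
        (fun ω => (c.t ω, ((fun ω => (c.x ω, c.y ω)) ω, c.A ω))) := by
      intro ω ω' hh
      have h1 : c.t ω = c.t ω' := (Prod.mk.inj hh).1
      have h2 : c.y ω = c.y ω' := (Prod.mk.inj (Prod.mk.inj (Prod.mk.inj hh).2).1).2
      have h3 : ω.1.1 = ω'.1.1 := by
        rw [← hkω ω, ← hkω ω']
        exact congrArg (fl N) h2
      have h4 : ω.2.1 = ω'.2.1 := by rw [← hjω ω, ← hjω ω', h1]
      obtain ⟨⟨k, hk⟩, ⟨j, hj⟩⟩ := ω
      obtain ⟨⟨k', hk'⟩, ⟨j', hj'⟩⟩ := ω'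
      simp only at h3 h4
      subst h3
      subst h4
      rfl
    have h1 := H_ge_of_pr_le P (fun ω => (c.t ω, ((fun ω => (c.x ω, c.y ω)) ω, c.A ω)))
      (q := 1 / ((D.card : ℝ) * (p * 2 ^ N))) (by
        intro ω _
        rw [hP, fibLaw_pr_inj D I hDne hIne _ hinj ω]
        have := hIcard ω.1.1 ω.1.2
        exact one_div_le_one_div_of_le (by positivity) (mul_le_mul_of_nonneg_left this hDpos.le))
    refine le_trans (le_of_eq ?_) h1
    rw [one_div, one_div, Real.log_inv, Real.log_inv, Real.log_mul hDpos.ne' (by positivity),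
      Real.log_mul hp.ne' h2N.ne', Real.log_pow]
    ring
  -- the conditional entropy of the time given the line
  have hct : N * Real.log 2 - Real.log (1 / p) ≤
      hc P c.t (fun ω => ((fun ω => (c.x ω, c.y ω)) ω, c.A ω)) := by
    unfold hc
    linarith
  have hHt : N * Real.log 2 - Real.log (1 / p) ≤ P.H c.t := hct.trans (hc_le_H P _ _)
  -- entropy of the slope
  have hHy : m * N * Real.log 2 - Real.log (1 / lam) ≤ P.H (fun ω => fl N (c.y ω)) := by
    have h1 : P.H (fun ω => fl N (c.y ω)) = P.H (fun ω => ω.1) := by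
      refine P.H_congr fun ω ω' => ?_
      show fl N (yk ω.1.1) = fl N (yk ω'.1.1) ↔ ω.1 = ω'.1
      rw [hkω, hkω]
      exact ⟨fun h => Subtype.ext h, fun h => by rw [h]⟩
    rw [h1]
    have h3 := H_ge_of_pr_le P (fun ω => ω.1) (q := 1 / (D.card : ℝ)) (by
      intro ω _
      rw [hP, fibLaw_pr_fst])
    refine le_trans ?_ h3
    have h4 := Real.log_le_log (by positivity) hDcard
    rw [Real.log_mul hlam.ne' (by positivity), Real.log_pow] at h4
    rw [one_div, one_div, Real.log_inv, Real.log_inv, neg_neg]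
    push_cast at h4
    linarith
  have hA : ∀ {S : Type} (X : Fib D I → S), hc P X c.A = P.H X := by
    intro S X
    have h1 : P.H (fun ω => (X ω, c.A ω)) = P.H X := P.H_congr fun ω ω' => by
      constructor
      · intro h
        exact (Prod.mk.inj h).1
      · intro h
        show (X ω, ()) = (X ω', ())
        rw [h]
    have h3 : P.H c.A = 0 := by
      unfold Law.H
      have : ∀ ω, P.pr c.A (c.A ω) = 1 := by
        intro ω
        unfold Law.pr
        rw [← P.sum_one]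
        refine Finset.sum_congr ?_ fun _ _ => rfl
        ext ω'
        simp [c]
      simp only [this, Real.log_one, neg_zero]
      exact P.ex_const 0
    unfold hc
    rw [h1, h3, sub_zero]
  refine ⟨Fib D I, inferInstance, P, c, ?_, ?_⟩
  · constructor
    · intro ω i
      exact hx01 _ (hYω ω) i
    · intro ω i
      exact hY01 _ (hYω ω) i
    · exact ht01
    · rw [mi_symm]
      unfold mi
      have h1 : hc P c.t c.A ≤ N * Real.log 2 := by
        refine le_trans (hc_mono_left P (X' := fun ω => fl1 N (c.t ω)) ?_)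
          (hc_fl1_le P N c.t c.A fun ω _ => ht01 ω)
        intro ω ω' _ _ hh
        have h3 : fl1 N (c.t ω) = fl1 N (c.t ω') := (Prod.mk.inj hh).1
        rw [hjω, hjω] at h3
        show ((ω.2.1 : ℤ) : ℝ) / 2 ^ N = ((ω'.2.1 : ℤ) : ℝ) / 2 ^ N
        rw [h3]
      linarith
    · intro s hs
      have h1 := hc_fl_digits_le P hs (fun ω => c.y ω) c.A
      have h3 := hc_le_add P (fun ω => fl N (c.y ω)) (fun ω => fl s (c.y ω)) c.A
      rw [hA (fun ω => fl N (c.y ω))] at h3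
      have h4 := le_max_right E (Real.log (1 / lam))
      rw [Fintype.card_fin] at h1
      have h5 : ((N - s : ℕ) : ℝ) = (N : ℝ) - s := by
        rw [Nat.cast_sub hs]
      rw [h5] at h1
      nlinarith
    · intro s hs
      obtain ⟨Fs, hFs, hFm⟩ := hcell s hs
      have h1 := hc_le_log P (fun ω => (fl s (c.x ω), fl s (c.y ω))) c.A Fs.card (by
        intro ω _
        exact ⟨Fs, le_rfl, fun ω' _ _ => hFm _ (hYω ω')⟩)
      have hFpos : (0 : ℝ) < Fs.card := by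
        obtain ⟨k, hk⟩ := hDne
        have := Finset.card_pos.2 ⟨_, hFm _ (hyk k hk).1⟩
        exact_mod_cast this
      have h3 := Real.log_le_log hFpos hFs
      rw [Real.log_mul (by positivity) (Real.exp_pos _).ne', Real.log_exp, Real.log_pow] at h3
      have h4 := le_max_left E (Real.log (1 / lam))
      push_cast at h3
      linarith
    · intro s hs
      have h1 := hc_fl1_digits_le P hs (fun ω => c.t ω) c.A
      have h3 := hc_le_add P (fun ω => fl1 N (c.t ω)) (fun ω => fl1 s (c.t ω)) c.A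
      have h4 : hc P (fun ω => fl1 N (c.t ω)) c.A = P.H c.t := by
        rw [hA]
        refine P.H_congr fun ω ω' => ?_
        rw [hjω, hjω]
        constructor
        · intro h
          show ((ω.2.1 : ℤ) : ℝ) / 2 ^ N = ((ω'.2.1 : ℤ) : ℝ) / 2 ^ N
          rw [h]
        · intro h
          rw [← hjω, ← hjω, h]
      rw [h4] at h3
      have h5 : ((N - s : ℕ) : ℝ) = (N : ℝ) - s := by
        rw [Nat.cast_sub hs]
      rw [h5] at h1
      nlinarith
  · -- the rate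
    have h1 := hc_sub_le P (fun ω => fl N (c.pt ω))
      (fun ω => fl N (fun i => x (yk ω.1.1) i + ts ω.1.1 ω.2.1 * yk ω.1.1 i))
      (fun ω => (c.t ω, c.A ω)) 1 (by
        intro ω _ i
        have hy := hY01 _ (hYω ω) i
        have htt := (hts ω.1.1 ω.2.1 ω.1.2 ω.2.2).2
        unfold fl1 at htt
        have h3 := Int.floor_le ((2 : ℝ) ^ N * ts ω.1.1 ω.2.1)
        have h4 := Int.lt_floor_add_one ((2 : ℝ) ^ N * ts ω.1.1 ω.2.1)
        rw [htt] at h3 h4
        show |⌊(2 : ℝ) ^ N * (x (yk ω.1.1) i + (ω.2.1 : ℝ) / 2 ^ N * yk ω.1.1 i)⌋ -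
          ⌊(2 : ℝ) ^ N * (x (yk ω.1.1) i + ts ω.1.1 ω.2.1 * yk ω.1.1 i)⌋| ≤ ((1 : ℕ) : ℤ)
        have e1 : (2 : ℝ) ^ N * (x (yk ω.1.1) i + (ω.2.1 : ℝ) / 2 ^ N * yk ω.1.1 i) =
            (2 : ℝ) ^ N * x (yk ω.1.1) i + (ω.2.1 : ℝ) * yk ω.1.1 i := by
          field_simp
        have e2 : (2 : ℝ) ^ N * (x (yk ω.1.1) i + ts ω.1.1 ω.2.1 * yk ω.1.1 i) =
            (2 : ℝ) ^ N * x (yk ω.1.1) i + ((2 : ℝ) ^ N * ts ω.1.1 ω.2.1) * yk ω.1.1 i := by
          ring
        rw [e1, e2]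
        have h5 : (ω.2.1 : ℝ) * yk ω.1.1 i ≤ ((2 : ℝ) ^ N * ts ω.1.1 ω.2.1) * yk ω.1.1 i :=
          mul_le_mul_of_nonneg_right h3 hy.1
        have h6 : ((2 : ℝ) ^ N * ts ω.1.1 ω.2.1) * yk ω.1.1 i ≤
            (ω.2.1 : ℝ) * yk ω.1.1 i + 1 := by
          nlinarith [hy.1, hy.2]
        have h7 := Int.floor_le_floor (a := (2 : ℝ) ^ N * x (yk ω.1.1) i + (ω.2.1 : ℝ) * yk ω.1.1 i)
          (b := (2 : ℝ) ^ N * x (yk ω.1.1) i + ((2 : ℝ) ^ N * ts ω.1.1 ω.2.1) * yk ω.1.1 i)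
          (by linarith)
        have h8 := Int.floor_le_floor
          (a := (2 : ℝ) ^ N * x (yk ω.1.1) i + ((2 : ℝ) ^ N * ts ω.1.1 ω.2.1) * yk ω.1.1 i)
          (b := ((2 : ℝ) ^ N * x (yk ω.1.1) i + (ω.2.1 : ℝ) * yk ω.1.1 i) + 1)
          (by linarith)
        rw [Int.floor_add_one] at h8
        rw [abs_le]
        constructor
        · push_cast
          linarith
        · push_cast
          linarith)
    rw [Fintype.card_fin] at h1
    have h3 : P.H (fun ω => ((fun ω => fl N (fun i => x (yk ω.1.1) i +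
        ts ω.1.1 ω.2.1 * yk ω.1.1 i)) ω, (c.t ω, c.A ω))) ≤ Real.log F.card := by
      have h4 := H_le_log_finset P (fun ω => (fl N (fun i => x (yk ω.1.1) i +
        ts ω.1.1 ω.2.1 * yk ω.1.1 i), ω.2.1)) F (by
          intro ω
          have htt := hts ω.1.1 ω.2.1 ω.1.2 ω.2.2
          have h5 := hF _ (hYω ω) _ htt.1
          rw [htt.2] at h5
          exact h5)
      refine le_trans (P.H_mono fun ω ω' hh => ?_) h4
      obtain ⟨h5, h6⟩ := Prod.mk.inj hh
      show (_, ((ω.2.1 : ℝ) / 2 ^ N, ())) = (_, ((ω'.2.1 : ℝ) / 2 ^ N, ()))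
      rw [h6]
      exact Prod.ext h5 rfl
    have h4 : P.H c.t ≤ P.H (fun ω => (c.t ω, c.A ω)) :=
      P.H_mono fun ω ω' hh => (Prod.mk.inj hh).1
    have h5 : hc P (fun ω => fl N (fun i => x (yk ω.1.1) i + ts ω.1.1 ω.2.1 * yk ω.1.1 i))
        (fun ω => (c.t ω, c.A ω)) ≤ Real.log F.card - (N * Real.log 2 - Real.log (1 / p)) := by
      unfold hc
      linarith
    norm_num at h1
    linarith

end Vale.Agent.P127.Stk
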