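import Vale.Agent.P127.Stk.ExtGeo
import Vale.Agent.P127.Stk.ExtCount

/-!
# P127 / Stk : extraction of the Minkowski theorem on sets from `LB GrP m m`
-/

namespace Vale.Agent.P127.Stk.Ext

open MeasureTheory Finset Vale.Agent.P127

/-- counting values by means of a cover -/
theorem card_le_cov' {X : Type*} [PseudoMetricSpace X] {β : Type*} {ι : Type*} [Fintype ι] {δ : ℝ}
    (hδ : 0 ≤ δ) (Λ : Set X) (B : ℕ) (V : Finset β) (φ : β → ι → ℤ) (hφ : Function.Injective φ)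
    (g : β → X) (hg : ∀ v ∈ V, g v ∈ Λ)
    (h : ∀ v ∈ V, ∀ v' ∈ V, ∀ c : X, dist (g v) c ≤ δ → dist (g v') c ≤ δ →
      ∀ i, |φ v i - φ v' i| ≤ B) :
    (V.card : ENNReal) ≤ ((2 * B + 1) ^ Fintype.card ι : ℕ) * cov δ Λ := by
  classical
  rcases V.eq_empty_or_nonempty with hV | hV
  · rw [hV]; simp
  have : Nonempty β := ⟨hV.choose⟩
  have h1 : ∀ b, Function.invFun φ (φ b) = b := Function.leftInverse_invFun hφ
  have h2 := card_le_cov hδ Λ B (V.image φ) (fun w => g (Function.invFun φ w)) (by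
    intro w hw
    obtain ⟨b, hb, rfl⟩ := Finset.mem_image.1 hw
    simp only [h1]
    exact hg b hb) (by
    intro w hw w' hw' c hc hc' i
    obtain ⟨b, hb, rfl⟩ := Finset.mem_image.1 hw
    obtain ⟨b', hb', rfl⟩ := Finset.mem_image.1 hw'
    simp only [h1] at hc hc'
    exact h b hb b' hb' c hc hc' i)
  rwa [Finset.card_image_of_injective V hφ] at h2

lemma floor_diff {x y D : ℝ} (h : |x - y| ≤ D) : |((⌊x⌋ : ℤ) : ℝ) - ⌊y⌋| ≤ D + 1 := by
  have h1 := Int.floor_le x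
  have h2 := Int.lt_floor_add_one x
  have h3 := Int.floor_le y
  have h4 := Int.lt_floor_add_one y
  rw [abs_le] at h ⊢
  constructor <;> linarith [h.1, h.2]

variable {m : ℕ}

/-- the good slopes: the line over the slope `v` starts, at height `j`, in the cube `z`, and is in
`T` for a proportion at least `lam` of the heights between `j` and `j + 1` -/
def gV (a : EuclideanSpace ℝ (Fin (m + 1)) → EuclideanSpace ℝ (Fin (m + 1)))
    (T : Set (EuclideanSpace ℝ (Fin (m + 1)))) (j : ℤ) (z : Fin m → ℤ) (lam : ℝ) :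
    Set (Fin m → ℝ) :=
  {v | (∀ i, 0 ≤ v i ∧ v i < 1) ∧ (∀ c, ⌊ps (a (ev v)) v c + j * v c⌋ = z c) ∧
    ENNReal.ofReal lam ≤ volume {y : ℝ | y ∈ Set.Icc (j : ℝ) (j + 1) ∧
      pt (ps (a (ev v)) v) v y ∈ T}}

theorem exists_gV {a : EuclideanSpace ℝ (Fin (m + 1)) → EuclideanSpace ℝ (Fin (m + 1))}
    {K : Set (EuclideanSpace ℝ (Fin (m + 1)))}
    (hK : ∀ e : EuclideanSpace ℝ (Fin (m + 1)), ‖e‖ = 1 → volume {t : ℝ | a e + t • e ∈ K} ≠ 0)
    {T : ℕ → Set (EuclideanSpace ℝ (Fin (m + 1)))} (hT : K ⊆ ⋃ i, T i) :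
    ∃ (i : ℕ) (j : ℤ) (z : Fin m → ℤ) (lam : ℝ), 0 < lam ∧ lam ≤ 1 ∧
      volume (gV a (T i) j z lam) ≠ 0 := by
  have hcov : Set.pi Set.univ (fun _ : Fin m => Set.Ico (0 : ℝ) 1) ⊆
      ⋃ p : ℕ × ℤ × (Fin m → ℤ) × ℕ, gV a (T p.1) p.2.1 p.2.2.1 (1 / ((p.2.2.2 : ℝ) + 1)) := by
    intro v hv
    have hv' : ∀ i, 0 ≤ v i ∧ v i < 1 := fun i => hv i (Set.mem_univ i)
    have h1 := volume_heights (hK (ev v) (ev_norm v))
    have h2 : {y : ℝ | pt (ps (a (ev v)) v) v y ∈ K} ⊆ ⋃ p : ℕ × ℤ,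
        {y : ℝ | y ∈ Set.Icc (p.2 : ℝ) (p.2 + 1) ∧ pt (ps (a (ev v)) v) v y ∈ T p.1} := by
      intro y hy
      obtain ⟨i, hi⟩ := Set.mem_iUnion.1 (hT hy)
      exact Set.mem_iUnion.2 ⟨(i, ⌊y⌋), ⟨Int.floor_le y, (Int.lt_floor_add_one y).le⟩, hi⟩
    have h3 : volume (⋃ p : ℕ × ℤ,
        {y : ℝ | y ∈ Set.Icc (p.2 : ℝ) (p.2 + 1) ∧ pt (ps (a (ev v)) v) v y ∈ T p.1}) ≠ 0 :=
      fun h0 => h1 (measure_mono_null h2 h0)
    obtain ⟨⟨i, j⟩, hpos⟩ := exists_measure_pos_of_not_measure_iUnion_null h3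
    obtain ⟨q, hq⟩ := ENNReal.exists_inv_nat_lt hpos.ne'
    refine Set.mem_iUnion.2 ⟨(i, j, (fun c => ⌊ps (a (ev v)) v c + j * v c⌋), q), hv',
      fun c => rfl, le_trans ?_ hq.le⟩
    have h4 : (q : ENNReal)⁻¹ = (ENNReal.ofReal q)⁻¹ := by rw [ENNReal.ofReal_natCast]
    rw [h4]
    rcases Nat.eq_zero_or_pos q with h0 | h0
    · rw [h0]; simp
    · have hq0 : (0 : ℝ) < q := by exact_mod_cast h0
      rw [← ENNReal.ofReal_inv_of_pos hq0]
      refine ENNReal.ofReal_le_ofReal ?_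
      rw [← one_div]
      exact one_div_le_one_div_of_le hq0 (by linarith)
  have hvol : volume (⋃ p : ℕ × ℤ × (Fin m → ℤ) × ℕ,
      gV a (T p.1) p.2.1 p.2.2.1 (1 / ((p.2.2.2 : ℝ) + 1))) ≠ 0 := by
    intro h0
    have h1 := measure_mono_null hcov h0
    rw [Real.volume_pi_Ico] at h1
    simp at h1
  obtain ⟨⟨i, j, z, q⟩, hpos⟩ := exists_measure_pos_of_not_measure_iUnion_null hvol
  refine ⟨i, j, z, 1 / ((q : ℝ) + 1), by positivity, ?_, hpos.ne'⟩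
  rw [div_le_one (by positivity)]
  have : (0 : ℝ) ≤ q := by positivity
  linarith

/-- number of different lines at the scale `2^{-s}` -/
theorem count_lines (a : EuclideanSpace ℝ (Fin (m + 1)) → EuclideanSpace ℝ (Fin (m + 1)))
    (j : ℤ) (z0 : Fin m → ℤ) : ∃ B : ℕ, 0 < B ∧
    ∀ (Λ : Set ((EuclideanSpace ℝ (Fin (m + 1)) →L[ℝ] EuclideanSpace ℝ (Fin (m + 1))) ×
        EuclideanSpace ℝ (Fin (m + 1)))) (Z : Finset (Fin m → ℤ)) (vz : (Fin m → ℤ) → Fin m → ℝ),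
      (∀ z ∈ Z, (∀ i, 0 ≤ vz z i ∧ vz z i < 1) ∧
        (∀ c, ⌊ps (a (ev (vz z))) (vz z) c + j * vz z c⌋ = z0 c) ∧
        toLine (a (ev (vz z))) (ev (vz z)) ∈ Λ) →
      ∀ s : ℕ, ((Z.image (fun z => (fl s (fun c => ps (a (ev (vz z))) (vz z) c + j * vz z c - z0 c),
        fl s (vz z)))).card : ENNReal) ≤ (B : ENNReal) * cov ((1 / 2 : ℝ) ^ s) Λ := by
  classical
  obtain ⟨C, hC⟩ := lipschitz_line m j z0
  refine ⟨(2 * (2 * C + 1) + 1) ^ Fintype.card (Fin m ⊕ Fin m), by positivity, ?_⟩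
  intro Λ Z vz hvz s
  have hex : ∀ p : (Fin m → ℤ) × (Fin m → ℤ), ∃ z : Fin m → ℤ,
      p ∈ Z.image (fun z => (fl s (fun c => ps (a (ev (vz z))) (vz z) c + j * vz z c - z0 c),
        fl s (vz z))) → z ∈ Z ∧
        (fl s (fun c => ps (a (ev (vz z))) (vz z) c + j * vz z c - z0 c), fl s (vz z)) = p := by
    intro p
    by_cases hp : p ∈ Z.image (fun z =>
      (fl s (fun c => ps (a (ev (vz z))) (vz z) c + j * vz z c - z0 c), fl s (vz z)))
    · obtain ⟨z, hz, h⟩ := Finset.mem_image.1 hp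
      exact ⟨z, fun _ => ⟨hz, h⟩⟩
    · exact ⟨0, fun h => absurd h hp⟩
  choose ζ hζ using hex
  refine card_le_cov' (by positivity) Λ (2 * C + 1) _ (fun p => Sum.elim p.1 p.2) ?_
    (fun p => toLine (a (ev (vz (ζ p)))) (ev (vz (ζ p)))) ?_ ?_
  · intro p p' h
    have h1 : ∀ i, p.1 i = p'.1 i := fun i => congrFun h (Sum.inl i)
    have h2 : ∀ i, p.2 i = p'.2 i := fun i => congrFun h (Sum.inr i)
    exact Prod.ext (funext h1) (funext h2)
  · intro p hp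
    exact (hvz _ (hζ p hp).1).2.2
  · intro p hp p' hp' c hc hc' i
    obtain ⟨hz, hzp⟩ := hζ p hp
    obtain ⟨hz', hzp'⟩ := hζ p' hp'
    obtain ⟨h1, h2, _⟩ := hvz _ hz
    obtain ⟨h1', h2', _⟩ := hvz _ hz'
    have hd : dist (toLine (a (ev (vz (ζ p)))) (ev (vz (ζ p))))
        (toLine (a (ev (vz (ζ p')))) (ev (vz (ζ p')))) ≤ 2 * (1 / 2 : ℝ) ^ s := by
      have := dist_triangle_right (toLine (a (ev (vz (ζ p)))) (ev (vz (ζ p))))
        (toLine (a (ev (vz (ζ p')))) (ev (vz (ζ p')))) c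
      linarith
    have hL := hC _ _ _ _ _ (by positivity) h1 h1' h2 hd
    have h2s : (2 : ℝ) ^ s * (C * (2 * (1 / 2 : ℝ) ^ s)) = 2 * C := by
      have : (2 : ℝ) ^ s * (1 / 2 : ℝ) ^ s = 1 := by rw [← mul_pow]; norm_num
      linear_combination (2 * (C : ℝ)) * this
    have h2s0 : (0 : ℝ) < 2 ^ s := by positivity
    have key : ∀ x y : ℝ, |x - y| ≤ C * (2 * (1 / 2 : ℝ) ^ s) →
        |(⌊(2 : ℝ) ^ s * x⌋ - ⌊(2 : ℝ) ^ s * y⌋ : ℤ)| ≤ ((2 * C + 1 : ℕ) : ℤ) := by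
      intro x y hxy
      have h3 : |(2 : ℝ) ^ s * x - (2 : ℝ) ^ s * y| ≤ 2 * C := by
        rw [← mul_sub, abs_mul, abs_of_pos h2s0, ← h2s]
        exact mul_le_mul_of_nonneg_left hxy h2s0.le
      have h4 := floor_diff h3
      have h5 : ((|(⌊(2 : ℝ) ^ s * x⌋ - ⌊(2 : ℝ) ^ s * y⌋ : ℤ)| : ℤ) : ℝ) ≤
          (((2 * C + 1 : ℕ) : ℤ) : ℝ) := by
        push_cast
        exact h4
      exact_mod_cast h5
    rcases i with i | i
    · simp only [Sum.elim_inl]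
      rw [← hzp, ← hzp']
      refine key _ _ ?_
      have h3 := (hL i).2
      rw [show ps (a (ev (vz (ζ p)))) (vz (ζ p)) i + j * vz (ζ p) i - z0 i -
        (ps (a (ev (vz (ζ p')))) (vz (ζ p')) i + j * vz (ζ p') i - z0 i) =
        ps (a (ev (vz (ζ p)))) (vz (ζ p)) i + j * vz (ζ p) i -
        (ps (a (ev (vz (ζ p')))) (vz (ζ p')) i + j * vz (ζ p') i) by ring]
      exact h3
    · simp only [Sum.elim_inr]
      rw [← hzp, ← hzp']
      exact key _ _ (hL i).1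

/-- number of cells met by the lines -/
theorem count_cells (a : EuclideanSpace ℝ (Fin (m + 1)) → EuclideanSpace ℝ (Fin (m + 1)))
    (j : ℤ) (z0 : Fin m → ℤ) (T : Set (EuclideanSpace ℝ (Fin (m + 1)))) (Z : Finset (Fin m → ℤ))
    (vz : (Fin m → ℤ) → Fin m → ℝ) (hvz : ∀ z ∈ Z, ∀ i, 0 ≤ vz z i ∧ vz z i < 1) (L : ℕ)
    (S : Finset (ℤ × (Fin m → ℤ)))
    (hS : ∀ p ∈ S, ∃ z ∈ Z, ∃ k : ℕ, ∃ y : ℝ,
      j + (k : ℝ) / 2 ^ L ≤ y ∧ y ≤ j + (k : ℝ) / 2 ^ L + 1 / 2 ^ L ∧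
      pt (ps (a (ev (vz z))) (vz z)) (vz z) y ∈ T ∧
      p = ((k : ℤ), fl L (fun i => (ps (a (ev (vz z))) (vz z) i + j * vz z i - z0 i) +
        (k : ℝ) / 2 ^ L * vz z i))) :
    (S.card : ENNReal) ≤ ((11 ^ (m + 1) : ℕ) : ENNReal) * cov ((1 / 2 : ℝ) ^ L) T := by
  classical
  have h2L : (0 : ℝ) < 2 ^ L := by positivity
  have hex : ∀ p : ℤ × (Fin m → ℤ), ∃ (z : Fin m → ℤ) (k : ℕ) (y : ℝ), p ∈ S → z ∈ Z ∧
      j + (k : ℝ) / 2 ^ L ≤ y ∧ y ≤ j + (k : ℝ) / 2 ^ L + 1 / 2 ^ L ∧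
      pt (ps (a (ev (vz z))) (vz z)) (vz z) y ∈ T ∧
      p = ((k : ℤ), fl L (fun i => (ps (a (ev (vz z))) (vz z) i + j * vz z i - z0 i) +
        (k : ℝ) / 2 ^ L * vz z i)) := by
    intro p
    by_cases hp : p ∈ S
    · obtain ⟨z, hz, k, y, h⟩ := hS p hp
      exact ⟨z, k, y, fun _ => ⟨hz, h⟩⟩
    · exact ⟨0, 0, 0, fun h => absurd h hp⟩
  choose ζ κ y hζ using hex
  have hcard : Fintype.card (Option (Fin m)) = m + 1 := by simp
  have h11 : (11 ^ (m + 1) : ℕ) = (2 * 5 + 1) ^ Fintype.card (Option (Fin m)) := by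
    rw [hcard]
  rw [h11]
  refine card_le_cov' (by positivity) T 5 S
    (fun p => fun o : Option (Fin m) => o.elim p.1 p.2) ?_
    (fun p => pt (ps (a (ev (vz (ζ p)))) (vz (ζ p))) (vz (ζ p)) (y p)) ?_ ?_
  · intro p p' h
    have h1 : p.1 = p'.1 := congrFun h none
    have h2 : ∀ i, p.2 i = p'.2 i := fun i => congrFun h (some i)
    exact Prod.ext h1 (funext h2)
  · intro p hp
    exact (hζ p hp).2.2.2.1
  · intro p hp p' hp' c hc hc' i
    obtain ⟨hz, hy1, hy2, _, hpe⟩ := hζ p hp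
    obtain ⟨hz', hy1', hy2', _, hpe'⟩ := hζ p' hp'
    have hd : dist (pt (ps (a (ev (vz (ζ p)))) (vz (ζ p))) (vz (ζ p)) (y p))
        (pt (ps (a (ev (vz (ζ p')))) (vz (ζ p'))) (vz (ζ p')) (y p')) ≤ 2 * (1 / 2 : ℝ) ^ L := by
      have := dist_triangle_right (pt (ps (a (ev (vz (ζ p)))) (vz (ζ p))) (vz (ζ p)) (y p))
        (pt (ps (a (ev (vz (ζ p')))) (vz (ζ p'))) (vz (ζ p')) (y p')) c
      linarith
    have hone : (2 : ℝ) ^ L * (1 / 2 : ℝ) ^ L = 1 := by rw [← mul_pow]; norm_num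
    have hhalf : (1 / 2 : ℝ) ^ L = 1 / 2 ^ L := by rw [one_div, one_div, inv_pow]
    have key : ∀ x x' : ℤ, ∀ D : ℝ, |(x : ℝ) - x'| ≤ D → D ≤ 5 → |x - x'| ≤ ((5 : ℕ) : ℤ) := by
      intro x x' D h1 h2
      have h3 : ((|x - x'| : ℤ) : ℝ) ≤ (((5 : ℕ) : ℤ) : ℝ) := by
        push_cast
        linarith
      exact_mod_cast h3
    have hk1 : (κ p : ℝ) ≤ 2 ^ L * (y p - j) := by
      have : (κ p : ℝ) / 2 ^ L ≤ y p - j := by linarith
      rw [div_le_iff₀ h2L] at this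
      linarith
    have hk2 : 2 ^ L * (y p - j) ≤ (κ p : ℝ) + 1 := by
      have : y p - j ≤ ((κ p : ℝ) + 1) / 2 ^ L := by rw [add_div]; linarith
      rw [le_div_iff₀ h2L] at this
      linarith
    have hk1' : (κ p' : ℝ) ≤ 2 ^ L * (y p' - j) := by
      have : (κ p' : ℝ) / 2 ^ L ≤ y p' - j := by linarith
      rw [div_le_iff₀ h2L] at this
      linarith
    have hk2' : 2 ^ L * (y p' - j) ≤ (κ p' : ℝ) + 1 := by
      have : y p' - j ≤ ((κ p' : ℝ) + 1) / 2 ^ L := by rw [add_div]; linarith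
      rw [le_div_iff₀ h2L] at this
      linarith
    rcases i with _ | i
    · simp only [Option.elim_none]
      rw [hpe, hpe']
      refine key _ _ 3 ?_ (by norm_num)
      have h1 := (coord_le _ _ (Fin.last m)).trans hd
      rw [pt_last, pt_last] at h1
      have h2 : |2 ^ L * (y p - j) - 2 ^ L * (y p' - j)| ≤ 2 := by
        have e : (2 : ℝ) ^ L * (y p - j) - 2 ^ L * (y p' - j) = 2 ^ L * (y p - y p') := by ring
        rw [e, abs_mul, abs_of_pos h2L]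
        have := mul_le_mul_of_nonneg_left h1 h2L.le
        linarith
      rw [abs_le] at h2 ⊢
      push_cast
      constructor <;> linarith [h2.1, h2.2]
    · simp only [Option.elim_some]
      rw [hpe, hpe']
      simp only [fl]
      refine key _ _ (4 + 1) ?_ (by norm_num)
      refine floor_diff ?_
      have h1 := (coord_le _ _ (Fin.castSucc i)).trans hd
      rw [pt_castSucc, pt_castSucc] at h1
      have hv := hvz _ hz i
      have hv' := hvz _ hz' i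
      set A := ps (a (ev (vz (ζ p)))) (vz (ζ p)) i
      set A' := ps (a (ev (vz (ζ p')))) (vz (ζ p')) i
      set v := vz (ζ p) i
      set v' := vz (ζ p') i
      have e : (2 : ℝ) ^ L * (A + j * v - z0 i + (κ p : ℝ) / 2 ^ L * v) -
          2 ^ L * (A' + j * v' - z0 i + (κ p' : ℝ) / 2 ^ L * v') =
          2 ^ L * (A + y p * v - (A' + y p' * v')) -
            (2 ^ L * (y p - j) - κ p) * v + (2 ^ L * (y p' - j) - κ p') * v' := by
        field_simp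
        ring
      rw [e]
      have h3 : |2 ^ L * (A + y p * v - (A' + y p' * v'))| ≤ 2 := by
        rw [abs_mul, abs_of_pos h2L]
        have := mul_le_mul_of_nonneg_left h1 h2L.le
        linarith
      have h4 : |(2 ^ L * (y p - j) - κ p) * v| ≤ 1 := by
        rw [abs_mul, abs_of_nonneg (by linarith : (0 : ℝ) ≤ 2 ^ L * (y p - j) - κ p),
          abs_of_nonneg hv.1]
        calc (2 ^ L * (y p - j) - κ p) * v ≤ 1 * 1 :=
              mul_le_mul (by linarith) hv.2.le hv.1 (by norm_num)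
          _ = 1 := by norm_num
      have h5 : |(2 ^ L * (y p' - j) - κ p') * v'| ≤ 1 := by
        rw [abs_mul, abs_of_nonneg (by linarith : (0 : ℝ) ≤ 2 ^ L * (y p' - j) - κ p'),
          abs_of_nonneg hv'.1]
        calc (2 ^ L * (y p' - j) - κ p') * v' ≤ 1 * 1 :=
              mul_le_mul (by linarith) hv'.2.le hv'.1 (by norm_num)
          _ = 1 := by norm_num
      rw [abs_le] at h3 h4 h5 ⊢
      constructor <;> linarith [h3.1, h3.2, h4.1, h4.2, h5.1, h5.2]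

/-- the covering numbers of the piece `T` -/
theorem cov_lower (hLB : LBc m m)
    {a : EuclideanSpace ℝ (Fin (m + 1)) → EuclideanSpace ℝ (Fin (m + 1))}
    (hst : packingDim {p | ∃ e : EuclideanSpace ℝ (Fin (m + 1)), ‖e‖ = 1 ∧ p = toLine (a e) e} ≤
      ((m : ℝ) : EReal)) {T : Set (EuclideanSpace ℝ (Fin (m + 1)))} {j : ℤ} {z0 : Fin m → ℤ}
    {lam : ℝ} (hlam : 0 < lam) (hlam1 : lam ≤ 1) (hvol : volume (gV a T j z0 lam) ≠ 0) {ι : ℝ}
    (hι : 0 < ι) :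
    ∃ c : ℝ, 0 < c ∧ ∃ s0 : ℕ, ∀ s : ℕ, s0 ≤ s →
      ENNReal.ofReal (c * (2 : ℝ) ^ (((m : ℝ) + 1 - ι) * s)) ≤ cov ((1 / 2 : ℝ) ^ s) T := by
  classical
  obtain ⟨η, hη, hmain⟩ := count_of_LB hLB hι hlam hlam1
  -- the pieces of the set of lines
  have h1 : packingDim {p | ∃ e : EuclideanSpace ℝ (Fin (m + 1)), ‖e‖ = 1 ∧
      p = toLine (a e) e} < (((m : ℝ) + η : ℝ) : EReal) :=
    hst.trans_lt (by exact_mod_cast (by linarith : (m : ℝ) < m + η))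
  unfold packingDim at h1
  simp only [iInf_lt_iff] at h1
  obtain ⟨Λ, hΛ, hΛd⟩ := h1
  have hcov : gV a T j z0 lam ⊆
      ⋃ k, {v | v ∈ gV a T j z0 lam ∧ toLine (a (ev v)) (ev v) ∈ Λ k} := by
    intro v hv
    obtain ⟨k, hk⟩ := Set.mem_iUnion.1 (hΛ ⟨ev v, ev_norm v, rfl⟩)
    exact Set.mem_iUnion.2 ⟨k, hv, hk⟩
  have hvol2 : volume (⋃ k, {v | v ∈ gV a T j z0 lam ∧ toLine (a (ev v)) (ev v) ∈ Λ k}) ≠ 0 :=
    fun h0 => hvol (measure_mono_null hcov h0)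
  obtain ⟨k0, hpos⟩ := exists_measure_pos_of_not_measure_iUnion_null hvol2
  set A : Set (Fin m → ℝ) := {v | v ∈ gV a T j z0 lam ∧ toLine (a (ev v)) (ev v) ∈ Λ k0} with hA
  have hA01 : A ⊆ Set.Icc 0 1 := fun v hv =>
    ⟨fun i => (hv.1.1 i).1, fun i => (hv.1.1 i).2.le⟩
  have hAfin : volume A ≠ ⊤ := by
    refine ne_top_of_le_ne_top ?_ (measure_mono hA01)
    rw [Real.volume_Icc_pi]
    simp
  obtain ⟨w, hw⟩ : ∃ w : ℝ, w = (volume A).toReal := ⟨_, rfl⟩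
  have hwpos : 0 < w := by rw [hw]; exact ENNReal.toReal_pos hpos.ne' hAfin
  have hwA : ENNReal.ofReal w ≤ volume A := by
    rw [hw]; exact (ENNReal.ofReal_toReal hAfin).le
  obtain ⟨CΛ, hCΛ, hcovΛ⟩ := cov_le_of_upper
    ((le_iSup (fun i => upperMinkowskiDim (Λ i)) k0).trans_lt hΛd)
  obtain ⟨B, hB, hlines⟩ := count_lines a j z0
  have hBr : (0 : ℝ) < B := by exact_mod_cast hB
  obtain ⟨L0, hL0⟩ := hmain (B * CΛ) w (by positivity) hwpos
  refine ⟨lam / 11 ^ (m + 1), by positivity, L0, fun L hL => ?_⟩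
  have h2L : (0 : ℝ) < 2 ^ L := by positivity
  -- the discrete slopes
  obtain ⟨Z, hZ1, hZ2⟩ := exists_cubes A hA01 (2 ^ L) h2L hwA
  choose! vz hvA hvz using hZ1
  have hflvz : ∀ z ∈ Z, fl L (vz z) = z := fun z hz => funext fun i => hvz z hz i
  have hNat : ((2 ^ L : ℕ) : ℝ) = 2 ^ L := by push_cast; rfl
  -- the shadings
  set E : (Fin m → ℤ) → Finset ℕ := fun z => Eset j 1 (2 ^ L)
    {y : ℝ | y ∈ Set.Icc (j : ℝ) (j + 1) ∧ pt (ps (a (ev (vz z))) (vz z)) (vz z) y ∈ T} with hE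
  have hEc : ∀ z ∈ Z, lam * (2 : ℝ) ^ L ≤ (E z).card := by
    intro z hz
    have h2 := ecard (N := 2 ^ L) Nat.one_le_two_pow one_pos j (lam := lam)
      {y : ℝ | y ∈ Set.Icc (j : ℝ) (j + 1) ∧ pt (ps (a (ev (vz z))) (vz z)) (vz z) y ∈ T}
      (fun y hy => by rw [mul_one, mul_one]; exact hy.1)
      (by rw [one_mul]; exact (hvA z hz).1.2.2)
    rw [hNat] at h2
    exact h2
  set S : Finset (ℤ × (Fin m → ℤ)) := Z.biUnion (fun z => (E z).image (fun k =>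
    (((k : ℕ) : ℤ), fl L (fun i => (ps (a (ev (vz z))) (vz z) i + j * vz z i - z0 i) +
        (k : ℝ) / 2 ^ L * vz z i)))) with hS
  have hSmem : ∀ z ∈ Z, ∀ k ∈ E z,
      (((k : ℕ) : ℤ), fl L (fun i => (ps (a (ev (vz z))) (vz z) i + j * vz z i - z0 i) +
        (k : ℝ) / 2 ^ L * vz z i)) ∈ S := fun z hz k hk =>
    Finset.mem_biUnion.2 ⟨z, hz, Finset.mem_image.2 ⟨k, hk, rfl⟩⟩
  have h3 := hL0 L hL Z (fun z i => ps (a (ev (vz z))) (vz z) i + j * vz z i - z0 i) vz hZ2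
    (fun z hz i => by
      have h4 := (hvA z hz).1.2.1 i
      have h5 := Int.floor_le (ps (a (ev (vz z))) (vz z) i + j * vz z i)
      have h6 := Int.lt_floor_add_one (ps (a (ev (vz z))) (vz z) i + j * vz z i)
      rw [h4] at h5 h6
      constructor <;> linarith)
    (fun z hz => (hvA z hz).1.1) hflvz
    (fun s hs => by
      have h4 := hlines (Λ k0) Z vz (fun z hz => ⟨(hvA z hz).1.1, (hvA z hz).1.2.1,
        (hvA z hz).2⟩) s
      have h5 : (B : ENNReal) * cov ((1 / 2 : ℝ) ^ s) (Λ k0) ≤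
          ENNReal.ofReal (B * CΛ * (2 : ℝ) ^ (((m : ℝ) + η) * s)) := by
        rw [mul_assoc, ENNReal.ofReal_mul hBr.le, ENNReal.ofReal_natCast]
        gcongr
        exact hcovΛ s
      have h6 := h4.trans h5
      rw [← ENNReal.ofReal_natCast, ENNReal.ofReal_le_ofReal_iff (by positivity)] at h6
      exact h6)
    E (fun z _ => Finset.filter_subset _ _) hEc S hSmem
  -- the set of cells is not empty
  have hZpos : (0 : ℝ) < Z.card := lt_of_lt_of_le (by positivity) hZ2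
  obtain ⟨z1, hz1⟩ := Finset.card_pos.1 (by exact_mod_cast hZpos : 0 < Z.card)
  have hEpos : (0 : ℝ) < (E z1).card := lt_of_lt_of_le (by positivity) (hEc z1 hz1)
  obtain ⟨k1, hk1⟩ := Finset.card_pos.1 (by exact_mod_cast hEpos : 0 < (E z1).card)
  have hSpos : (0 : ℝ) < S.card := by
    exact_mod_cast Finset.card_pos.2 ⟨_, hSmem z1 hz1 k1 hk1⟩
  have h4 : lam * (2 : ℝ) ^ (((m : ℝ) + 1 - ι) * L) ≤ S.card := by
    rw [← Real.log_le_log_iff (by positivity) hSpos, Real.log_mul hlam.ne' (by positivity),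
      Real.log_rpow (by norm_num)]
    linarith
  have h5 := count_cells a j z0 T Z vz (fun z hz => (hvA z hz).1.1) L S (by
    intro p hp
    obtain ⟨z, hz, hp2⟩ := Finset.mem_biUnion.1 hp
    obtain ⟨k, hk, hp3⟩ := Finset.mem_image.1 hp2
    simp only [hE, Eset, Finset.mem_filter] at hk
    obtain ⟨_, y, ⟨hy1, hy2⟩, _, hyT⟩ := hk
    unfold hy at hy1 hy2
    rw [hNat] at hy1 hy2
    refine ⟨z, hz, k, y, ?_, ?_, hyT, hp3.symm⟩
    · rw [mul_one, mul_one_div] at hy1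
      exact hy1
    · rw [mul_one, mul_one_div] at hy2
      exact hy2)
  have h6 : ENNReal.ofReal (lam * (2 : ℝ) ^ (((m : ℝ) + 1 - ι) * L)) ≤ (S.card : ENNReal) := by
    rw [← ENNReal.ofReal_natCast]
    exact ENNReal.ofReal_le_ofReal h4
  have h7 := h6.trans h5
  have h11 : (0 : ℝ) < 11 ^ (m + 1) := by positivity
  have e1 : lam / 11 ^ (m + 1) * (2 : ℝ) ^ (((m : ℝ) + 1 - ι) * L) =
      (lam * (2 : ℝ) ^ (((m : ℝ) + 1 - ι) * L)) / 11 ^ (m + 1) := by ring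
  rw [e1, ENNReal.ofReal_div_of_pos h11]
  refine ENNReal.div_le_of_le_mul' ?_
  refine h7.trans (le_of_eq ?_)
  congr 1
  rw [← ENNReal.ofReal_natCast]
  push_cast
  rfl

/-- extraction of the theorem on sets from the entropic theorem -/
theorem stickyMain_of_LB {n : ℕ} (hn : 2 ≤ n) (hLB' : LB GrP (n - 1) ((n - 1 : ℕ) : ℝ)) :
    StickyMain n := by
  obtain ⟨m, rfl⟩ : ∃ m, n = m + 1 := ⟨n - 1, by omega⟩
  simp only [Nat.add_sub_cancel] at hLB'
  have hLB := LBc_of_LB hLB'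
  intro a hst K hK T hT
  have e : (((m + 1 : ℕ) : ℝ) - 1 : ℝ) = m := by push_cast; ring
  rw [e] at hst
  obtain ⟨i, j, z, lam, hlam, hlam1, hvol⟩ := exists_gV hK hT
  refine ⟨i, ?_⟩
  have h1 : (((m + 1 : ℕ) : ℝ) : EReal) ≤ lowerMinkowskiDim (T i) := by
    refine le_lower_of_cov (by positivity) fun ι hι => ?_
    obtain ⟨c, hc, s0, hs⟩ := cov_lower hLB hst hlam hlam1 hvol hι
    refine ⟨c, hc, s0, fun s h => ?_⟩
    have := hs s h
    push_cast at this ⊢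
    exact this
  exact_mod_cast h1

end Vale.Agent.P127.Stk.Ext
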