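import Vale.Agent.P127.Stk.ExtLaw
import Vale.Agent.P127.Scale

/-!
# P127 / Stk : rescaling of a family of lines to a short dyadic time interval, and covers
-/

namespace Vale.Agent.P127.Stk

open Finset Vale.Agent.P127 MeasureTheory

/-- volume of a rescaled set -/
lemma volume_resc (p : ℕ) (τ : ℝ) (S : Set ℝ) :
    volume {t : ℝ | (t + τ) / 2 ^ p ∈ S} = ENNReal.ofReal (2 ^ p) * volume S := by
  have h2 : (0 : ℝ) < 2 ^ p := by positivity
  have h1 : {t : ℝ | (t + τ) / 2 ^ p ∈ S} =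
      (fun t => t + τ) ⁻¹' ((fun t => (1 / 2 ^ p : ℝ) * t) ⁻¹' S) := by
    ext t
    simp only [Set.mem_preimage, Set.mem_ofPred_eq]
    rw [div_eq_mul_one_div, mul_comm]
  rw [h1, measure_preimage_add_right, Real.volume_preimage_mul_left (by positivity)]
  congr 2
  rw [one_div, inv_inv, abs_of_pos h2]

/-- RESCALING -/
theorem rescale {m N p : ℕ} (hpN : p ≤ N) (τ : ℤ) (hτ : 0 ≤ τ ∧ τ < 2 ^ p) (a : Fin m → ℤ)
    (Y : Set (Fin m → ℝ)) (x : (Fin m → ℝ) → (Fin m → ℝ)) (T : (Fin m → ℝ) → Set ℝ)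
    (c0 lam A η : ℝ) (hc0 : 0 < c0) (hlam : 0 < lam) (hA : 0 < A) (hη : 0 ≤ η)
    (hY01 : ∀ y ∈ Y, ∀ i, 0 ≤ y i ∧ y i < 1)
    (ha : ∀ y ∈ Y, fl p (fun i => x y i + (τ : ℝ) / 2 ^ p * y i) = a)
    (hT : ∀ y ∈ Y, ENNReal.ofReal (c0 * (1 / 2) ^ p) ≤ volume (T y ∩ {t | fl1 p t = τ}))
    (hY : ENNReal.ofReal lam ≤ volume Y)
    (hcell : ∀ s ≤ N, ∃ F : Finset ((Fin m → ℤ) × (Fin m → ℤ)),
      (F.card : ℝ) ≤ A * 2 ^ ((m + η) * s) ∧ ∀ y ∈ Y, (fl s (x y), fl s y) ∈ F)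
    (F0 : Finset ((Fin m → ℤ) × ℤ))
    (hF0 : ∀ y ∈ Y, ∀ t ∈ T y, fl1 p t = τ →
      (fl N (fun i => x y i + t * y i), fl1 N t) ∈ F0) :
    ∃ (Ω : Type) (_ : Fintype Ω) (P : Law Ω) (c : Cf Ω m),
      Good P c (N - p) (max (Real.log (3 ^ m * A) + ((m + η) * p + η * N) * Real.log 2)
        (Real.log (1 / lam))) (Real.log (1 / c0)) ∧
      hc P (fun ω => fl (N - p) (c.pt ω)) (fun ω => (c.t ω, c.A ω)) ≤
        Real.log F0.card - ((N : ℝ) - p) * Real.log 2 + Real.log (1 / c0) + m * Real.log 3 := by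
  classical
  have h2p : (0 : ℝ) < 2 ^ p := by positivity
  obtain ⟨x', hx'⟩ : ∃ x' : (Fin m → ℝ) → (Fin m → ℝ),
      ∀ y i, x' y i = 2 ^ p * (x y i + (τ : ℝ) / 2 ^ p * y i) - a i :=
    ⟨fun y i => 2 ^ p * (x y i + (τ : ℝ) / 2 ^ p * y i) - a i, fun _ _ => rfl⟩
  obtain ⟨T', hT'⟩ : ∃ T' : (Fin m → ℝ) → Set ℝ,
      ∀ y, T' y = {t : ℝ | (t + τ) / 2 ^ p ∈ T y ∩ {t | fl1 p t = τ}} :=
    ⟨fun y => {t : ℝ | (t + τ) / 2 ^ p ∈ T y ∩ {t | fl1 p t = τ}}, fun _ => rfl⟩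
  have hsub : ((N - p : ℕ) : ℝ) = (N : ℝ) - p := Nat.cast_sub hpN
  have hpow : (2 : ℝ) ^ N = 2 ^ (N - p) * 2 ^ p := by
    rw [← pow_add, Nat.sub_add_cancel hpN]
  -- the rescaled points
  have hpt : ∀ (y : Fin m → ℝ) (t : ℝ), fl (N - p) (fun i => x' y i + t * y i) =
      fun i => fl N (fun i => x y i + (t + τ) / 2 ^ p * y i) i - 2 ^ (N - p) * a i := by
    intro y t
    funext i
    show ⌊(2 : ℝ) ^ (N - p) * (x' y i + t * y i)⌋ =
      ⌊(2 : ℝ) ^ N * (x y i + (t + τ) / 2 ^ p * y i)⌋ - 2 ^ (N - p) * a i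
    have e : (2 : ℝ) ^ (N - p) * (x' y i + t * y i) =
        (2 : ℝ) ^ N * (x y i + (t + τ) / 2 ^ p * y i) - ((2 ^ (N - p) * a i : ℤ) : ℝ) := by
      rw [hx', hpow]
      push_cast
      field_simp
      ring
    rw [e, Int.floor_sub_intCast]
  have htt : ∀ t : ℝ, fl1 (N - p) t = fl1 N ((t + τ) / 2 ^ p) - 2 ^ (N - p) * τ := by
    intro t
    show ⌊(2 : ℝ) ^ (N - p) * t⌋ = ⌊(2 : ℝ) ^ N * ((t + τ) / 2 ^ p)⌋ - 2 ^ (N - p) * τ
    have e : (2 : ℝ) ^ (N - p) * t =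
        (2 : ℝ) ^ N * ((t + τ) / 2 ^ p) - ((2 ^ (N - p) * τ : ℤ) : ℝ) := by
      rw [hpow]
      push_cast
      field_simp
      ring
    rw [e, Int.floor_sub_intCast]
  obtain ⟨F1, hF1⟩ : ∃ F1 : Finset ((Fin m → ℤ) × ℤ),
      F1 = F0.image (fun q => ((fun i => q.1 i - 2 ^ (N - p) * a i), q.2 - 2 ^ (N - p) * τ)) :=
    ⟨_, rfl⟩
  have hx01' : ∀ y ∈ Y, ∀ i, 0 ≤ x' y i ∧ x' y i < 1 := by
    intro y hy i
    have h1 : ⌊(2 : ℝ) ^ p * (x y i + (τ : ℝ) / 2 ^ p * y i)⌋ = a i := congrFun (ha y hy) i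
    rw [Int.floor_eq_iff] at h1
    rw [hx']
    constructor <;> linarith [h1.1, h1.2]
  have hT01' : ∀ y ∈ Y, T' y ⊆ Set.Ico 0 1 := by
    intro y _ t ht
    rw [hT'] at ht
    have h1 : ⌊(2 : ℝ) ^ p * ((t + τ) / 2 ^ p)⌋ = τ := ht.2
    rw [mul_div_cancel₀ _ h2p.ne', Int.floor_eq_iff] at h1
    constructor <;> linarith [h1.1, h1.2]
  have hTv : ∀ y ∈ Y, ENNReal.ofReal c0 ≤ volume (T' y) := by
    intro y hy
    rw [hT', volume_resc]
    calc ENNReal.ofReal c0 = ENNReal.ofReal (2 ^ p) * ENNReal.ofReal (c0 * (1 / 2) ^ p) := by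
          rw [← ENNReal.ofReal_mul h2p.le]
          congr 1
          rw [mul_comm, mul_assoc, ← mul_pow]
          norm_num
      _ ≤ _ := by
          gcongr
          exact hT y hy
  have hcell' : ∀ s ≤ N - p, ∃ F : Finset ((Fin m → ℤ) × (Fin m → ℤ)),
      (F.card : ℝ) ≤ 2 ^ (m * s) *
        Real.exp (Real.log (3 ^ m * A) + ((m + η) * p + η * N) * Real.log 2) ∧
      ∀ y ∈ Y, (fl s (x' y), fl s y) ∈ F := by
    intro s hs
    obtain ⟨F, hFc, hFm⟩ := hcell (s + p) (by omega)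
    -- the possible cells
    obtain ⟨lo, hlo⟩ : ∃ lo : (Fin m → ℤ) × (Fin m → ℤ) → Fin m → ℤ, ∀ q i,
        lo q i = ⌊(q.1 i : ℝ) + (τ : ℝ) * (q.2 i : ℝ) / 2 ^ p⌋ - 2 ^ s * a i :=
      ⟨fun q i => ⌊(q.1 i : ℝ) + (τ : ℝ) * (q.2 i : ℝ) / 2 ^ p⌋ - 2 ^ s * a i, fun _ _ => rfl⟩
    refine ⟨F.biUnion fun q => (Fintype.piFinset fun i => Finset.Icc (lo q i) (lo q i + 2)) ×ˢ
      {fun i => q.2 i / 2 ^ p}, ?_, ?_⟩
    · have h1 : (F.biUnion fun q => (Fintype.piFinset fun i =>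
          Finset.Icc (lo q i) (lo q i + 2)) ×ˢ
          ({fun i => q.2 i / 2 ^ p} : Finset (Fin m → ℤ))).card ≤ F.card * 3 ^ m := by
        refine Finset.card_biUnion_le_card_mul _ _ _ fun q _ => ?_
        rw [Finset.card_product, Fintype.card_piFinset, Finset.card_singleton, mul_one]
        have : ∀ i, (Finset.Icc (lo q i) (lo q i + 2)).card = 3 := by
          intro i
          rw [Int.card_Icc]
          omega
        simp [this]
      have h3 : ((F.biUnion fun q => (Fintype.piFinset fun i =>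
          Finset.Icc (lo q i) (lo q i + 2)) ×ˢ
          ({fun i => q.2 i / 2 ^ p} : Finset (Fin m → ℤ))).card : ℝ) ≤ F.card * 3 ^ m := by
        exact_mod_cast h1
      refine h3.trans ?_
      have h4 : (0 : ℝ) < 3 ^ m * A := by positivity
      rw [Real.exp_add, Real.exp_log h4]
      have h5 : Real.exp (((m + η) * p + η * N) * Real.log 2) =
          (2 : ℝ) ^ ((m + η) * p + η * N) := by
        rw [Real.rpow_def_of_pos (by norm_num), mul_comm]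
      rw [h5]
      have h6 : (2 : ℝ) ^ ((m + η) * ((s + p : ℕ) : ℝ)) ≤
          2 ^ (m * s) * 2 ^ ((m + η) * p + η * N) := by
        rw [← Real.rpow_natCast, ← Real.rpow_add (by norm_num)]
        refine Real.rpow_le_rpow_of_exponent_le (by norm_num) ?_
        have h7 : (s : ℝ) ≤ N := by exact_mod_cast (hs.trans (Nat.sub_le _ _))
        push_cast
        nlinarith
      calc (F.card : ℝ) * 3 ^ m ≤ (A * 2 ^ ((m + η) * ((s + p : ℕ) : ℝ))) * 3 ^ m :=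
            mul_le_mul_of_nonneg_right hFc (by positivity)
        _ ≤ (A * (2 ^ (m * s) * 2 ^ ((m + η) * p + η * N))) * 3 ^ m := by
            gcongr
        _ = _ := by ring
    · intro y hy
      have hq := hFm y hy
      refine Finset.mem_biUnion.2 ⟨_, hq, ?_⟩
      rw [Finset.mem_product, Fintype.mem_piFinset, Finset.mem_singleton]
      constructor
      · intro i
        rw [Finset.mem_Icc, hlo]
        show ⌊((⌊(2 : ℝ) ^ (s + p) * x y i⌋ : ℤ) : ℝ) +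
            (τ : ℝ) * ((⌊(2 : ℝ) ^ (s + p) * y i⌋ : ℤ) : ℝ) / 2 ^ p⌋ - 2 ^ s * a i ≤
            ⌊(2 : ℝ) ^ s * x' y i⌋ ∧ ⌊(2 : ℝ) ^ s * x' y i⌋ ≤
            ⌊((⌊(2 : ℝ) ^ (s + p) * x y i⌋ : ℤ) : ℝ) +
            (τ : ℝ) * ((⌊(2 : ℝ) ^ (s + p) * y i⌋ : ℤ) : ℝ) / 2 ^ p⌋ - 2 ^ s * a i + 2
        have e : (2 : ℝ) ^ s * x' y i = ((2 : ℝ) ^ (s + p) * x y i +
            (τ : ℝ) * ((2 : ℝ) ^ (s + p) * y i) / 2 ^ p) - ((2 ^ s * a i : ℤ) : ℝ) := by
          rw [hx', pow_add]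
          push_cast
          field_simp
        rw [e, Int.floor_sub_intCast]
        obtain ⟨u, hu⟩ : ∃ u : ℝ, u = (2 : ℝ) ^ (s + p) * x y i := ⟨_, rfl⟩
        obtain ⟨v, hv⟩ : ∃ v : ℝ, v = (2 : ℝ) ^ (s + p) * y i := ⟨_, rfl⟩
        rw [← hu, ← hv]
        have hu1 := Int.floor_le u
        have hu2 := Int.lt_floor_add_one u
        have hv1 := Int.floor_le v
        have hv2 := Int.lt_floor_add_one v
        have ht0 : (0 : ℝ) ≤ τ := by exact_mod_cast hτ.1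
        have ht1 : (τ : ℝ) < 2 ^ p := by exact_mod_cast hτ.2
        have h3 : (τ : ℝ) * (⌊v⌋ : ℝ) / 2 ^ p ≤ τ * v / 2 ^ p :=
          div_le_div_of_nonneg_right (mul_le_mul_of_nonneg_left hv1 ht0) h2p.le
        have h4 : (τ : ℝ) * v / 2 ^ p ≤ τ * (⌊v⌋ : ℝ) / 2 ^ p + 1 := by
          rw [div_add_one h2p.ne']
          refine div_le_div_of_nonneg_right ?_ h2p.le
          nlinarith
        have h5 := Int.floor_le_floor (a := (⌊u⌋ : ℝ) + τ * (⌊v⌋ : ℝ) / 2 ^ p)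
          (b := u + τ * v / 2 ^ p) (by linarith)
        have h6 := Int.floor_le_floor (a := u + τ * v / 2 ^ p)
          (b := ((⌊u⌋ : ℝ) + τ * (⌊v⌋ : ℝ) / 2 ^ p) + ((2 : ℤ) : ℝ)) (by push_cast; linarith)
        rw [Int.floor_add_intCast] at h6
        constructor <;> linarith
      · funext i
        show ⌊(2 : ℝ) ^ s * y i⌋ = ⌊(2 : ℝ) ^ (s + p) * y i⌋ / 2 ^ p
        have e : (2 : ℝ) ^ s * y i = ((2 : ℝ) ^ (s + p) * y i) / ((2 ^ p : ℕ) : ℝ) := by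
          rw [pow_add]
          push_cast
          field_simp
        rw [e, Int.floor_div_natCast]
        push_cast
        rfl
  have hmain := ext_law Y x' T' c0 lam
    (Real.log (3 ^ m * A) + ((m + η) * p + η * N) * Real.log 2) hc0 hlam hY01 hx01' hT01' hTv hY
    hcell' F1 (by
      intro y hy t ht
      rw [hT'] at ht
      rw [hF1]
      refine Finset.mem_image.2 ⟨_, hF0 y hy _ ht.1 ht.2, ?_⟩
      rw [hpt, htt])
  obtain ⟨Ω, inst, P, c, hgood, hrate⟩ := hmain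
  refine ⟨Ω, inst, P, c, hgood, hrate.trans ?_⟩
  have hF01 : Real.log F1.card ≤ Real.log F0.card := by
    have h1 : F1.card ≤ F0.card := by
      rw [hF1]
      exact Finset.card_image_le
    rcases Nat.eq_zero_or_pos F1.card with h0 | h0
    · rw [h0]
      simp only [Nat.cast_zero, Real.log_zero]
      exact Real.log_natCast_nonneg _
    · exact Real.log_le_log (by exact_mod_cast h0) (by exact_mod_cast h1)
  rw [hsub]
  linarith

end Vale.Agent.P127.Stk
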