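import Vale.Agent.P127.Stk.Defs

/-!
# P127 / Stk : the two growth classes
-/

namespace Vale.Agent.P127.Stk

open Finset Filter Vale.Agent.P127

/-! ### The class for Minkowski dimension -/

/-- admissible errors for the Minkowski dimension: bounded time deficits and line errors `o(L)` -/
def okM (C₀ : ℝ) (n L : ℕ) (e C : ℝ) : Prop := C ≤ C₀ ∧ n ≤ L ∧ e ≤ (L : ℝ) / (n + 1)

theorem okM_anti (g : ℝ) (n n' L : ℕ) (e C : ℝ) (hn : n ≤ n') (h : okM g n' L e C) :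
    okM g n L e C := by
  obtain ⟨h1, h2, h3⟩ := h
  refine ⟨h1, hn.trans h2, h3.trans ?_⟩
  have : (n : ℝ) ≤ n' := by exact_mod_cast hn
  have h0 : (0 : ℝ) ≤ n := Nat.cast_nonneg n
  exact div_le_div_of_nonneg_left (Nat.cast_nonneg _) (by linarith) (by linarith)

theorem okM_mono (g : ℝ) (n L : ℕ) (e C e' C' : ℝ) (he : e' ≤ e) (hC : C' ≤ C)
    (h : okM g n L e C) : okM g n L e' C' :=
  ⟨hC.trans h.1, h.2.1, he.trans h.2.2⟩

theorem okM_dom (g K : ℝ) (hK : 0 ≤ K) : ∃ g' : ℝ, ∀ n' : ℕ, ∃ n : ℕ, ∀ (L : ℕ) (e C : ℝ),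
    okM g n L e C → okM g' n' L (K * (e + 1)) (K * (C + 1)) := by
  refine ⟨K * (g + 1), fun n' => ?_⟩
  obtain ⟨n0, hn0⟩ := exists_nat_ge (2 * K * (n' + 1))
  refine ⟨max n0 n', ?_⟩
  rintro L e C ⟨h1, h2, h3⟩
  have hn' : (n' : ℝ) ≤ (max n0 n' : ℕ) := by exact_mod_cast le_max_right _ _
  have hn1 : 2 * K * (n' + 1) ≤ ((max n0 n' : ℕ) : ℝ) :=
    hn0.trans (by exact_mod_cast le_max_left _ _)
  set N : ℝ := ((max n0 n' : ℕ) : ℝ) with hN
  have hLN : N ≤ L := by rw [hN]; exact_mod_cast h2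
  have hn'0 : (0 : ℝ) ≤ n' := Nat.cast_nonneg n'
  have hN0 : 0 ≤ N := hn'0.trans hn'
  refine ⟨mul_le_mul_of_nonneg_left (by linarith) hK, (le_max_right _ _).trans h2, ?_⟩
  have hL0 : (0 : ℝ) ≤ L := Nat.cast_nonneg L
  have a1 : K * (e + 1) ≤ K * ((L : ℝ) / (N + 1) + 1) :=
    mul_le_mul_of_nonneg_left (by linarith) hK
  refine a1.trans ?_
  rw [le_div_iff₀ (by linarith)]
  have a2 : K * ((L : ℝ) / (N + 1)) * (n' + 1) ≤ L / 2 := by
    rw [mul_div_assoc', div_mul_eq_mul_div, div_le_div_iff₀ (by linarith) (by norm_num)]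
    nlinarith
  have a3 : K * (n' + 1) ≤ L / 2 := by linarith
  nlinarith

theorem okM_sub (g η : ℝ) (hη : 0 < η) : ∃ g' : ℝ, ∀ n' : ℕ, ∃ n : ℕ, ∀ (L L' : ℕ) (e C : ℝ),
    okM g n L e C → η * L ≤ L' → L' ≤ L → okM g' n' L' e C := by
  refine ⟨g, fun n' => ?_⟩
  obtain ⟨n0, hn0⟩ := exists_nat_ge ((n' + 1) / η)
  refine ⟨n0, ?_⟩
  rintro L L' e C ⟨h1, h2, h3⟩ h4 h5
  have hL : (n0 : ℝ) ≤ L := by exact_mod_cast h2
  have hn : (n' : ℝ) + 1 ≤ η * n0 := by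
    rw [div_le_iff₀ hη] at hn0
    linarith
  have hn'0 : (0 : ℝ) ≤ n' := Nat.cast_nonneg n'
  have hL' : (n' : ℝ) + 1 ≤ L' := by
    have := mul_le_mul_of_nonneg_left hL hη.le
    linarith
  refine ⟨h1, ?_, h3.trans ?_⟩
  · have : (n' : ℝ) ≤ L' := by linarith
    exact_mod_cast this
  · have hn00 : (0 : ℝ) ≤ n0 := Nat.cast_nonneg n0
    rw [div_le_div_iff₀ (by linarith) (by linarith)]
    have hL0 : (0 : ℝ) ≤ L := Nat.cast_nonneg L
    calc (L : ℝ) * (n' + 1) ≤ L * (η * n0) := mul_le_mul_of_nonneg_left hn hL0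
      _ = (η * L) * n0 := by ring
      _ ≤ (L' : ℝ) * n0 := mul_le_mul_of_nonneg_right h4 hn00
      _ ≤ (L' : ℝ) * (n0 + 1) := by nlinarith [Nat.cast_nonneg (α := ℝ) L']

theorem okM_small (g ε : ℝ) (hε : 0 < ε) : ∃ n : ℕ, ∀ (L : ℕ) (e C : ℝ), okM g n L e C →
    1 ≤ ε * L ∧ e ≤ ε * L ∧ C ≤ ε * L := by
  obtain ⟨n0, hn0⟩ := exists_nat_ge ((1 + |g|) / ε)
  refine ⟨n0, ?_⟩
  rintro L e C ⟨h1, h2, h3⟩
  have hL : (n0 : ℝ) ≤ L := by exact_mod_cast h2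
  rw [div_le_iff₀ hε] at hn0
  have hg : g ≤ |g| := le_abs_self g
  have hg0 : 0 ≤ |g| := abs_nonneg g
  have h4 : 1 + |g| ≤ ε * L := by nlinarith
  refine ⟨by linarith, h3.trans ?_, by linarith⟩
  rw [div_le_iff₀ (by positivity)]
  have hL0 : (0 : ℝ) ≤ L := Nat.cast_nonneg L
  have h5 : 1 ≤ ε * (n0 + 1) := by nlinarith
  nlinarith

theorem okM_win (g : ℝ) (κ : ℕ) (εu : ℝ) (hεu : 0 < εu) : ∃ g' : ℝ, ∀ n' : ℕ, ∃ n : ℕ,
    ∀ (L L' : ℕ) (e C : ℝ), okM g n L e C →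
    (L : ℝ) ≤ (κ + 4 : ℝ) ^ (8 * (max C 0 + 1) / εu + 3) * L' → L' ≤ L → okM g' n' L' e C := by
  set M : ℝ := (κ + 4 : ℝ) ^ (8 * (max g 0 + 1) / εu + 3) with hM
  have hA : (1 : ℝ) ≤ (κ + 4 : ℝ) := by
    have : (0 : ℝ) ≤ κ := Nat.cast_nonneg κ
    linarith
  have hM0 : 0 < M := Real.rpow_pos_of_pos (by linarith) _
  obtain ⟨g', hg'⟩ := okM_sub g (1 / M) (by positivity)
  refine ⟨g', fun n' => ?_⟩
  obtain ⟨n, hn⟩ := hg' n'
  refine ⟨n, fun L L' e C hok hL hL' => hn L L' e C hok ?_ hL'⟩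
  have h1 : (κ + 4 : ℝ) ^ (8 * (max C 0 + 1) / εu + 3) ≤ M := by
    refine Real.rpow_le_rpow_of_exponent_le hA ?_
    have : max C 0 ≤ max g 0 := max_le_max hok.1 le_rfl
    have h2 : 8 * (max C 0 + 1) / εu ≤ 8 * (max g 0 + 1) / εu :=
      div_le_div_of_nonneg_right (by linarith) hεu.le
    linarith
  have h3 : (L : ℝ) ≤ M * L' := hL.trans (mul_le_mul_of_nonneg_right h1 (Nat.cast_nonneg _))
  rw [one_div, inv_mul_le_iff₀ hM0]
  exact h3

/-- the growth class for the Minkowski dimension -/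
def GrM : Gr where
  G := ℝ
  ok := okM
  anti := okM_anti
  mono := okM_mono
  dom := okM_dom
  sub := okM_sub
  small := okM_small
  win := okM_win

/-! ### The class for Hausdorff dimension -/

/-- admissible errors for the Hausdorff dimension: time deficits `≤ K log log L` and line errors
`≤ K L^{1-c}` -/
def okH (g : ℝ × ℝ) (n L : ℕ) (e C : ℝ) : Prop :=
  0 < g.2 ∧ n ≤ L ∧ 3 ≤ L ∧ e ≤ g.1 * (L : ℝ) ^ (1 - g.2) ∧ C ≤ g.1 * Real.log (Real.log L)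

theorem okH_anti (g : ℝ × ℝ) (n n' L : ℕ) (e C : ℝ) (hn : n ≤ n') (h : okH g n' L e C) :
    okH g n L e C := by
  obtain ⟨h1, h2, h3⟩ := h
  exact ⟨h1, hn.trans h2, h3⟩

theorem okH_mono (g : ℝ × ℝ) (n L : ℕ) (e C e' C' : ℝ) (he : e' ≤ e) (hC : C' ≤ C)
    (h : okH g n L e C) : okH g n L e' C' :=
  ⟨h.1, h.2.1, h.2.2.1, he.trans h.2.2.2.1, hC.trans h.2.2.2.2⟩

theorem one_le_log_of {L : ℝ} (h : 3 ≤ L) : 1 ≤ Real.log L := by
  rw [Real.le_log_iff_exp_le (by linarith)]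
  have := Real.exp_one_lt_d9
  linarith

theorem loglog_nonneg {L : ℝ} (h : 3 ≤ L) : 0 ≤ Real.log (Real.log L) :=
  Real.log_nonneg (one_le_log_of h)

/-- weakening of the grade -/
theorem okH_weak {g : ℝ × ℝ} {n L : ℕ} {e C : ℝ} (h : okH g n L e C) :
    okH (|g.1|, min g.2 (1 / 2)) n L e C := by
  obtain ⟨h1, h2, h3, h4, h5⟩ := h
  have hL : (3 : ℝ) ≤ L := by exact_mod_cast h3
  refine ⟨lt_min h1 (by norm_num), h2, h3, h4.trans ?_, h5.trans ?_⟩
  · have a1 : (L : ℝ) ^ (1 - g.2) ≤ (L : ℝ) ^ (1 - min g.2 (1 / 2)) := by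
      refine Real.rpow_le_rpow_of_exponent_le (by linarith) ?_
      have := min_le_left g.2 (1 / 2)
      linarith
    have a2 : 0 ≤ (L : ℝ) ^ (1 - g.2) := Real.rpow_nonneg (by linarith) _
    calc g.1 * (L : ℝ) ^ (1 - g.2) ≤ |g.1| * (L : ℝ) ^ (1 - g.2) :=
          mul_le_mul_of_nonneg_right (le_abs_self _) a2
      _ ≤ |g.1| * (L : ℝ) ^ (1 - min g.2 (1 / 2)) :=
          mul_le_mul_of_nonneg_left a1 (abs_nonneg _)
  · exact mul_le_mul_of_nonneg_right (le_abs_self _) (loglog_nonneg hL)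

/-- eventual inequality `a log u + b ≤ δ u` -/
theorem ev_log (a b δ : ℝ) (hδ : 0 < δ) : ∀ᶠ u : ℝ in atTop, a * Real.log u + b ≤ δ * u := by
  have h1 : ∀ᶠ u : ℝ in atTop, ‖Real.log u‖ ≤ (δ / (2 * (|a| + 1))) * ‖u‖ :=
    Real.isLittleO_log_id_atTop.bound (by positivity)
  have h2 : ∀ᶠ u : ℝ in atTop, 2 * |b| / δ ≤ u := eventually_ge_atTop _
  filter_upwards [h1, h2, eventually_ge_atTop (1 : ℝ)] with u hu hb hu1
  have e1 : |Real.log u| ≤ (δ / (2 * (|a| + 1))) * u := by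
    have := hu
    rwa [Real.norm_eq_abs, Real.norm_eq_abs, abs_of_nonneg (by linarith : (0 : ℝ) ≤ u)] at this
  have e2 : a * Real.log u ≤ |a| * |Real.log u| := by
    rw [← abs_mul]; exact le_abs_self _
  have e3 : |a| * |Real.log u| ≤ (|a| + 1) * ((δ / (2 * (|a| + 1))) * u) :=
    mul_le_mul (by linarith) e1 (abs_nonneg _) (by positivity)
  have e4 : (|a| + 1) * ((δ / (2 * (|a| + 1))) * u) = δ / 2 * u := by
    field_simp
  have e5 : b ≤ δ / 2 * u := by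
    rw [div_le_iff₀ hδ] at hb
    have := le_abs_self b
    linarith
  linarith

theorem tendsto_log_nat : Tendsto (fun L : ℕ => Real.log (L : ℝ)) atTop atTop :=
  Real.tendsto_log_atTop.comp tendsto_natCast_atTop_atTop

theorem ev_loglog (a b δ : ℝ) (hδ : 0 < δ) :
    ∃ n : ℕ, ∀ L : ℕ, n ≤ L → a * Real.log (Real.log L) + b ≤ δ * Real.log L :=
  eventually_atTop.1 (tendsto_log_nat.eventually (ev_log a b δ hδ))

/-- the change of the number of digits -/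
theorem okH_key (g : ℝ × ℝ) (n' : ℕ) : ∃ n : ℕ, ∀ (L L' : ℕ) (e C : ℝ), okH g n L e C →
    (L : ℝ) ≤ (L : ℝ) ^ (min g.2 (1 / 2) / 4) * L' → L' ≤ L →
    okH (2 * |g.1|, min g.2 (1 / 2) / 2) n' L' e C := by
  refine ⟨max ((max n' 9) ^ 2) 9, ?_⟩
  intro L L' e C h hL hL'
  obtain ⟨h1, h2, h3, h4, h5⟩ := okH_weak h
  simp only at h1 h4 h5
  set c : ℝ := min g.2 (1 / 2) with hc
  have hc2 : c ≤ 1 / 2 := min_le_right _ _
  have hLr : (3 : ℝ) ≤ L := by exact_mod_cast h3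
  have hL0 : (0 : ℝ) < L := by linarith
  have hle : (L : ℝ) ^ (1 - c / 4) ≤ L' := by
    rw [Real.rpow_sub hL0, Real.rpow_one, div_le_iff₀ (Real.rpow_pos_of_pos hL0 _)]
    linarith
  -- `L' ≥ sqrt L`
  have hsq : (L : ℝ) ^ ((1 : ℝ) / 2) ≤ L' :=
    (Real.rpow_le_rpow_of_exponent_le (by linarith) (by linarith)).trans hle
  have hbig : ((max n' 9 : ℕ) : ℝ) ≤ L' := by
    refine le_trans ?_ hsq
    have a1 : (((max n' 9) ^ 2 : ℕ) : ℝ) ≤ L := by
      exact_mod_cast (le_max_left _ _).trans h2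
    have a2 : ((((max n' 9) ^ 2 : ℕ) : ℝ)) ^ ((1 : ℝ) / 2) ≤ (L : ℝ) ^ ((1 : ℝ) / 2) :=
      Real.rpow_le_rpow (Nat.cast_nonneg _) a1 (by norm_num)
    refine le_trans (le_of_eq ?_) a2
    rw [← Real.sqrt_eq_rpow]
    push_cast
    rw [Real.sqrt_sq (by positivity)]
  have hbig' : max n' 9 ≤ L' := by exact_mod_cast hbig
  have hn' : n' ≤ L' := (le_max_left _ _).trans hbig'
  have h9 : 9 ≤ L' := (le_max_right _ _).trans hbig'
  have h9r : (9 : ℝ) ≤ L' := by exact_mod_cast h9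
  have hL'0 : (0 : ℝ) < L' := by linarith
  refine ⟨by simp only; linarith, hn', by omega, h4.trans ?_, h5.trans ?_⟩
  · simp only
    have a1 : (L : ℝ) ^ (1 - c) ≤ (L' : ℝ) ^ (1 - c / 2) := by
      calc (L : ℝ) ^ (1 - c) ≤ (L : ℝ) ^ ((1 - c / 4) * (1 - c / 2)) :=
            Real.rpow_le_rpow_of_exponent_le (by linarith) (by nlinarith)
        _ = ((L : ℝ) ^ (1 - c / 4)) ^ (1 - c / 2) := Real.rpow_mul hL0.le _ _
        _ ≤ (L' : ℝ) ^ (1 - c / 2) :=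
            Real.rpow_le_rpow (Real.rpow_nonneg hL0.le _) hle (by linarith)
    have a2 : 0 ≤ (L' : ℝ) ^ (1 - c / 2) := Real.rpow_nonneg hL'0.le _
    have a3 := mul_le_mul_of_nonneg_left a1 (abs_nonneg g.1)
    nlinarith [abs_nonneg g.1]
  · simp only
    have hlog' : 2 ≤ Real.log L' := by
      rw [Real.le_log_iff_exp_le hL'0]
      have b1 := Real.exp_one_lt_d9
      have b2 : Real.exp 2 = Real.exp 1 * Real.exp 1 := by rw [← Real.exp_add]; norm_num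
      have b3 := Real.exp_pos 1
      rw [b2]
      nlinarith
    have hlogL : Real.log L ≤ 2 * Real.log L' := by
      have c1 : Real.log ((L : ℝ) ^ ((1 : ℝ) / 2)) ≤ Real.log L' :=
        Real.log_le_log (Real.rpow_pos_of_pos hL0 _) hsq
      rw [Real.log_rpow hL0] at c1
      linarith
    have hlogL' : Real.log L ≤ Real.log L' ^ 2 := by nlinarith
    have hlog1 : 1 ≤ Real.log L := one_le_log_of hLr
    have d1 : Real.log (Real.log L) ≤ 2 * Real.log (Real.log L') := by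
      have := Real.log_le_log (by linarith) hlogL'
      rwa [Real.log_pow, Nat.cast_ofNat] at this
    have d2 := mul_le_mul_of_nonneg_left d1 (abs_nonneg g.1)
    linarith

theorem okH_dom (g : ℝ × ℝ) (K : ℝ) (hK : 0 ≤ K) : ∃ g' : ℝ × ℝ, ∀ n' : ℕ, ∃ n : ℕ,
    ∀ (L : ℕ) (e C : ℝ), okH g n L e C → okH g' n' L (K * (e + 1)) (K * (C + 1)) := by
  refine ⟨(K * (|g.1| + 1), min g.2 (1 / 2)), fun n' => ?_⟩
  obtain ⟨n0, hn0⟩ := eventually_atTop.1
    (tendsto_log_nat.eventually (eventually_ge_atTop (Real.exp 1)))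
  refine ⟨max n0 n', ?_⟩
  intro L e C h
  obtain ⟨h1, h2, h3, h4, h5⟩ := okH_weak h
  simp only at h1 h4 h5
  set c : ℝ := min g.2 (1 / 2) with hc
  have hc2 : c ≤ 1 / 2 := min_le_right _ _
  have hLr : (3 : ℝ) ≤ L := by exact_mod_cast h3
  have hlog : Real.exp 1 ≤ Real.log L := hn0 L ((le_max_left _ _).trans h2)
  have hll : 1 ≤ Real.log (Real.log L) := by
    rw [Real.le_log_iff_exp_le (lt_of_lt_of_le (Real.exp_pos 1) hlog)]
    exact hlog
  have hp : 1 ≤ (L : ℝ) ^ (1 - c) := Real.one_le_rpow (by linarith) (by linarith)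
  refine ⟨h1, (le_max_right _ _).trans h2, h3, ?_, ?_⟩
  · simp only
    calc K * (e + 1) ≤ K * (|g.1| * (L : ℝ) ^ (1 - c) + (L : ℝ) ^ (1 - c)) :=
          mul_le_mul_of_nonneg_left (by linarith) hK
      _ = K * (|g.1| + 1) * (L : ℝ) ^ (1 - c) := by ring
  · simp only
    calc K * (C + 1) ≤ K * (|g.1| * Real.log (Real.log L) + Real.log (Real.log L)) :=
          mul_le_mul_of_nonneg_left (by linarith) hK
      _ = K * (|g.1| + 1) * Real.log (Real.log L) := by ring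

theorem okH_sub (g : ℝ × ℝ) (η : ℝ) (hη : 0 < η) : ∃ g' : ℝ × ℝ, ∀ n' : ℕ, ∃ n : ℕ,
    ∀ (L L' : ℕ) (e C : ℝ), okH g n L e C → η * L ≤ L' → L' ≤ L → okH g' n' L' e C := by
  refine ⟨(2 * |g.1|, min g.2 (1 / 2) / 2), fun n' => ?_⟩
  by_cases hg : 0 < g.2
  · obtain ⟨n1, hn1⟩ := okH_key g n'
    set c : ℝ := min g.2 (1 / 2) with hc
    have hc0 : 0 < c := lt_min hg (by norm_num)
    obtain ⟨n2, hn2⟩ := ev_loglog 0 (Real.log (1 / η)) (c / 4) (by linarith)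
    refine ⟨max n1 n2, fun L L' e C hok h4 h5 =>
      hn1 L L' e C (okH_anti g _ _ L e C (le_max_left _ _) hok) ?_ h5⟩
    have hL3 : (3 : ℝ) ≤ L := by exact_mod_cast hok.2.2.1
    have hL0 : (0 : ℝ) < L := by linarith
    have h6 := hn2 L ((le_max_right _ _).trans hok.2.1)
    rw [zero_mul, zero_add] at h6
    have h7 : 1 / η ≤ (L : ℝ) ^ (c / 4) := by
      rw [← Real.log_le_log_iff (by positivity) (Real.rpow_pos_of_pos hL0 _),
        Real.log_rpow hL0]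
      exact h6
    have h8 : (L : ℝ) ≤ 1 / η * L' := by
      rw [one_div, ← div_eq_inv_mul, le_div_iff₀ hη]
      linarith
    exact h8.trans (mul_le_mul_of_nonneg_right h7 (Nat.cast_nonneg _))
  · exact ⟨0, fun L L' e C hok => absurd hok.1 hg⟩

theorem okH_small (g : ℝ × ℝ) (ε : ℝ) (hε : 0 < ε) : ∃ n : ℕ, ∀ (L : ℕ) (e C : ℝ),
    okH g n L e C → 1 ≤ ε * L ∧ e ≤ ε * L ∧ C ≤ ε * L := by
  by_cases hg : 0 < g.2
  · set c : ℝ := min g.2 (1 / 2) with hc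
    have hc0 : 0 < c := lt_min hg (by norm_num)
    have hT : Tendsto (fun L : ℕ => (L : ℝ) ^ c) atTop atTop :=
      (tendsto_rpow_atTop hc0).comp tendsto_natCast_atTop_atTop
    obtain ⟨n1, hn1⟩ := eventually_atTop.1 (hT.eventually (eventually_ge_atTop (|g.1| / ε)))
    obtain ⟨n2, hn2⟩ := eventually_atTop.1
      (tendsto_natCast_atTop_atTop.eventually (eventually_ge_atTop (1 / ε)) :
        ∀ᶠ L : ℕ in atTop, 1 / ε ≤ (L : ℝ))
    obtain ⟨n3, hn3⟩ := ev_loglog (|g.1|) 0 ε hε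
    refine ⟨max n1 (max n2 n3), ?_⟩
    intro L e C h
    obtain ⟨h1, h2, h3, h4, h5⟩ := okH_weak h
    simp only at h1 h4 h5
    have hLr : (3 : ℝ) ≤ L := by exact_mod_cast h3
    have hL0 : (0 : ℝ) < L := by linarith
    have a1 := hn1 L ((le_max_left _ _).trans h2)
    have a2 := hn2 L (((le_max_left _ _).trans (le_max_right _ _)).trans h2)
    have a3 := hn3 L (((le_max_right _ _).trans (le_max_right _ _)).trans h2)
    refine ⟨?_, h4.trans ?_, h5.trans ?_⟩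
    · rw [div_le_iff₀ hε] at a2
      linarith
    · rw [div_le_iff₀ hε] at a1
      have b1 : (L : ℝ) ^ (1 - c) * (L : ℝ) ^ c = L := by
        rw [← Real.rpow_add hL0, sub_add_cancel, Real.rpow_one]
      have b2 : 0 ≤ (L : ℝ) ^ (1 - c) := Real.rpow_nonneg hL0.le _
      calc |g.1| * (L : ℝ) ^ (1 - c) ≤ ((L : ℝ) ^ c * ε) * (L : ℝ) ^ (1 - c) :=
            mul_le_mul_of_nonneg_right a1 b2
        _ = ε * ((L : ℝ) ^ (1 - c) * (L : ℝ) ^ c) := by ring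
        _ = ε * L := by rw [b1]
    · have b3 : Real.log L ≤ L := (Real.log_le_sub_one_of_pos hL0).trans (by linarith)
      have b4 := mul_le_mul_of_nonneg_left b3 hε.le
      linarith
  · exact ⟨0, fun L e C hok => absurd hok.1 hg⟩

theorem okH_win (g : ℝ × ℝ) (κ : ℕ) (εu : ℝ) (hεu : 0 < εu) : ∃ g' : ℝ × ℝ, ∀ n' : ℕ, ∃ n : ℕ,
    ∀ (L L' : ℕ) (e C : ℝ), okH g n L e C →
    (L : ℝ) ≤ (κ + 4 : ℝ) ^ (8 * (max C 0 + 1) / εu + 3) * L' → L' ≤ L → okH g' n' L' e C := by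
  refine ⟨(2 * |g.1|, min g.2 (1 / 2) / 2), fun n' => ?_⟩
  by_cases hg : 0 < g.2
  · obtain ⟨n1, hn1⟩ := okH_key g n'
    set c : ℝ := min g.2 (1 / 2) with hc
    have hc0 : 0 < c := lt_min hg (by norm_num)
    have hκ : (0 : ℝ) ≤ κ := Nat.cast_nonneg κ
    have hA : (1 : ℝ) ≤ (κ + 4 : ℝ) := by linarith
    set l : ℝ := Real.log (κ + 4 : ℝ) with hl
    have hl0 : 0 ≤ l := Real.log_nonneg hA
    obtain ⟨n2, hn2⟩ := ev_loglog (l * (8 * |g.1| / εu)) (l * (8 / εu + 3)) (c / 4)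
      (by linarith)
    refine ⟨max n1 n2, fun L L' e C hok h4 h5 =>
      hn1 L L' e C (okH_anti g _ _ L e C (le_max_left _ _) hok) ?_ h5⟩
    obtain ⟨-, -, -, -, hC⟩ := okH_weak hok
    simp only at hC
    have hL3 : (3 : ℝ) ≤ L := by exact_mod_cast hok.2.2.1
    have hL0 : (0 : ℝ) < L := by linarith
    have h6 := hn2 L ((le_max_right _ _).trans hok.2.1)
    have hmax : max C 0 ≤ |g.1| * Real.log (Real.log L) :=
      max_le hC (mul_nonneg (abs_nonneg _) (loglog_nonneg hL3))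
    have h7 : (κ + 4 : ℝ) ^ (8 * (max C 0 + 1) / εu + 3) ≤ (L : ℝ) ^ (c / 4) := by
      rw [← Real.log_le_log_iff (Real.rpow_pos_of_pos (by linarith) _)
        (Real.rpow_pos_of_pos hL0 _), Real.log_rpow hL0, Real.log_rpow (by linarith)]
      refine le_trans ?_ h6
      have b1 : 8 * (max C 0 + 1) / εu + 3 ≤
          8 * |g.1| / εu * Real.log (Real.log L) + (8 / εu + 3) := by
        have b2 : 8 * (max C 0 + 1) / εu ≤ 8 * (|g.1| * Real.log (Real.log L) + 1) / εu :=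
          div_le_div_of_nonneg_right (by linarith) hεu.le
        have b3 : 8 * (|g.1| * Real.log (Real.log L) + 1) / εu =
            8 * |g.1| / εu * Real.log (Real.log L) + 8 / εu := by ring
        linarith
      calc (8 * (max C 0 + 1) / εu + 3) * Real.log (κ + 4 : ℝ)
          ≤ (8 * |g.1| / εu * Real.log (Real.log L) + (8 / εu + 3)) * l :=
            mul_le_mul_of_nonneg_right b1 hl0
        _ = l * (8 * |g.1| / εu) * Real.log (Real.log L) + l * (8 / εu + 3) := by ring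
    exact h4.trans (mul_le_mul_of_nonneg_right h7 (Nat.cast_nonneg _))
  · exact ⟨0, fun L L' e C hok => absurd hok.1 hg⟩

/-- the growth class for the Hausdorff dimension -/
noncomputable def GrH : Gr where
  G := ℝ × ℝ
  ok := okH
  anti := okH_anti
  mono := okH_mono
  dom := okH_dom
  sub := okH_sub
  small := okH_small
  win := okH_win

end Vale.Agent.P127.Stk
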