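import Vale.Agent.P127.Stk.Defs

/-!
# P127 / Stk : the exponential growth class

`ok _ n L e C` means `exp (n (1 + C)) (1 + e) ≤ L`: the line error may be a small constant times
`L`, exponentially small in the time deficit.  This class contains the classes (M) and (H) and it
gives the Hausdorff dimension of all compact sticky sets (note 8690).
-/

namespace Vale.Agent.P127.Stk

open Finset Filter Vale.Agent.P127

/-- the exponential growth class: line errors at most `exp (- n (1 + C)) L` -/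
def okE (_ : Unit) (n L : ℕ) (e C : ℝ) : Prop :=
  Real.exp (n * (1 + max C 0)) * (1 + max e 0) ≤ L

theorem okE_mono_n {n n' : ℕ} (h : n ≤ n') (C : ℝ) :
    Real.exp (n * (1 + max C 0)) ≤ Real.exp (n' * (1 + max C 0)) := by
  apply Real.exp_le_exp.2
  have h1 : (n : ℝ) ≤ n' := by exact_mod_cast h
  exact mul_le_mul_of_nonneg_right h1 (by positivity)

theorem okE_anti (g : Unit) (n n' L : ℕ) (e C : ℝ) (hn : n ≤ n') (h : okE g n' L e C) :
    okE g n L e C := by
  unfold okE at h ⊢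
  refine le_trans ?_ h
  exact mul_le_mul_of_nonneg_right (okE_mono_n hn C) (by positivity)

theorem okE_mono (g : Unit) (n L : ℕ) (e C e' C' : ℝ) (he : e' ≤ e) (hC : C' ≤ C)
    (h : okE g n L e C) : okE g n L e' C' := by
  unfold okE at h ⊢
  refine le_trans ?_ h
  refine mul_le_mul (Real.exp_le_exp.2 ?_) ?_ (by positivity) (by positivity)
  · exact mul_le_mul_of_nonneg_left (by linarith [max_le_max hC (le_refl (0:ℝ))])
      (Nat.cast_nonneg _)
  · linarith [max_le_max he (le_refl (0:ℝ))]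

/-- a factor `exp (b (1 + C))` is absorbed by raising the level by `b` -/
theorem okE_absorb {b : ℝ} {n n' : ℕ} (hn : (n' : ℝ) + b ≤ n) {C : ℝ} :
    Real.exp (b * (1 + max C 0)) * Real.exp (n' * (1 + max C 0)) ≤
      Real.exp (n * (1 + max C 0)) := by
  rw [← Real.exp_add]
  apply Real.exp_le_exp.2
  have h0 : (0 : ℝ) ≤ 1 + max C 0 := by positivity
  nlinarith

theorem okE_dom (g : Unit) (K : ℝ) (hK : 0 ≤ K) : ∃ g' : Unit, ∀ n' : ℕ, ∃ n : ℕ,
    ∀ (L : ℕ) (e C : ℝ), okE g n L e C → okE g' n' L (K * (e + 1)) (K * (C + 1)) := by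
  refine ⟨(), fun n' => ?_⟩
  obtain ⟨n, hn⟩ := exists_nat_ge ((n' : ℝ) * (1 + K) + (1 + K))
  refine ⟨n, fun L e C h => ?_⟩
  unfold okE at h ⊢
  refine le_trans ?_ h
  have hC0 : 0 ≤ max C 0 := le_max_right _ _
  have he0 : 0 ≤ max e 0 := le_max_right _ _
  have hC1 : max (K * (C + 1)) 0 ≤ K * (1 + max C 0) := by
    refine max_le ?_ (by positivity)
    exact mul_le_mul_of_nonneg_left (by linarith [le_max_left C 0]) hK
  have he1 : max (K * (e + 1)) 0 ≤ K * (1 + max e 0) := by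
    refine max_le ?_ (by positivity)
    exact mul_le_mul_of_nonneg_left (by linarith [le_max_left e 0]) hK
  have hn' : (0 : ℝ) ≤ n' := Nat.cast_nonneg _
  have h1 : (n' : ℝ) * (1 + max (K * (C + 1)) 0) + K ≤ n * (1 + max C 0) := by
    have h2 : (n' : ℝ) * (1 + max (K * (C + 1)) 0) ≤ n' * ((1 + K) * (1 + max C 0)) := by
      refine mul_le_mul_of_nonneg_left ?_ hn'
      nlinarith
    have h3 : ((n' : ℝ) * (1 + K) + (1 + K)) * (1 + max C 0) ≤ n * (1 + max C 0) :=
      mul_le_mul_of_nonneg_right hn (by positivity)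
    nlinarith
  calc Real.exp (n' * (1 + max (K * (C + 1)) 0)) * (1 + max (K * (e + 1)) 0)
      ≤ Real.exp (n' * (1 + max (K * (C + 1)) 0)) * (Real.exp K * (1 + max e 0)) := by
        refine mul_le_mul_of_nonneg_left ?_ (Real.exp_pos _).le
        have h4 : 1 + K ≤ Real.exp K := by linarith [Real.add_one_le_exp K]
        nlinarith
    _ = Real.exp (n' * (1 + max (K * (C + 1)) 0) + K) * (1 + max e 0) := by
        rw [Real.exp_add]; ring
    _ ≤ Real.exp (n * (1 + max C 0)) * (1 + max e 0) :=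
        mul_le_mul_of_nonneg_right (Real.exp_le_exp.2 h1) (by positivity)

/-- shortening by a factor `exp (- b (1 + C))` -/
theorem okE_short (g : Unit) (b : ℝ) (n' : ℕ) : ∃ n : ℕ, ∀ (L L' : ℕ) (e C : ℝ),
    okE g n L e C → (L : ℝ) ≤ Real.exp (b * (1 + max C 0)) * L' → okE g n' L' e C := by
  obtain ⟨n, hn⟩ := exists_nat_ge ((n' : ℝ) + b)
  refine ⟨n, fun L L' e C h h1 => ?_⟩
  unfold okE at h ⊢
  have h2 := okE_absorb (b := b) (n := n) (n' := n') hn (C := C)
  have h3 : Real.exp (b * (1 + max C 0)) * (Real.exp (n' * (1 + max C 0)) * (1 + max e 0)) ≤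
      Real.exp (b * (1 + max C 0)) * L' := by
    calc Real.exp (b * (1 + max C 0)) * (Real.exp (n' * (1 + max C 0)) * (1 + max e 0))
        = (Real.exp (b * (1 + max C 0)) * Real.exp (n' * (1 + max C 0))) * (1 + max e 0) := by
          ring
      _ ≤ Real.exp (n * (1 + max C 0)) * (1 + max e 0) :=
          mul_le_mul_of_nonneg_right h2 (by positivity)
      _ ≤ L := h
      _ ≤ _ := h1
  exact le_of_mul_le_mul_left h3 (Real.exp_pos _)

theorem okE_sub (g : Unit) (η : ℝ) (hη : 0 < η) : ∃ g' : Unit, ∀ n' : ℕ, ∃ n : ℕ,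
    ∀ (L L' : ℕ) (e C : ℝ), okE g n L e C → η * L ≤ L' → L' ≤ L → okE g' n' L' e C := by
  refine ⟨(), fun n' => ?_⟩
  obtain ⟨n, hn⟩ := okE_short g (max (Real.log (1 / η)) 0) n'
  refine ⟨n, fun L L' e C h h1 _ => hn L L' e C h ?_⟩
  have h2 : (L : ℝ) ≤ 1 / η * L' := by
    rw [one_div, ← div_eq_inv_mul, le_div_iff₀ hη]; linarith
  refine h2.trans (mul_le_mul_of_nonneg_right ?_ (Nat.cast_nonneg _))
  have h3 : 1 / η = Real.exp (Real.log (1 / η)) := (Real.exp_log (by positivity)).symm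
  refine h3.le.trans ?_
  apply Real.exp_le_exp.2
  have h4 := le_max_left (Real.log (1 / η)) 0
  have h5 := le_max_right (Real.log (1 / η)) 0
  have h6 : 0 ≤ max C 0 := le_max_right _ _
  nlinarith [mul_nonneg h5 h6]

theorem okE_small (g : Unit) (ε : ℝ) (hε : 0 < ε) : ∃ n : ℕ, ∀ (L : ℕ) (e C : ℝ),
    okE g n L e C → 1 ≤ ε * L ∧ e ≤ ε * L ∧ C ≤ ε * L := by
  obtain ⟨n, hn⟩ := exists_nat_ge (max (Real.log (1 / ε)) 0 + 1)
  refine ⟨n, fun L e C h => ?_⟩
  unfold okE at h
  have hC0 : 0 ≤ max C 0 := le_max_right _ _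
  have he0 : 0 ≤ max e 0 := le_max_right _ _
  have h0 : (0 : ℝ) ≤ max (Real.log (1 / ε)) 0 := le_max_right _ _
  have h1 : Real.exp (Real.log (1 / ε)) * Real.exp (1 + max C 0) ≤
      Real.exp (n * (1 + max C 0)) := by
    rw [← Real.exp_add]
    apply Real.exp_le_exp.2
    have h2 := le_max_left (Real.log (1 / ε)) 0
    have h3 : (max (Real.log (1 / ε)) 0 + 1) * (1 + max C 0) ≤ n * (1 + max C 0) :=
      mul_le_mul_of_nonneg_right hn (by positivity)
    nlinarith [mul_nonneg h0 hC0]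
  rw [Real.exp_log (by positivity)] at h1
  have h4 : 1 + max C 0 ≤ Real.exp (1 + max C 0) := by
    linarith [Real.add_one_le_exp (1 + max C 0)]
  have h5 : 1 / ε * (1 + max C 0) ≤ Real.exp (n * (1 + max C 0)) :=
    (mul_le_mul_of_nonneg_left h4 (by positivity)).trans h1
  have h6 : 1 / ε * ((1 + max C 0) * (1 + max e 0)) ≤ L := by
    refine le_trans ?_ h
    rw [← mul_assoc]
    exact mul_le_mul_of_nonneg_right h5 (by positivity)
  have h7 : (1 + max C 0) * (1 + max e 0) ≤ ε * L := by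
    have := mul_le_mul_of_nonneg_left h6 hε.le
    rw [← mul_assoc, mul_one_div_cancel hε.ne', one_mul] at this
    exact this
  have h8 := le_max_left C 0
  have h9 := le_max_left e 0
  refine ⟨?_, ?_, ?_⟩ <;> nlinarith [mul_nonneg hC0 he0]

theorem okE_win (g : Unit) (κ : ℕ) (εu : ℝ) (_ : 0 < εu) : ∃ g' : Unit, ∀ n' : ℕ, ∃ n : ℕ,
    ∀ (L L' : ℕ) (e C : ℝ), okE g n L e C →
    (L : ℝ) ≤ (κ + 4 : ℝ) ^ (8 * (max C 0 + 1) / εu + 3) * L' → L' ≤ L → okE g' n' L' e C := by
  refine ⟨(), fun n' => ?_⟩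
  obtain ⟨n, hn⟩ := okE_short g (Real.log (κ + 4 : ℝ) * (8 / εu + 3)) n'
  refine ⟨n, fun L L' e C h h1 _ => hn L L' e C h ?_⟩
  refine h1.trans (mul_le_mul_of_nonneg_right ?_ (Nat.cast_nonneg _))
  have hκ : (0 : ℝ) ≤ κ := Nat.cast_nonneg κ
  have hl : 0 ≤ Real.log (κ + 4 : ℝ) := Real.log_nonneg (by linarith)
  have hC0 : 0 ≤ max C 0 := le_max_right _ _
  rw [Real.rpow_def_of_pos (by linarith)]
  apply Real.exp_le_exp.2
  rw [mul_assoc]
  refine mul_le_mul_of_nonneg_left ?_ hl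
  have h2 : (8 / εu + 3) * (1 + max C 0) = 8 * (max C 0 + 1) / εu + 3 + 3 * max C 0 := by
    ring
  rw [h2]
  linarith

/-- the exponential growth class -/
def GrE : Gr where
  G := Unit
  ok := okE
  anti := okE_anti
  mono := okE_mono
  dom := okE_dom
  sub := okE_sub
  small := okE_small
  win := okE_win

end Vale.Agent.P127.Stk
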