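import Vale.Agent.P127.Stk.Lib

/-!
# P127 / Stk / Kill, part A: entropy facts on the support, straight displacement
-/

namespace Vale.Agent.P127.Stk

open Finset Vale.Agent.P127

section entropy

variable {Ω : Type} [Fintype Ω] {S T U R : Type*}

theorem kl_H_mono (P : Law Ω) {X : Ω → S} {Y : Ω → T} (h : Fn P Y X) : P.H Y ≤ P.H X := by
  classical
  unfold Law.H
  refine P.ex_mono fun ω hω => ?_
  have : P.pr X (X ω) ≤ P.pr Y (Y ω) := by
    unfold Law.pr
    rw [Finset.sum_filter, Finset.sum_filter]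
    refine Finset.sum_le_sum fun ω' _ => ?_
    rcases (P.nn ω').eq_or_lt with h0 | h0
    · simp [← h0]
    · by_cases hx : X ω' = X ω
      · rw [if_pos hx, if_pos (h ω' ω h0 hω hx)]
      · rw [if_neg hx]
        split_ifs
        · exact h0.le
        · exact le_rfl
  have := Real.log_le_log (P.pr_pos X hω) this
  linarith

theorem kl_H_congr (P : Law Ω) {X : Ω → S} {Y : Ω → T} (h : Fn P Y X) (h' : Fn P X Y) :
    P.H X = P.H Y := le_antisymm (kl_H_mono P h') (kl_H_mono P h)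

theorem kl_hc_left (P : Law Ω) {X : Ω → S} {X' : Ω → T} {Y : Ω → U}
    (h : Fn P X (fun ω => (X' ω, Y ω))) : hc P X Y ≤ hc P X' Y := by
  unfold hc
  refine sub_le_sub_right (kl_H_mono P ?_) _
  intro ω ω' h1 h2 he
  have := h ω ω' h1 h2 he
  simp only [Prod.mk.injEq] at he ⊢
  exact ⟨this, he.2⟩

theorem kl_hc_right (P : Law Ω) (X : Ω → S) {Y : Ω → T} {Y' : Ω → U} (h : Fn P Y Y') :
    hc P X Y' ≤ hc P X Y := by
  unfold hc
  have h1 := P.submod X Y' Y
  have h2 : P.H (fun ω => (X ω, Y' ω)) ≤ P.H (fun ω => (X ω, Y' ω, Y ω)) := by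
    refine P.H_mono fun ω ω' he => ?_
    simp only [Prod.mk.injEq] at he ⊢
    exact ⟨he.1, he.2.1⟩
  have h3 : P.H (fun ω => (Y' ω, Y ω)) ≤ P.H Y' := by
    refine kl_H_mono P fun ω ω' g1 g2 he => ?_
    simp only [Prod.mk.injEq]
    exact ⟨he, h ω ω' g1 g2 he⟩
  linarith

theorem kl_hc_congr (P : Law Ω) (X : Ω → S) {Y : Ω → T} {Y' : Ω → U} (h : Fn P Y Y')
    (h' : Fn P Y' Y) : hc P X Y' = hc P X Y :=
  le_antisymm (kl_hc_right P X h) (kl_hc_right P X h')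

theorem kl_hc_nonneg (P : Law Ω) (X : Ω → S) (Y : Ω → T) : 0 ≤ hc P X Y := by
  unfold hc
  have : P.H Y ≤ P.H (fun ω => (X ω, Y ω)) := by
    refine P.H_mono fun ω ω' he => ?_
    simp only [Prod.mk.injEq] at he
    exact he.2
  linarith

theorem kl_chain (P : Law Ω) (X : Ω → S) (Y : Ω → T) (Z : Ω → U) :
    hc P (fun ω => (X ω, Y ω)) Z = hc P X Z + hc P Y (fun ω => (X ω, Z ω)) := by
  unfold hc
  have : P.H (fun ω => ((X ω, Y ω), Z ω)) = P.H (fun ω => (Y ω, X ω, Z ω)) := by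
    refine P.H_congr fun ω ω' => ?_
    simp only [Prod.mk.injEq]
    tauto
  linarith

/-- dropping a variable from the condition costs at most its entropy -/
theorem kl_drop (P : Law Ω) (X : Ω → S) (E : Ω → T) (Z : Ω → U) :
    hc P X Z ≤ hc P X (fun ω => (E ω, Z ω)) + hc P E Z := by
  have h1 := kl_chain P E X Z
  have h2 : hc P X Z ≤ hc P (fun ω => (E ω, X ω)) Z :=
    kl_hc_left P fun ω ω' _ _ he => by
      simp only [Prod.mk.injEq] at he
      exact he.1.2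
  linarith

/-- approximate determination, on the support -/
theorem kl_det (P : Law Ω) {m : ℕ} (Z : Ω → Fin m → ℤ) (Y : Ω → T) (u : Ω → Fin m → ℝ)
    {B : ℝ} (hu : Fn P u Y) (h : ∀ ω, 0 < P.w ω → ∀ i, |(Z ω i : ℝ) - u ω i| ≤ B) :
    hc P Z Y ≤ m * (Real.log 4 + 2 * Real.log (2 + B)) := by
  classical
  set g : T → Fin m → ℝ := fun y =>
    if hy : ∃ ω, 0 < P.w ω ∧ Y ω = y then u hy.choose else 0 with hg
  have hgu : ∀ ω, 0 < P.w ω → g (Y ω) = u ω := by
    intro ω hω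
    have hy : ∃ ω', 0 < P.w ω' ∧ Y ω' = Y ω := ⟨ω, hω, rfl⟩
    rw [hg]
    simp only [dif_pos hy]
    exact hu _ _ hy.choose_spec.1 hω hy.choose_spec.2
  set R : Ω → ℝ := fun ω => if 0 < P.w ω then B else ∑ i, |(Z ω i : ℝ) - g (Y ω) i| with hR
  have h1 := P.H_det Z Y g R (fun ω c => by
    by_cases hω : 0 < P.w ω
    · rw [hR]
      simp only [if_pos hω]
      rw [hgu ω hω]
      exact h ω hω c
    · rw [hR]
      simp only [if_neg hω]
      exact Finset.single_le_sum (f := fun i => |(Z ω i : ℝ) - g (Y ω) i|)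
        (fun _ _ => abs_nonneg _) (Finset.mem_univ c))
  have h2 : P.ex (fun ω => Real.log (2 + R ω)) = Real.log (2 + B) := by
    rw [← P.ex_const (Real.log (2 + B))]
    refine P.ex_congr fun ω hω => ?_
    rw [hR]
    simp only [if_pos hω]
  rw [h2] at h1
  exact h1

/-- the constant of the approximate determinations -/
noncomputable def klc (m : ℕ) (B : ℝ) : ℝ := m * (Real.log 4 + 2 * Real.log (2 + B))

theorem klc_mono {m : ℕ} {B B' : ℝ} (h0 : 0 ≤ B) (h : B ≤ B') : klc m B ≤ klc m B' := by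
  unfold klc
  have := Real.log_le_log (by linarith) (by linarith : 2 + B ≤ 2 + B')
  gcongr

theorem klc_nonneg {m : ℕ} {B : ℝ} (h0 : 0 ≤ B) : 0 ≤ klc m B := by
  unfold klc
  have h1 : 0 ≤ Real.log 4 := Real.log_nonneg (by norm_num)
  have h2 : 0 ≤ Real.log (2 + B) := Real.log_nonneg (by linarith)
  positivity

theorem kl_fl (s : ℕ) {m : ℕ} (x : Fin m → ℝ) (i : Fin m) :
    0 ≤ (2 : ℝ) ^ s * x i - (fl s x i : ℝ) ∧ (2 : ℝ) ^ s * x i - (fl s x i : ℝ) ≤ 1 := by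
  unfold fl
  have h1 := Int.floor_le ((2 : ℝ) ^ s * x i)
  have h2 := Int.lt_floor_add_one ((2 : ℝ) ^ s * x i)
  constructor <;> linarith

/-- **straight displacement**: `V ≈ 2^{r'} (X + w0) + M v` with `w0`, `v` functions of `S` -/
theorem kl_so (Q : Law Ω) {m : ℕ} (X : Ω → Fin m → ℝ) (V : Ω → Fin m → ℤ) (M : Ω → ℤ)
    (S : Ω → T) (v w0 w1 : Ω → Fin m → ℝ) (i0 : Fin m) (r r' : ℕ) (B : ℝ) (hB : 0 ≤ B)
    (hrr : r ≤ r') (hv : Fn Q v S) (h0 : Fn Q w0 S) (h1 : Fn Q w1 S)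
    (hvi : ∀ ω, 0 < Q.w ω → v ω i0 = 1) (hvb : ∀ ω, 0 < Q.w ω → ∀ i, |v ω i| ≤ 1)
    (ha : ∀ ω, 0 < Q.w ω → ∀ i,
      |(V ω i : ℝ) - (2 ^ r' * (X ω i + w0 ω i) + M ω * v ω i)| ≤ B)
    (hb : ∀ ω, 0 < Q.w ω → ∀ i,
      |(V ω i : ℝ) - 2 ^ r' * (X ω i + w1 ω i)| ≤ B * 2 ^ (r' - r)) :
    hc Q (fun ω => fl r' (fun i => X ω i - X ω i0 * v ω i)) (fun ω => (fl r (X ω), S ω)) +
      hc Q (fun ω => fl r (X ω)) S + hc Q M (fun ω => (fl r' (X ω), S ω)) ≤
      hc Q V S + 5 * klc m (3 + 2 * B) := by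
  set x' : Ω → Fin m → ℤ := fun ω => fl r' (X ω) with hx'
  set xr : Ω → Fin m → ℤ := fun ω => fl r (X ω) with hxr
  set T' : Ω → Fin m → ℤ := fun ω => fl r' (fun i => X ω i - X ω i0 * v ω i) with hT'
  have hT'1 : ∀ ω i, |(T' ω i : ℝ) - 2 ^ r' * (X ω i - X ω i0 * v ω i)| ≤ 1 := by
    intro ω i
    have := kl_fl r' (fun i => X ω i - X ω i0 * v ω i) i
    rw [abs_le]
    constructor <;> [linarith [this.2]; linarith [this.1]]
  have hx'1 : ∀ ω i, |(x' ω i : ℝ) - 2 ^ r' * X ω i| ≤ 1 := by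
    intro ω i
    have := kl_fl r' (X ω) i
    rw [abs_le]
    constructor <;> [linarith [this.2]; linarith [this.1]]
  have hxr1 : ∀ ω i, |(xr ω i : ℝ) - 2 ^ r * X ω i| ≤ 1 := by
    intro ω i
    have := kl_fl r (X ω) i
    rw [abs_le]
    constructor <;> [linarith [this.2]; linarith [this.1]]
  have hpow : (2 : ℝ) ^ r' = 2 ^ r * 2 ^ (r' - r) := by
    rw [← pow_add, Nat.add_sub_cancel' hrr]
  have hp0 : (0 : ℝ) < 2 ^ (r' - r) := by positivity
  have hp1 : (1 : ℝ) ≤ 2 ^ (r' - r) := one_le_pow₀ (by norm_num)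
  have hkc : ∀ {B'}, 0 ≤ B' → B' ≤ 3 + 2 * B → klc m B' ≤ klc m (3 + 2 * B) :=
    fun h h' => klc_mono h h'
  -- the projected digits are determined by `V`
  have c1 : hc Q T' (fun ω => (V ω, S ω)) ≤ klc m (3 + 2 * B) := by
    refine (kl_det Q T' (fun ω => (V ω, S ω))
      (fun ω i => ((V ω i : ℝ) - 2 ^ r' * w0 ω i) - ((V ω i0 : ℝ) - 2 ^ r' * w0 ω i0) * v ω i)
      (B := 1 + 2 * B) ?_ ?_).trans (hkc (by linarith) (by linarith))
    · intro ω ω' g g' he
      simp only [Prod.mk.injEq] at he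
      funext i
      beta_reduce
      rw [he.1, hv ω ω' g g' he.2, h0 ω ω' g g' he.2]
    · intro ω g i
      have a1 := ha ω g i
      have a2 := ha ω g i0
      have a3 := hT'1 ω i
      have a4 := hvi ω g
      have a5 := hvb ω g i
      rw [a4, mul_one] at a2
      have e : (T' ω i : ℝ) - (((V ω i : ℝ) - 2 ^ r' * w0 ω i) -
          ((V ω i0 : ℝ) - 2 ^ r' * w0 ω i0) * v ω i) =
          ((T' ω i : ℝ) - 2 ^ r' * (X ω i - X ω i0 * v ω i)) -
          ((V ω i : ℝ) - (2 ^ r' * (X ω i + w0 ω i) + M ω * v ω i)) +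
          ((V ω i0 : ℝ) - (2 ^ r' * (X ω i0 + w0 ω i0) + M ω)) * v ω i := by ring
      rw [e]
      have a6 : |((V ω i0 : ℝ) - (2 ^ r' * (X ω i0 + w0 ω i0) + M ω)) * v ω i| ≤ B := by
        rw [abs_mul]
        have := mul_le_mul a2 a5 (abs_nonneg _) hB
        linarith
      have a7 := abs_add_le (((T' ω i : ℝ) - 2 ^ r' * (X ω i - X ω i0 * v ω i)) -
          ((V ω i : ℝ) - (2 ^ r' * (X ω i + w0 ω i) + M ω * v ω i)))
          (((V ω i0 : ℝ) - (2 ^ r' * (X ω i0 + w0 ω i0) + M ω)) * v ω i)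
      have a8 := abs_sub ((T' ω i : ℝ) - 2 ^ r' * (X ω i - X ω i0 * v ω i))
          ((V ω i : ℝ) - (2 ^ r' * (X ω i + w0 ω i) + M ω * v ω i))
      linarith
  have c2 : hc Q xr (fun ω => (V ω, S ω)) ≤ klc m (3 + 2 * B) := by
    refine (kl_det Q xr (fun ω => (V ω, S ω))
      (fun ω i => (V ω i : ℝ) / 2 ^ (r' - r) - 2 ^ r * w1 ω i)
      (B := 1 + B) ?_ ?_).trans (hkc (by linarith) (by linarith))
    · intro ω ω' g g' he
      simp only [Prod.mk.injEq] at he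
      funext i
      beta_reduce
      rw [he.1, h1 ω ω' g g' he.2]
    · intro ω g i
      have a1 := hb ω g i
      have a2 := hxr1 ω i
      have e : (xr ω i : ℝ) - ((V ω i : ℝ) / 2 ^ (r' - r) - 2 ^ r * w1 ω i) =
          ((xr ω i : ℝ) - 2 ^ r * X ω i) -
            ((V ω i : ℝ) - 2 ^ r' * (X ω i + w1 ω i)) / 2 ^ (r' - r) := by
        rw [hpow]
        field_simp
        ring
      rw [e]
      have a3 : |((V ω i : ℝ) - 2 ^ r' * (X ω i + w1 ω i)) / 2 ^ (r' - r)| ≤ B := by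
        rw [abs_div, abs_of_pos hp0, div_le_iff₀ hp0]
        exact a1
      have a4 := abs_sub ((xr ω i : ℝ) - 2 ^ r * X ω i)
        (((V ω i : ℝ) - 2 ^ r' * (X ω i + w1 ω i)) / 2 ^ (r' - r))
      linarith
  have c3 : hc Q M (fun ω => (V ω, x' ω, S ω)) ≤ klc m (3 + 2 * B) := by
    have hM : hc Q M (fun ω => (V ω, x' ω, S ω)) ≤
        hc Q (fun ω (_ : Fin m) => M ω) (fun ω => (V ω, x' ω, S ω)) := by
      refine kl_hc_left Q fun ω ω' _ _ he => ?_
      simp only [Prod.mk.injEq] at he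
      exact congrFun he.1 i0
    refine hM.trans ((kl_det Q (fun ω (_ : Fin m) => M ω) (fun ω => (V ω, x' ω, S ω))
      (fun ω (_ : Fin m) => (V ω i0 : ℝ) - x' ω i0 - 2 ^ r' * w0 ω i0)
      (B := 1 + B) ?_ ?_).trans (hkc (by linarith) (by linarith)))
    · intro ω ω' g g' he
      simp only [Prod.mk.injEq] at he
      funext i
      beta_reduce
      rw [he.1, he.2.1, h0 ω ω' g g' he.2.2]
    · intro ω g i
      have a2 := ha ω g i0
      have a3 := hx'1 ω i0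
      rw [hvi ω g, mul_one] at a2
      rw [abs_le] at a2 a3 ⊢
      constructor <;> linarith
  have c4 : hc Q T' (fun ω => (x' ω, S ω)) ≤ klc m (3 + 2 * B) := by
    refine (kl_det Q T' (fun ω => (x' ω, S ω))
      (fun ω i => (x' ω i : ℝ) - x' ω i0 * v ω i)
      (B := 3) ?_ ?_).trans (hkc (by linarith) (by linarith))
    · intro ω ω' g g' he
      simp only [Prod.mk.injEq] at he
      funext i
      beta_reduce
      rw [he.1, hv ω ω' g g' he.2]
    · intro ω g i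
      have a1 := hx'1 ω i
      have a2 := hx'1 ω i0
      have a3 := hT'1 ω i
      have a5 := hvb ω g i
      have e : (T' ω i : ℝ) - ((x' ω i : ℝ) - x' ω i0 * v ω i) =
          ((T' ω i : ℝ) - 2 ^ r' * (X ω i - X ω i0 * v ω i)) -
          ((x' ω i : ℝ) - 2 ^ r' * X ω i) +
          ((x' ω i0 : ℝ) - 2 ^ r' * X ω i0) * v ω i := by ring
      rw [e]
      have a6 : |((x' ω i0 : ℝ) - 2 ^ r' * X ω i0) * v ω i| ≤ 1 := by
        rw [abs_mul]
        have := mul_le_mul a2 a5 (abs_nonneg _) zero_le_one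
        linarith
      have a7 := abs_add_le (((T' ω i : ℝ) - 2 ^ r' * (X ω i - X ω i0 * v ω i)) -
          ((x' ω i : ℝ) - 2 ^ r' * X ω i)) (((x' ω i0 : ℝ) - 2 ^ r' * X ω i0) * v ω i)
      have a8 := abs_sub ((T' ω i : ℝ) - 2 ^ r' * (X ω i - X ω i0 * v ω i))
          ((x' ω i : ℝ) - 2 ^ r' * X ω i)
      linarith
  have c5 : hc Q xr (fun ω => (x' ω, S ω)) ≤ klc m (3 + 2 * B) := by
    refine (kl_det Q xr (fun ω => (x' ω, S ω))
      (fun ω i => (x' ω i : ℝ) / 2 ^ (r' - r))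
      (B := 2) ?_ ?_).trans (hkc (by linarith) (by linarith))
    · intro ω ω' g g' he
      simp only [Prod.mk.injEq] at he
      funext i
      beta_reduce
      rw [he.1]
    · intro ω g i
      have a1 := hx'1 ω i
      have a2 := hxr1 ω i
      have e : (xr ω i : ℝ) - (x' ω i : ℝ) / 2 ^ (r' - r) =
          ((xr ω i : ℝ) - 2 ^ r * X ω i) -
            ((x' ω i : ℝ) - 2 ^ r' * X ω i) / 2 ^ (r' - r) := by
        rw [hpow]
        field_simp
        ring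
      rw [e]
      have a3 : |((x' ω i : ℝ) - 2 ^ r' * X ω i) / 2 ^ (r' - r)| ≤ 1 := by
        rw [abs_div, abs_of_pos hp0, div_le_iff₀ hp0]
        linarith
      have a4 := abs_sub ((xr ω i : ℝ) - 2 ^ r * X ω i)
        (((x' ω i : ℝ) - 2 ^ r' * X ω i) / 2 ^ (r' - r))
      linarith
  -- the chain rules
  have d1 := kl_chain Q V (fun ω => (xr ω, T' ω)) S
  have d2 := kl_chain Q xr T' (fun ω => (V ω, S ω))
  have d3 : hc Q T' (fun ω => (xr ω, V ω, S ω)) ≤ hc Q T' (fun ω => (V ω, S ω)) :=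
    kl_hc_right Q T' fun ω ω' _ _ he => by
      simp only [Prod.mk.injEq] at he ⊢
      exact he.2
  have d4 : hc Q (fun ω => ((xr ω, T' ω), V ω)) S ≤ hc Q (fun ω => (V ω, xr ω, T' ω)) S :=
    kl_hc_left Q fun ω ω' _ _ he => by
      simp only [Prod.mk.injEq] at he ⊢
      exact ⟨⟨he.1.2.1, he.1.2.2⟩, he.1.1⟩
  have d5 := kl_chain Q (fun ω => (xr ω, T' ω)) V S
  have d6 := kl_chain Q xr T' S
  -- `V` given `X` determines `M`
  have d7 : hc Q V (fun ω => (x' ω, (xr ω, T' ω), S ω)) ≤ hc Q V (fun ω => ((xr ω, T' ω), S ω)) :=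
    kl_hc_right Q V fun ω ω' _ _ he => by
      simp only [Prod.mk.injEq] at he ⊢
      exact he.2
  have d8 := kl_drop Q M V (fun ω => (x' ω, (xr ω, T' ω), S ω))
  have d9 : hc Q M (fun ω => (V ω, x' ω, (xr ω, T' ω), S ω)) ≤
      hc Q M (fun ω => (V ω, x' ω, S ω)) :=
    kl_hc_right Q M fun ω ω' _ _ he => by
      simp only [Prod.mk.injEq] at he ⊢
      exact ⟨he.1, he.2.1, he.2.2.2⟩
  have d10 := kl_drop Q M (fun ω => (xr ω, T' ω)) (fun ω => (x' ω, S ω))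
  have d11 := kl_chain Q xr T' (fun ω => (x' ω, S ω))
  have d12 : hc Q T' (fun ω => (xr ω, x' ω, S ω)) ≤ hc Q T' (fun ω => (x' ω, S ω)) :=
    kl_hc_right Q T' fun ω ω' _ _ he => by
      simp only [Prod.mk.injEq] at he ⊢
      exact he.2
  have d13 : hc Q M (fun ω => ((xr ω, T' ω), x' ω, S ω)) ≤
      hc Q M (fun ω => (x' ω, (xr ω, T' ω), S ω)) :=
    kl_hc_right Q M fun ω ω' _ _ he => by
      simp only [Prod.mk.injEq] at he ⊢
      exact ⟨he.2.1, ⟨he.1.1, he.1.2⟩, he.2.2⟩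
  linarith

end entropy

end Vale.Agent.P127.Stk
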