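import Vale.Agent.P127.Stk.LibDom

/-!
# P127 / Stk : the chain law

Samples `w 0, w 1, ..., w n` of a law `P`; consecutive samples `w j`, `w (j+1)` are conditionally
independent given the common value of `U j`.
-/

namespace Vale.Agent.P127.Stk

open Finset Vale.Agent.P127

section chain

variable {Ω : Type} [Fintype Ω] {S T T' : Type*}

open Classical in
/-- resampling given the value of `V` -/
noncomputable def kr (P : Law Ω) (V : Ω → S) (a b : Ω) : ℝ :=
  if V b = V a then P.w b / P.pr V (V a) else 0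

theorem kr_nonneg (P : Law Ω) (V : Ω → S) (a b : Ω) : 0 ≤ kr P V a b := by
  unfold kr
  split_ifs
  · exact div_nonneg (P.nn _) (P.pr_nonneg _ _)
  · exact le_rfl

theorem kr_sum (P : Law Ω) (V : Ω → S) {a : Ω} (ha : 0 < P.w a) : ∑ b, kr P V a b = 1 := by
  classical
  unfold kr
  rw [← Finset.sum_filter, ← Finset.sum_div]
  have : P.pr V (V a) = ∑ b with V b = V a, P.w b := by
    unfold Law.pr
    exact Finset.sum_congr (by ext; simp) fun _ _ => rfl
  rw [← this]
  exact div_self (P.pr_pos V ha).ne'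

theorem kr_rev (P : Law Ω) (V : Ω → S) (a b : Ω) :
    P.w a * kr P V a b = P.w b * kr P V b a := by
  unfold kr
  by_cases h : V b = V a
  · rw [if_pos h, if_pos h.symm, h]
    ring
  · rw [if_neg h, if_neg fun h' => h h'.symm]
    ring

/-- the weights of the chain law -/
noncomputable def chw (P : Law Ω) (U : ℕ → Ω → S) (n : ℕ) (w : Fin (n + 1) → Ω) : ℝ :=
  P.w (w 0) * ∏ j : Fin n, kr P (U j) (w j.castSucc) (w j.succ)

theorem chw_nonneg (P : Law Ω) (U : ℕ → Ω → S) (n : ℕ) (w : Fin (n + 1) → Ω) :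
    0 ≤ chw P U n w :=
  mul_nonneg (P.nn _) (Finset.prod_nonneg fun _ _ => kr_nonneg _ _ _ _)

theorem chw_cons (P : Law Ω) (U : ℕ → Ω → S) (n : ℕ) (w : Fin (n + 1) → Ω) (a : Ω) :
    chw P U (n + 1) (Fin.cons a w) = kr P (U 0) (w 0) a * chw P (fun j => U (j + 1)) n w := by
  unfold chw
  rw [Fin.prod_univ_succ]
  simp only [Fin.cons_zero, Fin.castSucc_zero, Fin.val_zero]
  have h1 : (Fin.cons a w : Fin (n + 1 + 1) → Ω) (Fin.succ 0) = w 0 := by
    rw [Fin.cons_succ]
  rw [h1]
  have h2 : ∀ j : Fin n, kr P (U (j.succ : Fin (n + 1))) ((Fin.cons a w : Fin (n + 1 + 1) → Ω)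
      j.succ.castSucc) ((Fin.cons a w : Fin (n + 1 + 1) → Ω) j.succ.succ) =
      kr P (U (j + 1)) (w j.castSucc) (w j.succ) := by
    intro j
    rw [Fin.cons_succ, ← Fin.succ_castSucc, Fin.cons_succ]
    rfl
  rw [Finset.prod_congr rfl fun j _ => h2 j, ← mul_assoc, kr_rev]
  ring

theorem chw_snoc (P : Law Ω) (U : ℕ → Ω → S) (n : ℕ) (w : Fin (n + 1) → Ω) (a : Ω) :
    chw P U (n + 1) (Fin.snoc w a) = chw P U n w * kr P (U n) (w (Fin.last n)) a := by
  unfold chw
  rw [Fin.prod_univ_castSucc]
  have h0 : (Fin.snoc w a : Fin (n + 1 + 1) → Ω) 0 = w 0 := by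
    have : (0 : Fin (n + 1 + 1)) = (0 : Fin (n + 1)).castSucc := rfl
    rw [this, Fin.snoc_castSucc]
  have h1 : ∀ j : Fin n, kr P (U (j.castSucc : Fin (n + 1)))
      ((Fin.snoc w a : Fin (n + 1 + 1) → Ω) j.castSucc.castSucc)
      ((Fin.snoc w a : Fin (n + 1 + 1) → Ω) j.castSucc.succ) =
      kr P (U j) (w j.castSucc) (w j.succ) := by
    intro j
    rw [Fin.succ_castSucc, Fin.snoc_castSucc, Fin.snoc_castSucc]
    rfl
  have h2 : (Fin.snoc w a : Fin (n + 1 + 1) → Ω) (Fin.last n).succ = a := by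
    rw [Fin.succ_last, Fin.snoc_last]
  rw [h0, Finset.prod_congr rfl fun j _ => h1 j, h2, Fin.snoc_castSucc]
  simp only [Fin.val_last]
  ring

theorem chw_pos_w (P : Law Ω) (U : ℕ → Ω → S) (n : ℕ) (w : Fin (n + 1) → Ω)
    (h : 0 < chw P U n w) (i : Fin (n + 1)) : 0 < P.w (w i) := by
  have h1 : chw P U n w ≠ 0 := h.ne'
  unfold chw at h1
  have h2 := left_ne_zero_of_mul h1
  have h3 := right_ne_zero_of_mul h1
  refine Fin.cases ?_ (fun j => ?_) i
  · exact lt_of_le_of_ne (P.nn _) h2.symm
  · have h4 := Finset.prod_ne_zero_iff.1 h3 j (Finset.mem_univ _)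
    unfold kr at h4
    split_ifs at h4 with h5
    · refine lt_of_le_of_ne (P.nn _) fun h6 => h4 ?_
      rw [← h6, zero_div]
    · exact absurd rfl h4

theorem chw_sum_snoc (P : Law Ω) (U : ℕ → Ω → S) (n : ℕ) (w : Fin (n + 1) → Ω) :
    ∑ a, chw P U (n + 1) (Fin.snoc w a) = chw P U n w := by
  simp only [chw_snoc]
  rw [← Finset.mul_sum]
  rcases (chw_nonneg P U n w).eq_or_lt with h | h
  · rw [← h, zero_mul]
  · rw [kr_sum P _ (chw_pos_w P U n w h _), mul_one]

theorem chw_sum_cons (P : Law Ω) (U : ℕ → Ω → S) (n : ℕ) (w : Fin (n + 1) → Ω) :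
    ∑ a, chw P U (n + 1) (Fin.cons a w) = chw P (fun j => U (j + 1)) n w := by
  simp only [chw_cons]
  rw [← Finset.sum_mul]
  rcases (chw_nonneg P (fun j => U (j + 1)) n w).eq_or_lt with h | h
  · rw [← h, mul_zero]
  · rw [kr_sum P _ (chw_pos_w P _ n w h _), one_mul]

theorem chw_sum (P : Law Ω) (U : ℕ → Ω → S) (n : ℕ) : ∑ w, chw P U n w = 1 := by
  induction n with
  | zero =>
    rw [← P.sum_one]
    refine Fintype.sum_equiv (Equiv.funUnique (Fin 1) Ω) _ _ fun w => ?_
    simp [chw, Equiv.funUnique]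
  | succ n ih =>
    rw [← (Fin.snocEquiv (fun _ : Fin (n + 1 + 1) => Ω)).sum_comp, Fintype.sum_prod_type_right,
      ← ih]
    refine Finset.sum_congr rfl fun w _ => ?_
    exact chw_sum_snoc P U n w

/-- the chain law -/
noncomputable def chain (P : Law Ω) (U : ℕ → Ω → S) (n : ℕ) : Law (Fin (n + 1) → Ω) where
  w := chw P U n
  nn := chw_nonneg P U n
  sum_one := chw_sum P U n

theorem chain_w (P : Law Ω) (U : ℕ → Ω → S) (n : ℕ) (w : Fin (n + 1) → Ω) :
    (chain P U n).w w = chw P U n w := rfl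

/-- the extension of a finite sequence to a function on the natural numbers -/
def ext {n : ℕ} (w : Fin (n + 1) → Ω) (k : ℕ) : Ω := w (Fin.ofNat (n + 1) k)

omit [Fintype Ω] in
theorem ext_of_le {n : ℕ} (w : Fin (n + 1) → Ω) {k : ℕ} (hk : k < n + 1) : ext w k = w ⟨k, hk⟩ := by
  unfold ext
  congr 1
  exact Fin.ext (Nat.mod_eq_of_lt hk)

omit [Fintype Ω] in
theorem ext_val {n : ℕ} (w : Fin (n + 1) → Ω) (j : Fin (n + 1)) : ext w j = w j :=
  ext_of_le w j.2

omit [Fintype Ω] in
theorem ext_init {n : ℕ} (w : Fin (n + 1 + 1) → Ω) {k : ℕ} (hk : k ≤ n) :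
    ext (Fin.init w) k = ext w k := by
  rw [ext_of_le _ (by omega), ext_of_le _ (by omega)]
  rfl

omit [Fintype Ω] in
theorem ext_tail {n : ℕ} (w : Fin (n + 1 + 1) → Ω) {k : ℕ} (hk : k ≤ n) :
    ext (Fin.tail w) k = ext w (k + 1) := by
  rw [ext_of_le _ (by omega), ext_of_le _ (by omega)]
  rfl

theorem chain_pr_init (P : Law Ω) (U : ℕ → Ω → S) (n : ℕ) (f : (Fin (n + 1) → Ω) → T) (x : T) :
    (chain P U (n + 1)).pr (fun w => f (Fin.init w)) x = (chain P U n).pr f x := by
  classical
  rw [Law.pr_eq_ex, Law.pr_eq_ex]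
  unfold Law.ex
  rw [← (Fin.snocEquiv (fun _ : Fin (n + 1 + 1) => Ω)).sum_comp, Fintype.sum_prod_type_right]
  refine Finset.sum_congr rfl fun w _ => ?_
  have h1 : ∀ a : Ω, (Fin.snocEquiv (fun _ : Fin (n + 1 + 1) => Ω)) (a, w) = Fin.snoc w a :=
    fun a => rfl
  simp only [h1, Fin.init_snoc]
  rw [← Finset.sum_mul]
  congr 1
  exact chw_sum_snoc P U n w

theorem chain_pr_tail (P : Law Ω) (U : ℕ → Ω → S) (n : ℕ) (f : (Fin (n + 1) → Ω) → T) (x : T) :
    (chain P U (n + 1)).pr (fun w => f (Fin.tail w)) x = (chain P (fun j => U (j + 1)) n).pr f x := by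
  classical
  rw [Law.pr_eq_ex, Law.pr_eq_ex]
  unfold Law.ex
  rw [← (Fin.consEquiv (fun _ : Fin (n + 1 + 1) => Ω)).sum_comp, Fintype.sum_prod_type_right]
  refine Finset.sum_congr rfl fun w _ => ?_
  have h1 : ∀ a : Ω, (Fin.consEquiv (fun _ : Fin (n + 1 + 1) => Ω)) (a, w) = Fin.cons a w :=
    fun a => rfl
  simp only [h1, Fin.tail_cons]
  rw [← Finset.sum_mul]
  congr 1
  exact chw_sum_cons P U n w

/-- the law of a window `w i, ..., w (i + l)` of the chain -/
theorem chain_win (P : Law Ω) (U : ℕ → Ω → S) (i l k n : ℕ) (hn : n = i + l + k)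
    (v : Fin (l + 1) → Ω) :
    (chain P U n).pr (fun w (j : Fin (l + 1)) => ext w (i + j)) v =
      (chain P (fun j => U (i + j)) l).w v := by
  induction k generalizing n with
  | zero =>
    induction i generalizing n U with
    | zero =>
      have hn' : n = l := by omega
      subst hn'
      have h1 : (fun (w : Fin (n + 1) → Ω) (j : Fin (n + 1)) => ext w (0 + j)) = id := by
        funext w j
        rw [Nat.zero_add, ext_val]
        rfl
      rw [h1, pr_id]
      simp only [Nat.zero_add]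
    | succ i ih =>
      obtain ⟨n', rfl⟩ : ∃ n', n = n' + 1 := ⟨i + l, by omega⟩
      have h1 : (fun (w : Fin (n' + 1 + 1) → Ω) (j : Fin (l + 1)) => ext w (i + 1 + j)) =
          fun w => (fun (w' : Fin (n' + 1) → Ω) (j : Fin (l + 1)) => ext w' (i + j))
            (Fin.tail w) := by
        funext w j
        have := j.2
        simp only
        rw [ext_tail w (by omega)]
        congr 1
        omega
      rw [h1, chain_pr_tail P U n' (fun (w' : Fin (n' + 1) → Ω) (j : Fin (l + 1)) => ext w' (i + j)),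
        ih (fun j => U (j + 1)) n' (by omega)]
      have h2 : (fun j => U (i + j + 1)) = fun j => U (i + 1 + j) := by
        funext j
        congr 1
        omega
      rw [h2]
  | succ k ih =>
    obtain ⟨n', rfl⟩ : ∃ n', n = n' + 1 := ⟨i + l + k, by omega⟩
    have h1 : (fun (w : Fin (n' + 1 + 1) → Ω) (j : Fin (l + 1)) => ext w (i + j)) =
        fun w => (fun (w' : Fin (n' + 1) → Ω) (j : Fin (l + 1)) => ext w' (i + j))
          (Fin.init w) := by
      funext w j
      have := j.2
      simp only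
      rw [ext_init w (by omega)]
    rw [h1, chain_pr_init P U n' (fun (w' : Fin (n' + 1) → Ω) (j : Fin (l + 1)) => ext w' (i + j)),
      ih n' (by omega)]

/-- entropies of a window of the chain -/
theorem chain_win_hc (P : Law Ω) (U : ℕ → Ω → S) (i l n : ℕ) (hn : i + l ≤ n)
    (X : (Fin (l + 1) → Ω) → T) (Y : (Fin (l + 1) → Ω) → T') :
    hc (chain P U n) (fun w => X fun j => ext w (i + j)) (fun w => Y fun j => ext w (i + j)) =
      hc (chain P (fun j => U (i + j)) l) X Y := by
  have h1 : push (chain P U n) (fun w (j : Fin (l + 1)) => ext w (i + j)) =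
      chain P (fun j => U (i + j)) l :=
    law_ext fun v => chain_win P U i l (n - (i + l)) n (by omega) v
  rw [← h1, push_hc]
  rfl

/-- every sample has the law `P` -/
theorem chain_pr (P : Law Ω) (U : ℕ → Ω → S) {i n : ℕ} (hn : i ≤ n) (X : Ω → T) (x : T) :
    (chain P U n).pr (fun w => X (ext w i)) x = P.pr X x := by
  have h1 : push (chain P U n) (fun w (j : Fin (0 + 1)) => ext w (i + j)) =
      chain P (fun j => U (i + j)) 0 :=
    law_ext fun v => chain_win P U i 0 (n - i) n (by omega) v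
  have h2 : push (chain P (fun j => U (i + j)) 0) (fun v => v 0) = P := by
    refine law_ext fun ω => ?_
    rw [push_w]
    unfold Law.pr
    rw [Finset.sum_eq_single (fun _ => ω)]
    · simp [chain, chw]
    · intro v hv hne
      exfalso
      refine hne ?_
      have : v 0 = ω := by simpa using hv
      funext j
      rw [← this]
      congr 1
      exact Subsingleton.elim (α := Fin 1) _ _
    · intro hno
      exact absurd (by simp) hno
  have h3 : P.pr X x = (push (push (chain P U n) (fun w (j : Fin (0 + 1)) => ext w (i + j)))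
      (fun v => v 0)).pr X x := by
    rw [h1, h2]
  rw [h3, push_pr, push_pr]
  rfl

theorem chain_hc (P : Law Ω) (U : ℕ → Ω → S) {i n : ℕ} (hn : i ≤ n) (X : Ω → T) (Y : Ω → T') :
    hc (chain P U n) (fun w => X (ext w i)) (fun w => Y (ext w i)) = hc P X Y := by
  have h1 : push (chain P U n) (fun w => ext w i) = P := by
    refine law_ext fun ω => ?_
    rw [push_w, ← pr_id P ω]
    exact chain_pr P U hn id ω
  nth_rw 2 [← h1]
  rw [push_hc]
  rfl

theorem chain_pos (P : Law Ω) (U : ℕ → Ω → S) {n : ℕ} {w : Fin (n + 1) → Ω}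
    (hw : 0 < (chain P U n).w w) (i : ℕ) : 0 < P.w (ext w i) :=
  chw_pos_w P U n w hw _

/-- consecutive samples have the same value of `U` -/
theorem chain_eq (P : Law Ω) (U : ℕ → Ω → S) {n : ℕ} {w : Fin (n + 1) → Ω}
    (hw : 0 < (chain P U n).w w) {i : ℕ} (hi : i < n) : U i (ext w (i + 1)) = U i (ext w i) := by
  have h1 : chw P U n w ≠ 0 := hw.ne'
  unfold chw at h1
  have h4 := Finset.prod_ne_zero_iff.1 (right_ne_zero_of_mul h1) ⟨i, hi⟩ (Finset.mem_univ _)
  rw [ext_of_le _ (by omega), ext_of_le _ (by omega)]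
  unfold kr at h4
  split_ifs at h4 with h5
  · exact h5
  · exact absurd rfl h4

/-- the weights as a function of an infinite sequence -/
noncomputable def sw (P : Law Ω) (U : ℕ → Ω → S) (n : ℕ) (v : ℕ → Ω) : ℝ :=
  P.w (v 0) * ∏ j ∈ range n, kr P (U j) (v j) (v (j + 1))

theorem chw_eq_sw (P : Law Ω) (U : ℕ → Ω → S) (n : ℕ) (w : Fin (n + 1) → Ω) :
    chw P U n w = sw P U n (ext w) := by
  unfold chw sw
  rw [Finset.prod_range (fun j => kr P (U j) (ext w j) (ext w (j + 1)))]
  congr 1
  refine Finset.prod_congr rfl fun j _ => ?_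
  have := j.2
  rw [ext_of_le _ (by omega), ext_of_le _ (by omega)]
  rfl

theorem sw_congr (P : Law Ω) (U : ℕ → Ω → S) (n : ℕ) {v v' : ℕ → Ω} (h : ∀ j ≤ n, v j = v' j) :
    sw P U n v = sw P U n v' := by
  unfold sw
  rw [h 0 (Nat.zero_le _)]
  congr 1
  refine Finset.prod_congr rfl fun j hj => ?_
  have := Finset.mem_range.1 hj
  rw [h j (by omega), h (j + 1) (by omega)]

theorem sw_split (P : Law Ω) (U : ℕ → Ω → S) (i k : ℕ) (v : ℕ → Ω) :
    sw P U (i + 1 + k) v * P.w (v (i + 1)) = sw P U i v * kr P (U i) (v i) (v (i + 1)) *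
      sw P (fun j => U (i + 1 + j)) k (fun j => v (i + 1 + j)) := by
  unfold sw
  rw [Finset.prod_range_add, Finset.prod_range_succ]
  simp only [add_zero]
  have h1 : ∀ j, i + 1 + (j + 1) = i + 1 + j + 1 := fun j => by omega
  simp only [h1]
  ring

/-- the Markov property in the strong form: past and future are independent given the common
value `U i (w i) = U i (w (i + 1))` -/
theorem chain_ci (P : Law Ω) (U : ℕ → Ω → S) (n i : ℕ) (hi : i < n)
    (X : (Fin (n + 1) → Ω) → T) (Y : (Fin (n + 1) → Ω) → T')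
    (hX : ∀ w w', (∀ j ≤ i, ext w j = ext w' j) → X w = X w')
    (hY : ∀ w w', (∀ j, i < j → j ≤ n → ext w j = ext w' j) → Y w = Y w') :
    mi (chain P U n) X Y (fun w => U i (ext w i)) = 0 := by
  classical
  obtain ⟨k, rfl⟩ : ∃ k, n = i + 1 + k := ⟨n - (i + 1), by omega⟩
  set Q := chain P U (i + 1 + k) with hQ
  set p : (Fin (i + 1 + k + 1) → Ω) → Fin (i + 1) → Ω := fun w j => ext w (0 + j) with hp
  set f : (Fin (i + 1 + k + 1) → Ω) → Fin (k + 1) → Ω := fun w j => ext w (i + 1 + j) with hf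
  have hpj : ∀ w w', p w = p w' → ∀ j ≤ i, ext w j = ext w' j := by
    intro w w' h j hj
    have := congrFun h ⟨j, by omega⟩
    simpa [hp] using this
  have hfj : ∀ w w', f w = f w' → ∀ j, i < j → j ≤ i + 1 + k → ext w j = ext w' j := by
    intro w w' h j hj hj'
    have := congrFun h ⟨j - (i + 1), by omega⟩
    simp only [hf] at this
    have e : i + 1 + (j - (i + 1)) = j := by omega
    rwa [e] at this
  have hpr : ∀ w, Q.pr p (p w) = sw P U i (ext w) := by
    intro w
    rw [hQ, hp, chain_win P U 0 i (1 + k) (i + 1 + k) (by omega), chain_w, chw_eq_sw]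
    have h1 : (fun j => U (0 + j)) = U := by
      funext j
      rw [Nat.zero_add]
    rw [h1]
    refine sw_congr P U i fun j hj => ?_
    rw [ext_of_le _ (by omega)]
    simp only [Nat.zero_add]
  have hfr : ∀ w, Q.pr f (f w) =
      sw P (fun j => U (i + 1 + j)) k (fun j => ext w (i + 1 + j)) := by
    intro w
    rw [hQ, hf, chain_win P U (i + 1) k 0 (i + 1 + k) (by omega), chain_w, chw_eq_sw]
    refine sw_congr P _ k fun j hj => ?_
    rw [ext_of_le _ (by omega)]
  have hZ : ∀ s, Q.pr (fun w => U i (ext w i)) s = P.pr (U i) s := fun s =>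
    chain_pr P U (by omega) (U i) s
  have hXm : mi Q X Y (fun w => U i (ext w i)) ≤ mi Q p f (fun w => U i (ext w i)) := by
    refine (mi_mono_left Q Y ?_).trans (mi_mono_right Q p ?_)
    · intro w w' _ _ e
      exact hX w w' (hpj w w' (congrArg Prod.fst e))
    · intro w w' _ _ e
      exact hY w w' (hfj w w' (congrArg Prod.fst e))
  refine le_antisymm (hXm.trans ?_) (mi_nonneg _ _ _ _)
  have e1 : Q.H (fun w => (p w, U i (ext w i))) = Q.H p := by
    refine H_congr' Q (fun w w' _ _ e => congrArg Prod.fst e) ?_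
    intro w w' _ _ e
    refine Prod.ext e ?_
    show U i (ext w i) = U i (ext w' i)
    rw [hpj w w' e i le_rfl]
  have e2 : Q.H (fun w => (f w, U i (ext w i))) = Q.H f := by
    refine H_congr' Q (fun w w' _ _ e => congrArg Prod.fst e) ?_
    intro w w' hw hw' e
    refine Prod.ext e ?_
    show U i (ext w i) = U i (ext w' i)
    rw [← chain_eq P U hw hi, ← chain_eq P U hw' hi, hfj w w' e (i + 1) (by omega) (by omega)]
  have e3 : Q.H (fun w => (p w, f w, U i (ext w i))) = Q.H id := by
    refine H_congr' Q (fun w w' _ _ e => ?_) (fun w w' _ _ e => by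
      have : w = w' := e
      rw [this])
    simp only [Prod.mk.injEq] at e
    show w = w'
    funext j
    rw [← ext_val w j, ← ext_val w' j]
    rcases Nat.lt_or_ge i j with h | h
    · exact hfj w w' e.2.1 j h (by omega)
    · exact hpj w w' e.1 j h
  have e4 : mi Q p f (fun w => U i (ext w i)) =
      Q.H p + Q.H f - Q.H id - Q.H (fun w => U i (ext w i)) := by
    have : mi Q p f (fun w => U i (ext w i)) = Q.H (fun w => (p w, U i (ext w i))) +
        Q.H (fun w => (f w, U i (ext w i))) - Q.H (fun w => (p w, f w, U i (ext w i))) -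
        Q.H (fun w => U i (ext w i)) := by
      unfold mi hc
      ring
    rw [this, e1, e2, e3]
  rw [e4]
  refine le_of_eq ?_
  unfold Law.H
  rw [← Law.ex_add, ← Law.ex_sub, ← Law.ex_sub, ← Q.ex_const 0]
  refine Q.ex_congr fun w hw => ?_
  rw [hpr, hfr, hZ]
  have h0 : Q.pr id (id w) = sw P U (i + 1 + k) (ext w) := by
    have := pr_id Q w
    rw [← chw_eq_sw]
    exact this
  rw [h0]
  have hs := sw_split P U i k (ext w)
  have hpos : 0 < sw P U (i + 1 + k) (ext w) := by
    rw [← chw_eq_sw]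
    exact hw
  have hw1 : 0 < P.w (ext w (i + 1)) := chain_pos P U hw _
  have hw0 : 0 < P.w (ext w i) := chain_pos P U hw _
  have hpr0 : 0 < P.pr (U i) (U i (ext w i)) := P.pr_pos (U i) hw0
  have hkr : kr P (U i) (ext w i) (ext w (i + 1)) =
      P.w (ext w (i + 1)) / P.pr (U i) (U i (ext w i)) := by
    unfold kr
    rw [if_pos (chain_eq P U hw hi)]
  have a1 : 0 < sw P U i (ext w) := by
    rw [← hpr]
    exact Q.pr_pos p hw
  have a2 : 0 < sw P (fun j => U (i + 1 + j)) k (fun j => ext w (i + 1 + j)) := by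
    rw [← hfr]
    exact Q.pr_pos f hw
  rw [hkr] at hs
  have hs2 : sw P U (i + 1 + k) (ext w) = sw P U i (ext w) *
      sw P (fun j => U (i + 1 + j)) k (fun j => ext w (i + 1 + j)) /
        P.pr (U i) (U i (ext w i)) := by
    have h3 : sw P U (i + 1 + k) (ext w) * P.w (ext w (i + 1)) = (sw P U i (ext w) *
      sw P (fun j => U (i + 1 + j)) k (fun j => ext w (i + 1 + j)) /
        P.pr (U i) (U i (ext w i))) * P.w (ext w (i + 1)) := by
      rw [hs]
      ring
    exact mul_right_cancel₀ hw1.ne' h3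
  rw [hs2, Real.log_div (mul_pos a1 a2).ne' hpr0.ne', Real.log_mul a1.ne' a2.ne']
  ring

/-- the Markov property: past and future are independent given the present -/
theorem chain_markov (P : Law Ω) (U : ℕ → Ω → S) (n i : ℕ) (hi : i ≤ n)
    (X : (Fin (n + 1) → Ω) → T) (Y : (Fin (n + 1) → Ω) → T')
    (hX : ∀ w w', (∀ j ≤ i, ext w j = ext w' j) → X w = X w')
    (hY : ∀ w w', (∀ j, i ≤ j → j ≤ n → ext w j = ext w' j) → Y w = Y w') :
    mi (chain P U n) X Y (fun w => ext w i) = 0 := by
  classical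
  rcases hi.eq_or_lt with h | h
  · refine le_antisymm ?_ (mi_nonneg _ _ _ _)
    refine (mi_le_hc' _ _ _ _).trans (le_of_eq (hc_zero _ ?_))
    intro w w' _ _ e
    refine hY w w' fun j h1 h2 => ?_
    have : j = i := by omega
    rw [this]
    exact e
  · set Q := chain P U n with hQ
    set p : (Fin (n + 1) → Ω) → Fin (i + 1) → Ω := fun w j => ext w j with hp
    set f : (Fin (n + 1) → Ω) → Fin (n + 1) → Option Ω :=
      fun w j => if i < (j : ℕ) then some (w j) else none with hf
    have hpj : ∀ w w', p w = p w' → ∀ j ≤ i, ext w j = ext w' j := by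
      intro w w' h j hj
      exact congrFun h ⟨j, by omega⟩
    have hfj : ∀ w w', f w = f w' → ∀ j, i < j → j ≤ n → ext w j = ext w' j := by
      intro w w' h j hj hj'
      have h1 := congrFun h ⟨j, by omega⟩
      simp only [hf, hj, if_true, Option.some.injEq] at h1
      rw [ext_of_le _ (by omega), ext_of_le _ (by omega)]
      exact h1
    have h1 : mi Q p f (fun w => U i (ext w i)) = 0 := by
      refine chain_ci P U n i h p f ?_ ?_
      · intro w w' e
        funext j
        exact e j (by omega)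
      · intro w w' e
        funext j
        simp only [hf]
        split_ifs with hj
        · rw [← ext_val w j, ← ext_val w' j, e j hj (by omega)]
        · rfl
    have h2 : mi Q p f (fun w => (ext w i, U i (ext w i))) ≤
        mi Q p f (fun w => U i (ext w i)) := by
      refine mi_cond_le Q f _ ?_
      intro w w' _ _ e
      exact hpj w w' (congrArg Prod.fst e) i le_rfl
    have h3 : mi Q p f (fun w => (ext w i, U i (ext w i))) = mi Q p f (fun w => ext w i) := by
      refine mi_congr_cond Q p f ?_ ?_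
      · intro w w' _ _ e
        have e' : ext w i = ext w' i := e
        refine Prod.ext e' ?_
        show U i (ext w i) = U i (ext w' i)
        rw [e']
      · intro w w' _ _ e
        exact congrArg Prod.fst e
    have h4 : mi Q X Y (fun w => ext w i) ≤ mi Q p f (fun w => ext w i) := by
      refine (mi_mono_left Q Y ?_).trans (mi_mono_right Q p ?_)
      · intro w w' _ _ e
        exact hX w w' (hpj w w' (congrArg Prod.fst e))
      · intro w w' _ _ e
        refine hY w w' fun j h5 h6 => ?_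
        rcases h5.eq_or_lt with h7 | h7
        · rw [← h7]
          exact congrArg Prod.snd e
        · exact hfj w w' (congrArg Prod.fst e) j h7 h6
    have h5 := mi_nonneg Q X Y (fun w => ext w i)
    linarith

end chain

end Vale.Agent.P127.Stk
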