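import Vale.Agent.P127.Stk.Defs

/-!
# P127 / Stk : elementary facts on polynomials (PROOF.md, 7.1)
-/

namespace Vale.Agent.P127.Stk

open Finset Polynomial

/-- the Lagrange expansion -/
theorem lagr_exp (D : ℕ) (P : ℝ[X]) (hP : P.natDegree ≤ D) (z : Fin (D + 1) → ℝ)
    (hinj : ∀ i j, i ≠ j → z i ≠ z j) :
    P = ∑ i, C (P.eval (z i)) * Lagrange.basis (Finset.univ : Finset (Fin (D + 1))) z i := by
  classical
  have hinj' : Set.InjOn z (Finset.univ : Finset (Fin (D + 1))) := by
    intro i _ j _ hij
    by_contra hne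
    exact hinj i j hne hij
  have hdeg : P.degree < (Finset.univ : Finset (Fin (D + 1))).card := by
    rw [Finset.card_univ, Fintype.card_fin]
    refine lt_of_le_of_lt degree_le_natDegree ?_
    exact_mod_cast Nat.lt_succ_of_le hP
  have h := Lagrange.eq_interpolate hinj' hdeg
  rw [Lagrange.interpolate_apply] at h
  exact h

/-- Lagrange interpolation: a polynomial which is small at separated points is small -/
theorem lagr_bound (D : ℕ) (P : ℝ[X]) (hP : P.natDegree ≤ D) {a b r A : ℝ} (hr : 0 < r)
    (z : Fin (D + 1) → ℝ) (hz : ∀ i, a ≤ z i ∧ z i ≤ b)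
    (hsep : ∀ i j, i ≠ j → r ≤ |z i - z j|) (hA : ∀ i, |P.eval (z i)| ≤ A) (x : ℝ)
    (hx : a ≤ x ∧ x ≤ b) : |P.eval x| ≤ (D + 1) * ((b - a) / r) ^ D * A := by
  classical
  have hinj : ∀ i j, i ≠ j → z i ≠ z j := by
    intro i j hij he
    have := hsep i j hij
    rw [he, sub_self, abs_zero] at this
    linarith
  have hab : 0 ≤ b - a := by linarith [hx.1, hx.2]
  have hA0 : 0 ≤ A := (abs_nonneg _).trans (hA 0)
  have h2 : P.eval x = (∑ i, C (P.eval (z i)) *
      Lagrange.basis (Finset.univ : Finset (Fin (D + 1))) z i).eval x :=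
    congrArg (Polynomial.eval x) (lagr_exp D P hP z hinj)
  rw [h2, eval_finsetSum]
  refine (Finset.abs_sum_le_sum_abs _ _).trans ?_
  have hterm : ∀ i ∈ (Finset.univ : Finset (Fin (D + 1))), |(C (P.eval (z i)) *
      Lagrange.basis (Finset.univ : Finset (Fin (D + 1))) z i).eval x| ≤
        ((b - a) / r) ^ D * A := by
    intro i _
    have hcard : ((Finset.univ : Finset (Fin (D + 1))).erase i).card = D := by
      rw [Finset.card_erase_of_mem (Finset.mem_univ _), Finset.card_univ, Fintype.card_fin]; rfl
    rw [eval_mul, eval_C, Lagrange.basis, eval_prod, abs_mul, Finset.abs_prod, mul_comm]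
    refine mul_le_mul ?_ (hA i) (abs_nonneg _) (by positivity)
    calc ∏ j ∈ (Finset.univ : Finset (Fin (D + 1))).erase i,
          |(Lagrange.basisDivisor (z i) (z j)).eval x|
        ≤ ∏ _j ∈ (Finset.univ : Finset (Fin (D + 1))).erase i, ((b - a) / r) := by
          refine Finset.prod_le_prod (fun _ _ => abs_nonneg _) fun j hj => ?_
          have hne : i ≠ j := (Finset.ne_of_mem_erase hj).symm
          have e : (Lagrange.basisDivisor (z i) (z j)).eval x = (x - z j) / (z i - z j) := by
            simp [Lagrange.basisDivisor, div_eq_inv_mul]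
          rw [e, abs_div]
          refine div_le_div₀ hab ?_ hr (hsep i j hne)
          rw [abs_le]
          constructor <;> linarith [(hz j).1, (hz j).2, hx.1, hx.2]
      _ = ((b - a) / r) ^ D := by rw [Finset.prod_const, hcard]
  refine (Finset.sum_le_sum hterm).trans (le_of_eq ?_)
  rw [Finset.sum_const, Finset.card_univ, Fintype.card_fin, nsmul_eq_mul]
  push_cast
  ring

end Vale.Agent.P127.Stk
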