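import Mathlib

/-!
# P127 / Stk : finite differences (PROOF.md, section 7)
-/

namespace Vale.Agent.P127.Stk

open Finset Polynomial

/-- the difference of order `k + 1` along the progression `x, x + μ, ...` -/
noncomputable def apd (k : ℕ) (f : ℤ → ℝ) (x μ : ℤ) : ℝ :=
  ∑ l ∈ range (k + 2), (-1 : ℝ) ^ l * ((k + 1).choose l : ℝ) * f (x + l * μ)

/-- differences of order `k + 1` kill polynomials of degree at most `k` -/
theorem diff_poly (k : ℕ) (Q : ℝ[X]) (hQ : Q.natDegree ≤ k) (y d : ℝ) :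
    ∑ l ∈ range (k + 2), (-1 : ℝ) ^ l * ((k + 1).choose l : ℝ) * Q.eval (y + l * d) = 0 := by
  have hdeg : (Q.comp (C y + C d * X)).natDegree < k + 1 := by
    have h1 : (C y + C d * X : ℝ[X]).natDegree ≤ 1 := by
      refine (natDegree_add_le _ _).trans ?_
      rw [natDegree_C]
      exact max_le (by norm_num) ((natDegree_C_mul_le _ _).trans natDegree_X_le)
    have h2 := natDegree_comp_le (p := Q) (q := C y + C d * X)
    have h3 : Q.natDegree * (C y + C d * X : ℝ[X]).natDegree ≤ k * 1 := Nat.mul_le_mul hQ h1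
    omega
  have h := congrFun (Polynomial.fwdDiff_iter_eq_zero_of_degree_lt hdeg) (0 : ℝ)
  rw [fwdDiff_iter_eq_sum_shift] at h
  have hsgn : ∀ l ∈ range (k + 2), (-1 : ℝ) ^ l * ((k + 1).choose l : ℝ) * Q.eval (y + l * d)
      = (-1 : ℝ) ^ (k + 1) * (((-1 : ℤ) ^ (k + 1 - l) * ((k + 1).choose l : ℤ)) •
        (Q.comp (C y + C d * X)).eval (0 + l • (1 : ℝ))) := by
    intro l hl
    have hl' : l ≤ k + 1 := by
      have := mem_range.1 hl
      omega
    have he : (-1 : ℝ) ^ (k + 1) = (-1 : ℝ) ^ (k + 1 - l) * (-1 : ℝ) ^ l := by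
      rw [← pow_add]
      congr 1
      omega
    have hs : (-1 : ℝ) ^ (k + 1 - l) * (-1 : ℝ) ^ (k + 1 - l) = 1 := by
      rw [← mul_pow]
      norm_num
    rw [he, zsmul_eq_mul]
    push_cast
    simp only [eval_comp, eval_add, eval_C, eval_mul, eval_X, nsmul_eq_mul, mul_one, zero_add]
    rw [mul_comm d (l : ℝ)]
    linear_combination (-(-1 : ℝ) ^ l * ((k + 1).choose l : ℝ) * Q.eval (y + l * d)) * hs
  rw [sum_congr rfl hsgn, ← mul_sum]
  have h' : ∑ l ∈ range (k + 2), ((-1 : ℤ) ^ (k + 1 - l) * ((k + 1).choose l : ℤ)) •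
        (Q.comp (C y + C d * X)).eval (0 + l • (1 : ℝ)) = 0 := by
    simpa using h
  rw [h', mul_zero]

/-- a sequence with small differences of order `k + 1` is close to a polynomial of degree `≤ k` -/
theorem newton_close (k n : ℕ) : ∃ K : ℝ, 0 < K ∧ ∀ (a : ℕ → ℝ) (E : ℝ), 0 ≤ E →
    (∀ j, j + (k + 1) ≤ n →
      |∑ l ∈ range (k + 2), (-1 : ℝ) ^ l * ((k + 1).choose l : ℝ) * a (j + l)| ≤ E) →
    ∃ Q : ℝ[X], Q.natDegree ≤ k ∧ ∀ j ≤ n, |a j - Q.eval (j : ℝ)| ≤ K * E := by
  refine ⟨(2 ^ (k + 2)) ^ n, by positivity, fun a E hE hd => ?_⟩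
  have hinj : Set.InjOn (fun i : ℕ => (i : ℝ)) (range (k + 1) : Finset ℕ) := by
    intro i _ j _ hij
    exact Nat.cast_injective hij
  refine ⟨Lagrange.interpolate (range (k + 1)) (fun i : ℕ => (i : ℝ)) a, ?_, ?_⟩
  · have h := Lagrange.degree_interpolate_lt a hinj
    rw [card_range] at h
    exact natDegree_le_of_degree_le (by
      have := Order.lt_succ_iff.1 (show
        (Lagrange.interpolate (range (k + 1)) (fun i : ℕ => (i : ℝ)) a).degree < Order.succ (k : WithBot ℕ) from h)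
      exact this)
  set Q : ℝ[X] := Lagrange.interpolate (range (k + 1)) (fun i : ℕ => (i : ℝ)) a with hQ
  have hQd : Q.natDegree ≤ k := by
    have h := Lagrange.degree_interpolate_lt a hinj
    rw [card_range] at h
    exact natDegree_le_of_degree_le (by
      have := Order.lt_succ_iff.1 (show
        (Lagrange.interpolate (range (k + 1)) (fun i : ℕ => (i : ℝ)) a).degree < Order.succ (k : WithBot ℕ) from h)
      exact this)
  have hone : (1 : ℝ) ≤ 2 ^ (k + 2) := one_le_pow₀ (by norm_num)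
  have key : ∀ j, j ≤ n → |a j - Q.eval (j : ℝ)| ≤ (2 ^ (k + 2)) ^ j * E := by
    intro j
    induction j using Nat.strong_induction_on with
    | _ j ih =>
      intro hjn
      by_cases hj : j < k + 1
      · have h0 : Q.eval (j : ℝ) = a j := by
          have := Lagrange.eval_interpolate_at_node (r := a) hinj (mem_range.2 hj)
          simpa [hQ] using this
        rw [h0, sub_self, abs_zero]
        positivity
      · obtain ⟨i, rfl⟩ := Nat.exists_eq_add_of_le' (not_lt.1 hj)
        have h1 := hd i hjn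
        have h2 := diff_poly k Q hQd (i : ℝ) 1
        have h3 : ∑ l ∈ range (k + 2), (-1 : ℝ) ^ l * ((k + 1).choose l : ℝ) * a (i + l)
            = ∑ l ∈ range (k + 2), (-1 : ℝ) ^ l * ((k + 1).choose l : ℝ) *
              (a (i + l) - Q.eval ((i + l : ℕ) : ℝ)) := by
          have h4 : ∑ l ∈ range (k + 2), (-1 : ℝ) ^ l * ((k + 1).choose l : ℝ) *
              Q.eval ((i + l : ℕ) : ℝ) = 0 := by
            rw [← h2]
            refine sum_congr rfl fun l _ => ?_
            push_cast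
            rw [mul_one]
          simp only [mul_sub, sum_sub_distrib, h4, sub_zero]
        rw [h3, sum_range_succ] at h1
        have h5 : |∑ l ∈ range (k + 1), (-1 : ℝ) ^ l * ((k + 1).choose l : ℝ) *
            (a (i + l) - Q.eval ((i + l : ℕ) : ℝ))| ≤ 2 ^ (k + 1) * ((2 ^ (k + 2)) ^ (i + k) * E) := by
          calc |∑ l ∈ range (k + 1), (-1 : ℝ) ^ l * ((k + 1).choose l : ℝ) *
            (a (i + l) - Q.eval ((i + l : ℕ) : ℝ))|
              ≤ ∑ l ∈ range (k + 1), ((k + 1).choose l : ℝ) * ((2 ^ (k + 2)) ^ (i + k) * E) := by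
                refine (abs_sum_le_sum_abs _ _).trans (sum_le_sum fun l hl => ?_)
                have hlk : l ≤ k := by
                  have := mem_range.1 hl
                  omega
                rw [abs_mul, abs_mul, abs_pow, abs_neg, abs_one, one_pow, one_mul, Nat.abs_cast]
                refine mul_le_mul_of_nonneg_left ?_ (Nat.cast_nonneg _)
                refine (ih (i + l) (by omega) (by omega)).trans ?_
                exact mul_le_mul_of_nonneg_right (pow_le_pow_right₀ hone (by omega)) hE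
            _ ≤ ∑ l ∈ range (k + 2), ((k + 1).choose l : ℝ) * ((2 ^ (k + 2)) ^ (i + k) * E) := by
                refine sum_le_sum_of_subset_of_nonneg (range_subset_range.2 (by omega)) ?_
                intro l _ _
                positivity
            _ = 2 ^ (k + 1) * ((2 ^ (k + 2)) ^ (i + k) * E) := by
                rw [← sum_mul]
                congr 1
                exact_mod_cast Nat.sum_range_choose (k + 1)
        have h6 : (-1 : ℝ) ^ (k + 1) * ((k + 1).choose (k + 1) : ℝ) *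
            (a (i + (k + 1)) - Q.eval ((i + (k + 1) : ℕ) : ℝ)) =
            (∑ l ∈ range (k + 1), (-1 : ℝ) ^ l * ((k + 1).choose l : ℝ) *
            (a (i + l) - Q.eval ((i + l : ℕ) : ℝ)) + (-1 : ℝ) ^ (k + 1) * ((k + 1).choose (k + 1) : ℝ) *
            (a (i + (k + 1)) - Q.eval ((i + (k + 1) : ℕ) : ℝ))) -
            ∑ l ∈ range (k + 1), (-1 : ℝ) ^ l * ((k + 1).choose l : ℝ) *
            (a (i + l) - Q.eval ((i + l : ℕ) : ℝ)) := by ring
        have h7 : |a (i + (k + 1)) - Q.eval ((i + (k + 1) : ℕ) : ℝ)| =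
            |(-1 : ℝ) ^ (k + 1) * ((k + 1).choose (k + 1) : ℝ) *
            (a (i + (k + 1)) - Q.eval ((i + (k + 1) : ℕ) : ℝ))| := by
          rw [abs_mul, abs_mul, abs_pow, abs_neg, abs_one, one_pow, Nat.choose_self]
          simp
        rw [h7, h6]
        refine (abs_sub _ _).trans ?_
        have h8 : (1 : ℝ) ≤ (2 ^ (k + 2)) ^ (i + k) := one_le_pow₀ hone
        have h9 : (2 ^ (k + 2) : ℝ) ^ (i + (k + 1)) = 2 * (2 ^ (k + 1) * (2 ^ (k + 2)) ^ (i + k)) := by
          rw [show i + (k + 1) = (i + k) + 1 by ring, pow_succ (2 ^ (k + 2) : ℝ) (i + k),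
            pow_succ (2 : ℝ) (k + 1)]
          ring
        rw [h9]
        have h10 : (1 : ℝ) ≤ 2 ^ (k + 1) * (2 ^ (k + 2)) ^ (i + k) := by
          have : (1 : ℝ) ≤ 2 ^ (k + 1) := one_le_pow₀ (by norm_num)
          nlinarith
        nlinarith
  intro j hj
  refine (key j hj).trans (mul_le_mul_of_nonneg_right (pow_le_pow_right₀ hone hj) hE)

/-- polynomials are Lipschitz on bounded intervals -/
theorem poly_lip_aux (p : ℝ[X]) (R : ℝ) : ∃ C : ℝ, 0 ≤ C ∧ ∀ x y : ℝ, |x| ≤ R → |y| ≤ R →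
    |p.eval x - p.eval y| ≤ C * |x - y| := by
  obtain ⟨C, hC⟩ := (isCompact_Icc (a := -R) (b := R)).exists_bound_of_continuousOn
    (f := fun x => p.derivative.eval x) (p.derivative.continuous.continuousOn)
  refine ⟨max C 0, le_max_right _ _, fun x y hx hy => ?_⟩
  have h := (convex_Icc (-R) R).norm_image_sub_le_of_norm_deriv_le (f := fun x => p.eval x)
    (C := max C 0) (x := y) (y := x) (fun z _ => p.differentiable.differentiableAt)
    (fun z hz => by
      rw [Polynomial.deriv]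
      exact (hC z hz).trans (le_max_left _ _))
    (abs_le.1 hy) (abs_le.1 hx)
  simpa [Real.norm_eq_abs] using h

/-- a polynomial bounded at `0, 1, ..., n` has derivative `O(1/n)` -/
theorem poly_lip (k : ℕ) : ∃ c : ℝ, 0 < c ∧ ∀ n : ℕ, k + 1 ≤ n → ∀ (Q : ℝ[X]) (B : ℝ),
    Q.natDegree ≤ k → (∀ j : ℕ, j ≤ n → |Q.eval (j : ℝ)| ≤ B) → ∀ z z' : ℝ,
      -(n : ℝ) ≤ z → z ≤ 2 * n → -(n : ℝ) ≤ z' → z' ≤ 2 * n →
      |Q.eval z - Q.eval z'| ≤ c * B / n * |z - z'| := by
  have hinj : Set.InjOn (fun i : ℕ => (i : ℝ)) (range (k + 1) : Finset ℕ) := by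
    intro i _ j _ hij
    exact Nat.cast_injective hij
  choose L hL0 hL using fun i : ℕ =>
    poly_lip_aux (Lagrange.basis (range (k + 1)) (fun i : ℕ => (i : ℝ)) i) (4 * (k + 1))
  refine ⟨2 * (k + 1) * (∑ i ∈ range (k + 1), L i + 1), ?_, ?_⟩
  · have : 0 ≤ ∑ i ∈ range (k + 1), L i := sum_nonneg fun i _ => hL0 i
    positivity
  intro n hn Q B hQ hB z z' hz1 hz2 hz1' hz2'
  have hB0 : 0 ≤ B := (abs_nonneg _).trans (hB 0 (Nat.zero_le _))
  set q : ℕ := n / (k + 1) with hq
  have hq1 : 1 ≤ q := (Nat.one_le_div_iff (Nat.succ_pos k)).2 hn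
  have hqn : n ≤ 2 * q * (k + 1) := by
    have h1 : n < (q + 1) * (k + 1) := by
      rw [hq, mul_comm]
      exact Nat.lt_mul_div_succ n (Nat.succ_pos k)
    have h2 : (q + 1) * (k + 1) ≤ (q + q) * (k + 1) := Nat.mul_le_mul_right _ (by omega)
    calc n ≤ (q + q) * (k + 1) := by omega
      _ = 2 * q * (k + 1) := by ring
  have hqn' : (k + 1) * q ≤ n := Nat.mul_div_le n (k + 1)
  have hq0 : (0 : ℝ) < q := by exact_mod_cast hq1
  have hn0 : (0 : ℝ) < n := by
    have : 0 < n := by omega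
    exact_mod_cast this
  have hqnR : (n : ℝ) ≤ 2 * q * (k + 1) := by exact_mod_cast hqn
  -- the rescaled polynomial
  set R : ℝ[X] := Q.comp (C (q : ℝ) * X) with hR
  have hRe : ∀ x : ℝ, R.eval x = Q.eval (q * x) := by
    intro x
    simp [hR, eval_comp]
  have hRd : R.degree < (range (k + 1)).card := by
    rw [card_range]
    have h1 : (C (q : ℝ) * X : ℝ[X]).natDegree ≤ 1 := (natDegree_C_mul_le _ _).trans natDegree_X_le
    have h2 : R.natDegree ≤ Q.natDegree * (C (q : ℝ) * X : ℝ[X]).natDegree :=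
      natDegree_comp_le (p := Q) (q := C (q : ℝ) * X)
    have h3 : Q.natDegree * (C (q : ℝ) * X : ℝ[X]).natDegree ≤ k * 1 := Nat.mul_le_mul hQ h1
    have h4 : R.natDegree < k + 1 := by omega
    exact (degree_le_natDegree).trans_lt (by exact_mod_cast h4)
  have hRi := Lagrange.eq_interpolate hinj hRd
  have hev : ∀ x : ℝ, R.eval x = ∑ i ∈ range (k + 1), R.eval (i : ℝ) *
      (Lagrange.basis (range (k + 1)) (fun i : ℕ => (i : ℝ)) i).eval x := by
    intro x
    conv_lhs => rw [hRi]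
    rw [Lagrange.interpolate_apply, eval_finsetSum]
    refine sum_congr rfl fun i _ => ?_
    rw [eval_mul, eval_C]
  have hRB : ∀ i ∈ range (k + 1), |R.eval (i : ℝ)| ≤ B := by
    intro i hi
    rw [hRe]
    have h1 : q * i ≤ n := by
      have : i ≤ k + 1 := (mem_range.1 hi).le
      calc q * i ≤ q * (k + 1) := Nat.mul_le_mul_left _ this
        _ = (k + 1) * q := mul_comm _ _
        _ ≤ n := hqn'
    have := hB (q * i) h1
    push_cast at this
    exact this
  have hbd : ∀ w : ℝ, -(n : ℝ) ≤ w → w ≤ 2 * n → |w / q| ≤ 4 * ((k : ℝ) + 1) := by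
    intro w h1 h2
    rw [abs_div, abs_of_pos hq0, div_le_iff₀ hq0]
    refine abs_le.2 ⟨?_, ?_⟩ <;> nlinarith
  have hmain : |R.eval (z / q) - R.eval (z' / q)| ≤
      B * (∑ i ∈ range (k + 1), L i) * |z / q - z' / q| := by
    rw [hev, hev (z' / q), ← sum_sub_distrib, mul_assoc, sum_mul, mul_sum]
    refine (abs_sum_le_sum_abs _ _).trans (sum_le_sum fun i hi => ?_)
    rw [← mul_sub, abs_mul]
    exact mul_le_mul (hRB i hi) (hL i _ _ (hbd z hz1 hz2) (hbd z' hz1' hz2')) (abs_nonneg _) hB0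
  have hz : R.eval (z / q) = Q.eval z := by
    rw [hRe]
    congr 1
    field_simp
  have hz' : R.eval (z' / q) = Q.eval z' := by
    rw [hRe]
    congr 1
    field_simp
  rw [hz, hz'] at hmain
  refine hmain.trans ?_
  rw [← sub_div, abs_div, abs_of_pos hq0]
  have hS : 0 ≤ ∑ i ∈ range (k + 1), L i := sum_nonneg fun i _ => hL0 i
  have hqi : 1 / (q : ℝ) ≤ 2 * (k + 1) / n := by
    rw [div_le_div_iff₀ hq0 hn0]
    nlinarith
  calc B * (∑ i ∈ range (k + 1), L i) * (|z - z'| / q)
      = (B * (∑ i ∈ range (k + 1), L i) * |z - z'|) * (1 / q) := by ring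
    _ ≤ (B * (∑ i ∈ range (k + 1), L i) * |z - z'|) * (2 * (k + 1) / n) :=
        mul_le_mul_of_nonneg_left hqi (by positivity)
    _ ≤ (B * (∑ i ∈ range (k + 1), L i + 1) * |z - z'|) * (2 * (k + 1) / n) := by
        refine mul_le_mul_of_nonneg_right ?_ (by positivity)
        refine mul_le_mul_of_nonneg_right ?_ (abs_nonneg _)
        exact mul_le_mul_of_nonneg_left (by linarith) hB0
    _ = 2 * (k + 1) * (∑ i ∈ range (k + 1), L i + 1) * B / n * |z - z'| := by ring

end Vale.Agent.P127.Stk
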