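import Mathlib

/-!
# P127 / Stk : cubes and polynomials, exact form (all cubes small implies close to a polynomial)

Functions on an integer interval all of whose `p`-dimensional cubes are small are close to
polynomials of degree less than `p`.
-/

namespace Vale.Agent.P127.Stk.Poly

open Finset

/-- alternating sum over a cube -/
noncomputable def cd {ι : Type*} [Fintype ι] (f : ℤ → ℝ) (u : ℤ) (l : ι → ℤ) : ℝ :=
  ∑ s : Finset ι, (-1) ^ s.card * f (u + ∑ i ∈ s, l i)

section general

variable {ι : Type*} [Fintype ι] [DecidableEq ι]

/-- splitting off a coordinate -/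
theorem cd_split (f : ℤ → ℝ) (u : ℤ) (l : ι → ℤ) (j : ι) :
    cd f u l = ∑ s ∈ (univ.erase j : Finset ι).powerset,
      ((-1) ^ s.card * f (u + ∑ i ∈ s, l i) - (-1) ^ s.card * f (u + l j + ∑ i ∈ s, l i)) := by
  unfold cd
  have h1 : (univ : Finset (Finset ι)) = (insert j (univ.erase j)).powerset := by
    rw [insert_erase (mem_univ j)]
    simp
  rw [h1, sum_powerset_insert (notMem_erase j univ), ← sum_add_distrib]
  apply sum_congr rfl
  intro s hs
  have hj : j ∉ s := fun h => (notMem_erase j univ) ((mem_powerset.mp hs) h)
  rw [card_insert_of_notMem hj, sum_insert hj, pow_succ]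
  rw [show u + (l j + ∑ i ∈ s, l i) = u + l j + ∑ i ∈ s, l i by ring]
  ring

theorem cd_update (f : ℤ → ℝ) (u : ℤ) (l : ι → ℤ) (j : ι) (a : ℤ) :
    cd f u (Function.update l j a) = ∑ s ∈ (univ.erase j : Finset ι).powerset,
      ((-1) ^ s.card * f (u + ∑ i ∈ s, l i) - (-1) ^ s.card * f (u + a + ∑ i ∈ s, l i)) := by
  rw [cd_split f u _ j]
  apply sum_congr rfl
  intro s hs
  have hj : j ∉ s := fun h => (notMem_erase j univ) ((mem_powerset.mp hs) h)
  have h2 : ∑ i ∈ s, Function.update l j a i = ∑ i ∈ s, l i := by
    apply sum_congr rfl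
    intro i hi
    rw [Function.update_of_ne]
    rintro rfl
    exact hj hi
  rw [h2, Function.update_self]

/-- additivity in one side -/
theorem cd_update_add (f : ℤ → ℝ) (u : ℤ) (l : ι → ℤ) (j : ι) (a b : ℤ) :
    cd f u (Function.update l j (a + b)) =
      cd f u (Function.update l j a) + cd f (u + a) (Function.update l j b) := by
  rw [cd_update, cd_update, cd_update, ← sum_add_distrib]
  apply sum_congr rfl
  intro s _
  rw [show u + (a + b) + ∑ i ∈ s, l i = u + a + b + ∑ i ∈ s, l i by ring]
  ring

omit [DecidableEq ι] in
theorem cd_add (f g : ℤ → ℝ) (u : ℤ) (l : ι → ℤ) :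
    cd (fun x => f x + g x) u l = cd f u l + cd g u l := by
  unfold cd
  rw [← sum_add_distrib]
  exact sum_congr rfl fun s _ => by ring

omit [DecidableEq ι] in
theorem cd_sub (f g : ℤ → ℝ) (u : ℤ) (l : ι → ℤ) :
    cd (fun x => f x - g x) u l = cd f u l - cd g u l := by
  unfold cd
  rw [← sum_sub_distrib]
  exact sum_congr rfl fun s _ => by ring

omit [DecidableEq ι] in
theorem cd_smul (c : ℝ) (f : ℤ → ℝ) (u : ℤ) (l : ι → ℤ) :
    cd (fun x => c * f x) u l = c * cd f u l := by
  unfold cd
  rw [mul_sum]
  exact sum_congr rfl fun s _ => by ring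

omit [DecidableEq ι] in
theorem cd_sum {κ : Type*} (t : Finset κ) (f : κ → ℤ → ℝ) (u : ℤ) (l : ι → ℤ) :
    cd (fun x => ∑ k ∈ t, f k x) u l = ∑ k ∈ t, cd (f k) u l := by
  unfold cd
  rw [sum_comm]
  refine sum_congr rfl fun s _ => ?_
  rw [mul_sum]

end general

theorem cd_zero (f : ℤ → ℝ) (u : ℤ) (l : Fin 0 → ℤ) : cd f u l = f u := by
  unfold cd
  have : (univ : Finset (Finset (Fin 0))) = {∅} := by decide
  rw [this]
  simp

/-- a cube of dimension `p + 1` is a difference of cubes of dimension `p` -/
theorem cd_cons {p : ℕ} (f : ℤ → ℝ) (u a : ℤ) (l : Fin p → ℤ) :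
    cd f u (Fin.cons a l : Fin (p + 1) → ℤ) = cd f u l - cd f (u + a) l := by
  rw [cd_split f u _ 0, sum_sub_distrib]
  have h0 : (univ.erase 0 : Finset (Fin (p + 1))) = univ.map (Fin.succEmb p) := by
    ext i
    simp only [mem_erase, ne_eq, mem_univ, and_true, mem_map, true_and]
    constructor
    · intro hi
      obtain ⟨k, hk⟩ := Fin.exists_succ_eq.mpr hi
      exact ⟨k, hk⟩
    · rintro ⟨k, rfl⟩
      exact Fin.succ_ne_zero k
  have key : ∀ v : ℤ, ∑ s ∈ (univ.erase 0 : Finset (Fin (p + 1))).powerset,
      (-1 : ℝ) ^ s.card * f (v + ∑ i ∈ s, (Fin.cons a l : Fin (p + 1) → ℤ) i) = cd f v l := by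
    intro v
    unfold cd
    symm
    apply sum_bij' (i := fun (s : Finset (Fin p)) _ => s.map (Fin.succEmb p))
      (j := fun (s : Finset (Fin (p + 1))) _ => s.preimage (Fin.succEmb p)
        (Fin.succEmb p).injective.injOn)
    · intro s _
      rw [mem_powerset, h0]
      exact map_subset_map.mpr (subset_univ s)
    · intro s _
      exact mem_univ _
    · intro s _
      ext i
      simp
    · intro s hs
      rw [mem_powerset, h0] at hs
      ext i
      simp only [mem_map, mem_preimage]
      constructor
      · rintro ⟨k, hk, rfl⟩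
        exact hk
      · intro hi
        obtain ⟨k, _, rfl⟩ := mem_map.mp (hs hi)
        exact ⟨k, hi, rfl⟩
    · intro s _
      rw [card_map, sum_map]
      simp
  rw [key, Fin.cons_zero, key]

/-- cubes of monomials -/
theorem cd_pow (p : ℕ) : ∀ (i : ℕ), i ≤ p → ∀ (u : ℤ) (l : Fin p → ℤ),
    cd (fun x => (x : ℝ) ^ i) u l =
      if i = p then (-1) ^ p * (p.factorial : ℝ) * ∏ k, (l k : ℝ) else 0 := by
  induction p with
  | zero =>
    intro i hi u l
    have : i = 0 := by omega
    subst this
    rw [cd_zero]
    simp
  | succ p ih =>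
    intro i hi u l
    obtain ⟨a, l', rfl⟩ : ∃ a l', l = (Fin.cons a l' : Fin (p + 1) → ℤ) :=
      ⟨l 0, Fin.tail l, (Fin.cons_self_tail l).symm⟩
    rw [cd_cons]
    have h1 : cd (fun x => (x : ℝ) ^ i) (u + a) l' =
        cd (fun x : ℤ => ((x : ℝ) + a) ^ i) u l' := by
      unfold cd
      refine sum_congr rfl fun s _ => ?_
      congr 2
      push_cast
      ring
    have h2 : (fun x : ℤ => ((x : ℝ) + a) ^ i) = fun x : ℤ =>
        ∑ j ∈ range (i + 1), ((a : ℝ) ^ (i - j) * (i.choose j : ℝ)) * (x : ℝ) ^ j := by
      funext x
      rw [add_pow]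
      exact sum_congr rfl fun j _ => by ring
    rw [h1, h2, cd_sum, sum_range_succ]
    simp only [cd_smul]
    rw [Nat.sub_self, pow_zero, Nat.choose_self, Nat.cast_one, one_mul, one_mul]
    have h3 : ∀ j ∈ range i, (a : ℝ) ^ (i - j) * (i.choose j : ℝ) *
        cd (fun x => (x : ℝ) ^ j) u l' = if j = p then (a : ℝ) ^ (i - p) * (i.choose p : ℝ) *
          ((-1) ^ p * (p.factorial : ℝ) * ∏ k, (l' k : ℝ)) else 0 := by
      intro j hj
      rw [mem_range] at hj
      rw [ih j (by omega)]
      split_ifs with h
      · rw [h]
      · simp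
    rw [sum_congr rfl h3, sum_ite_eq']
    by_cases hip : i = p + 1
    · subst hip
      simp only [mem_range, lt_add_iff_pos_right, zero_lt_one, if_true]
      rw [Fin.prod_univ_succ, Fin.cons_zero]
      simp only [Fin.cons_succ]
      have h4 : p + 1 - p = 1 := by omega
      rw [h4, Nat.choose_succ_self_right, Nat.factorial_succ]
      push_cast
      ring
    · have h5 : p ∉ range i := by rw [mem_range]; omega
      rw [if_neg h5, if_neg hip]
      ring

/-- functions on `[0,R]` which are additive up to `E` are linear up to `3E` -/
theorem additive_linear (R : ℕ) (hR : 0 < R) (φ : ℤ → ℝ) (E : ℝ)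
    (h : ∀ a b : ℤ, 0 ≤ a → 0 ≤ b → a + b ≤ R → |φ (a + b) - φ a - φ b| ≤ E) :
    ∀ a : ℤ, 0 ≤ a → a ≤ R → |φ a - (a / R : ℝ) * φ R| ≤ 3 * E := by
  set g : ℤ → ℝ := fun a => φ a - (a / R : ℝ) * φ R with hg
  have hRr : (0 : ℝ) < R := by exact_mod_cast hR
  have hgR : g R = 0 := by
    simp only [hg]
    have : ((R : ℤ) : ℝ) / R = 1 := by
      rw [Int.cast_natCast]
      exact div_self hRr.ne'
    rw [this]
    ring
  have hadd : ∀ a b : ℤ, 0 ≤ a → 0 ≤ b → a + b ≤ R → |g (a + b) - g a - g b| ≤ E := by
    intro a b ha hb hab
    have := h a b ha hb hab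
    have e : g (a + b) - g a - g b = φ (a + b) - φ a - φ b := by
      simp only [hg]
      push_cast
      ring
    rw [e]
    exact this
  have hE : 0 ≤ E := le_trans (abs_nonneg _) (hadd 0 0 le_rfl le_rfl (by positivity))
  obtain ⟨m, hm, hmax⟩ := exists_max_image (Icc (0 : ℤ) R) (fun a => |g a|)
    ⟨0, by simp⟩
  rw [mem_Icc] at hm
  have hS : |g m| ≤ 3 * E := by
    have small : ∀ x : ℤ, 0 ≤ x → 2 * x ≤ R → 2 * |g x| ≤ |g m| + E := by
      intro x hx hx2
      have h1 := hadd x x hx hx (by omega)
      have h2 := hmax (x + x) (by rw [mem_Icc]; omega)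
      have h3 : |g (x + x)| ≤ |g m| := h2
      have h4 : 2 * |g x| = |(g x + g x)| := by
        rw [← two_mul, abs_mul, abs_two]
      rw [h4]
      have h5 : g x + g x = g (x + x) - (g (x + x) - g x - g x) := by ring
      rw [h5]
      exact (abs_sub _ _).trans (add_le_add h3 h1)
    by_cases hc : 2 * m ≤ R
    · have := small m hm.1 hc
      linarith [abs_nonneg (g m)]
    · have h1 := hadd m (R - m) hm.1 (by omega) (by omega)
      have h2 : m + (R - m) = (R : ℤ) := by ring
      rw [h2, hgR] at h1
      have h3 : |g m| ≤ |g (R - m)| + E := by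
        have : g m = -(0 - g m - g (R - m)) - g (R - m) := by ring
        rw [this]
        refine (abs_sub _ _).trans ?_
        rw [abs_neg]
        have e1 : |g (↑R - m)| = |g (↑R - m)| := rfl
        linarith
      have h4 := small (R - m) (by omega) (by omega)
      linarith
  intro a ha ha'
  have h1 : |g a| ≤ |g m| := hmax a (by rw [mem_Icc]; exact ⟨ha, ha'⟩)
  exact h1.trans hS

/-- small cubes with sides at most `R` give small cubes with sides at most `K R` -/
theorem cd_big {p : ℕ} (f : ℤ → ℝ) (M R K : ℕ) (E : ℝ) (hK : 1 ≤ K)
    (h : ∀ (u : ℤ) (l : Fin p → ℤ), 0 ≤ u → (∀ i, 0 ≤ l i) → (∀ i, l i ≤ R) →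
      u + ∑ i, l i ≤ M → |cd f u l| ≤ E) (S : Finset (Fin p)) :
    ∀ (u : ℤ) (l : Fin p → ℤ), 0 ≤ u → (∀ i, 0 ≤ l i) → (∀ i, i ∉ S → l i ≤ R) →
      (∀ i, l i ≤ K * R) → u + ∑ i, l i ≤ M → |cd f u l| ≤ K ^ S.card * E := by
  induction S using Finset.induction_on with
  | empty =>
    intro u l hu hl hl1 _ hM
    simpa using h u l hu hl (fun i => hl1 i (notMem_empty i)) hM
  | insert j S hj ih =>
    intro u l hu hl hl1 hl2 hM
    have hsum : ∀ x : ℤ, ∑ i, Function.update l j x i = x + ∑ i ∈ univ.erase j, l i := by
      intro x
      rw [← add_sum_erase univ _ (mem_univ j), Function.update_self]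
      congr 1
      apply sum_congr rfl
      intro i hi
      rw [Function.update_of_ne (ne_of_mem_erase hi)]
    have hE : 0 ≤ (K : ℝ) ^ S.card * E := by
      refine le_trans (abs_nonneg _) (ih 0 (fun _ => 0) le_rfl (fun _ => le_rfl)
        (fun _ _ => by positivity) (fun _ => by positivity) (by simp))
    have main : ∀ (n : ℕ) (u x : ℤ), 0 ≤ u → 0 ≤ x → x ≤ n * R →
        u + (x + ∑ i ∈ univ.erase j, l i) ≤ M → |cd f u (Function.update l j x)| ≤
          max (n : ℝ) 1 * (K ^ S.card * E) := by
      intro n
      induction n with
      | zero =>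
        intro u x hu hx hx2 hM2
        have hx0 : x = 0 := by simpa using le_antisymm (by simpa using hx2) hx
        subst hx0
        have := ih u (Function.update l j 0) hu (by
          intro i
          by_cases hi : i = j
          · subst hi; simp
          · rw [Function.update_of_ne hi]; exact hl i) (by
          intro i hi
          by_cases hij : i = j
          · subst hij; simp
          · rw [Function.update_of_ne hij]
            exact hl1 i (by rw [mem_insert]; tauto)) (by
          intro i
          by_cases hi : i = j
          · subst hi; simp; positivity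
          · rw [Function.update_of_ne hi]; exact hl2 i) (by rw [hsum]; exact hM2)
        have e0 : max ((0 : ℕ) : ℝ) 1 = 1 := by norm_num
        rw [e0, one_mul]
        exact this
      | succ n ihn =>
        intro u x hu hx hx2 hM2
        have step : ∀ (v y : ℤ), 0 ≤ v → 0 ≤ y → y ≤ R →
            v + (y + ∑ i ∈ univ.erase j, l i) ≤ M → |cd f v (Function.update l j y)| ≤
              K ^ S.card * E := by
          intro v y hv hy hyR hvM
          apply ih v (Function.update l j y) hv
          · intro i
            by_cases hi : i = j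
            · subst hi; simpa using hy
            · rw [Function.update_of_ne hi]; exact hl i
          · intro i hi
            by_cases hij : i = j
            · subst hij; simpa using hyR
            · rw [Function.update_of_ne hij]
              exact hl1 i (by rw [mem_insert]; tauto)
          · intro i
            by_cases hi : i = j
            · subst hi
              rw [Function.update_self]
              have : (1 : ℤ) * R ≤ K * R := by
                apply mul_le_mul_of_nonneg_right _ (by positivity)
                exact_mod_cast hK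
              linarith
            · rw [Function.update_of_ne hi]; exact hl2 i
          · rw [hsum]; exact hvM
        by_cases hxR : x ≤ R
        · refine (step u x hu hx hxR hM2).trans ?_
          have : (1 : ℝ) ≤ max ((n + 1 : ℕ) : ℝ) 1 := le_max_right _ _
          nlinarith
        · push Not at hxR
          have e : x = R + (x - R) := by ring
          rw [e, cd_update_add]
          refine (abs_add_le _ _).trans ?_
          have h1 := step u R hu (by positivity) le_rfl (by linarith)
          have h2 := ihn (u + R) (x - R) (by positivity) (by linarith) (by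
            push_cast at hx2 ⊢
            linarith) (by linarith)
          rcases Nat.eq_zero_or_pos n with hn | hn
          · subst hn
            exfalso
            push_cast at hx2
            linarith
          · have e1 : max ((n : ℕ) : ℝ) 1 = n := max_eq_left (by exact_mod_cast hn)
            have e2 : max ((n + 1 : ℕ) : ℝ) 1 = n + 1 := by
              push_cast
              exact max_eq_left (by linarith [(Nat.cast_nonneg n : (0:ℝ) ≤ n)])
            rw [e1] at h2
            rw [e2]
            linarith
    have h3 := main K u (l j) hu (hl j) (hl2 j) (by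
      rw [add_sum_erase univ _ (mem_univ j)]
      exact hM)
    rw [Function.update_eq_self] at h3
    rw [card_insert_of_notMem hj, pow_succ]
    have e1 : max ((K : ℕ) : ℝ) 1 = K := max_eq_left (by exact_mod_cast hK)
    rw [e1] at h3
    linarith

/-- functions with small cubes are close to polynomials -/
theorem hundred (p : ℕ) : ∃ C : ℝ, 0 ≤ C ∧ ∀ (M : ℕ) (f : ℤ → ℝ) (E : ℝ),
    (∀ (u : ℤ) (l : Fin p → ℤ), 0 ≤ u → (∀ i, 0 ≤ l i) → u + ∑ i, l i ≤ M → |cd f u l| ≤ E) →
    ∃ g : Polynomial ℝ, g.degree < p ∧ ∀ u : ℤ, 0 ≤ u → u ≤ M → |f u - g.eval (u : ℝ)| ≤ C * E := by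
  induction p with
  | zero =>
    refine ⟨1, zero_le_one, fun M f E h => ⟨0, by simp, fun u hu huM => ?_⟩⟩
    have := h u (fun _ => 0) hu (fun _ => le_rfl) (by simpa using huM)
    rw [cd_zero] at this
    simpa using this
  | succ p ih =>
    obtain ⟨C, hC, ih⟩ := ih
    refine ⟨C * ((2 * (p + 1) : ℕ) ^ p * (1 + 3 * p)), by positivity, fun M f E h => ?_⟩
    have hE : 0 ≤ E := le_trans (abs_nonneg _) (h 0 (fun _ => 0) le_rfl (fun _ => le_rfl) (by simp))
    by_cases hMp : M ≤ p
    · -- few points
      set s : Finset ℕ := range (M + 1) with hs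
      have hinj : Set.InjOn (fun n : ℕ => (n : ℝ)) s := fun a _ b _ hab => by simpa using hab
      refine ⟨Lagrange.interpolate s (fun n : ℕ => (n : ℝ)) (fun n => f n), ?_, ?_⟩
      · refine (Lagrange.degree_interpolate_lt _ hinj).trans_le ?_
        rw [hs, card_range]
        exact_mod_cast Nat.succ_le_succ hMp
      · intro u hu huM
        obtain ⟨n, rfl⟩ := Int.eq_ofNat_of_zero_le hu
        have hn : n ∈ s := by rw [hs, mem_range]; omega
        have := Lagrange.eval_interpolate_at_node (fun n : ℕ => f n) hinj hn
        rw [Int.cast_natCast, this]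
        simp only [sub_self, abs_zero]
        positivity
    · push Not at hMp
      set R : ℕ := M / (p + 1) with hRdef
      have hR : 0 < R := Nat.div_pos hMp (Nat.succ_pos p)
      have hRM : (p + 1) * R ≤ M := Nat.mul_div_le M (p + 1)
      have hRr : (0 : ℝ) < R := by exact_mod_cast hR
      have hMR : M ≤ 2 * (p + 1) * R := by
        have h1 : M < (p + 1) * (R + 1) := Nat.lt_mul_div_succ M (Nat.succ_pos p)
        have h2 : R + 1 ≤ 2 * R := by omega
        have h3 : (p + 1) * (R + 1) ≤ (p + 1) * (2 * R) := Nat.mul_le_mul_left _ h2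
        have h4 : (p + 1) * (2 * R) = 2 * (p + 1) * R := by ring
        omega
      -- the cube at the point u compared with the cube at 0
      have hbase : ∀ (u : ℤ) (l : Fin p → ℤ), 0 ≤ u → (∀ i, 0 ≤ l i) → u + ∑ i, l i ≤ M →
          |cd f u l - cd f 0 l| ≤ E := by
        intro u l hu hl hM
        have h1 := h 0 (Fin.cons u l : Fin (p + 1) → ℤ) le_rfl (by
          intro i
          refine Fin.cases ?_ ?_ i
          · simpa using hu
          · intro k; simpa using hl k) (by
          rw [Fin.sum_univ_succ]
          simpa using hM)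
        rw [cd_cons, zero_add] at h1
        rw [abs_sub_comm]
        exact h1
      have hsumR : ∀ l : Fin p → ℤ, (∀ i, l i ≤ R) → ∑ i, l i ≤ p * R := by
        intro l hl
        calc ∑ i, l i ≤ ∑ _i : Fin p, (R : ℤ) := sum_le_sum fun i _ => hl i
          _ = p * R := by simp
      have hupd : ∀ (l : Fin p → ℤ) (j : Fin p) (x : ℤ),
          ∑ i, Function.update l j x i = x + ∑ i ∈ univ.erase j, l i := by
        intro l j x
        rw [← add_sum_erase univ _ (mem_univ j), Function.update_self]
        congr 1
        apply sum_congr rfl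
        intro i hi
        rw [Function.update_of_ne (ne_of_mem_erase hi)]
      have hRMz : ((p : ℤ) + 1) * R ≤ M := by exact_mod_cast hRM
      -- multilinearity
      have hmul : ∀ S : Finset (Fin p), ∀ l : Fin p → ℤ, (∀ i, 0 ≤ l i) → (∀ i, l i ≤ R) →
          |cd f 0 l - (∏ i ∈ S, (l i / R : ℝ)) * cd f 0 (fun i => if i ∈ S then (R : ℤ) else l i)| ≤
            3 * S.card * E := by
        intro S
        induction S using Finset.induction_on with
        | empty =>
          intro l hl hlR
          simp
        | insert j S hj ihS =>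
          intro l hl hlR
          have h1 := ihS l hl hlR
          set l1 : Fin p → ℤ := fun i => if i ∈ S then (R : ℤ) else l i with hl1
          have hl1n : ∀ i, 0 ≤ l1 i := by
            intro i
            simp only [hl1]
            split_ifs
            · positivity
            · exact hl i
          have hl1R : ∀ i, l1 i ≤ R := by
            intro i
            simp only [hl1]
            split_ifs
            · exact le_rfl
            · exact hlR i
          have h2 := additive_linear R hR (fun x => cd f 0 (Function.update l1 j x)) E (by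
            intro a b ha hb hab
            have e := cd_update_add f 0 l1 j a b
            rw [zero_add] at e
            have e2 : cd f 0 (Function.update l1 j (a + b)) - cd f 0 (Function.update l1 j a) -
                cd f 0 (Function.update l1 j b) =
                cd f a (Function.update l1 j b) - cd f 0 (Function.update l1 j b) := by
              rw [e]; ring
            rw [e2]
            apply hbase a _ ha
            · intro i
              by_cases hi : i = j
              · subst hi; simpa using hb
              · rw [Function.update_of_ne hi]; exact hl1n i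
            · rw [hupd]
              have h5 : b + ∑ i ∈ univ.erase j, l1 i = ∑ i, Function.update l1 j b i :=
                (hupd l1 j b).symm
              have h6 := hsumR (Function.update l1 j b) (by
                intro i
                by_cases hi : i = j
                · subst hi
                  rw [Function.update_self]
                  linarith
                · rw [Function.update_of_ne hi]; exact hl1R i)
              rw [h5]
              have : a ≤ R := by linarith
              linarith) (l1 j) (hl1n j) (hl1R j)
          have hl1j : l1 j = l j := by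
            simp only [hl1]
            rw [if_neg hj]
          rw [Function.update_eq_self, hl1j] at h2
          have h3 : Function.update l1 j (R : ℤ) = fun i => if i ∈ insert j S then (R : ℤ) else l i := by
            funext i
            by_cases hi : i = j
            · subst hi; simp
            · rw [Function.update_of_ne hi]
              simp only [hl1, mem_insert, hi, false_or]
          rw [h3] at h2
          have hprod : |∏ i ∈ S, (l i / R : ℝ)| ≤ 1 := by
            rw [abs_prod]
            apply prod_le_one
            · intro i _; exact abs_nonneg _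
            · intro i _
              rw [abs_of_nonneg (div_nonneg (by exact_mod_cast hl i) hRr.le)]
              rw [div_le_one hRr]
              exact_mod_cast hlR i
          rw [prod_insert hj, card_insert_of_notMem hj]
          have h4 : cd f 0 l - (l j / R * ∏ i ∈ S, (l i / R : ℝ)) *
              cd f 0 (fun i => if i ∈ insert j S then (R : ℤ) else l i) =
              (cd f 0 l - (∏ i ∈ S, (l i / R : ℝ)) * cd f 0 l1) +
              (∏ i ∈ S, (l i / R : ℝ)) * (cd f 0 l1 - (l j / R : ℝ) *
                cd f 0 (fun i => if i ∈ insert j S then (R : ℤ) else l i)) := by ring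
          rw [h4]
          refine (abs_add_le _ _).trans ?_
          rw [abs_mul]
          have h5 : |∏ i ∈ S, (l i / R : ℝ)| * |cd f 0 l1 - (l j / R : ℝ) *
                cd f 0 (fun i => if i ∈ insert j S then (R : ℤ) else l i)| ≤ 1 * (3 * E) :=
            mul_le_mul hprod h2 (abs_nonneg _) zero_le_one
          push_cast
          linarith
      set c : ℝ := cd f 0 (fun _ : Fin p => (R : ℤ)) / (R : ℝ) ^ p with hc
      set κ : ℝ := (-1) ^ p * c / p.factorial with hκ
      have hfac : (p.factorial : ℝ) ≠ 0 := by exact_mod_cast p.factorial_ne_zero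
      have hcdκ : ∀ (u : ℤ) (l : Fin p → ℤ), cd (fun x : ℤ => κ * (x : ℝ) ^ p) u l =
          c * ∏ k, (l k : ℝ) := by
        intro u l
        rw [cd_smul, cd_pow p p le_rfl, if_pos rfl, hκ]
        have : ((-1 : ℝ) ^ p) ^ 2 = 1 := by
          rw [← pow_mul, mul_comm, pow_mul]; norm_num
        field_simp
        rw [this]
        ring
      have hsmall : ∀ (u : ℤ) (l : Fin p → ℤ), 0 ≤ u → (∀ i, 0 ≤ l i) → (∀ i, l i ≤ R) →
          u + ∑ i, l i ≤ M → |cd (fun x => f x - κ * (x : ℝ) ^ p) u l| ≤ (1 + 3 * p) * E := by
        intro u l hu hl hlR hM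
        rw [cd_sub, hcdκ]
        have h1 := hbase u l hu hl hM
        have h2 := hmul univ l hl hlR
        simp only [mem_univ, if_true, card_univ, Fintype.card_fin] at h2
        have h3 : (∏ i, (l i / R : ℝ)) * cd f 0 (fun _ : Fin p => (R : ℤ)) =
            c * ∏ k, (l k : ℝ) := by
          rw [hc, prod_div_distrib]
          simp only [prod_const, card_univ, Fintype.card_fin]
          field_simp
        rw [h3] at h2
        have h4 : cd f u l - c * ∏ k, (l k : ℝ) =
            (cd f u l - cd f 0 l) + (cd f 0 l - c * ∏ k, (l k : ℝ)) := by ring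
        rw [h4]
        refine (abs_add_le _ _).trans ?_
        linarith
      have hbig := cd_big (fun x => f x - κ * (x : ℝ) ^ p) M R (2 * (p + 1)) _
        (by omega) hsmall univ
      obtain ⟨g, hg, hg2⟩ := ih M (fun x => f x - κ * (x : ℝ) ^ p)
        ((2 * (p + 1) : ℕ) ^ p * ((1 + 3 * p) * E)) (by
          intro u l hu hl hM
          have h1 := hbig u l hu hl (fun i hi => absurd (mem_univ i) hi) (by
            intro i
            have h2 : l i ≤ ∑ i, l i := single_le_sum (fun k _ => hl k) (mem_univ i)
            have h3 : (M : ℤ) ≤ 2 * (p + 1) * R := by exact_mod_cast hMR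
            push_cast
            linarith) hM
          simpa using h1)
      refine ⟨g + Polynomial.C κ * Polynomial.X ^ p, ?_, ?_⟩
      · refine lt_of_le_of_lt (Polynomial.degree_add_le _ _) (max_lt ?_ ?_)
        · refine hg.trans ?_
          exact_mod_cast Nat.lt_succ_self p
        · refine lt_of_le_of_lt (Polynomial.degree_C_mul_X_pow_le p κ) ?_
          exact_mod_cast Nat.lt_succ_self p
      · intro u hu huM
        have h1 := hg2 u hu huM
        have h2 : f u - (g + Polynomial.C κ * Polynomial.X ^ p).eval (u : ℝ) =
            f u - κ * (u : ℝ) ^ p - g.eval (u : ℝ) := by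
          simp
          ring
        rw [h2]
        refine h1.trans (le_of_eq ?_)
        ring

end Vale.Agent.P127.Stk.Poly
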