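import Vale.Agent.P127.Stk.Props

/-!
# P127 / Stk : the law of arithmetic progressions of times, the statement `A(k)`

Section 7 and section 8 of PROOF.md meet here. `AK R m h κ k` (to be proved in section 8) says that the
alternating sums with binomial weights of `Γ` along random arithmetic progressions of `k + 2`
times are small; section 7 proves `AK → CK` (`PInterp`).
-/

namespace Vale.Agent.P127.Stk

open Finset Vale.Agent.P127

section ap

variable {Ω : Type} [Fintype Ω] {S : Type*}

open Classical in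
/-- `1 / (M ρ(U))`, where `ρ` is the law of `U` given `W`, at the points where `ρ(U) ≥ 1/(2M)`;
zero at the other points -/
noncomputable def idn (P : Law Ω) (W : Ω → S) (U : Ω → ℤ) (M : ℕ) (ω : Ω) : ℝ :=
  if P.pr W (W ω) ≤ 2 * M * P.pr (fun ω => (W ω, U ω)) (W ω, U ω) then
    P.pr W (W ω) / (M * P.pr (fun ω => (W ω, U ω)) (W ω, U ω)) else 0

open Classical in
/-- unnormalised weights of the law of arithmetic progressions of length `p + 1`: the key `W`,
a uniform progression `x, x + μ, ..., x + p μ` in `[0, M)` all of whose terms are good for the key,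
and independent samples with these values of `U` -/
noncomputable def apw (P : Law Ω) (W : Ω → S) (U : Ω → ℤ) (M p : ℕ) (w : Fin (p + 1) → Ω) : ℝ :=
  if ∃ μ : ℤ, ∀ j : Fin (p + 1), U (w j) = U (w 0) + (j : ℕ) * μ then
    cw P W p w * ∏ j, idn P W U M (w j) else 0

/-- the digits of the time after the first `a` -/
noncomputable def low {m : ℕ} (c : Cf Ω m) (a L : ℕ) (ω : Ω) : ℤ :=
  fl1 L (c.t ω) - 2 ^ (L - a) * fl1 a (c.t ω)

end ap

open Classical in
/-- `A(k)` : the differences of order `k + 1` of `Γ` along typical arithmetic progressions of times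
in a dyadic interval of length `2^{-a}` are at most `2^{-(k+1)a}` -/
def AK (R : Gr) (m : ℕ) (h : ℝ) (κ k : ℕ) : Prop :=
  Ev R m h κ fun ε a Ω _ P c o =>
    ∀ Q : Law (Fin (k + 2) → Ω), (∃ Z : ℝ, 0 < Z ∧ ∀ w, Q.w w =
        apw P (key c a) (low c a ((κ + 4) * a)) (2 ^ ((κ + 3) * a)) (k + 1) w / Z) →
      ∑ w with (∃ i, i ∉ o.J ∧ ∃ j ∈ o.J,
          (2 : ℝ) ^ (-(((k + 1) * a : ℕ) : ℝ) + ε * ((κ + 4) * a : ℕ)) <
            |∑ l : Fin (k + 2), (-1 : ℝ) ^ (l : ℕ) * ((k + 1).choose l : ℝ) * o.Γ (w l) i j|),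
        Q.w w ≤ ε

/-- the polynomial interpolation theorem (section 7) -/
def PInterp (R : Gr) : Prop := ∀ (m : ℕ) (h : ℝ) (κ k : ℕ), k ≤ κ + 1 → AK R m h κ k → CK R m h κ k

end Vale.Agent.P127.Stk
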