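import Vale.Agent.P127.Stk.WhitB

/-!
# P127 / Stk / Whit : functions whose differences along most arithmetic progressions are small

`wap_core`: if the alternating sum with binomial weights of `f` along all but a small proportion of
the arithmetic progressions of length `p + 1` in `[0, 2^n)` is at most `E`, then `f` is close to a
polynomial of degree `< p` at most points, up to a factor `C (n + 1)`.
-/

namespace Vale.Agent.P127.Stk

open Finset

/-- the alternating sum with binomial weights of `f` along the progression `x, x+μ, ..., x+pμ` -/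
noncomputable def wapd (p : ℕ) (f : ℤ → ℝ) (x μ : ℤ) : ℝ :=
  ∑ j ∈ range (p + 1), (-1 : ℝ) ^ j * (p.choose j : ℝ) * f (x + j * μ)

/-- the prediction of `f x` from the other points of the progression -/
noncomputable def waps (p : ℕ) (f : ℤ → ℝ) (x μ : ℤ) : ℝ :=
  ∑ j ∈ range p, (-1 : ℝ) ^ j * (p.choose (j + 1) : ℝ) * f (x + ((j + 1 : ℕ) : ℤ) * μ)

theorem wapd_eq (p : ℕ) (f : ℤ → ℝ) (x μ : ℤ) : wapd p f x μ = f x - waps p f x μ := by
  rw [wapd, waps, Finset.sum_range_succ']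
  simp only [pow_zero, Nat.choose_zero_right, Nat.cast_one, one_mul, Nat.cast_zero, zero_mul,
    add_zero]
  have e : ∑ k ∈ range p, (-1 : ℝ) ^ (k + 1) * (p.choose (k + 1) : ℝ) *
      f (x + ((k + 1 : ℕ) : ℤ) * μ) = - ∑ j ∈ range p, (-1 : ℝ) ^ j * (p.choose (j + 1) : ℝ) *
        f (x + ((j + 1 : ℕ) : ℤ) * μ) := by
    rw [← Finset.sum_neg_distrib]
    refine Finset.sum_congr rfl fun j _ => ?_
    rw [pow_succ]
    ring
  rw [e]
  ring

theorem DD_wapd (p : ℕ) (f : ℤ → ℝ) (x μ : ℤ) : |((DD μ) ^ p) f x| = |wapd p f x μ| := by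
  have e : ((DD μ) ^ p) f x = (-1) ^ p * wapd p f x μ := by
    rw [DD_pow_apply, wapd, Finset.mul_sum]
    refine Finset.sum_congr rfl fun m hm => ?_
    have hm' : m ≤ p := by simpa [Nat.lt_succ_iff] using hm
    have e1 : (-1 : ℝ) ^ (p - m) = (-1) ^ p * (-1) ^ m := by
      obtain ⟨r, rfl⟩ := Nat.exists_eq_add_of_le hm'
      rw [Nat.add_sub_cancel_left, pow_add]
      have : (-1 : ℝ) ^ m * (-1) ^ m = 1 := by rw [← mul_pow]; norm_num
      calc (-1 : ℝ) ^ r = ((-1 : ℝ) ^ m * (-1) ^ m) * (-1) ^ r := by rw [this, one_mul]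
        _ = (-1) ^ m * (-1) ^ r * (-1) ^ m := by ring
    rw [e1]
    ring
  rw [e, abs_mul, abs_pow, abs_neg, abs_one, one_pow, one_mul]

theorem wsum_choose (p : ℕ) : ∑ j ∈ range p, ((p.choose (j + 1) : ℕ) : ℝ) ≤ 2 ^ p := by
  have h3 : ∑ m ∈ range (p + 1), ((p.choose m : ℕ) : ℝ) = 2 ^ p := by
    exact_mod_cast Nat.sum_range_choose p
  rw [← h3, Finset.sum_range_succ']
  have : (0 : ℝ) ≤ ((p.choose 0 : ℕ) : ℝ) := Nat.cast_nonneg _
  linarith

/-- consistency of two predictions -/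
theorem waps_consistent {p : ℕ} {f : ℤ → ℝ} {x a b : ℤ} {E : ℝ} (hE : 0 ≤ E)
    (h1 : ∀ i : ℕ, i < p → |wapd p f (x + ((i + 1 : ℕ) : ℤ) * a) b| ≤ E)
    (h2 : ∀ i : ℕ, i < p → |wapd p f (x + ((i + 1 : ℕ) : ℤ) * b) a| ≤ E) :
    |waps p f x a - waps p f x b| ≤ 2 * 2 ^ p * E := by
  have key : ∀ a b : ℤ, waps p f x a =
      (∑ i ∈ range p, (-1 : ℝ) ^ i * (p.choose (i + 1) : ℝ) *
        wapd p f (x + ((i + 1 : ℕ) : ℤ) * a) b) +
      ∑ i ∈ range p, ∑ j ∈ range p, ((-1 : ℝ) ^ i * (p.choose (i + 1) : ℝ)) *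
        ((-1 : ℝ) ^ j * (p.choose (j + 1) : ℝ)) *
          f (x + ((i + 1 : ℕ) : ℤ) * a + ((j + 1 : ℕ) : ℤ) * b) := by
    intro a b
    rw [← Finset.sum_add_distrib]
    conv_lhs => rw [waps]
    refine Finset.sum_congr rfl fun i _ => ?_
    have e1 : ∑ j ∈ range p, ((-1 : ℝ) ^ i * (p.choose (i + 1) : ℝ)) *
        ((-1 : ℝ) ^ j * (p.choose (j + 1) : ℝ)) *
          f (x + ((i + 1 : ℕ) : ℤ) * a + ((j + 1 : ℕ) : ℤ) * b) =
        (-1 : ℝ) ^ i * (p.choose (i + 1) : ℝ) * waps p f (x + ((i + 1 : ℕ) : ℤ) * a) b := by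
      rw [waps, Finset.mul_sum]
      exact Finset.sum_congr rfl fun j _ => by ring
    rw [e1, wapd_eq]
    ring
  have hbd : ∀ a b : ℤ, (∀ i : ℕ, i < p → |wapd p f (x + ((i + 1 : ℕ) : ℤ) * a) b| ≤ E) →
      |∑ i ∈ range p, (-1 : ℝ) ^ i * (p.choose (i + 1) : ℝ) *
        wapd p f (x + ((i + 1 : ℕ) : ℤ) * a) b| ≤ 2 ^ p * E := by
    intro a b h
    refine (abs_sum_le_sum_abs _ _).trans ?_
    calc _ ≤ ∑ i ∈ range p, ((p.choose (i + 1) : ℕ) : ℝ) * E := by
          refine Finset.sum_le_sum fun i hi => ?_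
          rw [abs_mul, abs_mul, abs_pow, abs_neg, abs_one, one_pow, one_mul, Nat.abs_cast]
          exact mul_le_mul_of_nonneg_left (h i (Finset.mem_range.mp hi)) (Nat.cast_nonneg _)
      _ = (∑ i ∈ range p, ((p.choose (i + 1) : ℕ) : ℝ)) * E := by rw [Finset.sum_mul]
      _ ≤ 2 ^ p * E := mul_le_mul_of_nonneg_right (wsum_choose p) hE
  have hsw : ∑ i ∈ range p, ∑ j ∈ range p, ((-1 : ℝ) ^ i * (p.choose (i + 1) : ℝ)) *
        ((-1 : ℝ) ^ j * (p.choose (j + 1) : ℝ)) *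
          f (x + ((i + 1 : ℕ) : ℤ) * b + ((j + 1 : ℕ) : ℤ) * a) =
      ∑ i ∈ range p, ∑ j ∈ range p, ((-1 : ℝ) ^ i * (p.choose (i + 1) : ℝ)) *
        ((-1 : ℝ) ^ j * (p.choose (j + 1) : ℝ)) *
          f (x + ((i + 1 : ℕ) : ℤ) * a + ((j + 1 : ℕ) : ℤ) * b) := by
    rw [Finset.sum_comm]
    refine Finset.sum_congr rfl fun i _ => Finset.sum_congr rfl fun j _ => ?_
    have e2 : x + ((j + 1 : ℕ) : ℤ) * b + ((i + 1 : ℕ) : ℤ) * a =
      x + ((i + 1 : ℕ) : ℤ) * a + ((j + 1 : ℕ) : ℤ) * b := by ring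
    rw [e2]
    ring
  rw [key a b, key b a, hsw]
  have e3 : ∀ u v w : ℝ, (u + w) - (v + w) = u - v := by intro u v w; ring
  rw [e3]
  refine (abs_sub _ _).trans ?_
  have := hbd a b h1
  have := hbd b a h2
  linarith

/-- the differences of the corrected function -/
theorem wapd_corrected {p : ℕ} {f g : ℤ → ℝ} {x h h1 h2 : ℤ} {E E' : ℝ} (hE : 0 ≤ E)
    (hg : ∀ j : ℕ, j ≤ p → |g (x + j * h) - waps p f (x + j * h) (h1 + j * h2)| ≤ E')
    (hA : ∀ i : ℕ, i < p → |wapd p f (x + ((i + 1 : ℕ) : ℤ) * h1) (h + ((i + 1 : ℕ) : ℤ) * h2)| ≤ E) :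
    |wapd p g x h| ≤ 2 ^ p * E' + 2 ^ p * E := by
  have e1 : wapd p g x h = (∑ j ∈ range (p + 1), (-1 : ℝ) ^ j * (p.choose j : ℝ) *
      (g (x + j * h) - waps p f (x + j * h) (h1 + j * h2))) +
      ∑ i ∈ range p, (-1 : ℝ) ^ i * (p.choose (i + 1) : ℝ) *
        wapd p f (x + ((i + 1 : ℕ) : ℤ) * h1) (h + ((i + 1 : ℕ) : ℤ) * h2) := by
    have e2 : ∑ i ∈ range p, (-1 : ℝ) ^ i * (p.choose (i + 1) : ℝ) *
        wapd p f (x + ((i + 1 : ℕ) : ℤ) * h1) (h + ((i + 1 : ℕ) : ℤ) * h2) =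
        ∑ j ∈ range (p + 1), (-1 : ℝ) ^ j * (p.choose j : ℝ) *
          waps p f (x + j * h) (h1 + j * h2) := by
      simp only [wapd, waps, Finset.mul_sum]
      rw [Finset.sum_comm]
      refine Finset.sum_congr rfl fun j _ => Finset.sum_congr rfl fun i _ => ?_
      have e3 : x + ((i + 1 : ℕ) : ℤ) * h1 + (j : ℤ) * (h + ((i + 1 : ℕ) : ℤ) * h2) =
        x + (j : ℤ) * h + ((i + 1 : ℕ) : ℤ) * (h1 + (j : ℤ) * h2) := by ring
      rw [e3]
      ring
    rw [e2, ← Finset.sum_add_distrib, wapd]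
    exact Finset.sum_congr rfl fun j _ => by ring
  rw [e1]
  refine (abs_add_le _ _).trans (add_le_add ?_ ?_)
  · refine (abs_sum_le_sum_abs _ _).trans ?_
    have hE' : 0 ≤ E' := (abs_nonneg _).trans (hg 0 (Nat.zero_le _))
    have h3 : ∑ m ∈ range (p + 1), ((p.choose m : ℕ) : ℝ) = 2 ^ p := by
      exact_mod_cast Nat.sum_range_choose p
    calc _ ≤ ∑ j ∈ range (p + 1), ((p.choose j : ℕ) : ℝ) * E' := by
          refine Finset.sum_le_sum fun j hj => ?_
          rw [abs_mul, abs_mul, abs_pow, abs_neg, abs_one, one_pow, one_mul, Nat.abs_cast]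
          exact mul_le_mul_of_nonneg_left (hg j (by simpa [Nat.lt_succ_iff] using hj))
            (Nat.cast_nonneg _)
      _ = (∑ j ∈ range (p + 1), ((p.choose j : ℕ) : ℝ)) * E' := by rw [Finset.sum_mul]
      _ = 2 ^ p * E' := by rw [h3]
  · refine (abs_sum_le_sum_abs _ _).trans ?_
    calc _ ≤ ∑ i ∈ range p, ((p.choose (i + 1) : ℕ) : ℝ) * E := by
          refine Finset.sum_le_sum fun i hi => ?_
          rw [abs_mul, abs_mul, abs_pow, abs_neg, abs_one, one_pow, one_mul, Nat.abs_cast]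
          exact mul_le_mul_of_nonneg_left (hA i (Finset.mem_range.mp hi)) (Nat.cast_nonneg _)
      _ = (∑ i ∈ range p, ((p.choose (i + 1) : ℕ) : ℝ)) * E := by rw [Finset.sum_mul]
      _ ≤ 2 ^ p * E := mul_le_mul_of_nonneg_right (wsum_choose p) hE

open Classical in
/-- the bad progressions in `[0, M)` -/
noncomputable def wBad (p : ℕ) (f : ℤ → ℝ) (E : ℝ) (M : ℕ) : Finset (ℤ × ℤ) :=
  ((Ico (0 : ℤ) M) ×ˢ (Ico (0 : ℤ) M)).filter
    fun q => q.1 + p * q.2 < M ∧ E < |wapd p f q.1 q.2|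

theorem wnot_bad {p : ℕ} {f : ℤ → ℝ} {E : ℝ} {M : ℕ} {x μ : ℤ} (hp : 1 ≤ p) (hx : 0 ≤ x)
    (hμ : 0 ≤ μ) (hM : x + p * μ < M) (h : (x, μ) ∉ wBad p f E M) : |wapd p f x μ| ≤ E := by
  by_contra hc
  push Not at hc
  refine h ?_
  have hp' : (1 : ℤ) ≤ p := by exact_mod_cast hp
  have h1 : μ ≤ p * μ := by nlinarith
  rw [wBad, Finset.mem_filter, Finset.mem_product, Finset.mem_Ico, Finset.mem_Ico]
  exact ⟨⟨⟨hx, by linarith [mul_nonneg (by linarith : (0 : ℤ) ≤ p) hμ]⟩, hμ, by linarith⟩, hM, hc⟩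

open Classical in
/-- a set of pairs which is mapped injectively into the bad set is small -/
theorem wcard_pull (B : Finset (ℤ × ℤ)) (S : Finset (ℤ × ℤ)) (φ : ℤ × ℤ → ℤ × ℤ)
    (hφ : Function.Injective φ) : (S.filter fun q => φ q ∈ B).card ≤ B.card :=
  Finset.card_le_card_of_injOn φ (fun _ hq => (Finset.mem_filter.mp hq).2) (hφ.injOn)

/-- for every point most predictions agree with one of them -/
theorem wcenter {p : ℕ} (hp : 1 ≤ p) {f : ℤ → ℝ} {E : ℝ} (hE : 0 ≤ E) {M H : ℕ}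
    (hH : 1 ≤ H) {x : ℤ} (hx : 0 ≤ x) (hxM : x + 2 * p * H ≤ M) :
    ∃ v : ℝ, ∃ X : Finset ℤ, X ⊆ Ico (0 : ℤ) H ∧
      X.card * H ≤ 2 * p * (wBad p f E M).card ∧
      ∀ h ∈ Ico (0 : ℤ) H, h ∉ X → |v - waps p f x h| ≤ 2 * 2 ^ p * E := by
  classical
  set B := wBad p f E M with hB
  set S : Finset (ℤ × ℤ) := (Ico (0 : ℤ) H) ×ˢ (Ico (0 : ℤ) H) with hS
  set V : Finset (ℤ × ℤ) := S.filter fun q => 2 * 2 ^ p * E < |waps p f x q.1 - waps p f x q.2|
    with hV
  set U1 : ℕ → Finset (ℤ × ℤ) := fun i =>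
    S.filter fun q => (x + ((i + 1 : ℕ) : ℤ) * q.1, q.2) ∈ B with hU1
  set U2 : ℕ → Finset (ℤ × ℤ) := fun i =>
    S.filter fun q => (x + ((i + 1 : ℕ) : ℤ) * q.2, q.1) ∈ B with hU2
  have hp' : (1 : ℤ) ≤ p := by exact_mod_cast hp
  have hVs : V ⊆ (range p).biUnion U1 ∪ (range p).biUnion U2 := by
    intro q hq
    rw [hV, Finset.mem_filter] at hq
    obtain ⟨hqS, hq2⟩ := hq
    by_contra hn
    rw [Finset.mem_union, Finset.mem_biUnion, Finset.mem_biUnion] at hn
    push Not at hn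
    have hq1 := hqS
    rw [hS, Finset.mem_product, Finset.mem_Ico, Finset.mem_Ico] at hq1
    obtain ⟨⟨ha0, ha1⟩, hb0, hb1⟩ := hq1
    refine absurd (waps_consistent (p := p) (f := f) (x := x) (a := q.1) (b := q.2) hE ?_ ?_)
      (not_le.mpr hq2)
    · intro i hi
      have hi' : ((i + 1 : ℕ) : ℤ) ≤ p := by exact_mod_cast hi
      have hi0 : (0 : ℤ) ≤ ((i + 1 : ℕ) : ℤ) := by positivity
      have h1 : ((i + 1 : ℕ) : ℤ) * q.1 ≤ p * H := by
        calc ((i + 1 : ℕ) : ℤ) * q.1 ≤ p * q.1 := mul_le_mul_of_nonneg_right hi' ha0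
          _ ≤ p * H := mul_le_mul_of_nonneg_left ha1.le (by linarith)
      have h2 : (p : ℤ) * q.2 < p * H := mul_lt_mul_of_pos_left hb1 (by linarith)
      refine wnot_bad (M := M) hp ?_ hb0 ?_ ?_
      · have := mul_nonneg hi0 ha0
        linarith
      · linarith
      · intro hmem
        exact hn.1 i (Finset.mem_range.mpr hi) (Finset.mem_filter.mpr ⟨hqS, hmem⟩)
    · intro i hi
      have hi' : ((i + 1 : ℕ) : ℤ) ≤ p := by exact_mod_cast hi
      have hi0 : (0 : ℤ) ≤ ((i + 1 : ℕ) : ℤ) := by positivity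
      have h1 : ((i + 1 : ℕ) : ℤ) * q.2 ≤ p * H := by
        calc ((i + 1 : ℕ) : ℤ) * q.2 ≤ p * q.2 := mul_le_mul_of_nonneg_right hi' hb0
          _ ≤ p * H := mul_le_mul_of_nonneg_left hb1.le (by linarith)
      have h2 : (p : ℤ) * q.1 < p * H := mul_lt_mul_of_pos_left ha1 (by linarith)
      refine wnot_bad (M := M) hp ?_ ha0 ?_ ?_
      · have := mul_nonneg hi0 hb0
        linarith
      · linarith
      · intro hmem
        exact hn.2 i (Finset.mem_range.mpr hi) (Finset.mem_filter.mpr ⟨hqS, hmem⟩)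
  have hU1c : ∀ i, (U1 i).card ≤ B.card := by
    intro i
    refine wcard_pull B S (fun q => (x + ((i + 1 : ℕ) : ℤ) * q.1, q.2)) ?_
    intro q q' hqq
    have h1 := congrArg Prod.fst hqq
    have h2 := congrArg Prod.snd hqq
    simp only at h1 h2
    have h3 : ((i + 1 : ℕ) : ℤ) ≠ 0 := by positivity
    have h4 : ((i + 1 : ℕ) : ℤ) * q.1 = ((i + 1 : ℕ) : ℤ) * q'.1 := by linarith
    exact Prod.ext (mul_left_cancel₀ h3 h4) h2
  have hU2c : ∀ i, (U2 i).card ≤ B.card := by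
    intro i
    refine wcard_pull B S (fun q => (x + ((i + 1 : ℕ) : ℤ) * q.2, q.1)) ?_
    intro q q' hqq
    have h1 := congrArg Prod.fst hqq
    have h2 := congrArg Prod.snd hqq
    simp only at h1 h2
    have h3 : ((i + 1 : ℕ) : ℤ) ≠ 0 := by positivity
    have h4 : ((i + 1 : ℕ) : ℤ) * q.2 = ((i + 1 : ℕ) : ℤ) * q'.2 := by linarith
    exact Prod.ext h2 (mul_left_cancel₀ h3 h4)
  have hVc : V.card ≤ 2 * p * B.card := by
    calc V.card ≤ ((range p).biUnion U1 ∪ (range p).biUnion U2).card := Finset.card_le_card hVs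
      _ ≤ ((range p).biUnion U1).card + ((range p).biUnion U2).card := Finset.card_union_le _ _
      _ ≤ p * B.card + p * B.card := by
          refine add_le_add ?_ ?_
          · refine Finset.card_biUnion_le.trans ?_
            calc ∑ i ∈ range p, (U1 i).card ≤ ∑ _i ∈ range p, B.card :=
                  Finset.sum_le_sum fun i _ => hU1c i
              _ = p * B.card := by rw [Finset.sum_const, Finset.card_range, smul_eq_mul]
          · refine Finset.card_biUnion_le.trans ?_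
            calc ∑ i ∈ range p, (U2 i).card ≤ ∑ _i ∈ range p, B.card :=
                  Finset.sum_le_sum fun i _ => hU2c i
              _ = p * B.card := by rw [Finset.sum_const, Finset.card_range, smul_eq_mul]
      _ = 2 * p * B.card := by ring
  -- a good row
  set row : ℤ → Finset ℤ := fun a =>
    (Ico (0 : ℤ) H).filter fun b => 2 * 2 ^ p * E < |waps p f x a - waps p f x b| with hrow
  have hsum : ∑ a ∈ Ico (0 : ℤ) H, (row a).card = V.card := by
    have h1 : V.card = ∑ a ∈ Ico (0 : ℤ) H, (V.filter fun q => q.1 = a).card :=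
      Finset.card_eq_sum_card_fiberwise fun q hq => by
        have := (Finset.mem_filter.mp hq).1
        exact (Finset.mem_product.mp this).1
    rw [h1]
    refine Finset.sum_congr rfl fun a ha => ?_
    symm
    refine Finset.card_bij' (fun q _ => q.2) (fun b _ => (a, b)) ?_ ?_ ?_ ?_
    · intro q hq
      rw [Finset.mem_filter, hV, Finset.mem_filter, hS, Finset.mem_product] at hq
      obtain ⟨⟨⟨_, h2⟩, h3⟩, h4⟩ := hq
      rw [hrow, Finset.mem_filter]
      rw [h4] at h3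
      exact ⟨h2, h3⟩
    · intro b hb
      rw [hrow, Finset.mem_filter] at hb
      rw [Finset.mem_filter, hV, Finset.mem_filter, hS, Finset.mem_product]
      exact ⟨⟨⟨ha, hb.1⟩, hb.2⟩, rfl⟩
    · intro q hq
      rw [Finset.mem_filter] at hq
      exact Prod.ext hq.2.symm rfl
    · intro b _
      rfl
  have hne : (Ico (0 : ℤ) H).Nonempty := ⟨0, Finset.mem_Ico.mpr ⟨le_rfl, by exact_mod_cast hH⟩⟩
  obtain ⟨a, ha, hmin⟩ := Finset.exists_min_image (Ico (0 : ℤ) H) (fun a => (row a).card) hne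
  refine ⟨waps p f x a, row a, Finset.filter_subset _ _, ?_, fun h hh hX => ?_⟩
  · have hcard : (Ico (0 : ℤ) H).card = H := by simp
    have h1 : (Ico (0 : ℤ) H).card • (row a).card ≤ ∑ a ∈ Ico (0 : ℤ) H, (row a).card :=
      Finset.card_nsmul_le_sum _ _ _ hmin
    rw [hcard, smul_eq_mul, hsum] at h1
    calc (row a).card * H = H * (row a).card := Nat.mul_comm _ _
      _ ≤ V.card := h1
      _ ≤ _ := hVc
  · by_contra hc
    push Not at hc
    exact hX (Finset.mem_filter.mpr ⟨hh, hc⟩)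

/-- the corrected function: all its differences in the interior are small, and it agrees with
`f` at most points -/
theorem wcorrected {p : ℕ} (hp : 1 ≤ p) {f : ℤ → ℝ} {E : ℝ} (hE : 0 ≤ E) {M H0 : ℕ}
    (hH0 : 1 ≤ H0) (hB : 3 * p * (wBad p f E M).card < H0 ^ 2) :
    ∃ g : ℤ → ℝ, ∃ Y : Finset ℤ, Y.card * H0 ≤ (wBad p f E M).card ∧
      (∀ x : ℤ, 0 ≤ x → x + 2 * p * (((p + 1) * H0 : ℕ) : ℤ) ≤ M → x ∉ Y →
        |f x - g x| ≤ (2 * 2 ^ p + 1) * E) ∧
      ∀ x h : ℤ, 0 ≤ x → 0 ≤ h → x + p * h + 2 * p * (((p + 1) * H0 : ℕ) : ℤ) ≤ M →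
        |wapd p g x h| ≤ (2 ^ p * (2 * 2 ^ p) + 2 ^ p) * E := by
  classical
  set B := wBad p f E M with hBdef
  set H : ℕ := (p + 1) * H0 with hH
  have hp' : (1 : ℤ) ≤ p := by exact_mod_cast hp
  have hHpos : 1 ≤ H := by rw [hH]; nlinarith
  have hH2 : 2 * H0 ≤ H := by rw [hH]; nlinarith
  have hc : ∀ x : ℤ, ∃ v : ℝ, ∃ X : Finset ℤ, 0 ≤ x → x + 2 * p * (H : ℤ) ≤ M →
      X ⊆ Ico (0 : ℤ) H ∧ X.card * H ≤ 2 * p * B.card ∧
      ∀ h ∈ Ico (0 : ℤ) H, h ∉ X → |v - waps p f x h| ≤ 2 * 2 ^ p * E := by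
    intro x
    by_cases h : 0 ≤ x ∧ x + 2 * p * (H : ℤ) ≤ M
    · obtain ⟨v, X, h1, h2, h3⟩ := wcenter hp (f := f) hE hHpos h.1 h.2
      exact ⟨v, X, fun _ _ => ⟨h1, h2, h3⟩⟩
    · exact ⟨0, ∅, fun h1 h2 => absurd ⟨h1, h2⟩ h⟩
  choose g X hgX using hc
  set Y : Finset ℤ := (Ico (0 : ℤ) M).filter fun x => 0 ≤ x ∧ x + 2 * p * (H : ℤ) ≤ M ∧
    (2 * 2 ^ p + 1) * E < |f x - g x| with hY
  have hXc : ∀ x : ℤ, 0 ≤ x → x + 2 * p * (H : ℤ) ≤ M → (X x).card ≤ H0 := by
    intro x hx hxM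
    have h1 := (hgX x hx hxM).2.1
    by_contra hn
    push Not at hn
    have h2 : (H0 + 1) * H ≤ (X x).card * H := Nat.mul_le_mul_right _ hn
    have h3 : H0 * (2 * H0) ≤ H0 * H := Nat.mul_le_mul_left _ hH2
    nlinarith
  refine ⟨g, Y, ?_, ?_, ?_⟩
  · -- counting
    have h1 : B.card = ∑ a ∈ Ico (0 : ℤ) M, (B.filter fun q => q.1 = a).card :=
      Finset.card_eq_sum_card_fiberwise fun q hq => by
        have := (Finset.mem_filter.mp hq).1
        exact (Finset.mem_product.mp this).1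
    have h2 : ∀ x ∈ Y, H0 ≤ (B.filter fun q => q.1 = x).card := by
      intro x hx
      rw [hY, Finset.mem_filter] at hx
      obtain ⟨_, hx0, hxM, hxE⟩ := hx
      obtain ⟨hX1, _, hX3⟩ := hgX x hx0 hxM
      have h3 : (Ico (0 : ℤ) H \ X x).card ≤ (B.filter fun q => q.1 = x).card := by
        refine Finset.card_le_card_of_injOn (fun h => (x, h)) ?_ ?_
        · intro h hh
          have hh' := Finset.mem_sdiff.mp hh
          have h4 := hX3 h hh'.1 hh'.2
          have h5 := Finset.mem_Ico.mp hh'.1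
          refine Finset.mem_coe.mpr (Finset.mem_filter.mpr ⟨?_, rfl⟩)
          by_contra hn
          have h6 : x + p * h < M := by
            have h7 : (p : ℤ) * h < p * H := mul_lt_mul_of_pos_left h5.2 (by linarith)
            have h8 : (0 : ℤ) ≤ p * H := by positivity
            linarith
          have h9 := wnot_bad hp hx0 h5.1 h6 hn
          rw [wapd_eq] at h9
          have h10 : f x - g x = (f x - waps p f x h) - (g x - waps p f x h) := by ring
          have h11 : |f x - g x| ≤ E + 2 * 2 ^ p * E := by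
            rw [h10]
            exact (abs_sub _ _).trans (add_le_add h9 h4)
          linarith
        · intro a _ b _ hab
          exact congrArg Prod.snd hab
      have h4 := hXc x hx0 hxM
      have h5 : (Ico (0 : ℤ) H).card - (X x).card ≤ (Ico (0 : ℤ) H \ X x).card :=
        Finset.le_card_sdiff _ _
      have h6 : (Ico (0 : ℤ) H).card = H := by simp
      rw [h6] at h5
      omega
    have h3 : Y ⊆ Ico (0 : ℤ) M := Finset.filter_subset _ _
    calc Y.card * H0 = ∑ _a ∈ Y, H0 := by rw [Finset.sum_const, smul_eq_mul]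
      _ ≤ ∑ a ∈ Y, (B.filter fun q => q.1 = a).card := Finset.sum_le_sum h2
      _ ≤ ∑ a ∈ Ico (0 : ℤ) M, (B.filter fun q => q.1 = a).card :=
          Finset.sum_le_sum_of_subset h3
      _ = B.card := h1.symm
  · intro x hx hxM hxY
    by_contra hn
    push Not at hn
    refine hxY (Finset.mem_filter.mpr ⟨Finset.mem_Ico.mpr ⟨hx, ?_⟩, hx, hxM, hn⟩)
    have h1 : (0 : ℤ) < 2 * p * (H : ℤ) := by
      have : (0 : ℤ) < H := by exact_mod_cast hHpos
      positivity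
    linarith
  · intro x h hx hh hxM
    -- the interior points
    have hin : ∀ j : ℕ, j ≤ p → 0 ≤ x + j * h ∧ x + j * h + 2 * p * (H : ℤ) ≤ M := by
      intro j hj
      have h1 : (j : ℤ) ≤ p := by exact_mod_cast hj
      have h2 := mul_le_mul_of_nonneg_right h1 hh
      have h3 : (0 : ℤ) ≤ j * h := by positivity
      exact ⟨by linarith, by linarith⟩
    set S : Finset (ℤ × ℤ) := (Ico (0 : ℤ) H0) ×ˢ (Ico (0 : ℤ) H0) with hS
    set U1 : ℕ → Finset (ℤ × ℤ) := fun j => S.filter fun q => q.1 + j * q.2 ∈ X (x + j * h)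
      with hU1
    set U2 : ℕ → Finset (ℤ × ℤ) := fun i => S.filter fun q =>
      (x + ((i + 1 : ℕ) : ℤ) * q.1, h + ((i + 1 : ℕ) : ℤ) * q.2) ∈ B with hU2
    have hU1c : ∀ j, j ≤ p → (U1 j).card * (p + 1) ≤ 2 * p * B.card := by
      intro j hj
      have h1 : (U1 j).card ≤ (X (x + j * h) ×ˢ Ico (0 : ℤ) H0).card := by
        refine Finset.card_le_card_of_injOn (fun q => (q.1 + j * q.2, q.2)) ?_ ?_
        · intro q hq
          have h2 := Finset.mem_filter.mp hq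
          refine Finset.mem_coe.mpr (Finset.mem_product.mpr ⟨h2.2, ?_⟩)
          exact (Finset.mem_product.mp h2.1).2
        · intro a _ b _ hab
          have e1 := congrArg Prod.fst hab
          have e2 := congrArg Prod.snd hab
          simp only at e1 e2
          rw [e2] at e1
          exact Prod.ext (by linarith) e2
      rw [Finset.card_product] at h1
      have h2 : (Ico (0 : ℤ) H0).card = H0 := by simp
      rw [h2] at h1
      obtain ⟨a1, a2⟩ := hin j hj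
      have h3 := (hgX (x + j * h) a1 a2).2.1
      calc (U1 j).card * (p + 1) ≤ ((X (x + j * h)).card * H0) * (p + 1) :=
            Nat.mul_le_mul_right _ h1
        _ = (X (x + j * h)).card * H := by rw [hH]; ring
        _ ≤ 2 * p * B.card := h3
    have hU2c : ∀ i, (U2 i).card ≤ B.card := by
      intro i
      refine wcard_pull B S
        (fun q => (x + ((i + 1 : ℕ) : ℤ) * q.1, h + ((i + 1 : ℕ) : ℤ) * q.2)) ?_
      intro q q' hqq
      have h1 := congrArg Prod.fst hqq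
      have h2 := congrArg Prod.snd hqq
      simp only at h1 h2
      have h3 : ((i + 1 : ℕ) : ℤ) ≠ 0 := by positivity
      have h4 : ((i + 1 : ℕ) : ℤ) * q.1 = ((i + 1 : ℕ) : ℤ) * q'.1 := by linarith
      have h5 : ((i + 1 : ℕ) : ℤ) * q.2 = ((i + 1 : ℕ) : ℤ) * q'.2 := by linarith
      exact Prod.ext (mul_left_cancel₀ h3 h4) (mul_left_cancel₀ h3 h5)
    have hex : ∃ q ∈ S, (∀ j ∈ range (p + 1), q ∉ U1 j) ∧ ∀ i ∈ range p, q ∉ U2 i := by
      by_contra hn
      push Not at hn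
      have h1 : S ⊆ (range (p + 1)).biUnion U1 ∪ (range p).biUnion U2 := by
        intro q hq
        rw [Finset.mem_union, Finset.mem_biUnion, Finset.mem_biUnion]
        by_contra hc
        push Not at hc
        obtain ⟨i, hi, hi2⟩ := hn q hq hc.1
        exact hc.2 i hi hi2
      have h2 := Finset.card_le_card h1
      have h3 : S.card = H0 ^ 2 := by
        rw [hS, Finset.card_product, sq]
        simp
      have h4 : ((range (p + 1)).biUnion U1).card ≤ 2 * p * B.card := by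
        refine Finset.card_biUnion_le.trans ?_
        have h5 : (∑ j ∈ range (p + 1), (U1 j).card) * (p + 1) ≤ (2 * p * B.card) * (p + 1) := by
          rw [Finset.sum_mul]
          calc ∑ j ∈ range (p + 1), (U1 j).card * (p + 1)
              ≤ ∑ _j ∈ range (p + 1), 2 * p * B.card :=
                Finset.sum_le_sum fun j hj => hU1c j (by simpa [Nat.lt_succ_iff] using hj)
            _ = (2 * p * B.card) * (p + 1) := by
                rw [Finset.sum_const, Finset.card_range, smul_eq_mul, Nat.mul_comm]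
        exact Nat.le_of_mul_le_mul_right h5 (Nat.succ_pos p)
      have h5 : ((range p).biUnion U2).card ≤ p * B.card := by
        refine Finset.card_biUnion_le.trans ?_
        calc ∑ i ∈ range p, (U2 i).card ≤ ∑ _i ∈ range p, B.card :=
              Finset.sum_le_sum fun i _ => hU2c i
          _ = p * B.card := by rw [Finset.sum_const, Finset.card_range, smul_eq_mul]
      have h6 := Finset.card_union_le ((range (p + 1)).biUnion U1) ((range p).biUnion U2)
      rw [h3] at h2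
      have h7 : 3 * p * B.card = 2 * p * B.card + p * B.card := by ring
      omega
    obtain ⟨q, hqS, hq1, hq2⟩ := hex
    have hqS' := hqS
    rw [hS, Finset.mem_product, Finset.mem_Ico, Finset.mem_Ico] at hqS'
    obtain ⟨⟨ha0, ha1⟩, hb0, hb1⟩ := hqS'
    have hHz : (H : ℤ) = (p + 1) * H0 := by rw [hH]; push_cast; ring
    have hH00 : (0 : ℤ) ≤ H0 := by positivity
    refine (wapd_corrected (f := f) (E' := 2 * 2 ^ p * E) (h1 := q.1) (h2 := q.2) hE ?_ ?_).trans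
      (le_of_eq (by ring))
    · intro j hj
      obtain ⟨a1, a2⟩ := hin j hj
      refine (hgX (x + j * h) a1 a2).2.2 _ ?_ ?_
      · rw [Finset.mem_Ico]
        have h1 : (j : ℤ) ≤ p := by exact_mod_cast hj
        have h2 := mul_le_mul_of_nonneg_right h1 hb0
        have h3 : (0 : ℤ) ≤ j * q.2 := by positivity
        have h4 : (p : ℤ) * q.2 ≤ p * H0 := mul_le_mul_of_nonneg_left hb1.le (by linarith)
        refine ⟨by linarith, ?_⟩
        rw [hHz]
        linarith [add_mul (p : ℤ) 1 H0]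
      · intro hmem
        exact hq1 j (Finset.mem_range.mpr (Nat.lt_succ_of_le hj))
          (Finset.mem_filter.mpr ⟨hqS, hmem⟩)
    · intro i hi
      have hi' : ((i + 1 : ℕ) : ℤ) ≤ p := by exact_mod_cast hi
      have hi0 : (0 : ℤ) ≤ ((i + 1 : ℕ) : ℤ) := by positivity
      have h1 : (0 : ℤ) ≤ ((i + 1 : ℕ) : ℤ) * q.1 := mul_nonneg hi0 ha0
      have h2 : (0 : ℤ) ≤ ((i + 1 : ℕ) : ℤ) * q.2 := mul_nonneg hi0 hb0
      refine wnot_bad (M := M) hp (by linarith) (by linarith) ?_ ?_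
      · have h3 : ((i + 1 : ℕ) : ℤ) * q.1 ≤ p * q.1 := mul_le_mul_of_nonneg_right hi' ha0
        have h4 : ((i + 1 : ℕ) : ℤ) * q.2 ≤ p * q.2 := mul_le_mul_of_nonneg_right hi' hb0
        have h5 : (p : ℤ) * q.1 < p * H0 := mul_lt_mul_of_pos_left ha1 (by linarith)
        have h6 : (p : ℤ) * q.2 ≤ p * H0 := mul_le_mul_of_nonneg_left hb1.le (by linarith)
        have h7 : (p : ℤ) * (((i + 1 : ℕ) : ℤ) * q.2) ≤ p * (p * H0) :=
          mul_le_mul_of_nonneg_left (h4.trans h6) (by linarith)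
        have h8 : (0 : ℤ) ≤ p * (p * H0) := by positivity
        have h9 : (0 : ℤ) ≤ p * H0 := by positivity
        rw [hHz] at hxM
        have e : (p : ℤ) * (h + ((i + 1 : ℕ) : ℤ) * q.2) =
          p * h + p * (((i + 1 : ℕ) : ℤ) * q.2) := by ring
        rw [e]
        have e2 : 2 * (p : ℤ) * ((p + 1) * H0) = 2 * (p * (p * H0)) + 2 * (p * H0) := by ring
        rw [e2] at hxM
        linarith
      · intro hmem
        exact hq2 i (Finset.mem_range.mpr hi) (Finset.mem_filter.mpr ⟨hqS, hmem⟩)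

open Classical in
/-- **the 99% theorem along arithmetic progressions** -/
theorem wap_core (p : ℕ) (hp : 1 ≤ p) (η : ℝ) (hη : 0 < η) : ∃ δ : ℝ, 0 < δ ∧ ∃ C : ℝ, 0 < C ∧
    ∃ s : ℕ, ∀ n : ℕ, s ≤ n → ∀ (f : ℤ → ℝ) (E : ℝ), 0 ≤ E →
      ((wBad p f E (2 ^ n)).card : ℝ) ≤ δ * (2 ^ n) ^ 2 →
      ∃ P : Polynomial ℝ, P.degree < p ∧
        (((Ico (0 : ℤ) (2 ^ n)).filter fun x =>
          C * (n + 1) * E < |f x - P.eval (x : ℝ)|).card : ℝ) ≤ η * 2 ^ n := by
  obtain ⟨s, hs⟩ := pow_unbounded_of_one_lt (2 * ((p : ℝ) + 1) ^ 2 / η + 2 * p * (p + 1))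
    (by norm_num : (1 : ℝ) < 2)
  have hp0 : (0 : ℝ) < p := by exact_mod_cast hp
  have hs1 : 2 * ((p : ℝ) + 1) ^ 2 ≤ η * 2 ^ s := by
    have h1 : 2 * ((p : ℝ) + 1) ^ 2 / η ≤ 2 ^ s := by
      have : (0 : ℝ) ≤ 2 * p * (p + 1) := by positivity
      linarith
    rw [div_le_iff₀ hη] at h1
    linarith
  have hs2 : 2 * p * (p + 1) ≤ 2 ^ s := by
    have h1 : (2 * p * (p + 1) : ℝ) ≤ 2 ^ s := by
      have : (0 : ℝ) ≤ 2 * ((p : ℝ) + 1) ^ 2 / η := by positivity
      linarith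
    exact_mod_cast h1
  obtain ⟨K, hK⟩ := Nat.exists_eq_add_of_le' hs2
  obtain ⟨CW, hCW, hW⟩ := whitney p K hp
  refine ⟨1 / (4 * p * 4 ^ s), by positivity,
    (2 * 2 ^ p + 1) + CW * (2 ^ p * (2 * 2 ^ p) + 2 ^ p) + 1, by positivity, s,
    fun n hn f E hE hB => ?_⟩
  obtain ⟨J, rfl⟩ := Nat.exists_eq_add_of_le hn
  set M : ℕ := 2 ^ (s + J) with hM
  set H0 : ℕ := 2 ^ J with hH0
  have hMH : M = 2 ^ s * H0 := by rw [hM, hH0, pow_add]
  have hH0pos : 1 ≤ H0 := Nat.one_le_two_pow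
  have hH0r : (0 : ℝ) < H0 := by exact_mod_cast hH0pos
  have hMr : ((2 : ℝ) ^ (s + J)) = 2 ^ s * H0 := by rw [hH0, pow_add]; push_cast; ring
  have hBr : ((wBad p f E M).card : ℝ) * (4 * p) ≤ (H0 : ℝ) ^ 2 := by
    rw [hMr] at hB
    have h1 : 1 / (4 * (p : ℝ) * 4 ^ s) * (2 ^ s * (H0 : ℝ)) ^ 2 * (4 * p) = (H0 : ℝ) ^ 2 := by
      have h2 : ((2 : ℝ) ^ s) ^ 2 = 4 ^ s := by
        rw [← pow_mul, mul_comm, pow_mul]; norm_num
      have h3 : (4 : ℝ) ^ s ≠ 0 := by positivity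
      rw [mul_pow, h2]
      field_simp
    rw [← h1]
    exact mul_le_mul_of_nonneg_right hB (by positivity)
  have hBn : 4 * p * (wBad p f E M).card ≤ H0 ^ 2 := by
    have h1 : ((4 * p * (wBad p f E M).card : ℕ) : ℝ) ≤ ((H0 ^ 2 : ℕ) : ℝ) := by
      push_cast
      linarith
    exact_mod_cast h1
  have hB3 : 3 * p * (wBad p f E M).card < H0 ^ 2 := by
    have h1 : 0 < H0 ^ 2 := by positivity
    rcases Nat.eq_zero_or_pos (wBad p f E M).card with h0 | h0
    · rw [h0]; simpa using h1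
    · have h2 : 3 * p * (wBad p f E M).card < 4 * p * (wBad p f E M).card := by
        have : 0 < p * (wBad p f E M).card := Nat.mul_pos hp h0
        nlinarith
      omega
  obtain ⟨g, Y, hYc, hfg, hgd⟩ := wcorrected hp hE hH0pos hB3
  have hKz : ((K : ℤ) + 2 * p * (p + 1)) * H0 = M := by
    rw [hMH, hK]
    push_cast
    ring
  set F : ℝ := (2 ^ p * (2 * 2 ^ p) + 2 ^ p) * E with hF
  have hF0 : 0 ≤ F := by positivity
  obtain ⟨P, hPd, hP⟩ := hW g J F hF0 (fun j hj x hx hxK => by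
    rw [DD_wapd]
    refine hgd x (2 ^ j) hx (by positivity) ?_
    have e1 : (((p + 1) * H0 : ℕ) : ℤ) = (p + 1) * H0 := by push_cast; ring
    have e2 : ((2 : ℤ) ^ J) = H0 := by rw [hH0]; push_cast; rfl
    rw [e2] at hxK
    rw [e1, ← hKz]
    linarith [add_mul (K : ℤ) (2 * p * (p + 1)) H0])
  refine ⟨P, hPd, ?_⟩
  have hsub : ((Ico (0 : ℤ) (2 ^ (s + J))).filter fun x =>
      ((2 * 2 ^ p + 1) + CW * (2 ^ p * (2 * 2 ^ p) + 2 ^ p) + 1) * (((s + J : ℕ) : ℝ) + 1) * E <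
        |f x - P.eval (x : ℝ)|) ⊆ Y ∪ Ico (((K : ℤ) - 2 * p) * H0) M := by
    intro x hx
    rw [Finset.mem_filter, Finset.mem_Ico] at hx
    obtain ⟨⟨hx0, hxM⟩, hxE⟩ := hx
    have hMz : ((M : ℕ) : ℤ) = 2 ^ (s + J) := by rw [hM]; push_cast; rfl
    rw [Finset.mem_union, Finset.mem_Ico]
    by_contra hn
    push Not at hn
    obtain ⟨hxY, hn2⟩ := hn
    have hxK : x ≤ ((K : ℤ) - 2 * p) * H0 := by
      by_contra hc
      push Not at hc
      have := hn2 hc.le
      rw [hMz] at this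
      linarith
    have h1 := hP x hx0 (by
      have e2 : ((2 : ℤ) ^ J) = H0 := by rw [hH0]; push_cast; rfl
      rw [e2]; exact hxK)
    have h2 := hfg x hx0 (by
      have e1 : (((p + 1) * H0 : ℕ) : ℤ) = (p + 1) * H0 := by push_cast; ring
      rw [e1, ← hKz]
      have h3 : (0 : ℤ) ≤ 2 * p * H0 := by positivity
      linarith [add_mul (K : ℤ) (2 * p * (p + 1)) H0, sub_mul (K : ℤ) (2 * p) H0]) hxY
    have h3 : |f x - P.eval (x : ℝ)| ≤ (2 * 2 ^ p + 1) * E + CW * (J + 1) * F := by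
      have e : f x - P.eval (x : ℝ) = (f x - g x) + (g x - P.eval (x : ℝ)) := by ring
      rw [e]
      exact (abs_add_le _ _).trans (add_le_add h2 h1)
    refine absurd (hxE.trans_le h3) (not_lt.mpr ?_)
    have hn1 : (1 : ℝ) ≤ ((s + J : ℕ) : ℝ) + 1 := by
      have : (0 : ℝ) ≤ ((s + J : ℕ) : ℝ) := Nat.cast_nonneg _
      linarith
    have hn2 : (J : ℝ) + 1 ≤ ((s + J : ℕ) : ℝ) + 1 := by push_cast; linarith [(Nat.cast_nonneg s : (0 : ℝ) ≤ s)]
    have h4 : (2 * 2 ^ p + 1) * E ≤ (2 * 2 ^ p + 1) * E * (((s + J : ℕ) : ℝ) + 1) :=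
      le_mul_of_one_le_right (by positivity) hn1
    have h5 : CW * (J + 1) * F ≤ CW * (((s + J : ℕ) : ℝ) + 1) * F :=
      mul_le_mul_of_nonneg_right (mul_le_mul_of_nonneg_left hn2 hCW) hF0
    have h6 : 0 ≤ (((s + J : ℕ) : ℝ) + 1) * E := mul_nonneg (by linarith) hE
    calc (2 * 2 ^ p + 1) * E + CW * (J + 1) * F
        ≤ (2 * 2 ^ p + 1) * E * (((s + J : ℕ) : ℝ) + 1) +
          CW * (((s + J : ℕ) : ℝ) + 1) * F := add_le_add h4 h5
      _ ≤ (2 * 2 ^ p + 1) * E * (((s + J : ℕ) : ℝ) + 1) +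
          CW * (((s + J : ℕ) : ℝ) + 1) * F + (((s + J : ℕ) : ℝ) + 1) * E := by linarith
      _ = _ := by rw [hF]; ring
  have hYn : Y.card ≤ H0 := by
    have h1 : Y.card * H0 ≤ H0 * H0 := by
      have h2 : (wBad p f E M).card ≤ 4 * p * (wBad p f E M).card :=
        Nat.le_mul_of_pos_left _ (by omega)
      calc Y.card * H0 ≤ (wBad p f E M).card := hYc
        _ ≤ 4 * p * (wBad p f E M).card := h2
        _ ≤ H0 ^ 2 := hBn
        _ = H0 * H0 := sq _
    exact Nat.le_of_mul_le_mul_right h1 hH0pos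
  have hcard : ((Y ∪ Ico (((K : ℤ) - 2 * p) * H0) M).card : ℝ) ≤ 2 * ((p : ℝ) + 1) ^ 2 * H0 := by
    have h1 : ((Y ∪ Ico (((K : ℤ) - 2 * p) * H0) M).card : ℝ) ≤
        (Y.card : ℝ) + ((Ico (((K : ℤ) - 2 * p) * H0) M).card : ℝ) := by
      exact_mod_cast Finset.card_union_le _ _
    have h2 : ((Ico (((K : ℤ) - 2 * p) * H0) M).card : ℝ) = (2 * p * (p + 1) + 2 * p) * H0 := by
      have h3 : ((Ico (((K : ℤ) - 2 * p) * H0) M).card : ℤ) = (2 * p * (p + 1) + 2 * p) * H0 := by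
        rw [Int.card_Ico, ← hKz]
        have e : (((K : ℤ) + 2 * p * (p + 1)) * H0 - ((K : ℤ) - 2 * p) * H0) =
            (2 * p * (p + 1) + 2 * p) * H0 := by ring
        rw [e, Int.toNat_of_nonneg (by positivity)]
      exact_mod_cast h3
    have h4 : (Y.card : ℝ) ≤ H0 := by exact_mod_cast hYn
    rw [h2] at h1
    refine h1.trans ?_
    have h5 : (0 : ℝ) ≤ H0 := hH0r.le
    nlinarith
  calc _ ≤ ((Y ∪ Ico (((K : ℤ) - 2 * p) * H0) M).card : ℝ) := by
        exact_mod_cast Finset.card_le_card hsub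
    _ ≤ 2 * ((p : ℝ) + 1) ^ 2 * H0 := hcard
    _ ≤ η * 2 ^ s * H0 := mul_le_mul_of_nonneg_right hs1 hH0r.le
    _ = η * 2 ^ (s + J) := by rw [hMr]; ring

end Vale.Agent.P127.Stk
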