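import Vale.Agent.P127.Stk.PolyB
import Vale.Agent.P127.Stk.Whit

/-!
# P127 / Stk : functions whose differences vanish along most progressions (PROOF.md, section 7)
-/

namespace Vale.Agent.P127.Stk

open Finset Polynomial

/-- progressions `x, x + μ, ..., x + (k+1) μ` in `[0, M)` -/
noncomputable def aps (k M : ℕ) : Finset (ℤ × ℤ) :=
  ((Ico (0 : ℤ) M) ×ˢ (Ioo (-(M : ℤ)) M)).filter fun z =>
    0 ≤ z.1 + ((k + 1 : ℕ) : ℤ) * z.2 ∧ z.1 + ((k + 1 : ℕ) : ℤ) * z.2 < M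

open Classical in
/-- the deterministic theorem (`M = 2^n`) -/
theorem det_poly (k : ℕ) (η : ℝ) (hη : 0 < η) : ∃ δ : ℝ, 0 < δ ∧ ∃ C : ℝ, 0 < C ∧ ∃ M0 : ℕ,
    ∀ n : ℕ, M0 ≤ 2 ^ n → ∀ (f : ℤ → ℝ) (E : ℝ), 0 < E →
    (((aps k (2 ^ n)).filter fun z => E < |apd k f z.1 z.2|).card : ℝ) ≤ δ * (2 ^ n) ^ 2 →
    ∃ q : ℝ[X], q.natDegree ≤ k ∧
      (((Ico (0 : ℤ) (2 ^ n)).filter fun x => C * (n + 1) * E < |f x - q.eval (x : ℝ)|).card : ℝ)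
        ≤ η * 2 ^ n := by
  obtain ⟨δ, hδ, C, hC, s, h⟩ := wap_core (k + 1) (by omega) η hη
  refine ⟨δ, hδ, C, hC, 2 ^ s, fun n hn f E hE hB => ?_⟩
  have hsn : s ≤ n := (Nat.pow_le_pow_iff_right (by norm_num)).mp hn
  have hsub : wBad (k + 1) f E (2 ^ n) ⊆ (aps k (2 ^ n)).filter fun z => E < |apd k f z.1 z.2| := by
    intro z hz
    rw [wBad, Finset.mem_filter, Finset.mem_product, Finset.mem_Ico, Finset.mem_Ico] at hz
    obtain ⟨⟨⟨h1, h2⟩, h3, h4⟩, h5, h6⟩ := hz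
    rw [Finset.mem_filter, aps, Finset.mem_filter, Finset.mem_product, Finset.mem_Ico,
      Finset.mem_Ioo]
    have h7 : (0 : ℤ) ≤ ((k + 1 : ℕ) : ℤ) * z.2 := mul_nonneg (by positivity) h3
    exact ⟨⟨⟨⟨h1, h2⟩, by linarith, h4⟩, by linarith, h5⟩, h6⟩
  obtain ⟨P, hPd, hP⟩ := h n hsn f E hE.le
    (le_trans (by exact_mod_cast Finset.card_le_card hsub) hB)
  refine ⟨P, ?_, hP⟩
  by_cases hP0 : P = 0
  · rw [hP0, Polynomial.natDegree_zero]; omega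
  · have := (Polynomial.natDegree_lt_iff_degree_lt hP0).mpr hPd
    omega

end Vale.Agent.P127.Stk
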