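import Vale.Agent.P127.Stk.PolyDefs

/-!
# P127 / Stk : interpolation through random nodes, one key (PROOF.md, 7.3)
-/

namespace Vale.Agent.P127.Stk

open Finset Polynomial Vale.Agent.P127

/-- the Lagrange expansion -/
theorem tup_lag_exp (D : ℕ) (P : ℝ[X]) (hP : P.natDegree ≤ D) (z : Fin (D + 1) → ℝ)
    (hinj : ∀ i j, i ≠ j → z i ≠ z j) (x : ℝ) :
    P.eval x = ∑ i, (∏ j ∈ (Finset.univ : Finset (Fin (D + 1))).erase i,
      (x - z j) / (z i - z j)) * P.eval (z i) := by
  classical
  have hinj' : Set.InjOn z (Finset.univ : Finset (Fin (D + 1))) := by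
    intro i _ j _ hij
    by_contra hne
    exact hinj i j hne hij
  have hdeg : P.degree < (Finset.univ : Finset (Fin (D + 1))).card := by
    rw [Finset.card_univ, Fintype.card_fin]
    refine lt_of_le_of_lt degree_le_natDegree ?_
    exact_mod_cast Nat.lt_succ_of_le hP
  have h := Lagrange.eq_interpolate hinj' hdeg
  have h2 : P.eval x = (Lagrange.interpolate (Finset.univ : Finset (Fin (D + 1))) z
      fun i => P.eval (z i)).eval x := congrArg (Polynomial.eval x) h
  rw [h2, Lagrange.interpolate_apply, eval_finsetSum]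
  refine Finset.sum_congr rfl fun i _ => ?_
  rw [eval_mul, eval_C, mul_comm, Lagrange.basis, eval_prod]
  congr 1
  refine Finset.prod_congr rfl fun j _ => ?_
  simp [Lagrange.basisDivisor, div_eq_inv_mul]

/-- difference of products -/
theorem tup_prod_diff {ι : Type*} (S : Finset ι) (a b : ι → ℝ) {K δ : ℝ} (hK : 0 ≤ K)
    (hδ : 0 ≤ δ) (ha : ∀ j ∈ S, |a j| ≤ K) (hb : ∀ j ∈ S, |b j| ≤ K)
    (hd : ∀ j ∈ S, |a j - b j| ≤ K * δ) :
    |∏ j ∈ S, a j| ≤ K ^ S.card ∧ |∏ j ∈ S, b j| ≤ K ^ S.card ∧
      |∏ j ∈ S, a j - ∏ j ∈ S, b j| ≤ S.card * K ^ S.card * δ := by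
  classical
  induction S using Finset.induction_on with
  | empty => simp
  | insert i S hi ih =>
    obtain ⟨h1, h2, h3⟩ := ih (fun j hj => ha j (Finset.mem_insert_of_mem hj))
      (fun j hj => hb j (Finset.mem_insert_of_mem hj))
      (fun j hj => hd j (Finset.mem_insert_of_mem hj))
    have ai := ha i (Finset.mem_insert_self i S)
    have bi := hb i (Finset.mem_insert_self i S)
    have di := hd i (Finset.mem_insert_self i S)
    rw [Finset.prod_insert hi, Finset.prod_insert hi, Finset.card_insert_of_notMem hi, pow_succ]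
    have hKp : 0 ≤ K ^ S.card := pow_nonneg hK _
    refine ⟨?_, ?_, ?_⟩
    · rw [abs_mul, mul_comm (K ^ S.card)]
      exact mul_le_mul ai h1 (abs_nonneg _) hK
    · rw [abs_mul, mul_comm (K ^ S.card)]
      exact mul_le_mul bi h2 (abs_nonneg _) hK
    · have e : a i * ∏ j ∈ S, a j - b i * ∏ j ∈ S, b j =
          a i * (∏ j ∈ S, a j - ∏ j ∈ S, b j) + (a i - b i) * ∏ j ∈ S, b j := by ring
      rw [e]
      refine (abs_add_le _ _).trans ?_
      rw [abs_mul, abs_mul]
      have s1 : |a i| * |∏ j ∈ S, a j - ∏ j ∈ S, b j| ≤ K * (S.card * K ^ S.card * δ) :=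
        mul_le_mul ai h3 (abs_nonneg _) hK
      have s2 : |a i - b i| * |∏ j ∈ S, b j| ≤ (K * δ) * K ^ S.card :=
        mul_le_mul di h2 (abs_nonneg _) (mul_nonneg hK hδ)
      push_cast
      nlinarith

/-- Lagrange interpolation: Lipschitz bound from separated nodes -/
theorem tup_lip (D : ℕ) (P : ℝ[X]) (hP : P.natDegree ≤ D) {M r A : ℝ} (hM : 0 < M) (hr : 0 < r)
    (z : Fin (D + 1) → ℝ) (hz : ∀ i, 0 ≤ z i ∧ z i ≤ M)
    (hsep : ∀ i j, i ≠ j → r ≤ |z i - z j|) (hA : ∀ i, |P.eval (z i)| ≤ A) (x y : ℝ)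
    (hx : 0 ≤ x ∧ x ≤ M) (hy : 0 ≤ y ∧ y ≤ M) :
    |P.eval x - P.eval y| ≤ (D + 1) * D * (M / r) ^ D * (A / M) * |x - y| := by
  classical
  have hinj : ∀ i j, i ≠ j → z i ≠ z j := by
    intro i j hij he
    have := hsep i j hij
    rw [he, sub_self, abs_zero] at this
    linarith
  have hA0 : 0 ≤ A := (abs_nonneg _).trans (hA 0)
  have hK : 0 ≤ M / r := by positivity
  rw [tup_lag_exp D P hP z hinj x, tup_lag_exp D P hP z hinj y, ← Finset.sum_sub_distrib]
  refine (Finset.abs_sum_le_sum_abs _ _).trans ?_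
  have hterm : ∀ i ∈ (Finset.univ : Finset (Fin (D + 1))),
      |(∏ j ∈ (Finset.univ : Finset (Fin (D + 1))).erase i, (x - z j) / (z i - z j)) *
          P.eval (z i) -
        (∏ j ∈ (Finset.univ : Finset (Fin (D + 1))).erase i, (y - z j) / (z i - z j)) *
          P.eval (z i)| ≤ D * (M / r) ^ D * (|x - y| / M) * A := by
    intro i _
    have hcard : ((Finset.univ : Finset (Fin (D + 1))).erase i).card = D := by
      rw [Finset.card_erase_of_mem (Finset.mem_univ _), Finset.card_univ, Fintype.card_fin]; rfl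
    have hb : ∀ v : ℝ, 0 ≤ v → v ≤ M → ∀ j ∈ (Finset.univ : Finset (Fin (D + 1))).erase i,
        |(v - z j) / (z i - z j)| ≤ M / r := by
      intro v hv0 hv1 j hj
      have hne : i ≠ j := (Finset.ne_of_mem_erase hj).symm
      rw [abs_div]
      refine div_le_div₀ hM.le ?_ hr (hsep i j hne)
      rw [abs_le]
      constructor <;> linarith [(hz j).1, (hz j).2]
    have h3 := (tup_prod_diff ((Finset.univ : Finset (Fin (D + 1))).erase i)
      (fun j => (x - z j) / (z i - z j)) (fun j => (y - z j) / (z i - z j)) hK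
      (δ := |x - y| / M) (by positivity) (hb x hx.1 hx.2) (hb y hy.1 hy.2) (by
        intro j hj
        have hne : i ≠ j := (Finset.ne_of_mem_erase hj).symm
        have e : (x - z j) / (z i - z j) - (y - z j) / (z i - z j) = (x - y) / (z i - z j) := by
          rw [← sub_div]; congr 1; ring
        rw [e, abs_div]
        have e2 : M / r * (|x - y| / M) = |x - y| / r := by field_simp
        rw [e2]
        exact div_le_div_of_nonneg_left (abs_nonneg _) hr (hsep i j hne))).2.2
    rw [hcard] at h3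
    rw [← sub_mul, abs_mul]
    exact mul_le_mul h3 (hA i) (abs_nonneg _) (by positivity)
  refine (Finset.sum_le_sum hterm).trans (le_of_eq ?_)
  rw [Finset.sum_const, Finset.card_univ, Fintype.card_fin, nsmul_eq_mul]
  push_cast
  ring

/-- the deterministic part of the interpolation -/
theorem tup_core (k : ℕ) {M r E B : ℝ} (hM : 1 ≤ M) (hr : 0 < r) (hE : 0 ≤ E) (hB : 0 ≤ B)
    (q : ℝ[X]) (hq : q.natDegree ≤ k) (t u f : Fin (k + 2) → ℝ)
    (hu : ∀ j, 0 ≤ u j ∧ u j + 1 ≤ M) (ht : ∀ j, u j ≤ t j ∧ t j ≤ u j + 1)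
    (hf : ∀ j, |f j| ≤ B) (hfq : ∀ j, |f j - q.eval (u j)| ≤ E)
    (hsep : ∀ i j, i ≠ j → r + 1 ≤ |u i - u j|) :
    |f (Fin.last (k + 1)) - ∑ l : Fin (k + 1),
        (∏ l' ∈ (Finset.univ : Finset (Fin (k + 1))).erase l,
          (t (Fin.last (k + 1)) - t l'.castSucc) / (t l.castSucc - t l'.castSucc)) *
          f l.castSucc| ≤
      (1 + (k + 1) * (M / r) ^ k) * (1 + (k + 1) * k * (M / r) ^ k) * (E + B / M) := by
  classical
  have hM0 : 0 < M := by linarith
  have hcs : ∀ i j : Fin (k + 1), i ≠ j → i.castSucc ≠ j.castSucc := by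
    intro i j hij h
    exact hij (Fin.castSucc_injective _ h)
  have hts : ∀ i j, i ≠ j → r ≤ |t i - t j| := by
    intro i j hij
    have h1 := hsep i j hij
    have h2 := ht i
    have h3 := ht j
    have h4 : |u i - u j| ≤ |t i - t j| + 1 := by
      have e : u i - u j = (t i - t j) + ((t j - u j) - (t i - u i)) := by ring
      rw [e]
      refine (abs_add_le _ _).trans ?_
      have : |(t j - u j) - (t i - u i)| ≤ 1 := by
        rw [abs_le]; constructor <;> linarith
      linarith
    linarith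
  have htM : ∀ j, 0 ≤ t j ∧ t j ≤ M := fun j => ⟨(hu j).1.trans (ht j).1, by
    linarith [(ht j).2, (hu j).2]⟩
  set X : ℝ := (k + 1) * k * (M / r) ^ k with hX
  have hX0 : 0 ≤ X := by positivity
  -- bound for the difference between `u` and `t`
  have hqu : ∀ j, |q.eval (u j)| ≤ B + E := by
    intro j
    have e : q.eval (u j) = f j - (f j - q.eval (u j)) := by ring
    rw [e]
    refine (abs_sub _ _).trans ?_
    linarith [hf j, hfq j]
  have hqt : ∀ j, |f j - q.eval (t j)| ≤ (1 + X) * (E + B / M) := by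
    intro j
    have h1 := tup_lip k q hq hM0 hr (fun i : Fin (k + 1) => u i.castSucc)
      (fun i => ⟨(hu _).1, by linarith [(hu i.castSucc).2]⟩)
      (fun i j hij => by
        have := hsep i.castSucc j.castSucc (hcs i j hij)
        linarith) (A := B + E) (fun i => hqu _) (u j) (t j)
      ⟨(hu j).1, by linarith [(hu j).2]⟩ (htM j)
    have h2 : |u j - t j| ≤ 1 := by
      rw [abs_le]; constructor <;> linarith [(ht j).1, (ht j).2]
    have h3 : |q.eval (u j) - q.eval (t j)| ≤ X * ((B + E) / M) := by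
      refine h1.trans ?_
      have h4 : 0 ≤ (k + 1) * k * (M / r) ^ k * ((B + E) / M) := by positivity
      calc (k + 1) * k * (M / r) ^ k * ((B + E) / M) * |u j - t j|
          ≤ (k + 1) * k * (M / r) ^ k * ((B + E) / M) * 1 :=
            mul_le_mul_of_nonneg_left h2 h4
        _ = X * ((B + E) / M) := by rw [hX]; ring
    have e : f j - q.eval (t j) = (f j - q.eval (u j)) + (q.eval (u j) - q.eval (t j)) := by ring
    rw [e]
    refine (abs_add_le _ _).trans ?_
    have h5 : (B + E) / M ≤ B / M + E := by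
      rw [add_div]
      have : E / M ≤ E := div_le_self hE hM
      linarith
    have h6 : X * ((B + E) / M) ≤ X * (B / M + E) := mul_le_mul_of_nonneg_left h5 hX0
    have h7 : 0 ≤ B / M := by positivity
    nlinarith [hfq j]
  -- the interpolation
  have hinj : ∀ i j : Fin (k + 1), i ≠ j → t i.castSucc ≠ t j.castSucc := by
    intro i j hij he
    have := hts _ _ (hcs i j hij)
    rw [he, sub_self, abs_zero] at this
    linarith
  have hex := tup_lag_exp k q hq (fun i : Fin (k + 1) => t i.castSucc) hinj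
    (t (Fin.last (k + 1)))
  set lg : Fin (k + 1) → ℝ := fun l => ∏ l' ∈ (Finset.univ : Finset (Fin (k + 1))).erase l,
          (t (Fin.last (k + 1)) - t l'.castSucc) / (t l.castSucc - t l'.castSucc) with hlg
  have hlgb : ∀ l, |lg l| ≤ (M / r) ^ k := by
    intro l
    rw [hlg]
    simp only
    rw [Finset.abs_prod]
    have hcard : ((Finset.univ : Finset (Fin (k + 1))).erase l).card = k := by
      rw [Finset.card_erase_of_mem (Finset.mem_univ _), Finset.card_univ, Fintype.card_fin]; rfl
    calc ∏ l' ∈ (Finset.univ : Finset (Fin (k + 1))).erase l,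
          |(t (Fin.last (k + 1)) - t l'.castSucc) / (t l.castSucc - t l'.castSucc)|
        ≤ ∏ l' ∈ (Finset.univ : Finset (Fin (k + 1))).erase l, (M / r) := by
          refine Finset.prod_le_prod (fun _ _ => abs_nonneg _) fun j hj => ?_
          have hne : l ≠ j := (Finset.ne_of_mem_erase hj).symm
          rw [abs_div]
          refine div_le_div₀ hM0.le ?_ hr (hts _ _ (hcs l j hne))
          rw [abs_le]
          constructor <;> linarith [(htM j.castSucc).1, (htM j.castSucc).2,
            (htM (Fin.last (k + 1))).1, (htM (Fin.last (k + 1))).2]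
      _ = (M / r) ^ k := by rw [Finset.prod_const, hcard]
  have e : f (Fin.last (k + 1)) - ∑ l : Fin (k + 1), lg l * f l.castSucc =
      (f (Fin.last (k + 1)) - q.eval (t (Fin.last (k + 1)))) -
        ∑ l : Fin (k + 1), lg l * (f l.castSucc - q.eval (t l.castSucc)) := by
    have h1 : ∑ l : Fin (k + 1), lg l * (f l.castSucc - q.eval (t l.castSucc)) =
        ∑ l : Fin (k + 1), lg l * f l.castSucc - ∑ l : Fin (k + 1), lg l * q.eval (t l.castSucc) := by
      rw [← Finset.sum_sub_distrib]
      exact Finset.sum_congr rfl fun l _ => by ring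
    rw [h1]
    have h2 : q.eval (t (Fin.last (k + 1))) = ∑ l : Fin (k + 1), lg l * q.eval (t l.castSucc) := hex
    linarith
  rw [e]
  refine (abs_sub _ _).trans ?_
  have h1 := hqt (Fin.last (k + 1))
  have h2 : |∑ l : Fin (k + 1), lg l * (f l.castSucc - q.eval (t l.castSucc))| ≤
      (k + 1) * ((M / r) ^ k * ((1 + X) * (E + B / M))) := by
    refine (Finset.abs_sum_le_sum_abs _ _).trans ?_
    calc ∑ l : Fin (k + 1), |lg l * (f l.castSucc - q.eval (t l.castSucc))|
        ≤ ∑ _l : Fin (k + 1), (M / r) ^ k * ((1 + X) * (E + B / M)) := by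
          refine Finset.sum_le_sum fun l _ => ?_
          rw [abs_mul]
          exact mul_le_mul (hlgb l) (hqt _) (abs_nonneg _) (by positivity)
      _ = (k + 1) * ((M / r) ^ k * ((1 + X) * (E + B / M))) := by
          rw [Finset.sum_const, Finset.card_univ, Fintype.card_fin, nsmul_eq_mul]
          push_cast; ring
  calc |f (Fin.last (k + 1)) - q.eval (t (Fin.last (k + 1)))| +
        |∑ l : Fin (k + 1), lg l * (f l.castSucc - q.eval (t l.castSucc))|
      ≤ (1 + X) * (E + B / M) + (k + 1) * ((M / r) ^ k * ((1 + X) * (E + B / M))) :=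
        add_le_add h1 h2
    _ = (1 + (k + 1) * (M / r) ^ k) * (1 + X) * (E + B / M) := by ring

section prob

variable {Ω : Type} [Fintype Ω]

/-- marginals of the product law -/
theorem tup_prod_two {N : ℕ} (P : Law Ω) (i j : Fin N) (hij : i ≠ j) (g h : Ω → ℝ) :
    ∑ w : Fin N → Ω, (∏ l, P.w (w l)) * (g (w i) * h (w j)) = P.ex g * P.ex h := by
  classical
  have h1 : ∀ w : Fin N → Ω, (∏ l, P.w (w l)) * (g (w i) * h (w j)) =
      ∏ l, (P.w (w l) * ((if l = i then g (w l) else 1) * (if l = j then h (w l) else 1))) := by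
    intro w
    rw [Finset.prod_mul_distrib, Finset.prod_mul_distrib, Finset.prod_ite_eq', Finset.prod_ite_eq']
    simp
  simp_rw [h1]
  have h2 := Finset.prod_univ_sum (fun _ : Fin N => (Finset.univ : Finset Ω))
    (fun l x => P.w x * ((if l = i then g x else 1) * (if l = j then h x else 1)))
  rw [Fintype.piFinset_univ] at h2
  rw [← h2]
  have h3 : ∀ l : Fin N, ∑ x, P.w x * ((if l = i then g x else 1) * (if l = j then h x else 1)) =
      (if l = i then P.ex g else 1) * (if l = j then P.ex h else 1) := by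
    intro l
    by_cases hi : l = i
    · have hj : l ≠ j := fun h => hij (hi.symm.trans h)
      simp [hi, hij, Law.ex]
    · by_cases hj : l = j
      · simp [hj, hij.symm, Law.ex]
      · simp [hi, hj, P.sum_one]
  rw [Finset.prod_congr rfl fun l _ => h3 l, Finset.prod_mul_distrib, Finset.prod_ite_eq',
    Finset.prod_ite_eq']
  simp

theorem tup_prod_one {N : ℕ} (P : Law Ω) (i : Fin N) (g : Ω → ℝ) :
    ∑ w : Fin N → Ω, (∏ l, P.w (w l)) * g (w i) = P.ex g := by
  classical
  have h1 : ∀ w : Fin N → Ω, (∏ l, P.w (w l)) * g (w i) =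
      ∏ l, (P.w (w l) * (if l = i then g (w l) else 1)) := by
    intro w
    rw [Finset.prod_mul_distrib, Finset.prod_ite_eq']
    simp
  simp_rw [h1]
  have h2 := Finset.prod_univ_sum (fun _ : Fin N => (Finset.univ : Finset Ω))
    (fun l x => P.w x * (if l = i then g x else 1))
  rw [Fintype.piFinset_univ] at h2
  rw [← h2]
  have h3 : ∀ l : Fin N, ∑ x, P.w x * (if l = i then g x else 1) =
      (if l = i then P.ex g else 1) := by
    intro l
    by_cases hi : l = i
    · simp [hi, Law.ex]
    · simp [hi, P.sum_one]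
  rw [Finset.prod_congr rfl fun l _ => h3 l, Finset.prod_ite_eq']
  simp

open Classical in
/-- two-variable events under the product law -/
theorem tup_prod_pair {N : ℕ} (P : Law Ω) (i j : Fin N) (hij : i ≠ j) (R : Ω → Ω → Prop) {p : ℝ}
    (hR : ∀ a, 0 < P.w a → P.ex (fun b => if R a b then 1 else 0) ≤ p) :
    ∑ w : Fin N → Ω, (∏ l, P.w (w l)) * (if R (w i) (w j) then 1 else 0) ≤ p := by
  have h1 : ∀ w : Fin N → Ω, (∏ l, P.w (w l)) * (if R (w i) (w j) then 1 else 0) =
      ∑ a, (∏ l, P.w (w l)) * ((if w i = a then (1 : ℝ) else 0) *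
        (if R a (w j) then (1 : ℝ) else 0)) := by
    intro w
    rw [← Finset.mul_sum]
    congr 1
    rw [Finset.sum_eq_single (w i)]
    · simp
    · intro b _ hb
      simp [Ne.symm hb]
    · intro h; exact absurd (Finset.mem_univ _) h
  simp_rw [h1]
  rw [Finset.sum_comm]
  have h2 : ∀ a, ∑ w : Fin N → Ω, (∏ l, P.w (w l)) * ((if w i = a then (1 : ℝ) else 0) *
      (if R a (w j) then (1 : ℝ) else 0)) = P.w a * P.ex (fun b => if R a b then 1 else 0) := by
    intro a
    have := tup_prod_two P i j hij (fun x => if x = a then (1 : ℝ) else 0)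
      (fun b => if R a b then (1 : ℝ) else 0)
    rw [this]
    congr 1
    simp [Law.ex]
  simp_rw [h2]
  calc ∑ a, P.w a * P.ex (fun b => if R a b then 1 else 0) ≤ ∑ a, P.w a * p := by
        refine Finset.sum_le_sum fun a _ => ?_
        rcases (P.nn a).eq_or_lt with h0 | h0
        · simp [← h0]
        · exact mul_le_mul_of_nonneg_left (hR a h0) h0.le
    _ = p := by rw [← Finset.sum_mul, P.sum_one, one_mul]

open Classical in
/-- small balls for `U` have small probability -/
theorem tup_ball (P : Law Ω) (U : Ω → ℤ) (M : ℕ) (hM : 1 ≤ M)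
    (hU : ∀ ω, 0 < P.w ω → 0 ≤ U ω ∧ U ω < M) {η r : ℝ} (hr : 0 ≤ r)
    (hη : ∑ u ∈ Ico (0 : ℤ) M, |P.pr U u - 1 / M| ≤ η) (u0 : ℤ) :
    P.ex (fun b => if |(u0 : ℝ) - U b| < r + 1 then 1 else 0) ≤ (2 * r + 3) / M + η := by
  have hM0 : (0 : ℝ) < M := by exact_mod_cast hM
  set F : Finset ℤ := (Ico (0 : ℤ) M).filter (fun u => |(u0 : ℝ) - u| < r + 1) with hF
  have h1 : P.ex (fun b => if |(u0 : ℝ) - U b| < r + 1 then 1 else 0) ≤ ∑ u ∈ F, P.pr U u := by
    have h2 : ∑ u ∈ F, P.pr U u = ∑ ω, if U ω ∈ F then P.w ω else 0 := by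
      unfold Law.pr
      simp_rw [Finset.sum_filter]
      rw [Finset.sum_comm]
      refine Finset.sum_congr rfl fun ω _ => ?_
      by_cases h : U ω ∈ F
      · rw [Finset.sum_eq_single (U ω)]
        · simp [h]
        · intro b _ hb
          simp [Ne.symm hb]
        · intro h'; exact absurd h h'
      · simp only [h, if_false]
        refine Finset.sum_eq_zero fun b hb => ?_
        have : U ω ≠ b := fun he => h (he ▸ hb)
        simp [this]
    rw [h2]
    unfold Law.ex
    refine Finset.sum_le_sum fun ω _ => ?_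
    rcases (P.nn ω).eq_or_lt with h0 | h0
    · rw [← h0]; simp
    · by_cases hc : |(u0 : ℝ) - U ω| < r + 1
      · have : U ω ∈ F := by
          rw [hF, Finset.mem_filter, Finset.mem_Ico]
          exact ⟨hU ω h0, hc⟩
        simp [hc, this]
      · simp only [hc, if_false, mul_zero]
        split_ifs
        · exact h0.le
        · exact le_rfl
  have h2 : ∑ u ∈ F, P.pr U u ≤ ∑ u ∈ F, (1 / (M : ℝ)) + ∑ u ∈ F, |P.pr U u - 1 / M| := by
    rw [← Finset.sum_add_distrib]
    refine Finset.sum_le_sum fun u _ => ?_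
    linarith [le_abs_self (P.pr U u - 1 / M)]
  have h3 : ∑ u ∈ F, |P.pr U u - 1 / M| ≤ η := by
    refine le_trans (Finset.sum_le_sum_of_subset_of_nonneg (Finset.filter_subset _ _)
      fun _ _ _ => abs_nonneg _) hη
  have h4 : (F.card : ℝ) ≤ 2 * r + 3 := by
    have hsub : F ⊆ Finset.Icc (u0 - ⌊r + 1⌋) (u0 + ⌊r + 1⌋) := by
      intro u hu
      rw [hF, Finset.mem_filter] at hu
      have h5 := abs_lt.1 hu.2
      rw [Finset.mem_Icc]
      have h6 : u0 - u ≤ ⌊r + 1⌋ := by
        rw [Int.le_floor]; push_cast; linarith [h5.2]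
      have h7 : u - u0 ≤ ⌊r + 1⌋ := by
        rw [Int.le_floor]; push_cast; linarith [h5.1]
      constructor <;> omega
    have h8 := Finset.card_le_card hsub
    rw [Int.card_Icc] at h8
    have h9 : 0 ≤ ⌊r + 1⌋ := Int.floor_nonneg.2 (by linarith)
    have h10 : (F.card : ℤ) ≤ 2 * ⌊r + 1⌋ + 1 := by
      have : ((u0 + ⌊r + 1⌋ + 1 - (u0 - ⌊r + 1⌋)).toNat : ℤ) = 2 * ⌊r + 1⌋ + 1 := by
        rw [Int.toNat_of_nonneg (by omega)]; ring
      have h11 : (F.card : ℤ) ≤ ((u0 + ⌊r + 1⌋ + 1 - (u0 - ⌊r + 1⌋)).toNat : ℤ) := by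
        exact_mod_cast h8
      omega
    have h12 : (F.card : ℝ) ≤ 2 * (⌊r + 1⌋ : ℝ) + 1 := by exact_mod_cast h10
    have h13 : (⌊r + 1⌋ : ℝ) ≤ r + 1 := Int.floor_le _
    linarith
  rw [Finset.sum_const, nsmul_eq_mul] at h2
  have h5 : (F.card : ℝ) * (1 / M) ≤ (2 * r + 3) / M := by
    rw [mul_one_div]
    exact div_le_div_of_nonneg_right h4 hM0.le
  linarith

end prob

open Classical in
/-- if the values are close to a polynomial of degree at most `k` of `U`, then the Lagrange
interpolation through `k + 1` independent nodes is good (`M = 2^n`) -/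
theorem tuple_interp (k : ℕ) (ε : ℝ) (hε : 0 < ε) : ∃ η : ℝ, 0 < η ∧ ∃ C : ℝ, 0 < C ∧ ∃ M0 : ℕ,
    ∀ n : ℕ, M0 ≤ 2 ^ n → ∀ (Ω : Type) [Fintype Ω] (P : Law Ω) (U : Ω → ℤ) (f τ : Ω → ℝ)
      (q : ℝ[X]) (E B : ℝ), 0 ≤ E → 0 ≤ B → (∀ ω, 0 < P.w ω → 0 ≤ U ω ∧ U ω < 2 ^ n) →
    (∀ ω, 0 < P.w ω → (U ω : ℝ) ≤ τ ω ∧ τ ω ≤ U ω + 1) → (∀ ω, |f ω| ≤ B) →
    ∑ u ∈ Ico (0 : ℤ) (2 ^ n), |P.pr U u - 1 / 2 ^ n| ≤ η → q.natDegree ≤ k →
    ∑ ω with E < |f ω - q.eval (U ω : ℝ)|, P.w ω ≤ η →
    ∑ w : Fin (k + 2) → Ω with C * (E + B / 2 ^ n) < |f (w (Fin.last (k + 1))) -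
        ∑ l : Fin (k + 1), lag τ w l * f (w l.castSucc)|, ∏ j, P.w (w j) ≤ ε := by
  set N : ℝ := (k + 2 : ℝ) with hN
  have hN0 : 0 < N := by positivity
  have hN1 : 1 ≤ N := by rw [hN]; linarith [(Nat.cast_nonneg k : (0 : ℝ) ≤ k)]
  set c : ℝ := ε / (8 * N ^ 2) with hc
  have hc0 : 0 < c := by positivity
  obtain ⟨M0, hM0⟩ := exists_nat_ge (12 * N ^ 2 / ε)
  refine ⟨c, hc0, (1 + (k + 1) * (1 / c) ^ k) * (1 + (k + 1) * k * (1 / c) ^ k), by positivity,
    M0, ?_⟩
  intro n hn Ω _ P U f τ q E B hE hB hU hτ hf hη hq hfq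
  set M : ℝ := 2 ^ n with hM
  have hMpos : 0 < M := by positivity
  have hM1 : 1 ≤ M := one_le_pow₀ (by norm_num)
  have hMb : 12 * N ^ 2 / ε ≤ M := by
    refine hM0.trans ?_
    rw [hM]
    exact_mod_cast hn
  set r : ℝ := c * M with hr
  have hr0 : 0 < r := by positivity
  have hMr : M / r = 1 / c := by rw [hr]; field_simp
  have hMcast : ((2 ^ n : ℕ) : ℝ) = M := by rw [hM]; push_cast; rfl
  -- the weight of a tuple
  let W : (Fin (k + 2) → Ω) → ℝ := fun w => ∏ j, P.w (w j)
  have hW0 : ∀ w, 0 ≤ W w := fun w => Finset.prod_nonneg fun j _ => P.nn _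
  let bad : Ω → ℝ := fun ω => if E < |f ω - q.eval (U ω : ℝ)| then 1 else 0
  let near : Ω → Ω → Prop := fun a b => |(U a : ℝ) - U b| < r + 1
  have hbad : P.ex bad ≤ c := by
    have : P.ex bad = ∑ ω with E < |f ω - q.eval (U ω : ℝ)|, P.w ω := by
      rw [Finset.sum_filter]
      unfold Law.ex
      refine Finset.sum_congr rfl fun ω _ => ?_
      simp only [bad]
      split_ifs <;> simp
    rw [this]; exact hfq
  have hnear : ∀ a, 0 < P.w a → P.ex (fun b => if near a b then 1 else 0) ≤
      (2 * r + 3) / M + c := by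
    intro a _
    have := tup_ball P U (2 ^ n) Nat.one_le_two_pow (fun ω hω => by
      have := hU ω hω
      push_cast
      exact this) hr0.le (η := c) (by
        push_cast
        exact hη) (U a)
    rw [hMcast] at this
    exact this
  -- pointwise bound
  have hpt : ∀ w : Fin (k + 2) → Ω,
      (if (1 + (k + 1) * (1 / c) ^ k) * (1 + (k + 1) * k * (1 / c) ^ k) * (E + B / M) <
        |f (w (Fin.last (k + 1))) - ∑ l : Fin (k + 1), lag τ w l * f (w l.castSucc)|
        then W w else 0) ≤
      ∑ j, W w * bad (w j) + ∑ i, ∑ j, (if i = j then 0 else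
        W w * (if near (w i) (w j) then 1 else 0)) := by
    intro w
    have hb0 : ∀ j, 0 ≤ W w * bad (w j) := fun j => mul_nonneg (hW0 w) (by
      simp only [bad]; split_ifs <;> norm_num)
    have hn0 : ∀ i j, 0 ≤ (if i = j then 0 else W w * (if near (w i) (w j) then (1 : ℝ) else 0)) := by
      intro i j
      split_ifs
      · exact le_rfl
      · simpa using hW0 w
      · simp
    have hs1 : 0 ≤ ∑ j, W w * bad (w j) := Finset.sum_nonneg fun j _ => hb0 j
    have hs2 : 0 ≤ ∑ i, ∑ j, (if i = j then 0 else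
        W w * (if near (w i) (w j) then (1 : ℝ) else 0)) :=
      Finset.sum_nonneg fun i _ => Finset.sum_nonneg fun j _ => hn0 i j
    split_ifs with hcond
    · rcases (hW0 w).eq_or_lt with h0 | h0
      · rw [← h0]; rw [← h0] at hs1 hs2; exact add_nonneg hs1 hs2
      · have hpos : ∀ j, 0 < P.w (w j) := by
          intro j
          rcases (P.nn (w j)).eq_or_lt with h1 | h1
          · exfalso
            have : W w = 0 := Finset.prod_eq_zero (Finset.mem_univ j) h1.symm
            linarith
          · exact h1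
        by_cases hA : ∃ j, bad (w j) = 1
        · obtain ⟨j, hj⟩ := hA
          have := Finset.single_le_sum (f := fun j => W w * bad (w j)) (fun j _ => hb0 j)
            (Finset.mem_univ j)
          simp only [hj, mul_one] at this
          linarith
        · by_cases hB' : ∃ i j, i ≠ j ∧ near (w i) (w j)
          · obtain ⟨i, j, hij, hj⟩ := hB'
            have h1 := Finset.single_le_sum (f := fun i => ∑ j, (if i = j then 0 else
              W w * (if near (w i) (w j) then (1 : ℝ) else 0)))
              (fun i _ => Finset.sum_nonneg fun j _ => hn0 i j) (Finset.mem_univ i)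
            have h2 := Finset.single_le_sum (f := fun j => (if i = j then 0 else
              W w * (if near (w i) (w j) then (1 : ℝ) else 0))) (fun j _ => hn0 i j)
              (Finset.mem_univ j)
            simp only [hij, if_false, hj, if_true, mul_one] at h2
            linarith
          · exfalso
            push Not at hA hB'
            have hcore := tup_core k (M := M) (r := r) hM1 hr0 hE hB q hq (fun j => τ (w j))
              (fun j => (U (w j) : ℝ)) (fun j => f (w j))
              (fun j => by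
                have h1 := hU (w j) (hpos j)
                constructor
                · exact_mod_cast h1.1
                · have h2 : U (w j) + 1 ≤ 2 ^ n := h1.2
                  have h3 : ((U (w j) + 1 : ℤ) : ℝ) ≤ ((2 ^ n : ℤ) : ℝ) := by exact_mod_cast h2
                  push_cast at h3
                  exact h3)
              (fun j => hτ (w j) (hpos j)) (fun j => hf _)
              (fun j => by
                have h1 := hA j
                simp only [bad] at h1
                by_contra hcon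
                push Not at hcon
                simp [hcon] at h1)
              (fun i j hij => by
                have h1 := hB' i j hij
                simp only [near, not_lt] at h1
                exact h1)
            rw [hMr] at hcore
            have : ¬ ((1 + (k + 1) * (1 / c) ^ k) * (1 + (k + 1) * k * (1 / c) ^ k) * (E + B / M) <
              |f (w (Fin.last (k + 1))) - ∑ l : Fin (k + 1), lag τ w l * f (w l.castSucc)|) := by
              rw [not_lt]
              exact hcore
            exact this hcond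
    · exact add_nonneg hs1 hs2
  rw [Finset.sum_filter]
  refine (Finset.sum_le_sum fun w _ => hpt w).trans ?_
  rw [Finset.sum_add_distrib]
  have hS1 : ∑ w : Fin (k + 2) → Ω, ∑ j, W w * bad (w j) ≤ N * c := by
    rw [Finset.sum_comm]
    calc ∑ j : Fin (k + 2), ∑ w : Fin (k + 2) → Ω, W w * bad (w j)
        ≤ ∑ _j : Fin (k + 2), c := by
          refine Finset.sum_le_sum fun j _ => ?_
          have := tup_prod_one P j bad
          rw [show ∑ w : Fin (k + 2) → Ω, W w * bad (w j) = P.ex bad from this]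
          exact hbad
      _ = N * c := by
          rw [Finset.sum_const, Finset.card_univ, Fintype.card_fin, nsmul_eq_mul, hN]
          push_cast; ring
  have hS2 : ∑ w : Fin (k + 2) → Ω, ∑ i, ∑ j, (if i = j then 0 else
        W w * (if near (w i) (w j) then (1 : ℝ) else 0)) ≤ N ^ 2 * ((2 * r + 3) / M + c) := by
    rw [Finset.sum_comm]
    have hp0 : 0 ≤ (2 * r + 3) / M + c := by positivity
    calc ∑ i : Fin (k + 2), ∑ w : Fin (k + 2) → Ω, ∑ j, (if i = j then 0 else
          W w * (if near (w i) (w j) then (1 : ℝ) else 0))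
        ≤ ∑ _i : Fin (k + 2), ∑ _j : Fin (k + 2), ((2 * r + 3) / M + c) := by
          refine Finset.sum_le_sum fun i _ => ?_
          rw [Finset.sum_comm]
          refine Finset.sum_le_sum fun j _ => ?_
          by_cases hij : i = j
          · simpa [hij] using hp0
          · simp only [hij, if_false]
            exact tup_prod_pair P i j hij near hnear
      _ = N ^ 2 * ((2 * r + 3) / M + c) := by
          rw [Finset.sum_const, Finset.sum_const, Finset.card_univ, Fintype.card_fin,
            nsmul_eq_mul, nsmul_eq_mul, hN]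
          push_cast; ring
  refine (add_le_add hS1 hS2).trans ?_
  have h1 : N * c ≤ ε / 8 := by
    have : N * c = ε / 8 * (1 / N) := by rw [hc]; field_simp
    rw [this]
    have h2 : 1 / N ≤ 1 := by rw [div_le_one hN0]; exact hN1
    nlinarith
  have h2 : N ^ 2 * c = ε / 8 := by rw [hc]; field_simp
  have h3 : N ^ 2 * (2 * r / M) = ε / 4 := by rw [hr, hc]; field_simp; ring
  have h4 : N ^ 2 * (3 / M) ≤ ε / 4 := by
    rw [div_le_iff₀ hε] at hMb
    rw [← mul_div_assoc, div_le_iff₀ hMpos]
    nlinarith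
  have h5 : N ^ 2 * ((2 * r + 3) / M + c) = N ^ 2 * (2 * r / M) + N ^ 2 * (3 / M) + N ^ 2 * c := by
    rw [add_div]; ring
  rw [h5]
  linarith

end Vale.Agent.P127.Stk
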