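import Vale.Agent.P127.Stk.PolyKey
import Vale.Agent.P127.Stk.PolyTup
import Vale.Agent.P127.Stk.PolyUnif

/-!
# P127 / Stk : assembly over the keys (PROOF.md, section 7)
-/

namespace Vale.Agent.P127.Stk

open Finset Polynomial Vale.Agent.P127

section keys

variable {Ω : Type} [Fintype Ω] {S : Type}

/-- sums over tuples, key by key -/
theorem pf_fib (P : Law Ω) (W : Ω → S) {N : ℕ} (A : (Fin (N + 1) → Ω) → ℝ)
    (A' : S → (Fin (N + 1) → Ω) → ℝ)
    (h1 : ∀ s, 0 < P.pr W s → ∀ w : Fin (N + 1) → Ω, W (w 0) = s → A w = P.pr W s * A' s w)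
    (h2 : ∀ s, 0 < P.pr W s → ∀ w : Fin (N + 1) → Ω, W (w 0) ≠ s → A' s w = 0)
    (h3 : ∀ w : Fin (N + 1) → Ω, P.w (w 0) = 0 → A w = 0) (g : (Fin (N + 1) → Ω) → ℝ) :
    ∑ w, g w * A w = ∑ s ∈ img W, P.pr W s * (if 0 < P.pr W s then ∑ w, g w * A' s w else 0) := by
  classical
  rw [← Finset.sum_fiberwise_of_maps_to (s := (Finset.univ : Finset (Fin (N + 1) → Ω)))
    (t := img W) (g := fun w => W (w 0)) (fun w _ => by rw [mem_img]; exact ⟨w 0, rfl⟩)]
  refine Finset.sum_congr rfl fun s _ => ?_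
  rcases (P.pr_nonneg W s).eq_or_lt with h0 | h0
  · rw [← h0, zero_mul]
    refine Finset.sum_eq_zero fun w hw => ?_
    have hw' : W (w 0) = s := by simpa using hw
    have h4 := P.w_le_pr W (w 0)
    rw [hw', ← h0] at h4
    rw [h3 w (le_antisymm h4 (P.nn _)), mul_zero]
  · rw [if_pos h0, Finset.mul_sum, ← Finset.sum_filter_add_sum_filter_not Finset.univ
      (fun w : Fin (N + 1) → Ω => W (w 0) = s) (fun w => P.pr W s * (g w * A' s w))]
    have h5 : ∑ w with ¬ W (w 0) = s, P.pr W s * (g w * A' s w) = 0 := by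
      refine Finset.sum_eq_zero fun w hw => ?_
      have hw' : W (w 0) ≠ s := by simpa using hw
      rw [h2 s h0 w hw', mul_zero, mul_zero]
    rw [h5, add_zero]
    refine Finset.sum_congr rfl fun w hw => ?_
    have hw' : W (w 0) = s := by simpa using hw
    rw [h1 s h0 w hw']
    ring

/-- copies, key by key -/
theorem pf_cw (P : Law Ω) (W : Ω → S) (N : ℕ) (s : S) (hs : 0 < P.pr W s)
    (w : Fin (N + 1) → Ω) (h0 : W (w 0) = s) :
    cw P W N w = P.pr W s * ∏ j, (P.cond W s).w (w j) := by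
  classical
  unfold cw
  simp only [P.cond_w W s hs]
  by_cases hall : ∀ i, W (w i) = W (w 0)
  · rw [if_pos hall]
    have h1 : ∀ j ∈ (Finset.univ : Finset (Fin (N + 1))),
        (if W (w j) = s then P.w (w j) / P.pr W s else 0) = P.w (w j) / P.pr W s := by
      intro j _
      rw [if_pos ((hall j).trans h0)]
    rw [Finset.prod_congr rfl h1, Finset.prod_div_distrib, Finset.prod_const, Finset.card_univ,
      Fintype.card_fin, h0, pow_succ]
    field_simp
  · rw [if_neg hall]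
    push Not at hall
    obtain ⟨i, hi⟩ := hall
    rw [Finset.prod_eq_zero (Finset.mem_univ i), mul_zero]
    rw [if_neg]
    rw [← h0]
    exact hi

theorem pf_prod_zero (P : Law Ω) (W : Ω → S) (N : ℕ) (s : S) (hs : 0 < P.pr W s)
    (w : Fin (N + 1) → Ω) (i : Fin (N + 1)) (h0 : W (w i) ≠ s) :
    ∏ j, (P.cond W s).w (w j) = 0 := by
  classical
  refine Finset.prod_eq_zero (Finset.mem_univ i) ?_
  rw [P.cond_w W s hs, if_neg h0]

theorem pf_pr_const (P : Law Ω) : P.pr (fun _ => ()) () = 1 := by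
  classical
  unfold Law.pr
  simp [P.sum_one]

theorem pf_pr_unit (P : Law Ω) (U : Ω → ℤ) (u : ℤ) :
    P.pr (fun ω => ((), U ω)) ((), u) = P.pr U u := by
  classical
  unfold Law.pr
  refine Finset.sum_congr ?_ fun _ _ => rfl
  ext ω
  simp

theorem pf_cw_const (P : Law Ω) (N : ℕ) (w : Fin (N + 1) → Ω) :
    cw P (fun _ => ()) N w = ∏ j, P.w (w j) := by
  classical
  unfold cw
  rw [if_pos (fun _ => rfl), pf_pr_const, one_pow, div_one]

theorem pf_idn (P : Law Ω) (W : Ω → S) (U : Ω → ℤ) (M : ℕ) (s : S) (hs : 0 < P.pr W s) (ω : Ω)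
    (h0 : W ω = s) : idn P W U M ω = idn (P.cond W s) (fun _ => ()) U M ω := by
  classical
  unfold idn
  rw [pf_pr_const, pf_pr_unit, P.cond_pr W s hs, ← un_swap P W U, h0]
  set p := P.pr W s with hp
  set q := P.pr (fun ω => (W ω, U ω)) (s, U ω) with hq
  have h1 : (1 ≤ 2 * M * (q / p)) ↔ p ≤ 2 * M * q := by
    rw [← mul_div_assoc, le_div_iff₀ hs, one_mul]
  by_cases h : p ≤ 2 * M * q
  · rw [if_pos h, if_pos (h1.2 h)]
    have hM : 0 < (M : ℝ) * q := by
      by_contra hcon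
      push Not at hcon
      have : 2 * (M : ℝ) * q = 2 * (M * q) := by ring
      rw [this] at h
      linarith
    have hq0 : q ≠ 0 := by
      intro he
      rw [he, mul_zero] at hM
      exact lt_irrefl _ hM
    have hM0 : (M : ℝ) ≠ 0 := by
      intro he
      rw [he, zero_mul] at hM
      exact lt_irrefl _ hM
    have hp0 : p ≠ 0 := hs.ne'
    field_simp
  · rw [if_neg h, if_neg (fun hc => h (h1.1 hc))]

theorem pf_apw (P : Law Ω) (W : Ω → S) (U : Ω → ℤ) (M p : ℕ) (s : S) (hs : 0 < P.pr W s)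
    (w : Fin (p + 1) → Ω) (h0 : W (w 0) = s) :
    apw P W U M p w = P.pr W s * apw (P.cond W s) (fun _ => ()) U M p w := by
  classical
  unfold apw
  rw [pf_cw P W p s hs w h0, pf_cw_const]
  by_cases hμ : ∃ μ : ℤ, ∀ j : Fin (p + 1), U (w j) = U (w 0) + (j : ℕ) * μ
  · rw [if_pos hμ, if_pos hμ]
    by_cases hall : ∀ i, W (w i) = s
    · rw [Finset.prod_congr rfl fun j _ => pf_idn P W U M s hs (w j) (hall j)]
      ring
    · push Not at hall
      obtain ⟨i, hi⟩ := hall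
      rw [pf_prod_zero P W p s hs w i hi]
      ring
  · rw [if_neg hμ, if_neg hμ, mul_zero]

theorem pf_sum_cw (P : Law Ω) (W : Ω → S) (N : ℕ) (g : (Fin (N + 1) → Ω) → ℝ) :
    ∑ w, g w * cw P W N w = ∑ s ∈ img W, P.pr W s *
      (if 0 < P.pr W s then ∑ w : Fin (N + 1) → Ω, g w * ∏ j, (P.cond W s).w (w j) else 0) := by
  refine pf_fib P W _ (fun s w => ∏ j, (P.cond W s).w (w j)) (fun s hs w hw => pf_cw P W N s hs w hw)
    (fun s hs w hw => pf_prod_zero P W N s hs w 0 hw) (fun w hw => ?_) g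
  classical
  unfold cw
  rw [Finset.prod_eq_zero (Finset.mem_univ (0 : Fin (N + 1))) hw, zero_div, ite_self]

theorem pf_sum_apw (P : Law Ω) (W : Ω → S) (U : Ω → ℤ) (M N : ℕ) (g : (Fin (N + 1) → Ω) → ℝ) :
    ∑ w, g w * apw P W U M N w = ∑ s ∈ img W, P.pr W s *
      (if 0 < P.pr W s then ∑ w : Fin (N + 1) → Ω,
        g w * apw (P.cond W s) (fun _ => ()) U M N w else 0) := by
  refine pf_fib P W _ (fun s w => apw (P.cond W s) (fun _ => ()) U M N w)
    (fun s hs w hw => pf_apw P W U M N s hs w hw) (fun s hs w hw => ?_) (fun w hw => ?_) g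
  · classical
    unfold apw
    rw [pf_cw_const, pf_prod_zero P W N s hs w 0 hw, zero_mul, ite_self]
  · classical
    unfold apw cw
    rw [Finset.prod_eq_zero (Finset.mem_univ (0 : Fin (N + 1))) hw, zero_div, ite_self, zero_mul,
      ite_self]

/-- Markov's inequality over the keys -/
theorem pf_markov (P : Law Ω) (W : Ω → S) (b : S → ℝ) (hb : ∀ s, 0 ≤ b s) {t D : ℝ} (ht : 0 < t)
    (h : ∑ s ∈ img W, P.pr W s * b s ≤ t * D) :
    ∑ s ∈ img W, P.pr W s * (if t < b s then 1 else 0) ≤ D := by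
  classical
  have h1 : ∑ s ∈ img W, t * (P.pr W s * (if t < b s then (1 : ℝ) else 0)) ≤ t * D := by
    refine le_trans (Finset.sum_le_sum fun s _ => ?_) h
    have h2 : t * (P.pr W s * (if t < b s then (1 : ℝ) else 0)) =
        P.pr W s * (t * (if t < b s then (1 : ℝ) else 0)) := by ring
    rw [h2]
    refine mul_le_mul_of_nonneg_left ?_ (P.pr_nonneg W s)
    split_ifs with h3
    · linarith
    · linarith [hb s]
  rw [← Finset.mul_sum] at h1
  exact le_of_mul_le_mul_left h1 ht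

theorem pf_prod_one (P : Law Ω) (N : ℕ) : ∑ w : Fin N → Ω, ∏ j, P.w (w j) = 1 := by
  classical
  have h2 := Finset.prod_univ_sum (fun _ : Fin N => (Finset.univ : Finset Ω))
    (fun _ x => P.w x)
  rw [Fintype.piFinset_univ] at h2
  rw [← h2]
  simp [P.sum_one]

end keys

open Classical in
/-- from progressions to Lagrange interpolation, all keys -/
theorem law_poly (k : ℕ) (ε : ℝ) (hε : 0 < ε) : ∃ δ : ℝ, 0 < δ ∧ ∃ C : ℝ, 0 < C ∧ ∃ M0 : ℕ,
    ∀ n : ℕ, M0 ≤ 2 ^ n → ∀ (Ω : Type) [Fintype Ω] (S : Type) (P : Law Ω) (W : Ω → S) (U : Ω → ℤ)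
      (f τ : Ω → ℝ) (E B : ℝ), 0 < E → 0 ≤ B →
    (∀ ω, 0 < P.w ω → 0 ≤ U ω ∧ U ω < 2 ^ n) →
    (∀ ω, 0 < P.w ω → (U ω : ℝ) ≤ τ ω ∧ τ ω ≤ U ω + 1) → (∀ ω, |f ω| ≤ B) →
    P.ex (fun ω => l1 P W U (2 ^ n) (W ω)) ≤ δ →
    ∑ w with E < |∑ l : Fin (k + 2), (-1 : ℝ) ^ (l : ℕ) * ((k + 1).choose l : ℝ) * f (w l)|,
      apw P W U (2 ^ n) (k + 1) w ≤ δ / (2 ^ n) ^ k →
    ∑ w : Fin (k + 2) → Ω with C * ((n + 1) * E + B / 2 ^ n) < |f (w (Fin.last (k + 1))) -
        ∑ l : Fin (k + 1), lag τ w l * f (w l.castSucc)|, cw P W (k + 1) w ≤ ε := by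
  obtain ⟨η, hη, C2, hC2, M2, H2⟩ := tuple_interp k (ε / 2) (by linarith)
  obtain ⟨δ₁, hδ₁, C1, hC1, M1, H1⟩ := key_poly k η hη
  set δ₂ : ℝ := min δ₁ η with hδ₂
  have hδ₂0 : 0 < δ₂ := lt_min hδ₁ hη
  refine ⟨δ₂ * (ε / 4), by positivity, C2 * (C1 + 1), by positivity, max M1 M2, ?_⟩
  intro n hn Ω _ S P W U f τ E B hE hB hU hτ hf hl1 hap
  have hn1 : M1 ≤ 2 ^ n := (le_max_left _ _).trans hn
  have hn2 : M2 ≤ 2 ^ n := (le_max_right _ _).trans hn
  have hM : (0 : ℝ) < 2 ^ n := by positivity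
  set bad : (Fin (k + 2) → Ω) → Prop := fun w =>
    E < |∑ l : Fin (k + 2), (-1 : ℝ) ^ (l : ℕ) * ((k + 1).choose l : ℝ) * f (w l)| with hbad
  set ev : (Fin (k + 2) → Ω) → Prop := fun w =>
    C2 * (C1 + 1) * ((n + 1) * E + B / 2 ^ n) < |f (w (Fin.last (k + 1))) -
        ∑ l : Fin (k + 1), lag τ w l * f (w l.castSucc)| with hev
  -- the two bad sets of keys
  set b1 : S → ℝ := fun s => l1 P W U (2 ^ n) s with hb1
  set b2 : S → ℝ := fun s => if 0 < P.pr W s then ∑ w : Fin (k + 1 + 1) → Ω,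
        (if bad w then (1 : ℝ) else 0) * apw (P.cond W s) (fun _ => ()) U (2 ^ n) (k + 1) w else 0
    with hb2
  have hapn : ∀ (Q : Law Ω) (w : Fin (k + 1 + 1) → Ω),
      0 ≤ apw Q (fun _ => ()) U (2 ^ n) (k + 1) w := by
    intro Q w
    unfold apw
    rw [pf_cw_const]
    split_ifs
    · refine mul_nonneg (Finset.prod_nonneg fun j _ => Q.nn _) (Finset.prod_nonneg fun j _ => ?_)
      unfold idn
      split_ifs
      · exact div_nonneg (Q.pr_nonneg _ _) (mul_nonneg (Nat.cast_nonneg _) (Q.pr_nonneg _ _))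
      · exact le_rfl
    · exact le_rfl
  have hb1n : ∀ s, 0 ≤ b1 s := fun s => Finset.sum_nonneg fun u _ => abs_nonneg _
  have hb2n : ∀ s, 0 ≤ b2 s := by
    intro s
    rw [hb2]
    simp only
    split_ifs
    · refine Finset.sum_nonneg fun w _ => mul_nonneg ?_ (hapn _ _)
      split_ifs <;> norm_num
    · exact le_rfl
  have hm1 : ∑ s ∈ img W, P.pr W s * (if δ₂ < b1 s then (1 : ℝ) else 0) ≤ ε / 4 := by
    refine pf_markov P W b1 hb1n hδ₂0 ?_
    rw [← P.ex_comp W (fun s => b1 s)]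
    exact hl1
  have hm2 : ∑ s ∈ img W, P.pr W s * (if δ₂ / (2 ^ n) ^ k < b2 s then (1 : ℝ) else 0) ≤ ε / 4 := by
    refine pf_markov P W b2 hb2n (by positivity) ?_
    rw [hb2, ← pf_sum_apw P W U (2 ^ n) (k + 1) (fun w => if bad w then (1 : ℝ) else 0)]
    have h1 : ∑ w : Fin (k + 1 + 1) → Ω, (if bad w then (1 : ℝ) else 0) *
        apw P W U (2 ^ n) (k + 1) w = ∑ w with bad w, apw P W U (2 ^ n) (k + 1) w := by
      rw [Finset.sum_filter]
      refine Finset.sum_congr rfl fun w _ => ?_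
      split_ifs <;> simp
    rw [h1]
    refine hap.trans (le_of_eq ?_)
    ring
  -- the good keys
  have hgood : ∀ s, 0 < P.pr W s → ¬ δ₂ < b1 s → ¬ δ₂ / (2 ^ n) ^ k < b2 s →
      ∑ w : Fin (k + 1 + 1) → Ω, (if ev w then (1 : ℝ) else 0) * ∏ j, (P.cond W s).w (w j) ≤
        ε / 2 := by
    intro s hs h1 h2
    have hsup : ∀ ω, 0 < (P.cond W s).w ω → 0 < P.w ω := by
      intro ω hω
      rw [P.cond_w W s hs] at hω
      split_ifs at hω with h3
      · by_contra hcon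
        have h4 : P.w ω = 0 := le_antisymm (not_lt.1 hcon) (P.nn ω)
        rw [h4, zero_div] at hω
        exact lt_irrefl _ hω
      · exact absurd hω (lt_irrefl _)
    have hl : ∑ u ∈ Ico (0 : ℤ) (2 ^ n), |(P.cond W s).pr U u - 1 / 2 ^ n| ≤ δ₂ := by
      refine le_trans (le_of_eq ?_) (not_lt.1 h1)
      rw [hb1]
      unfold l1
      push_cast
      refine Finset.sum_congr rfl fun u _ => ?_
      rw [P.cond_pr W s hs, ← un_swap P W U]
    obtain ⟨q, hq, hfq⟩ := H1 n hn1 Ω (P.cond W s) U f E hE (fun ω hω => hU ω (hsup ω hω))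
      (hl.trans (min_le_left _ _)) (by
        refine le_trans (le_of_eq ?_) ((not_lt.1 h2).trans
          (div_le_div_of_nonneg_right (min_le_left _ _) (by positivity)))
        rw [hb2]
        simp only
        rw [if_pos hs, Finset.sum_filter]
        refine Finset.sum_congr rfl fun w _ => ?_
        by_cases hw : bad w
        · rw [if_pos hw, if_pos hw, one_mul]
        · rw [if_neg hw, if_neg hw, zero_mul])
    have h3 := H2 n hn2 Ω (P.cond W s) U f τ q (C1 * (n + 1) * E) B (by positivity) hB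
      (fun ω hω => hU ω (hsup ω hω)) (fun ω hω => hτ ω (hsup ω hω)) hf
      (hl.trans (min_le_right _ _)) hq hfq
    refine le_trans ?_ h3
    rw [Finset.sum_filter]
    refine Finset.sum_le_sum fun w _ => ?_
    have hp : 0 ≤ ∏ j, (P.cond W s).w (w j) := Finset.prod_nonneg fun j _ => (P.cond W s).nn _
    by_cases hw : ev w
    · rw [if_pos hw, one_mul, if_pos]
      refine lt_of_le_of_lt ?_ hw
      have h4 : 0 ≤ (n + 1 : ℝ) * E := by positivity
      have h5 : 0 ≤ B / 2 ^ n := by positivity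
      have h6 : C1 * (n + 1) * E + B / 2 ^ n ≤ (C1 + 1) * ((n + 1) * E + B / 2 ^ n) := by
        nlinarith
      calc C2 * (C1 * (n + 1) * E + B / 2 ^ n) ≤ C2 * ((C1 + 1) * ((n + 1) * E + B / 2 ^ n)) :=
            mul_le_mul_of_nonneg_left h6 hC2.le
        _ = C2 * (C1 + 1) * ((n + 1) * E + B / 2 ^ n) := by ring
    · rw [if_neg hw, zero_mul]
      split_ifs
      · exact hp
      · exact le_rfl
  have hfin : ∑ w : Fin (k + 2) → Ω with ev w, cw P W (k + 1) w =
      ∑ w : Fin (k + 1 + 1) → Ω, (if ev w then (1 : ℝ) else 0) * cw P W (k + 1) w := by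
    rw [Finset.sum_filter]
    refine Finset.sum_congr rfl fun w _ => ?_
    split_ifs <;> simp
  rw [hfin, pf_sum_cw]
  have hterm : ∀ s ∈ img W, P.pr W s * (if 0 < P.pr W s then ∑ w : Fin (k + 1 + 1) → Ω,
      (if ev w then (1 : ℝ) else 0) * ∏ j, (P.cond W s).w (w j) else 0) ≤
      P.pr W s * (if δ₂ < b1 s then (1 : ℝ) else 0) +
        P.pr W s * (if δ₂ / (2 ^ n) ^ k < b2 s then (1 : ℝ) else 0) + P.pr W s * (ε / 2) := by
    intro s _
    rw [← mul_add, ← mul_add]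
    refine mul_le_mul_of_nonneg_left ?_ (P.pr_nonneg W s)
    have hi1 : 0 ≤ (if δ₂ < b1 s then (1 : ℝ) else 0) := by split_ifs <;> norm_num
    have hi2 : 0 ≤ (if δ₂ / (2 ^ n) ^ k < b2 s then (1 : ℝ) else 0) := by split_ifs <;> norm_num
    by_cases hs : 0 < P.pr W s
    · rw [if_pos hs]
      have hle1 : ∑ w : Fin (k + 1 + 1) → Ω,
          (if ev w then (1 : ℝ) else 0) * ∏ j, (P.cond W s).w (w j) ≤ 1 := by
        refine le_trans (Finset.sum_le_sum fun w _ => ?_) (pf_prod_one (P.cond W s) (k + 1 + 1)).le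
        have hp : 0 ≤ ∏ j, (P.cond W s).w (w j) := Finset.prod_nonneg fun j _ => (P.cond W s).nn _
        split_ifs
        · rw [one_mul]
        · rw [zero_mul]
          exact hp
      by_cases h1 : δ₂ < b1 s
      · rw [if_pos h1]
        linarith
      · by_cases h2 : δ₂ / (2 ^ n) ^ k < b2 s
        · rw [if_pos h2]
          linarith
        · have := hgood s hs h1 h2
          linarith
    · rw [if_neg hs]
      linarith
  refine (Finset.sum_le_sum hterm).trans ?_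
  rw [Finset.sum_add_distrib, Finset.sum_add_distrib, ← Finset.sum_mul, P.sum_pr_image W]
  linarith

end Vale.Agent.P127.Stk
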