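import Vale.Agent.P127.Entropy

/-!
# P127 / Stk : Lagrange interpolation at rounded nodes; product laws (tools for PROOF.md, section 7)
-/

namespace Vale.Agent.P127.Stk.Poly

open Finset Vale.Agent.P127

/-! ### Products of nearly equal factors -/

theorem abs_prod_sub_prod {α : Type*} (s : Finset α) (a b : α → ℝ) (K e : ℝ) (hK : 1 ≤ K)
    (he : 0 ≤ e) (ha : ∀ i ∈ s, |a i| ≤ K) (hb : ∀ i ∈ s, |b i| ≤ K)
    (hab : ∀ i ∈ s, |a i - b i| ≤ e) :
    |∏ i ∈ s, a i - ∏ i ∈ s, b i| ≤ s.card * K ^ s.card * e := by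
  classical
  induction s using Finset.induction_on with
  | empty => simp
  | insert j s hj ih =>
    have h1 := ih (fun i hi => ha i (mem_insert_of_mem hi)) (fun i hi => hb i (mem_insert_of_mem hi))
      (fun i hi => hab i (mem_insert_of_mem hi))
    rw [prod_insert hj, prod_insert hj, card_insert_of_notMem hj]
    have e1 : a j * ∏ i ∈ s, a i - b j * ∏ i ∈ s, b i =
        (a j - b j) * ∏ i ∈ s, a i + b j * (∏ i ∈ s, a i - ∏ i ∈ s, b i) := by ring
    rw [e1]
    refine (abs_add_le _ _).trans ?_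
    rw [abs_mul, abs_mul, abs_prod]
    have h2 : ∏ i ∈ s, |a i| ≤ K ^ s.card := by
      calc ∏ i ∈ s, |a i| ≤ ∏ _i ∈ s, K :=
            prod_le_prod (fun i _ => abs_nonneg _) (fun i hi => ha i (mem_insert_of_mem hi))
        _ = K ^ s.card := by simp
    have h3 : |a j - b j| * ∏ i ∈ s, |a i| ≤ e * K ^ s.card :=
      mul_le_mul (hab j (mem_insert_self j s)) h2 (prod_nonneg fun i _ => abs_nonneg _) he
    have h4 : |b j| * |∏ i ∈ s, a i - ∏ i ∈ s, b i| ≤ K * (s.card * K ^ s.card * e) :=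
      mul_le_mul (hb j (mem_insert_self j s)) h1 (abs_nonneg _) (by linarith)
    have hKp : 0 ≤ K ^ s.card := by positivity
    have h5 : e * K ^ s.card ≤ K * (e * K ^ s.card) := by nlinarith [mul_nonneg he hKp]
    push_cast
    rw [pow_succ]
    nlinarith

/-! ### Lagrange interpolation -/

/-- the Lagrange coefficient of the node `l` at the last point -/
noncomputable def lg {k : ℕ} (t : Fin (k + 2) → ℝ) (l : Fin (k + 1)) : ℝ :=
  ∏ l' ∈ (univ : Finset (Fin (k + 1))).erase l,
    (t (Fin.last (k + 1)) - t l'.castSucc) / (t l.castSucc - t l'.castSucc)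

theorem lg_affine {k : ℕ} (t x : Fin (k + 2) → ℝ) (a b : ℝ) (ha : a ≠ 0)
    (h : ∀ i, x i = a * t i + b) (l : Fin (k + 1)) : lg x l = lg t l := by
  unfold lg
  refine prod_congr rfl fun l' _ => ?_
  rw [h, h, h]
  have e1 : a * t (Fin.last (k + 1)) + b - (a * t l'.castSucc + b) =
      a * (t (Fin.last (k + 1)) - t l'.castSucc) := by ring
  have e2 : a * t l.castSucc + b - (a * t l'.castSucc + b) =
      a * (t l.castSucc - t l'.castSucc) := by ring
  rw [e1, e2, mul_div_mul_left _ _ ha]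

theorem lg_exact {k : ℕ} (x : Fin (k + 2) → ℝ)
    (hx : Function.Injective fun l : Fin (k + 1) => x l.castSucc) (g : Polynomial ℝ)
    (hg : g.degree < (k + 1 : ℕ)) :
    g.eval (x (Fin.last (k + 1))) = ∑ l : Fin (k + 1), lg x l * g.eval (x l.castSucc) := by
  have h1 := Lagrange.eq_interpolate (s := (univ : Finset (Fin (k + 1))))
    (v := fun l : Fin (k + 1) => x l.castSucc) (hx.injOn) (f := g) (by simpa using hg)
  conv_lhs => rw [h1]
  rw [Lagrange.interpolate_apply, Polynomial.eval_finsetSum]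
  refine sum_congr rfl fun l _ => ?_
  rw [Polynomial.eval_mul, Polynomial.eval_C, mul_comm]
  congr 1
  unfold Lagrange.basis lg
  rw [Polynomial.eval_prod]
  refine prod_congr rfl fun l' _ => ?_
  unfold Lagrange.basisDivisor
  simp only [Polynomial.eval_mul, Polynomial.eval_C, Polynomial.eval_sub, Polynomial.eval_X]
  rw [div_eq_inv_mul]

/-- interpolation of values which are close to a polynomial at rounded nodes -/
theorem lg_det (k : ℕ) (γ : ℝ) (hγ : 0 < γ) (hγ1 : γ ≤ 1) (N E E1 B : ℝ) (hN : 2 ≤ γ * N)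
    (_hE : 0 ≤ E) (_hE1 : 0 ≤ E1) (hB : B ≤ N * E)
    (t x v : Fin (k + 2) → ℝ) (hx0 : ∀ i, 0 ≤ x i ∧ x i ≤ N) (htN : ∀ i, x i ≤ t i ∧ t i ≤ x i + 1)
    (ht0 : ∀ i, t i ≤ N)
    (hsep : ∀ i j, i ≠ j → γ * N ≤ |x i - x j|) (hv : ∀ i, |v i| ≤ B) (g : Polynomial ℝ)
    (hg : g.degree < (k + 1 : ℕ)) (hgv : ∀ i, |v i - g.eval (x i)| ≤ E1) :
    |v (Fin.last (k + 1)) - ∑ l : Fin (k + 1), lg t l * v l.castSucc| ≤
      (1 + (k + 1) * (2 / γ) ^ k) * E1 + (k + 1) * (k * (2 / γ) ^ k * (4 / γ ^ 2)) * E := by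
  have hN0 : 0 < N := by
    by_contra hc
    push Not at hc
    nlinarith
  have hγN : 0 < γ * N := mul_pos hγ hN0
  have hK : 1 ≤ 2 / γ := by rw [le_div_iff₀ hγ]; linarith
  have hcs : ∀ i j : Fin (k + 1), i ≠ j → i.castSucc ≠ j.castSucc := fun i j h h' =>
    h (Fin.castSucc_injective _ h')
  have hinj : Function.Injective fun l : Fin (k + 1) => x l.castSucc := by
    intro i j hij
    by_contra hne
    have h1 := hsep _ _ (hcs i j hne)
    simp only at hij
    rw [hij, sub_self, abs_zero] at h1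
    linarith
  have hsept : ∀ i j, i ≠ j → γ * N / 2 ≤ |t i - t j| := by
    intro i j hij
    have h1 := hsep i j hij
    have h2 : |x i - x j| ≤ |t i - t j| + 1 := by
      have e1 : x i - x j = (t i - t j) - ((t i - x i) - (t j - x j)) := by ring
      rw [e1]
      refine (abs_sub _ _).trans ?_
      have : |(t i - x i) - (t j - x j)| ≤ 1 := by
        rw [abs_le]
        constructor <;> linarith [(htN i).1, (htN i).2, (htN j).1, (htN j).2]
      linarith
    linarith
  have hnum : ∀ i j, |t i - t j| ≤ N := by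
    intro i j
    rw [abs_le]
    constructor <;> linarith [(htN i).1, (htN j).1, ht0 i, ht0 j, (hx0 i).1, (hx0 j).1]
  have hnumx : ∀ i j, |x i - x j| ≤ N := by
    intro i j
    rw [abs_le]
    constructor <;> linarith [(hx0 i).2, (hx0 j).2, (hx0 i).1, (hx0 j).1]
  -- the factors
  have hfac : ∀ (l l' : Fin (k + 1)), l' ≠ l →
      |(t (Fin.last (k + 1)) - t l'.castSucc) / (t l.castSucc - t l'.castSucc)| ≤ 2 / γ := by
    intro l l' hl
    rw [abs_div, div_le_div_iff₀ _ hγ]
    · have h1 := hsept _ _ (hcs l l' hl.symm)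
      have h2 := hnum (Fin.last (k + 1)) l'.castSucc
      nlinarith
    · have h1 := hsept _ _ (hcs l l' hl.symm)
      linarith
  have hfacx : ∀ (l l' : Fin (k + 1)), l' ≠ l →
      |(x (Fin.last (k + 1)) - x l'.castSucc) / (x l.castSucc - x l'.castSucc)| ≤ 2 / γ := by
    intro l l' hl
    rw [abs_div, div_le_div_iff₀ _ hγ]
    · have h1 := hsep _ _ (hcs l l' hl.symm)
      have h2 := hnumx (Fin.last (k + 1)) l'.castSucc
      nlinarith
    · have h1 := hsep _ _ (hcs l l' hl.symm)
      linarith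
  have hdiff : ∀ (l l' : Fin (k + 1)), l' ≠ l →
      |(x (Fin.last (k + 1)) - x l'.castSucc) / (x l.castSucc - x l'.castSucc) -
        (t (Fin.last (k + 1)) - t l'.castSucc) / (t l.castSucc - t l'.castSucc)| ≤
        4 / γ ^ 2 / N := by
    intro l l' hl
    have h1 := hsept _ _ (hcs l l' hl.symm)
    have h2 := hsep _ _ (hcs l l' hl.symm)
    set a := t (Fin.last (k + 1)) - t l'.castSucc with ha
    set b := t l.castSucc - t l'.castSucc with hb
    set a' := x (Fin.last (k + 1)) - x l'.castSucc with ha'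
    set b' := x l.castSucc - x l'.castSucc with hb'
    have hb0 : b ≠ 0 := by
      intro h0
      rw [h0, abs_zero] at h1
      linarith
    have hb'0 : b' ≠ 0 := by
      intro h0
      rw [h0, abs_zero] at h2
      linarith
    have haa : |a' - a| ≤ 1 := by
      rw [ha, ha', abs_le]
      constructor <;> linarith [(htN (Fin.last (k + 1))).1, (htN (Fin.last (k + 1))).2,
        (htN l'.castSucc).1, (htN l'.castSucc).2]
    have hbb : |b - b'| ≤ 1 := by
      rw [hb, hb', abs_le]
      constructor <;> linarith [(htN l.castSucc).1, (htN l.castSucc).2,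
        (htN l'.castSucc).1, (htN l'.castSucc).2]
    have ha'N : |a'| ≤ N := hnumx _ _
    have e1 : a' / b' - a / b = (a' * (b - b') + (a' - a) * b') / (b * b') := by
      field_simp
      ring
    rw [e1, abs_div, abs_mul b b', div_div, div_le_div_iff₀ (by positivity) (by positivity)]
    have h3 : |a' * (b - b') + (a' - a) * b'| ≤ N + |b'| := by
      refine (abs_add_le _ _).trans ?_
      rw [abs_mul, abs_mul]
      have q1 : |a'| * |b - b'| ≤ N * 1 := mul_le_mul ha'N hbb (abs_nonneg _) hN0.le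
      have q2 : |a' - a| * |b'| ≤ 1 * |b'| := mul_le_mul_of_nonneg_right haa (abs_nonneg _)
      linarith
    have h4 : γ * N / 2 * (γ * N) ≤ |b| * |b'| := mul_le_mul h1 h2 hγN.le (abs_nonneg _)
    have h5 : γ * N / 2 * |b'| ≤ |b| * |b'| := mul_le_mul_of_nonneg_right h1 (abs_nonneg _)
    have h6 : (N + |b'|) * (γ ^ 2 * N) ≤ 4 * (|b| * |b'|) := by
      have e2 : N * (γ ^ 2 * N) = 2 * (γ * N / 2 * (γ * N)) := by ring
      have e3 : |b'| * (γ ^ 2 * N) = 2 * γ * (γ * N / 2 * |b'|) := by ring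
      have hbb' : 0 ≤ |b| * |b'| := by positivity
      have e4 : 2 * γ * (γ * N / 2 * |b'|) ≤ 2 * (|b| * |b'|) := by
        have : 0 ≤ γ * N / 2 * |b'| := by positivity
        nlinarith
      rw [add_mul, e2, e3]
      linarith
    calc |a' * (b - b') + (a' - a) * b'| * (γ ^ 2 * N) ≤ (N + |b'|) * (γ ^ 2 * N) :=
          mul_le_mul_of_nonneg_right h3 (by positivity)
      _ ≤ 4 * (|b| * |b'|) := h6
  have hcard : ∀ l : Fin (k + 1), ((univ : Finset (Fin (k + 1))).erase l).card = k := by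
    intro l
    rw [card_erase_of_mem (mem_univ l), card_univ, Fintype.card_fin]
    rfl
  have hlx : ∀ l : Fin (k + 1), |lg x l| ≤ (2 / γ) ^ k := by
    intro l
    unfold lg
    rw [abs_prod]
    calc ∏ l' ∈ (univ : Finset (Fin (k + 1))).erase l,
          |(x (Fin.last (k + 1)) - x l'.castSucc) / (x l.castSucc - x l'.castSucc)| ≤
          ∏ _l' ∈ (univ : Finset (Fin (k + 1))).erase l, (2 / γ) :=
          prod_le_prod (fun i _ => abs_nonneg _) (fun i hi => hfacx l i (ne_of_mem_erase hi))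
      _ = (2 / γ) ^ k := by rw [prod_const, hcard]
  have hld : ∀ l : Fin (k + 1), |lg x l - lg t l| ≤ k * (2 / γ) ^ k * (4 / γ ^ 2 / N) := by
    intro l
    have h1 := abs_prod_sub_prod ((univ : Finset (Fin (k + 1))).erase l)
      (fun l' => (x (Fin.last (k + 1)) - x l'.castSucc) / (x l.castSucc - x l'.castSucc))
      (fun l' => (t (Fin.last (k + 1)) - t l'.castSucc) / (t l.castSucc - t l'.castSucc))
      (2 / γ) (4 / γ ^ 2 / N) hK (by positivity)
      (fun i hi => hfacx l i (ne_of_mem_erase hi)) (fun i hi => hfac l i (ne_of_mem_erase hi))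
      (fun i hi => hdiff l i (ne_of_mem_erase hi))
    rw [hcard] at h1
    exact h1
  have hB0 : 0 ≤ B := le_trans (abs_nonneg _) (hv 0)
  have e1 : v (Fin.last (k + 1)) - ∑ l : Fin (k + 1), lg t l * v l.castSucc =
      (v (Fin.last (k + 1)) - g.eval (x (Fin.last (k + 1)))) +
      ∑ l : Fin (k + 1), (lg x l * (g.eval (x l.castSucc) - v l.castSucc) +
        (lg x l - lg t l) * v l.castSucc) := by
    rw [lg_exact x hinj g hg, sub_add, ← sum_sub_distrib]
    congr 1
    exact sum_congr rfl fun l _ => by ring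
  rw [e1]
  refine (abs_add_le _ _).trans ?_
  have h2 : |∑ l : Fin (k + 1), (lg x l * (g.eval (x l.castSucc) - v l.castSucc) +
        (lg x l - lg t l) * v l.castSucc)| ≤
      ∑ _l : Fin (k + 1), ((2 / γ) ^ k * E1 + k * (2 / γ) ^ k * (4 / γ ^ 2 / N) * B) := by
    refine (abs_sum_le_sum_abs _ _).trans (sum_le_sum fun l _ => ?_)
    refine (abs_add_le _ _).trans ?_
    rw [abs_mul, abs_mul]
    refine add_le_add ?_ ?_
    · refine mul_le_mul (hlx l) ?_ (abs_nonneg _) (by positivity)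
      rw [abs_sub_comm]
      exact hgv _
    · exact mul_le_mul (hld l) (hv _) (abs_nonneg _) (by positivity)
  rw [sum_const, card_univ, Fintype.card_fin, nsmul_eq_mul] at h2
  have h3 : k * (2 / γ) ^ k * (4 / γ ^ 2 / N) * B ≤ k * (2 / γ) ^ k * (4 / γ ^ 2) * E := by
    have e2 : k * (2 / γ) ^ k * (4 / γ ^ 2 / N) * B = k * (2 / γ) ^ k * (4 / γ ^ 2) * (B / N) := by
      ring
    rw [e2]
    apply mul_le_mul_of_nonneg_left _ (by positivity)
    rw [div_le_iff₀ hN0]
    linarith
  have h4 := hgv (Fin.last (k + 1))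
  push_cast at h2
  have h5 : ((k : ℝ) + 1) * ((2 / γ) ^ k * E1 + k * (2 / γ) ^ k * (4 / γ ^ 2 / N) * B) ≤
      ((k : ℝ) + 1) * ((2 / γ) ^ k * E1 + k * (2 / γ) ^ k * (4 / γ ^ 2) * E) := by
    apply mul_le_mul_of_nonneg_left _ (by positivity)
    linarith
  calc _ ≤ E1 + ((k : ℝ) + 1) * ((2 / γ) ^ k * E1 + k * (2 / γ) ^ k * (4 / γ ^ 2) * E) :=
        add_le_add h4 (h2.trans h5)
    _ = _ := by ring

/-! ### Product laws -/

variable {Λ : Type} [Fintype Λ]

/-- marginals of a product law -/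
theorem sum_section {N : ℕ} (ν : Fin N → Λ → ℝ) (hν : ∀ u, ∑ v, ν u v = 1) {r : ℕ}
    (e : Fin r → Fin N) (he : Function.Injective e) (F : (Fin r → Λ) → ℝ) :
    ∑ σ : Fin N → Λ, (∏ u, ν u (σ u)) * F (fun i => σ (e i)) =
      ∑ w : Fin r → Λ, (∏ i, ν (e i) (w i)) * F w := by
  classical
  rw [← sum_fiberwise (univ : Finset (Fin N → Λ)) (fun σ => fun i => σ (e i))]
  refine sum_congr rfl fun w _ => ?_
  have h1 : ∑ σ ∈ univ.filter (fun σ : Fin N → Λ => (fun i => σ (e i)) = w),
      (∏ u, ν u (σ u)) * F (fun i => σ (e i)) =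
      (∑ σ ∈ univ.filter (fun σ : Fin N → Λ => (fun i => σ (e i)) = w), ∏ u, ν u (σ u)) * F w := by
    rw [sum_mul]
    refine sum_congr rfl fun σ hσ => ?_
    rw [(mem_filter.mp hσ).2]
  rw [h1]
  congr 1
  set T : Fin N → Finset Λ := fun u => univ.filter fun v => ∀ i, e i = u → v = w i with hT
  have h2 : univ.filter (fun σ : Fin N → Λ => (fun i => σ (e i)) = w) = Fintype.piFinset T := by
    ext σ
    simp only [mem_filter, mem_univ, true_and, Fintype.mem_piFinset, hT, funext_iff]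
    constructor
    · intro h u i hi
      rw [← hi]
      exact h i
    · intro h i
      exact h (e i) i rfl
  rw [h2, ← prod_univ_sum]
  have h3 : ∏ i, ν (e i) (w i) = ∏ u ∈ univ.image e, ∑ v ∈ T u, ν u v := by
    rw [prod_image (fun a _ b _ h => he h)]
    refine prod_congr rfl fun i _ => ?_
    have : T (e i) = {w i} := by
      ext v
      simp only [hT, mem_filter, mem_univ, true_and, mem_singleton]
      constructor
      · intro h; exact h i rfl
      · rintro rfl j hj
        rw [he hj]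
    rw [this, sum_singleton]
  rw [h3]
  symm
  apply prod_subset (subset_univ _)
  intro u _ hu
  have : T u = univ := by
    ext v
    simp only [hT, mem_filter, mem_univ, true_and, iff_true]
    intro i hi
    exact absurd (mem_image.mpr ⟨i, mem_univ i, hi⟩) hu
  rw [this, hν]

theorem sum_section_one {N : ℕ} (ν : Fin N → Λ → ℝ) (hν : ∀ u, ∑ v, ν u v = 1) :
    ∑ σ : Fin N → Λ, (∏ u, ν u (σ u)) = 1 := by
  classical
  have h : ∑ σ : Fin N → Λ, (∏ u, ν u (σ u)) = ∏ u, ∑ v, ν u v := by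
    rw [prod_univ_sum]
    simp
  rw [h]
  simp [hν]

open Classical in
/-- union bound for one coordinate -/
theorem union_one (μ : Law Λ) (r : ℕ) (S : Λ → Prop) :
    ∑ w : Fin r → Λ with ∃ i, S (w i), ∏ i, μ.w (w i) ≤ r * ∑ v with S v, μ.w v := by
  have h1 : ∑ w : Fin r → Λ with ∃ i, S (w i), ∏ i, μ.w (w i) ≤
      ∑ i : Fin r, ∑ w : Fin r → Λ, (∏ j, μ.w (w j)) * (if S (w i) then 1 else 0) := by
    rw [sum_comm, sum_filter]
    refine sum_le_sum fun w _ => ?_
    have hnn : 0 ≤ ∏ i, μ.w (w i) := prod_nonneg fun i _ => μ.nn _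
    split_ifs with h
    · obtain ⟨i, hi⟩ := h
      have := single_le_sum (f := fun i => (∏ j, μ.w (w j)) * (if S (w i) then (1 : ℝ) else 0))
        (fun i _ => mul_nonneg hnn (by split_ifs <;> norm_num)) (mem_univ i)
      simpa [hi] using this
    · exact sum_nonneg fun i _ => mul_nonneg hnn (by split_ifs <;> norm_num)
  refine h1.trans (le_of_eq ?_)
  have h2 : ∀ i : Fin r, ∑ w : Fin r → Λ, (∏ j, μ.w (w j)) * (if S (w i) then (1 : ℝ) else 0) =
      ∑ v with S v, μ.w v := by
    intro i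
    have := sum_section (N := r) (fun _ v => μ.w v) (fun _ => μ.sum_one) (r := 1) (fun _ => i)
      (fun a b _ => Subsingleton.elim a b) (fun w => if S (w 0) then (1 : ℝ) else 0)
    rw [this, sum_filter]
    rw [← (Equiv.funUnique (Fin 1) Λ).symm.sum_comp]
    refine sum_congr rfl fun v _ => ?_
    simp
  rw [sum_congr rfl fun i _ => h2 i]
  simp

open Classical in
/-- union bound for two coordinates -/
theorem union_two (μ : Law Λ) (r : ℕ) (R : Λ → Λ → Prop) (b : ℝ)
    (hb : ∀ v, ∑ v' with R v v', μ.w v' ≤ b) :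
    ∑ w : Fin r → Λ with ∃ i j, i ≠ j ∧ R (w i) (w j), ∏ i, μ.w (w i) ≤ r ^ 2 * b := by
  have hb0 : 0 ≤ b := by
    rcases isEmpty_or_nonempty Λ with h | ⟨⟨v⟩⟩
    · exfalso
      have := μ.sum_one
      simp at this
    · exact le_trans (sum_nonneg fun v' _ => μ.nn v') (hb v)
  have h1 : ∑ w : Fin r → Λ with ∃ i j, i ≠ j ∧ R (w i) (w j), ∏ i, μ.w (w i) ≤
      ∑ z : Fin r × Fin r, ∑ w : Fin r → Λ,
        (∏ j, μ.w (w j)) * (if z.1 ≠ z.2 ∧ R (w z.1) (w z.2) then 1 else 0) := by
    rw [sum_comm, sum_filter]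
    refine sum_le_sum fun w _ => ?_
    have hnn : 0 ≤ ∏ i, μ.w (w i) := prod_nonneg fun i _ => μ.nn _
    split_ifs with h
    · obtain ⟨i, j, hij⟩ := h
      have := single_le_sum (f := fun z : Fin r × Fin r => (∏ j, μ.w (w j)) *
        (if z.1 ≠ z.2 ∧ R (w z.1) (w z.2) then (1 : ℝ) else 0))
        (fun i _ => mul_nonneg hnn (by split_ifs <;> norm_num)) (mem_univ (i, j))
      simpa [hij] using this
    · exact sum_nonneg fun i _ => mul_nonneg hnn (by split_ifs <;> norm_num)
  refine h1.trans ?_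
  have h2 : ∀ z : Fin r × Fin r, ∑ w : Fin r → Λ,
      (∏ j, μ.w (w j)) * (if z.1 ≠ z.2 ∧ R (w z.1) (w z.2) then (1 : ℝ) else 0) ≤ b := by
    rintro ⟨i, j⟩
    by_cases hij : i = j
    · simpa [hij] using hb0
    · have := sum_section (N := r) (fun _ v => μ.w v) (fun _ => μ.sum_one) (r := 2) (![i, j])
        (by
          intro a c hac
          fin_cases a <;> fin_cases c <;> simp_all)
        (fun w => if R (w 0) (w 1) then (1 : ℝ) else 0)
      simp only [ne_eq, hij, not_false_eq_true, true_and]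
      have h3 : ∑ w : Fin r → Λ, (∏ j, μ.w (w j)) * (if R (w i) (w j) then (1 : ℝ) else 0) =
          ∑ w : Fin 2 → Λ, (∏ i, μ.w (w i)) * (if R (w 0) (w 1) then (1 : ℝ) else 0) := by
        rw [← this]
        refine sum_congr rfl fun w _ => ?_
        simp
      rw [h3, ← (finTwoArrowEquiv Λ).symm.sum_comp, Fintype.sum_prod_type]
      calc ∑ v : Λ, ∑ v' : Λ, (∏ i, μ.w ((finTwoArrowEquiv Λ).symm (v, v') i)) *
            (if R ((finTwoArrowEquiv Λ).symm (v, v') 0) ((finTwoArrowEquiv Λ).symm (v, v') 1)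
              then (1 : ℝ) else 0)
          = ∑ v : Λ, μ.w v * ∑ v' with R v v', μ.w v' := by
            refine sum_congr rfl fun v _ => ?_
            rw [sum_filter, mul_sum]
            refine sum_congr rfl fun v' _ => ?_
            simp [Fin.prod_univ_two, finTwoArrowEquiv]
        _ ≤ ∑ v : Λ, μ.w v * b := sum_le_sum fun v _ => mul_le_mul_of_nonneg_left (hb v) (μ.nn v)
        _ = b := by rw [← sum_mul, μ.sum_one, one_mul]
  refine (sum_le_sum fun z _ => h2 z).trans (le_of_eq ?_)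
  rw [sum_const, card_univ, Fintype.card_prod, Fintype.card_fin, nsmul_eq_mul]
  push_cast
  ring

end Vale.Agent.P127.Stk.Poly
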