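import Vale.Agent.P127.Stk.PolyDefs
import Vale.Agent.P127.Stk.PolyDet
import Vale.Agent.P127.Stk.PolyNodeA

/-!
# P127 / Stk : random functions, one key (PROOF.md, section 7)
-/

namespace Vale.Agent.P127.Stk

open Finset Polynomial Vale.Agent.P127

section kp

variable {Ω : Type} [Fintype Ω]

/-- conditional weights given the value of `U` -/
noncomputable def kpn (P : Law Ω) (U : Ω → ℤ) (u : ℤ) (ω : Ω) : ℝ :=
  if U ω = u then P.w ω / P.pr U u else 0

theorem kpn_nonneg (P : Law Ω) (U : Ω → ℤ) (u : ℤ) (ω : Ω) : 0 ≤ kpn P U u ω := by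
  unfold kpn
  split_ifs
  · exact div_nonneg (P.nn ω) (P.pr_nonneg U u)
  · exact le_rfl

theorem kp_pr_eq (P : Law Ω) (U : Ω → ℤ) (u : ℤ) :
    P.pr U u = ∑ ω, if U ω = u then P.w ω else 0 := by
  unfold Law.pr
  rw [sum_filter]
  refine sum_congr rfl fun ω _ => ?_
  by_cases h : U ω = u <;> simp [h]

theorem kpn_sum (P : Law Ω) (U : Ω → ℤ) (u : ℤ) (h : 0 < P.pr U u) : ∑ ω, kpn P U u ω = 1 := by
  have h1 : ∑ ω, kpn P U u ω = (∑ ω, if U ω = u then P.w ω else 0) / P.pr U u := by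
    rw [sum_div]
    refine sum_congr rfl fun ω _ => ?_
    unfold kpn
    split_ifs <;> simp
  rw [h1, ← kp_pr_eq, div_self h.ne']

theorem kp_cw (P : Law Ω) (p : ℕ) (w : Fin (p + 1) → Ω) :
    cw P (fun _ => ()) p w = ∏ i, P.w (w i) := by
  have h1 : P.pr (fun _ => ()) () = 1 := by
    unfold Law.pr
    simp [P.sum_one]
  unfold cw
  rw [if_pos (fun _ => rfl), h1, one_pow, div_one]

theorem kp_idn (P : Law Ω) (U : Ω → ℤ) (M : ℕ) (ω : Ω) :
    idn P (fun _ => ()) U M ω = if 1 ≤ 2 * M * P.pr U (U ω) then 1 / (M * P.pr U (U ω)) else 0 := by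
  have h1 : P.pr (fun _ => ()) () = 1 := by
    unfold Law.pr
    simp [P.sum_one]
  have h2 : P.pr (fun ω => ((), U ω)) ((), U ω) = P.pr U (U ω) := by
    unfold Law.pr
    exact sum_congr (by ext; simp) fun _ _ => rfl
  unfold idn
  rw [h1, h2]

/-- marginal of a product weight -/
theorem kp_marg {r : ℕ} (ν : Fin r → Ω → ℝ) (hν : ∀ i, ∑ ω, ν i ω = 1) (j : Fin r) (G : Ω → ℝ) :
    ∑ w : Fin r → Ω, (∏ i, ν i (w i)) * G (w j) = ∑ ω, ν j ω * G ω := by
  have h1 := Poly.sum_section (Λ := Ω) ν hν (r := 1) (fun _ => j)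
    (fun a b _ => Subsingleton.elim a b) (fun w => G (w 0))
  rw [h1, ← (Equiv.funUnique (Fin 1) Ω).symm.sum_comp]
  refine sum_congr rfl fun v _ => ?_
  simp

open Classical in
/-- the probability that a sample of a progression is bad -/
noncomputable def kpb (P : Law Ω) (U : Ω → ℤ) (k : ℕ) (B : (Fin (k + 2) → Ω) → Prop)
    (z : ℤ × ℤ) : ℝ :=
  ∑ w : Fin (k + 2) → Ω,
    (∏ j : Fin (k + 2), kpn P U (z.1 + ((j : ℕ) : ℤ) * z.2) (w j)) * (if B w then 1 else 0)

open Classical in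
/-- comparison with the weights `apw` -/
theorem kpb_sum (P : Law Ω) (U : Ω → ℤ) (k M : ℕ) (hM : 0 < M) (B : (Fin (k + 2) → Ω) → Prop)
    (A : Finset (ℤ × ℤ))
    (hA : ∀ z ∈ A, ∀ j : Fin (k + 2), 1 ≤ 2 * M * P.pr U (z.1 + ((j : ℕ) : ℤ) * z.2)) :
    ∑ z ∈ A, kpb P U k B z ≤
      (M : ℝ) ^ (k + 2) * ∑ w with B w, apw P (fun _ => ()) U M (k + 1) w := by
  have hMr : (0 : ℝ) < M := by exact_mod_cast hM
  have hapw : ∀ w : Fin (k + 2) → Ω, 0 ≤ apw P (fun _ => ()) U M (k + 1) w := by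
    intro w
    unfold apw
    split_ifs
    · apply mul_nonneg
      · rw [kp_cw]
        exact prod_nonneg fun i _ => P.nn _
      · refine prod_nonneg fun j _ => ?_
        rw [kp_idn]
        split_ifs
        · exact div_nonneg zero_le_one (mul_nonneg hMr.le (P.pr_nonneg _ _))
        · exact le_rfl
    · exact le_rfl
  unfold kpb
  rw [sum_comm, mul_sum, sum_filter]
  refine sum_le_sum fun w _ => ?_
  split_ifs with hB
  · simp only [mul_one]
    by_cases hz : ∃ z0 ∈ A, ∀ j : Fin (k + 2), U (w j) = z0.1 + ((j : ℕ) : ℤ) * z0.2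
    · obtain ⟨z0, hz0, hU⟩ := hz
      have huniq : ∀ z ∈ A, z ≠ z0 → ∏ j : Fin (k + 2), kpn P U (z.1 + ((j : ℕ) : ℤ) * z.2) (w j) = 0 := by
        intro z _ hne
        by_contra hcon
        apply hne
        have hall : ∀ j : Fin (k + 2), U (w j) = z.1 + ((j : ℕ) : ℤ) * z.2 := by
          intro j
          by_contra hj
          apply hcon
          apply prod_eq_zero (mem_univ j)
          unfold kpn
          rw [if_neg hj]
        have h0 := hall 0
        have h0' := hU 0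
        have h1 := hall 1
        have h1' := hU 1
        simp at h0 h0' h1 h1'
        have e1 : z.1 = z0.1 := by rw [← h0, ← h0']
        have e2 : z.2 = z0.2 := by
          rw [h1'] at h1
          rw [e1] at h1
          linarith
        exact Prod.ext e1 e2
      rw [sum_eq_single z0 huniq (fun h => absurd hz0 h)]
      unfold apw
      rw [if_pos, kp_cw]
      · have hgood := hA z0 hz0
        have h2 : ∀ j : Fin (k + 2), kpn P U (z0.1 + ((j : ℕ) : ℤ) * z0.2) (w j) =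
            M * (P.w (w j) * idn P (fun _ => ()) U M (w j)) := by
          intro j
          rw [kp_idn]
          unfold kpn
          rw [if_pos (hU j), hU j, if_pos (hgood j)]
          have hp : 0 < P.pr U (z0.1 + ((j : ℕ) : ℤ) * z0.2) := by
            by_contra hc
            push Not at hc
            have := hgood j
            nlinarith
          field_simp
        rw [prod_congr rfl fun j _ => h2 j, prod_mul_distrib, prod_mul_distrib]
        simp
      · refine ⟨z0.2, fun j => ?_⟩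
        have h0 := hU 0
        have hj := hU j
        simp at h0
        rw [hj, h0]
    · push Not at hz
      have h0 : ∑ z ∈ A, ∏ j : Fin (k + 2), kpn P U (z.1 + ((j : ℕ) : ℤ) * z.2) (w j) = 0 := by
        refine sum_eq_zero fun z hzA => ?_
        obtain ⟨j, hj⟩ := hz z hzA
        apply prod_eq_zero (mem_univ j)
        unfold kpn
        rw [if_neg hj]
      rw [h0]
      exact mul_nonneg (by positivity) (hapw w)
  · simp

open Classical in
/-- choice of a center -/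
theorem kp_center (P : Law Ω) (U : Ω → ℤ) (k : ℕ) (f : Ω → ℝ) (E β : ℝ) (z : ℤ × ℤ)
    (hgood : ∀ j : Fin (k + 2), 0 < P.pr U (z.1 + ((j : ℕ) : ℤ) * z.2))
    (hb : kpb P U k (fun w => E < |∑ l : Fin (k + 2),
      (-1 : ℝ) ^ (l : ℕ) * ((k + 1).choose l : ℝ) * f (w l)|) z ≤ β) :
    ∃ m : ℝ, ∑ ω, kpn P U z.1 ω * (if E < |f ω - m| then 1 else 0) ≤ β := by
  by_contra hcon
  push Not at hcon
  set ν : Fin (k + 1) → Ω → ℝ := fun j => kpn P U (z.1 + ((j.succ : ℕ) : ℤ) * z.2) with hν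
  have hν1 : ∀ j, ∑ ω, ν j ω = 1 := fun j => kpn_sum P U _ (hgood j.succ)
  have htot : ∑ w : Fin (k + 1) → Ω, ∏ j, ν j (w j) = 1 := Poly.sum_section_one (Λ := Ω) ν hν1
  set c : (Fin (k + 1) → Ω) → ℝ := fun w =>
    -∑ l : Fin (k + 1), (-1 : ℝ) ^ (l.succ : ℕ) * ((k + 1).choose l.succ : ℝ) * f (w l) with hc
  have h1 : kpb P U k (fun w => E < |∑ l : Fin (k + 2),
      (-1 : ℝ) ^ (l : ℕ) * ((k + 1).choose l : ℝ) * f (w l)|) z =
      ∑ w : Fin (k + 1) → Ω, (∏ j, ν j (w j)) *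
        ∑ ω, kpn P U z.1 ω * (if E < |f ω - c w| then 1 else 0) := by
    unfold kpb
    rw [← (Fin.consEquiv (fun _ : Fin (k + 2) => Ω)).sum_comp, Fintype.sum_prod_type, sum_comm]
    refine sum_congr rfl fun w _ => ?_
    rw [mul_sum]
    refine sum_congr rfl fun ω _ => ?_
    have e1 : ∏ j : Fin (k + 2), kpn P U (z.1 + ((j : ℕ) : ℤ) * z.2)
        ((Fin.consEquiv (fun _ : Fin (k + 2) => Ω)) (ω, w) j) =
        kpn P U z.1 ω * ∏ j, ν j (w j) := by
      rw [Fin.prod_univ_succ]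
      simp [hν, Fin.consEquiv]
    have e2 : ∑ l : Fin (k + 2), (-1 : ℝ) ^ (l : ℕ) * ((k + 1).choose l : ℝ) *
        f ((Fin.consEquiv (fun _ : Fin (k + 2) => Ω)) (ω, w) l) = f ω - c w := by
      rw [Fin.sum_univ_succ]
      simp [hc, Fin.consEquiv]
    rw [e1]
    simp only [e2]
    ring
  have h2 : β < kpb P U k (fun w => E < |∑ l : Fin (k + 2),
      (-1 : ℝ) ^ (l : ℕ) * ((k + 1).choose l : ℝ) * f (w l)|) z := by
    rw [h1]
    have h3 : ∃ w0 : Fin (k + 1) → Ω, 0 < ∏ j, ν j (w0 j) := by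
      by_contra hno
      push Not at hno
      have : ∑ w : Fin (k + 1) → Ω, ∏ j, ν j (w j) ≤ 0 := sum_nonpos fun w _ => hno w
      linarith
    obtain ⟨w0, hw0⟩ := h3
    calc β = ∑ w : Fin (k + 1) → Ω, (∏ j, ν j (w j)) * β := by rw [← sum_mul, htot, one_mul]
      _ < _ := by
        apply sum_lt_sum
        · intro w _
          apply mul_le_mul_of_nonneg_left (hcon _).le
          exact prod_nonneg fun j _ => kpn_nonneg _ _ _ _
        · exact ⟨w0, mem_univ _, mul_lt_mul_of_pos_left (hcon _) hw0⟩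
  linarith

open Classical in
/-- a good sample along a progression -/
theorem kp_sample (P : Law Ω) (U : Ω → ℤ) (k : ℕ) (B : (Fin (k + 2) → Ω) → Prop)
    (S : Fin (k + 2) → Ω → Prop) (β : ℝ) (hβ : (k + 3) * β < 1) (z : ℤ × ℤ)
    (hgood : ∀ j : Fin (k + 2), 0 < P.pr U (z.1 + ((j : ℕ) : ℤ) * z.2))
    (hb : kpb P U k B z ≤ β)
    (hS : ∀ j : Fin (k + 2), ∑ ω, kpn P U (z.1 + ((j : ℕ) : ℤ) * z.2) ω * (if S j ω then 1 else 0) ≤ β) :
    ∃ w : Fin (k + 2) → Ω, ¬ B w ∧ ∀ j : Fin (k + 2), U (w j) = z.1 + ((j : ℕ) : ℤ) * z.2 ∧ ¬ S j (w j) := by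
  by_contra hcon
  push Not at hcon
  set ν : Fin (k + 2) → Ω → ℝ := fun j => kpn P U (z.1 + ((j : ℕ) : ℤ) * z.2) with hν
  have hν1 : ∀ j, ∑ ω, ν j ω = 1 := fun j => kpn_sum P U _ (hgood j)
  have htot : ∑ w : Fin (k + 2) → Ω, ∏ j, ν j (w j) = 1 := Poly.sum_section_one (Λ := Ω) ν hν1
  have hpt : ∀ w : Fin (k + 2) → Ω, ∏ j, ν j (w j) ≤
      (∏ j, ν j (w j)) * (if B w then 1 else 0) +
        ∑ j, (∏ i, ν i (w i)) * (if S j (w j) then 1 else 0) := by
    intro w
    have hnn : 0 ≤ ∏ j, ν j (w j) := prod_nonneg fun j _ => kpn_nonneg _ _ _ _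
    have hnn2 : ∀ j ∈ (univ : Finset (Fin (k + 2))),
        0 ≤ (∏ i, ν i (w i)) * (if S j (w j) then (1 : ℝ) else 0) := fun j _ =>
      mul_nonneg hnn (by split_ifs <;> norm_num)
    by_cases hB : B w
    · simp only [hB, if_true, mul_one]
      linarith [sum_nonneg hnn2]
    · by_cases hU : ∀ j, U (w j) = z.1 + ((j : ℕ) : ℤ) * z.2
      · obtain ⟨j, hj⟩ : ∃ j, S j (w j) := by
          by_contra hno
          push Not at hno
          obtain ⟨j, hj⟩ := hcon w hB
          exact hno j (hj (hU j))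
        have := single_le_sum hnn2 (mem_univ j)
        simp only [hj, if_true, mul_one] at this
        simp only [hB, if_false, mul_zero, zero_add]
        exact this
      · push Not at hU
        obtain ⟨j, hj⟩ := hU
        have h0 : ∏ j, ν j (w j) = 0 := by
          apply prod_eq_zero (mem_univ j)
          simp only [hν, kpn]
          rw [if_neg hj]
        rw [h0]
        simp
  have h1 : ∑ w : Fin (k + 2) → Ω, ∏ j, ν j (w j) ≤ β + (k + 2 : ℕ) * β := by
    refine (sum_le_sum fun w _ => hpt w).trans ?_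
    rw [sum_add_distrib]
    refine add_le_add hb ?_
    rw [sum_comm]
    calc ∑ j : Fin (k + 2), ∑ w : Fin (k + 2) → Ω,
          (∏ i, ν i (w i)) * (if S j (w j) then (1 : ℝ) else 0) ≤ ∑ _j : Fin (k + 2), β := by
          refine sum_le_sum fun j _ => ?_
          rw [kp_marg ν hν1 j (fun ω => if S j ω then (1 : ℝ) else 0)]
          exact hS j
      _ = (k + 2 : ℕ) * β := by simp
  rw [htot] at h1
  push_cast at h1
  linarith

end kp

/-! ### Counting progressions -/

theorem kp_aps_bounds (k M : ℕ) (z : ℤ × ℤ) (hz : z ∈ aps k M) (j : ℕ) (hj : j ≤ k + 1) :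
    0 ≤ z.1 + (j : ℤ) * z.2 ∧ z.1 + (j : ℤ) * z.2 < M := by
  unfold aps at hz
  simp only [mem_filter, mem_product, mem_Ico, mem_Ioo] at hz
  obtain ⟨⟨⟨h1, h2⟩, _, _⟩, h3, h4⟩ := hz
  have hjz : (j : ℤ) ≤ ((k + 1 : ℕ) : ℤ) := by exact_mod_cast hj
  have hj0 : (0 : ℤ) ≤ j := by positivity
  rcases le_total 0 z.2 with h | h
  · have e1 : 0 ≤ (j : ℤ) * z.2 := mul_nonneg hj0 h
    have e2 : (j : ℤ) * z.2 ≤ ((k + 1 : ℕ) : ℤ) * z.2 := mul_le_mul_of_nonneg_right hjz h
    constructor <;> linarith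
  · have e1 : (j : ℤ) * z.2 ≤ 0 := mul_nonpos_of_nonneg_of_nonpos hj0 h
    have e2 : ((k + 1 : ℕ) : ℤ) * z.2 ≤ (j : ℤ) * z.2 := mul_le_mul_of_nonpos_right hjz h
    constructor <;> linarith

open Classical in
/-- progressions with a vertex in a small set -/
theorem kp_count_vertex (k M : ℕ) (S : Finset ℤ) :
    (((aps k M).filter fun z => ∃ j : Fin (k + 2), z.1 + ((j : ℕ) : ℤ) * z.2 ∈ S).card : ℝ) ≤
      (k + 2) * (2 * M * S.card) := by
  have h1 : ((aps k M).filter fun z => ∃ j : Fin (k + 2), z.1 + ((j : ℕ) : ℤ) * z.2 ∈ S) ⊆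
      (univ : Finset (Fin (k + 2))).biUnion fun j =>
        (aps k M).filter fun z => z.1 + ((j : ℕ) : ℤ) * z.2 ∈ S := by
    intro z hz
    rw [mem_filter] at hz
    obtain ⟨hz1, j, hj⟩ := hz
    rw [mem_biUnion]
    exact ⟨j, mem_univ j, mem_filter.mpr ⟨hz1, hj⟩⟩
  have h2 : ∀ j : Fin (k + 2), ((aps k M).filter fun z => z.1 + ((j : ℕ) : ℤ) * z.2 ∈ S).card ≤
      2 * M * S.card := by
    intro j
    have h3 : ((aps k M).filter fun z => z.1 + ((j : ℕ) : ℤ) * z.2 ∈ S).card ≤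
        (S ×ˢ Ioo (-(M : ℤ)) M).card := by
      apply card_le_card_of_injOn (fun z => (z.1 + ((j : ℕ) : ℤ) * z.2, z.2))
      · intro z hz
        rw [coe_filter] at hz
        obtain ⟨hz1, hz2⟩ := hz
        unfold aps at hz1
        simp only [mem_filter, mem_product] at hz1
        simp only [coe_product, Set.mem_prod, mem_coe]
        exact ⟨hz2, hz1.1.2⟩
      · intro a _ b _ hab
        simp only [Prod.mk.injEq] at hab
        obtain ⟨h4, h5⟩ := hab
        rw [h5] at h4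
        exact Prod.ext (by linarith) h5
    refine h3.trans ?_
    rw [card_product, mul_comm]
    apply Nat.mul_le_mul_right
    rw [Int.card_Ioo]
    omega
  have h3 : ((aps k M).filter fun z => ∃ j : Fin (k + 2), z.1 + ((j : ℕ) : ℤ) * z.2 ∈ S).card ≤
      (k + 2) * (2 * M * S.card) := by
    refine (card_le_card h1).trans (card_biUnion_le.trans ?_)
    calc ∑ j : Fin (k + 2), ((aps k M).filter fun z => z.1 + ((j : ℕ) : ℤ) * z.2 ∈ S).card ≤
          ∑ _j : Fin (k + 2), 2 * M * S.card := sum_le_sum fun j _ => h2 j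
      _ = (k + 2) * (2 * M * S.card) := by simp
  exact_mod_cast h3

/-- many progressions start at every point -/
theorem kp_count_start (k M : ℕ) (x : ℤ) (hx : 0 ≤ x ∧ x < M) :
    (M : ℝ) ≤ 2 * (k + 1) * (((aps k M).filter fun z => z.1 = x).card : ℝ) := by
  obtain ⟨hx0, hxM⟩ := hx
  obtain ⟨y, rfl⟩ := Int.eq_ofNat_of_zero_le hx0
  have hyM : y < M := by exact_mod_cast hxM
  by_cases hc : 2 * y < M
  · set q : ℕ := (M - 1 - y) / (k + 1) with hq
    have h1 : (Finset.range (q + 1)).card ≤ ((aps k M).filter fun z => z.1 = (y : ℤ)).card := by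
      apply card_le_card_of_injOn (fun i : ℕ => ((y : ℤ), (i : ℤ)))
      · intro i hi
        rw [coe_range, Set.mem_Iio] at hi
        have hi2 : i * (k + 1) ≤ M - 1 - y :=
          (Nat.mul_le_mul_right _ (Nat.lt_succ_iff.mp hi)).trans (Nat.div_mul_le_self _ _)
        have hi3 : i ≤ i * (k + 1) := Nat.le_mul_of_pos_right i (Nat.succ_pos k)
        rw [coe_filter]
        refine ⟨?_, rfl⟩
        unfold aps
        simp only [mem_filter, mem_product, mem_Ico, mem_Ioo]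
        have e1 : ((k + 1 : ℕ) : ℤ) * (i : ℤ) = ((i * (k + 1) : ℕ) : ℤ) := by push_cast; ring
        rw [e1]
        omega
      · intro a _ b _ hab
        simp only [Prod.mk.injEq] at hab
        exact_mod_cast hab.2
    rw [card_range] at h1
    have h2 : M - 1 - y < (k + 1) * (q + 1) := by
      have := Nat.lt_mul_div_succ (M - 1 - y) (Nat.succ_pos k)
      simpa using this
    have h3 : M ≤ 2 * ((k + 1) * (q + 1)) := by omega
    have h4 : M ≤ 2 * ((k + 1) * ((aps k M).filter fun z => z.1 = (y : ℤ)).card) :=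
      h3.trans (Nat.mul_le_mul_left _ (Nat.mul_le_mul_left _ h1))
    have h5 : (M : ℝ) ≤ 2 * ((k + 1) * (((aps k M).filter fun z => z.1 = (y : ℤ)).card : ℝ)) := by
      exact_mod_cast h4
    linarith
  · set q : ℕ := y / (k + 1) with hq
    have h1 : (Finset.range (q + 1)).card ≤ ((aps k M).filter fun z => z.1 = (y : ℤ)).card := by
      apply card_le_card_of_injOn (fun i : ℕ => ((y : ℤ), -(i : ℤ)))
      · intro i hi
        rw [coe_range, Set.mem_Iio] at hi
        have hi2 : i * (k + 1) ≤ y :=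
          (Nat.mul_le_mul_right _ (Nat.lt_succ_iff.mp hi)).trans (Nat.div_mul_le_self _ _)
        have hi3 : i ≤ i * (k + 1) := Nat.le_mul_of_pos_right i (Nat.succ_pos k)
        rw [coe_filter]
        refine ⟨?_, rfl⟩
        unfold aps
        simp only [mem_filter, mem_product, mem_Ico, mem_Ioo]
        have e1 : ((k + 1 : ℕ) : ℤ) * (-(i : ℤ)) = -((i * (k + 1) : ℕ) : ℤ) := by push_cast; ring
        rw [e1]
        omega
      · intro a _ b _ hab
        simp only [Prod.mk.injEq, neg_inj] at hab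
        exact_mod_cast hab.2
    rw [card_range] at h1
    have h2 : y < (k + 1) * (q + 1) := by
      have := Nat.lt_mul_div_succ y (Nat.succ_pos k)
      simpa using this
    have h3 : M ≤ 2 * ((k + 1) * (q + 1)) := by omega
    have h4 : M ≤ 2 * ((k + 1) * ((aps k M).filter fun z => z.1 = (y : ℤ)).card) :=
      h3.trans (Nat.mul_le_mul_left _ (Nat.mul_le_mul_left _ h1))
    have h5 : (M : ℝ) ≤ 2 * ((k + 1) * (((aps k M).filter fun z => z.1 = (y : ℤ)).card : ℝ)) := by
      exact_mod_cast h4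
    linarith

theorem kp_sum_pr_le {Ω : Type} [Fintype Ω] (P : Law Ω) (U : Ω → ℤ) (F : Finset ℤ) :
    ∑ x ∈ F, P.pr U x ≤ 1 := by
  have h1 : ∑ x ∈ F, P.pr U x = ∑ ω, ∑ x ∈ F, (if U ω = x then P.w ω else 0) := by
    rw [sum_comm]
    exact sum_congr rfl fun x _ => kp_pr_eq P U x
  rw [h1, ← P.sum_one]
  refine sum_le_sum fun ω _ => ?_
  rw [sum_ite_eq]
  split_ifs
  · exact le_rfl
  · exact P.nn ω

open Classical in
/-- one key, random values: if the differences along the progression law are small, the values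
are close to a polynomial (`M = 2^n`) -/
theorem key_poly (k : ℕ) (η : ℝ) (hη : 0 < η) : ∃ δ : ℝ, 0 < δ ∧ ∃ C : ℝ, 0 < C ∧ ∃ M0 : ℕ,
    ∀ n : ℕ, M0 ≤ 2 ^ n → ∀ (Ω : Type) [Fintype Ω] (P : Law Ω) (U : Ω → ℤ) (f : Ω → ℝ) (E : ℝ),
    0 < E → (∀ ω, 0 < P.w ω → 0 ≤ U ω ∧ U ω < 2 ^ n) →
    ∑ u ∈ Ico (0 : ℤ) (2 ^ n), |P.pr U u - 1 / 2 ^ n| ≤ δ →
    ∑ w with E < |∑ l : Fin (k + 2), (-1 : ℝ) ^ (l : ℕ) * ((k + 1).choose l : ℝ) * f (w l)|,
      apw P (fun _ => ()) U (2 ^ n) (k + 1) w ≤ δ / (2 ^ n) ^ k →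
    ∃ q : ℝ[X], q.natDegree ≤ k ∧
      ∑ ω with C * (n + 1) * E < |f ω - q.eval (U ω : ℝ)|, P.w ω ≤ η := by
  have hk0 : (0 : ℝ) ≤ k := Nat.cast_nonneg k
  set β : ℝ := min (1 / (2 * (k + 3))) (η / 8) with hβdef
  have hβ : 0 < β := lt_min (by positivity) (by positivity)
  have hβ1 : (k + 3) * β < 1 := by
    have h1 : β ≤ 1 / (2 * (k + 3)) := min_le_left _ _
    have h2 : ((k : ℝ) + 3) * β ≤ (k + 3) * (1 / (2 * (k + 3))) :=
      mul_le_mul_of_nonneg_left h1 (by positivity)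
    have h3 : ((k : ℝ) + 3) * (1 / (2 * (k + 3))) = 1 / 2 := by
      field_simp
    linarith
  have hβ2 : β ≤ η / 8 := min_le_right _ _
  obtain ⟨δ', hδ', C, hC, M0, hdet⟩ := det_poly k (η / 8) (by positivity)
  set A : ℝ := 4 * (k + 2) + 1 / β with hA
  have hA0 : 0 < A := by positivity
  set D : ℝ := 1 + 4 * (k + 1) * (k + 2) with hD
  have hD0 : 0 < D := by positivity
  set δ : ℝ := min (δ' / (D * A)) (min (η / 8) (η / (16 * (k + 1) * A))) with hδdef
  have hδ : 0 < δ := lt_min (by positivity) (lt_min (by positivity) (by positivity))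
  have hδ1 : D * (A * δ) ≤ δ' := by
    have h1 : δ ≤ δ' / (D * A) := min_le_left _ _
    rw [le_div_iff₀ (by positivity)] at h1
    linarith
  have hδ2 : δ ≤ η / 8 := (min_le_right _ _).trans (min_le_left _ _)
  have hδ3 : 2 * (k + 1) * (A * δ) ≤ η / 8 := by
    have h1 : δ ≤ η / (16 * (k + 1) * A) := (min_le_right _ _).trans (min_le_right _ _)
    rw [le_div_iff₀ (by positivity)] at h1
    linarith
  refine ⟨δ, hδ, C * (1 + 2 ^ (k + 1)) + 1, by positivity, M0, ?_⟩
  intro n hn Ω _ P U f E hE hU hl1 hbad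
  set M : ℕ := 2 ^ n with hM
  have hM0 : 0 < M := by positivity
  have hMr : (0 : ℝ) < M := by exact_mod_cast hM0
  have hMz : ((2 : ℤ) ^ n) = (M : ℤ) := by rw [hM]; push_cast; rfl
  have hMr2 : ((2 : ℝ) ^ n) = (M : ℝ) := by rw [hM]; push_cast; rfl
  rw [hMz] at hl1
  rw [hMr2] at hl1 hbad
  simp only [hMz] at hU
  set good : ℤ → Prop := fun u => 1 ≤ 2 * M * P.pr U u with hgood
  have hgoodpos : ∀ u, good u → 0 < P.pr U u := by
    intro u hu
    by_contra hc
    push Not at hc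
    simp only [hgood] at hu
    nlinarith
  -- the points with small probability
  set Sb : Finset ℤ := (Ico (0 : ℤ) M).filter fun u => ¬ good u with hSb
  have hSbcard : (Sb.card : ℝ) ≤ 2 * M * δ := by
    have h1 : ∑ u ∈ Sb, (1 / (2 * M) : ℝ) ≤ ∑ u ∈ Sb, |P.pr U u - 1 / M| := by
      refine sum_le_sum fun u hu => ?_
      rw [hSb, mem_filter] at hu
      have h2 := hu.2
      simp only [hgood] at h2
      push Not at h2
      have h3 : P.pr U u ≤ 1 / (2 * M) := by
        rw [le_div_iff₀ (by positivity)]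
        linarith
      have h4 : (1 : ℝ) / M = 2 * (1 / (2 * M)) := by field_simp
      rw [abs_sub_comm]
      refine le_trans ?_ (le_abs_self _)
      linarith
    have h2 : ∑ u ∈ Sb, |P.pr U u - 1 / M| ≤ δ :=
      (sum_le_sum_of_subset_of_nonneg (filter_subset _ _) fun _ _ _ => abs_nonneg _).trans hl1
    rw [sum_const, nsmul_eq_mul] at h1
    have h3 : (Sb.card : ℝ) * (1 / (2 * M)) ≤ δ := h1.trans h2
    rw [mul_one_div, div_le_iff₀ (by positivity)] at h3
    linarith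
  set B : (Fin (k + 2) → Ω) → Prop := fun w =>
    E < |∑ l : Fin (k + 2), (-1 : ℝ) ^ (l : ℕ) * ((k + 1).choose l : ℝ) * f (w l)| with hB
  set Zg : Finset (ℤ × ℤ) := (aps k M).filter fun z =>
    ∀ j : Fin (k + 2), good (z.1 + ((j : ℕ) : ℤ) * z.2) with hZg
  have hkpb0 : ∀ z, 0 ≤ kpb P U k B z := by
    intro z
    unfold kpb
    refine sum_nonneg fun w _ => mul_nonneg (prod_nonneg fun j _ => kpn_nonneg _ _ _ _) ?_
    split_ifs <;> norm_num
  have hsumb : ∑ z ∈ Zg, kpb P U k B z ≤ δ * (M : ℝ) ^ 2 := by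
    have h1 := kpb_sum P U k M hM0 B Zg (fun z hz j => (mem_filter.mp hz).2 j)
    refine h1.trans ?_
    have h2 : (M : ℝ) ^ (k + 2) * ∑ w with B w, apw P (fun _ => ()) U M (k + 1) w ≤
        (M : ℝ) ^ (k + 2) * (δ / (M : ℝ) ^ k) := mul_le_mul_of_nonneg_left hbad (by positivity)
    refine h2.trans (le_of_eq ?_)
    rw [pow_add]
    field_simp
  -- bad progressions
  set Zbad : Finset (ℤ × ℤ) := (aps k M).filter fun z =>
    ¬ ((∀ j : Fin (k + 2), good (z.1 + ((j : ℕ) : ℤ) * z.2)) ∧ kpb P U k B z ≤ β) with hZbad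
  have hZbadcard : (Zbad.card : ℝ) ≤ A * δ * (M : ℝ) ^ 2 := by
    set Z1 := (aps k M).filter fun z => ∃ j : Fin (k + 2), z.1 + ((j : ℕ) : ℤ) * z.2 ∈ Sb with hZ1
    set Z2 := Zg.filter fun z => β < kpb P U k B z with hZ2
    have hsub : Zbad ⊆ Z1 ∪ Z2 := by
      intro z hz
      rw [hZbad, mem_filter] at hz
      obtain ⟨hz1, hz2⟩ := hz
      rw [mem_union]
      by_cases hg : ∀ j : Fin (k + 2), good (z.1 + ((j : ℕ) : ℤ) * z.2)
      · right
        rw [hZ2, mem_filter, hZg, mem_filter]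
        refine ⟨⟨hz1, hg⟩, ?_⟩
        by_contra hc
        exact hz2 ⟨hg, not_lt.mp hc⟩
      · left
        push Not at hg
        obtain ⟨j, hj⟩ := hg
        rw [hZ1, mem_filter]
        refine ⟨hz1, j, ?_⟩
        rw [hSb, mem_filter, mem_Ico]
        exact ⟨kp_aps_bounds k M z hz1 j (by omega), hj⟩
    have h1 : (Z1.card : ℝ) ≤ (k + 2) * (2 * M * Sb.card) := kp_count_vertex k M Sb
    have h2 : (Z2.card : ℝ) * β ≤ δ * (M : ℝ) ^ 2 := by
      calc (Z2.card : ℝ) * β = ∑ _z ∈ Z2, β := by rw [sum_const, nsmul_eq_mul]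
        _ ≤ ∑ z ∈ Z2, kpb P U k B z := sum_le_sum fun z hz => (mem_filter.mp hz).2.le
        _ ≤ ∑ z ∈ Zg, kpb P U k B z :=
            sum_le_sum_of_subset_of_nonneg (filter_subset _ _) fun z _ _ => hkpb0 z
        _ ≤ δ * (M : ℝ) ^ 2 := hsumb
    have h3 : (Z2.card : ℝ) ≤ 1 / β * δ * (M : ℝ) ^ 2 := by
      rw [← le_div_iff₀ hβ] at h2
      refine h2.trans (le_of_eq ?_)
      ring
    have h4 : (Zbad.card : ℝ) ≤ Z1.card + Z2.card := by
      exact_mod_cast (card_le_card hsub).trans (card_union_le _ _)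
    have h5 : (k + 2 : ℝ) * (2 * M * Sb.card) ≤ (k + 2) * (2 * M * (2 * M * δ)) := by
      apply mul_le_mul_of_nonneg_left _ (by positivity)
      exact mul_le_mul_of_nonneg_left hSbcard (by positivity)
    have h6 : (k + 2 : ℝ) * (2 * M * (2 * M * δ)) = 4 * (k + 2) * δ * (M : ℝ) ^ 2 := by ring
    rw [hA]
    have h7 : (4 * (k + 2) + 1 / β) * δ * (M : ℝ) ^ 2 =
        4 * (k + 2) * δ * (M : ℝ) ^ 2 + 1 / β * δ * (M : ℝ) ^ 2 := by ring
    rw [h7]
    linarith
  -- bad starting points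
  set Xb : Finset ℤ := (Ico (0 : ℤ) M).filter fun x => ∀ z ∈ aps k M, z.1 = x → z ∈ Zbad with hXb
  have hXbcard : (Xb.card : ℝ) * M ≤ 2 * (k + 1) * Zbad.card := by
    have h1 : (Xb.card : ℝ) * M ≤
        ∑ x ∈ Xb, 2 * (k + 1) * (((aps k M).filter fun z => z.1 = x).card : ℝ) := by
      calc (Xb.card : ℝ) * M = ∑ _x ∈ Xb, (M : ℝ) := by rw [sum_const, nsmul_eq_mul]
        _ ≤ _ := sum_le_sum fun x hx => by
          rw [hXb, mem_filter, mem_Ico] at hx
          exact kp_count_start k M x hx.1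
    have h2 : ∑ x ∈ Xb, ((aps k M).filter fun z => z.1 = x).card ≤ Zbad.card := by
      have h3 : ∑ x ∈ Xb, ((aps k M).filter fun z => z.1 = x).card =
          ∑ x ∈ Xb, (Zbad.filter fun z => z.1 = x).card := by
        refine sum_congr rfl fun x hx => ?_
        congr 1
        ext z
        simp only [mem_filter]
        constructor
        · rintro ⟨h4, h5⟩
          exact ⟨(mem_filter.mp hx).2 z h4 h5, h5⟩
        · rintro ⟨h4, h5⟩
          exact ⟨(mem_filter.mp h4).1, h5⟩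
      rw [h3]
      have h4 := card_eq_sum_card_fiberwise (s := Zbad.filter fun z => z.1 ∈ Xb) (t := Xb)
        (f := fun z : ℤ × ℤ => z.1) (fun z hz => by
          rw [mem_coe, mem_filter] at hz
          exact hz.2)
      have h5 : ∑ x ∈ Xb, (Zbad.filter fun z => z.1 = x).card =
          (Zbad.filter fun z => z.1 ∈ Xb).card := by
        rw [h4]
        refine sum_congr rfl fun x hx => ?_
        congr 1
        ext z
        simp only [mem_filter]
        constructor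
        · rintro ⟨h6, h7⟩
          exact ⟨⟨h6, h7 ▸ hx⟩, h7⟩
        · rintro ⟨⟨h6, _⟩, h7⟩
          exact ⟨h6, h7⟩
      rw [h5]
      exact card_filter_le _ _
    refine h1.trans ?_
    rw [← mul_sum]
    apply mul_le_mul_of_nonneg_left _ (by positivity)
    exact_mod_cast h2
  -- centers
  have hcenter : ∀ x : ℤ, ∃ m : ℝ, x ∈ Ico (0 : ℤ) M → x ∉ Xb → good x ∧
      ∑ ω, kpn P U x ω * (if E < |f ω - m| then 1 else 0) ≤ β := by
    intro x
    by_cases hx : x ∈ Ico (0 : ℤ) M ∧ x ∉ Xb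
    · obtain ⟨hx1, hx2⟩ := hx
      have h1 : ∃ z ∈ aps k M, z.1 = x ∧ z ∉ Zbad := by
        by_contra hno
        push Not at hno
        apply hx2
        rw [hXb, mem_filter]
        exact ⟨hx1, hno⟩
      obtain ⟨z, hz1, hz2, hz3⟩ := h1
      have h2 : (∀ j : Fin (k + 2), good (z.1 + ((j : ℕ) : ℤ) * z.2)) ∧ kpb P U k B z ≤ β := by
        by_contra hc
        exact hz3 (mem_filter.mpr ⟨hz1, hc⟩)
      obtain ⟨m, hm⟩ := kp_center P U k f E β z (fun j => hgoodpos _ (h2.1 j)) h2.2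
      refine ⟨m, fun _ _ => ⟨?_, ?_⟩⟩
      · have := h2.1 0
        simpa [hz2] using this
      · rw [hz2] at hm
        exact hm
    · exact ⟨0, fun h1 h2 => absurd ⟨h1, h2⟩ hx⟩
  choose m hm using hcenter
  -- the differences of the centers
  have hsub2 : ((aps k M).filter fun z => (1 + 2 ^ (k + 1)) * E < |apd k m z.1 z.2|) ⊆
      Zbad ∪ (aps k M).filter fun z => ∃ j : Fin (k + 2), z.1 + ((j : ℕ) : ℤ) * z.2 ∈ Xb := by
    intro z hz
    rw [mem_filter] at hz
    obtain ⟨hz1, hz2⟩ := hz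
    rw [mem_union]
    by_contra hcon
    push Not at hcon
    obtain ⟨hc1, hc2⟩ := hcon
    have h2 : (∀ j : Fin (k + 2), good (z.1 + ((j : ℕ) : ℤ) * z.2)) ∧ kpb P U k B z ≤ β := by
      by_contra hc
      exact hc1 (mem_filter.mpr ⟨hz1, hc⟩)
    have h3 : ∀ j : Fin (k + 2), z.1 + ((j : ℕ) : ℤ) * z.2 ∉ Xb := by
      intro j hj
      exact hc2 (mem_filter.mpr ⟨hz1, j, hj⟩)
    obtain ⟨w, hw1, hw2⟩ := kp_sample P U k B
      (fun j ω => E < |f ω - m (z.1 + ((j : ℕ) : ℤ) * z.2)|) β hβ1 z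
      (fun j => hgoodpos _ (h2.1 j)) h2.2 (fun j =>
        (hm (z.1 + ((j : ℕ) : ℤ) * z.2) (by
          rw [mem_Ico]
          exact kp_aps_bounds k M z hz1 j (by omega)) (h3 j)).2)
    simp only [hB, not_lt] at hw1
    have h4 : apd k m z.1 z.2 = ∑ l : Fin (k + 2), (-1 : ℝ) ^ (l : ℕ) * ((k + 1).choose l : ℝ) *
        m (z.1 + ((l : ℕ) : ℤ) * z.2) := by
      unfold apd
      rw [sum_range]
    have h5 : apd k m z.1 z.2 = (∑ l : Fin (k + 2), (-1 : ℝ) ^ (l : ℕ) *
        ((k + 1).choose l : ℝ) * f (w l)) - ∑ l : Fin (k + 2), (-1 : ℝ) ^ (l : ℕ) *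
        ((k + 1).choose l : ℝ) * (f (w l) - m (z.1 + ((l : ℕ) : ℤ) * z.2)) := by
      rw [h4, ← sum_sub_distrib]
      exact sum_congr rfl fun l _ => by ring
    have h6 : |∑ l : Fin (k + 2), (-1 : ℝ) ^ (l : ℕ) *
        ((k + 1).choose l : ℝ) * (f (w l) - m (z.1 + ((l : ℕ) : ℤ) * z.2))| ≤ 2 ^ (k + 1) * E := by
      refine (abs_sum_le_sum_abs _ _).trans ?_
      have h7 : ∀ l : Fin (k + 2), |(-1 : ℝ) ^ (l : ℕ) *
          ((k + 1).choose l : ℝ) * (f (w l) - m (z.1 + ((l : ℕ) : ℤ) * z.2))| ≤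
          ((k + 1).choose l : ℝ) * E := by
        intro l
        rw [abs_mul, abs_mul, abs_pow, abs_neg, abs_one, one_pow, one_mul, Nat.abs_cast]
        exact mul_le_mul_of_nonneg_left (not_lt.mp (hw2 l).2) (Nat.cast_nonneg _)
      refine (sum_le_sum fun l _ => h7 l).trans (le_of_eq ?_)
      rw [← sum_mul]
      congr 1
      have h8 := Nat.sum_range_choose (k + 1)
      rw [sum_range] at h8
      exact_mod_cast h8
    have h7 : |apd k m z.1 z.2| ≤ (1 + 2 ^ (k + 1)) * E := by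
      rw [h5]
      refine (abs_sub _ _).trans ?_
      linarith
    linarith
  have hcount : (((aps k M).filter fun z =>
      (1 + 2 ^ (k + 1)) * E < |apd k m z.1 z.2|).card : ℝ) ≤ δ' * (M : ℝ) ^ 2 := by
    have h1 : (((aps k M).filter fun z =>
        (1 + 2 ^ (k + 1)) * E < |apd k m z.1 z.2|).card : ℝ) ≤ Zbad.card +
        (((aps k M).filter fun z => ∃ j : Fin (k + 2), z.1 + ((j : ℕ) : ℤ) * z.2 ∈ Xb).card : ℝ) := by
      exact_mod_cast (card_le_card hsub2).trans (card_union_le _ _)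
    have h2 := kp_count_vertex k M Xb
    have h3 : (k + 2 : ℝ) * (2 * M * Xb.card) ≤ 4 * (k + 1) * (k + 2) * Zbad.card := by
      have e1 : (k + 2 : ℝ) * (2 * M * Xb.card) = 2 * (k + 2) * (Xb.card * M) := by ring
      rw [e1]
      calc 2 * (k + 2 : ℝ) * (Xb.card * M) ≤ 2 * (k + 2 : ℝ) * (2 * (k + 1) * Zbad.card) :=
            mul_le_mul_of_nonneg_left hXbcard (by positivity)
        _ = _ := by ring
    have h4 : (Zbad.card : ℝ) + 4 * (k + 1) * (k + 2) * Zbad.card ≤ δ' * (M : ℝ) ^ 2 := by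
      calc (Zbad.card : ℝ) + 4 * (k + 1) * (k + 2) * Zbad.card = D * Zbad.card := by
            rw [hD]; ring
        _ ≤ D * (A * δ * (M : ℝ) ^ 2) := mul_le_mul_of_nonneg_left hZbadcard hD0.le
        _ = D * (A * δ) * (M : ℝ) ^ 2 := by ring
        _ ≤ δ' * (M : ℝ) ^ 2 := mul_le_mul_of_nonneg_right hδ1 (by positivity)
    linarith
  obtain ⟨q, hq1, hq2⟩ := hdet n hn m ((1 + 2 ^ (k + 1)) * E) (by positivity) (by
    rw [← hM, hMr2]
    exact hcount)
  rw [hMz, hMr2] at hq2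
  refine ⟨q, hq1, ?_⟩
  set Exc : Finset ℤ := (Ico (0 : ℤ) M).filter fun x =>
    C * (n + 1) * ((1 + 2 ^ (k + 1)) * E) < |m x - q.eval (x : ℝ)| with hExc
  set bad : Ω → Prop := fun ω =>
    (C * (1 + 2 ^ (k + 1)) + 1) * (n + 1) * E < |f ω - q.eval (U ω : ℝ)| with hbaddef
  set g : ℤ → ℝ := fun x => ∑ ω, (if U ω = x then (if bad ω then P.w ω else 0) else 0) with hg
  have hgpr : ∀ x, g x ≤ P.pr U x := by
    intro x
    rw [kp_pr_eq]
    refine sum_le_sum fun ω _ => ?_
    split_ifs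
    · exact le_rfl
    · exact P.nn ω
    · exact le_rfl
  have hgood2 : ∀ x ∈ Ico (0 : ℤ) M, x ∉ Xb → x ∉ Exc → g x ≤ P.pr U x * β := by
    intro x hx hx1 hx2
    obtain ⟨hgx, hmx⟩ := hm x hx hx1
    have hpx := hgoodpos x hgx
    have h1 : |m x - q.eval (x : ℝ)| ≤ C * (n + 1) * ((1 + 2 ^ (k + 1)) * E) := by
      by_contra hc
      exact hx2 (mem_filter.mpr ⟨hx, not_le.mp hc⟩)
    calc g x ≤ ∑ ω, P.pr U x * (kpn P U x ω * (if E < |f ω - m x| then 1 else 0)) := by
          refine sum_le_sum fun ω _ => ?_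
          unfold kpn
          by_cases hUx : U ω = x
          · rw [if_pos hUx, if_pos hUx]
            by_cases hb : bad ω
            · rw [if_pos hb]
              have h2 : E < |f ω - m x| := by
                by_contra hc
                push Not at hc
                simp only [hbaddef, hUx] at hb
                have h3 : |f ω - q.eval (x : ℝ)| ≤ |f ω - m x| + |m x - q.eval (x : ℝ)| :=
                  abs_sub_le _ _ _
                have hn0 : (0 : ℝ) ≤ n := Nat.cast_nonneg n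
                have h4 : (C * (1 + 2 ^ (k + 1)) + 1) * (n + 1) * E =
                    C * (n + 1) * ((1 + 2 ^ (k + 1)) * E) + E + n * E := by ring
                rw [h4] at hb
                have h5 : 0 ≤ (n : ℝ) * E := mul_nonneg hn0 hE.le
                linarith
              rw [if_pos h2, mul_one, mul_div_cancel₀ _ hpx.ne']
            · rw [if_neg hb]
              apply mul_nonneg hpx.le
              apply mul_nonneg (div_nonneg (P.nn ω) hpx.le)
              split_ifs <;> norm_num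
          · rw [if_neg hUx, if_neg hUx]
            simp
      _ = P.pr U x * ∑ ω, kpn P U x ω * (if E < |f ω - m x| then 1 else 0) := by rw [mul_sum]
      _ ≤ P.pr U x * β := mul_le_mul_of_nonneg_left hmx hpx.le
  have htot : ∑ ω with bad ω, P.w ω = ∑ x ∈ Ico (0 : ℤ) M, g x := by
    simp only [hg]
    rw [sum_comm, sum_filter]
    refine sum_congr rfl fun ω _ => ?_
    rw [sum_ite_eq]
    rcases (P.nn ω).eq_or_lt with h0 | h0
    · simp [← h0]
    · have hmem : U ω ∈ Ico (0 : ℤ) M := mem_Ico.mpr (hU ω h0)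
      rw [if_pos hmem]
  rw [htot]
  have h1 : ∑ x ∈ Ico (0 : ℤ) M, g x ≤
      ∑ x ∈ Ico (0 : ℤ) M, ((if x ∈ Xb ∪ Exc then P.pr U x else 0) + P.pr U x * β) := by
    refine sum_le_sum fun x hx => ?_
    by_cases h : x ∈ Xb ∪ Exc
    · rw [if_pos h]
      have := hgpr x
      have h2 : 0 ≤ P.pr U x * β := mul_nonneg (P.pr_nonneg _ _) hβ.le
      linarith
    · rw [if_neg h, zero_add]
      rw [mem_union, not_or] at h
      exact hgood2 x hx h.1 h.2
  have h2 : ∑ x ∈ Ico (0 : ℤ) M, (if x ∈ Xb ∪ Exc then P.pr U x else 0) ≤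
      δ + ((Xb.card : ℝ) + Exc.card) / M := by
    have h3 : ∑ x ∈ Ico (0 : ℤ) M, (if x ∈ Xb ∪ Exc then P.pr U x else 0) ≤
        ∑ x ∈ Ico (0 : ℤ) M, (|P.pr U x - 1 / M| + (if x ∈ Xb ∪ Exc then (1 : ℝ) / M else 0)) := by
      refine sum_le_sum fun x _ => ?_
      split_ifs
      · linarith [le_abs_self (P.pr U x - 1 / M)]
      · simp
    refine h3.trans ?_
    rw [sum_add_distrib]
    refine add_le_add hl1 ?_
    rw [← sum_filter, sum_const, nsmul_eq_mul, mul_one_div]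
    apply div_le_div_of_nonneg_right _ hMr.le
    have h4 : ((Ico (0 : ℤ) M).filter fun x => x ∈ Xb ∪ Exc).card ≤ Xb.card + Exc.card := by
      refine (card_le_card ?_).trans (card_union_le Xb Exc)
      intro x hx
      exact (mem_filter.mp hx).2
    exact_mod_cast h4
  have h3 : ∑ x ∈ Ico (0 : ℤ) M, P.pr U x * β ≤ β := by
    rw [← sum_mul]
    have := kp_sum_pr_le P U (Ico (0 : ℤ) M)
    nlinarith
  have h4 : (Xb.card : ℝ) / M ≤ η / 8 := by
    rw [div_le_iff₀ hMr]
    have h5 : (Xb.card : ℝ) * M ≤ 2 * (k + 1) * (A * δ * (M : ℝ) ^ 2) :=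
      hXbcard.trans (mul_le_mul_of_nonneg_left hZbadcard (by positivity))
    have h6 : 2 * (k + 1) * (A * δ * (M : ℝ) ^ 2) = 2 * (k + 1) * (A * δ) * M * M := by ring
    rw [h6] at h5
    have h7 := le_of_mul_le_mul_right h5 hMr
    calc (Xb.card : ℝ) ≤ 2 * (k + 1) * (A * δ) * M := h7
      _ ≤ η / 8 * M := mul_le_mul_of_nonneg_right hδ3 hMr.le
  have h5 : (Exc.card : ℝ) / M ≤ η / 8 := by
    rw [div_le_iff₀ hMr]
    exact hq2
  rw [sum_add_distrib] at h1
  rw [add_div] at h2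
  linarith

end Vale.Agent.P127.Stk
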