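import Vale.Agent.P127.Stk.Lib
import Vale.Agent.P127.Stk.Props

/-!
# P127 / Stk : rates (sections 1 and 2), definitions

`Rate Q c o L h e` collects all consequences of extremality for the configuration `c` with the
object `o` under the law `Q`, with the absolute error `e`.
-/

namespace Vale.Agent.P127.Stk

open Finset Vale.Agent.P127

/-- the cell of the line at the scale `2^{-s}` -/
noncomputable def Cf.q {Ω : Type} {m : ℕ} (c : Cf Ω m) (s : ℕ) (ω : Ω) :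
    (Fin m → ℤ) × (Fin m → ℤ) := (fl s (c.x ω), fl s (c.y ω))

/-- the line -/
def Cf.l {Ω : Type} {m : ℕ} (c : Cf Ω m) (ω : Ω) : (Fin m → ℝ) × (Fin m → ℝ) := (c.x ω, c.y ω)

/-- the digits of the coordinates in `J` of the point -/
noncomputable def Ob.pJ {Ω : Type} {m κ : ℕ} (o : Ob Ω m κ) (c : Cf Ω m) (s : ℕ) (ω : Ω) :
    {j // j ∈ o.J} → ℤ := fl s (fun j : {j // j ∈ o.J} => c.pt ω j)

/-- all the rates of an extremal pair, with error `e`; always `s ≤ s' ≤ L` -/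
structure Rate {Ω : Type} [Fintype Ω] {m κ : ℕ} (Q : Law Ω) (c : Cf Ω m) (o : Ob Ω m κ) (L : ℕ)
    (h e : ℝ) : Prop where
  x01 : ∀ ω i, 0 ≤ c.x ω i ∧ c.x ω i < 1
  y01 : ∀ ω i, 0 ≤ c.y ω i ∧ c.y ω i < 1
  t01 : ∀ ω, 0 ≤ c.t ω ∧ c.t ω < 1
  nn : 0 ≤ e
  /-- the cost of the time and the object -/
  cost : mi Q c.l (fun ω => (c.t ω, o.G ω)) c.A ≤ e
  /-- entropy of the cell -/
  q_up : ∀ s ≤ L, hc Q (c.q s) c.A ≤ m * s * Real.log 2 + e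
  y_lo : ∀ s ≤ L, m * s * Real.log 2 - e ≤
    hc Q (fun ω => fl s (c.y ω)) (fun ω => (c.t ω, o.G ω, c.A ω))
  /-- the cell is determined by the direction -/
  q_y : ∀ s ≤ L, hc Q (c.q s) (fun ω => (fl s (c.y ω), c.A ω)) ≤ e
  /-- lower bound for the point -/
  pt : ∀ s s', s ≤ s' → s' ≤ L → h * ((s' : ℝ) - s) * Real.log 2 - e ≤
    hc Q (fun ω => fl s' (c.pt ω)) (fun ω => (c.q s ω, c.t ω, o.G ω, c.A ω))
  /-- R1 -/
  lo : ∀ s s', s ≤ s' → s' ≤ L → (h - κ) * ((s' : ℝ) - s) * Real.log 2 - e ≤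
    hc Q (fun ω => fl s' (o.F c ω)) (fun ω => (c.q s ω, c.t ω, o.G ω, c.A ω))
  /-- R1 with `s = 0` -/
  lo0 : ∀ s ≤ L, (h - κ) * s * Real.log 2 - e ≤
    hc Q (fun ω => fl s (o.F c ω)) (fun ω => (c.t ω, o.G ω, c.A ω))
  /-- R2 -/
  up0 : ∀ s ≤ L, hc Q (fun ω => fl s (o.F c ω)) (fun ω => (c.t ω, o.G ω, c.A ω)) ≤
      (h - κ) * s * Real.log 2 + e
  /-- R3, lower bound -/
  lo' : ∀ s s', s ≤ s' → s' ≤ L → (h - κ) * ((s' : ℝ) - s) * Real.log 2 - e ≤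
    hc Q (fun ω => fl s' (o.F c ω)) (fun ω => (fl s (o.F c ω), c.t ω, o.G ω, c.A ω))
  /-- R3, upper bound -/
  up : ∀ s s', s ≤ s' → s' ≤ L →
    hc Q (fun ω => fl s' (o.F c ω)) (fun ω => (fl s (o.F c ω), c.t ω, o.G ω, c.A ω)) ≤
      (h - κ) * ((s' : ℝ) - s) * Real.log 2 + e
  /-- R4 -/
  cJ : ∀ s s', s ≤ s' → s' ≤ L → κ * s * Real.log 2 - e ≤
    hc Q (o.pJ c s) (fun ω => (fl s' (o.F c ω), c.t ω, o.G ω, c.A ω))
  /-- R5 -/
  q_lo' : ∀ s s', s ≤ s' → s' ≤ L → (m - (h - κ)) * s * Real.log 2 - e ≤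
    hc Q (c.q s) (fun ω => (fl s' (o.F c ω), c.t ω, o.G ω, c.A ω))
  q_up' : ∀ s s', s ≤ s' → s' ≤ L →
    hc Q (c.q s) (fun ω => (fl s' (o.F c ω), c.t ω, o.G ω, c.A ω)) ≤
      (m - (h - κ)) * s * Real.log 2 + e

/-- the constant for counting arguments -/
noncomputable def cst (m κ : ℕ) : ℝ := m * Real.log (8 * (1 + κ * 3 ^ κ) + 9)

end Vale.Agent.P127.Stk
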