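import Vale.Agent.P127.Stk.RatesTools

/-!
# P127 / Stk : rates, the inequalities for one law
-/

namespace Vale.Agent.P127.Stk

open Finset Vale.Agent.P127

/-- what is needed for the lower bounds -/
structure Pre {Ω : Type} [Fintype Ω] {m κ : ℕ} (Q : Law Ω) (c : Cf Ω m) (o : Ob Ω m κ) (L : ℕ)
    (h e : ℝ) : Prop where
  good : Good Q c L e e
  lb : ∀ s s', s ≤ s' → s' ≤ L → h * ((s' : ℝ) - s) * Real.log 2 - e ≤
    hc Q (fun ω => fl (s' - s) ((c.sub s).pt ω)) (fun ω => (c.t ω, (c.sub s).A ω))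
  cost : mi Q (fun ω => (c.x ω, c.y ω)) o.G (fun ω => (c.t ω, c.A ω)) ≤ e
  k1 : cst m κ ≤ e
  k2 : cst m 0 ≤ e
  k3 : κ * Real.log 7 ≤ e

namespace Pre

variable {Ω : Type} [Fintype Ω] {m κ : ℕ} {Q : Law Ω} {c : Cf Ω m} {o : Ob Ω m κ} {L : ℕ}
  {h e : ℝ}

theorem nn (H : Pre Q c o L h e) : 0 ≤ e := by
  have h1 := H.k3
  have h2 : (0 : ℝ) ≤ κ * Real.log 7 := mul_nonneg (Nat.cast_nonneg _) (Real.log_nonneg (by norm_num))
  linarith

/-- total cost -/
theorem cost2 (H : Pre Q c o L h e) : mi Q c.l (fun ω => (c.t ω, o.G ω)) c.A ≤ 2 * e := by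
  rw [mi_pair]
  have h1 := H.good.ind
  have h2 := H.cost
  have h3 : mi Q c.l c.t c.A ≤ e := h1
  have h4 : mi Q c.l o.G (fun ω => (c.t ω, c.A ω)) ≤ e := h2
  linarith

theorem q_up (H : Pre Q c o L h e) {s : ℕ} (hs : s ≤ L) :
    hc Q (c.q s) c.A ≤ m * s * Real.log 2 + e := H.good.lin s hs

theorem y_lo (H : Pre Q c o L h e) {s : ℕ} (hs : s ≤ L) :
    m * s * Real.log 2 - 3 * e ≤
      hc Q (fun ω => fl s (c.y ω)) (fun ω => (c.t ω, o.G ω, c.A ω)) := by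
  have h1 := H.good.dir s hs
  have h2 := H.cost2
  have h3 : mi Q (fun ω => fl s (c.y ω)) (fun ω => (c.t ω, o.G ω)) c.A ≤
      mi Q c.l (fun ω => (c.t ω, o.G ω)) c.A := by
    refine mi_mono_left Q _ ?_
    intro ω ω' _ _ h
    simp only [Prod.mk.injEq, Cf.l] at h
    show fl s (c.y ω) = fl s (c.y ω')
    rw [h.1.2]
  have h4 := hc_ge_of Q (X := fun ω => fl s (c.y ω)) (B := c.A) (D := fun ω => (c.t ω, o.G ω))
    (W := fun _ => ()) (Y := fun ω => (c.t ω, o.G ω, c.A ω)) (e1 := 2 * e) (e2 := 0)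
    (by
      intro ω ω' _ _ h
      simp only [Prod.mk.injEq] at h ⊢
      tauto) (h3.trans h2)
    (by
      rw [hc_zero]
      intro ω ω' _ _ _
      rfl)
  linarith

theorem q_y (H : Pre Q c o L h e) {s : ℕ} (hs : s ≤ L) :
    hc Q (c.q s) (fun ω => (fl s (c.y ω), c.A ω)) ≤ 2 * e := by
  have h1 := H.good.dir s hs
  have h2 := H.good.lin s hs
  have h3 := hc_pair Q (fun ω => fl s (c.y ω)) (c.q s) c.A
  have h4 : hc Q (fun ω => (fl s (c.y ω), c.q s ω)) c.A = hc Q (c.q s) c.A := by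
    refine hc_congr Q ?_ ?_ ?_ ?_
    · intro ω ω' _ _ h
      simp only [Prod.mk.injEq, Cf.q] at h ⊢
      tauto
    · intro ω ω' _ _ h
      simp only [Prod.mk.injEq] at h ⊢
      tauto
    · intro ω ω' _ _ h
      exact h
    · intro ω ω' _ _ h
      exact h
  have h5 : hc Q (c.q s) c.A ≤ (m * s : ℝ) * Real.log 2 + e := h2
  linarith

theorem pt (H : Pre Q c o L h e) {s s' : ℕ} (hs : s ≤ s') (hL : s' ≤ L) :
    h * ((s' : ℝ) - s) * Real.log 2 - 3 * e ≤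
      hc Q (fun ω => fl s' (c.pt ω)) (fun ω => (c.q s ω, c.t ω, o.G ω, c.A ω)) := by
  have h1 := H.lb s s' hs hL
  have h2 : mi Q (fun ω => fl (s' - s) ((c.sub s).pt ω)) o.G
      (fun ω => (c.t ω, (c.sub s).A ω)) ≤ e := by
    rw [mi_congr_cond Q _ _ (Z' := fun ω => (c.q s ω, c.t ω, c.A ω))]
    · refine (mi_le_cost Q (l := fun ω => (c.x ω, c.y ω)) ?_ ?_).trans H.cost
      · intro ω ω' _ _ h
        simp only [Prod.mk.injEq] at h
        obtain ⟨⟨hx, hy⟩, ht, hA⟩ := h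
        have : (c.sub s).pt ω = (c.sub s).pt ω' := by
          funext i
          simp only [Cf.pt, Cf.sub, hx, hy, ht]
        show fl (s' - s) ((c.sub s).pt ω) = fl (s' - s) ((c.sub s).pt ω')
        rw [this]
      · intro ω ω' _ _ h
        simp only [Prod.mk.injEq] at h
        obtain ⟨⟨hx, hy⟩, ht, hA⟩ := h
        simp only [Cf.q, hx, hy]
    · intro ω ω' _ _ h
      simp only [Prod.mk.injEq, Cf.q, Cf.sub] at h ⊢
      tauto
    · intro ω ω' _ _ h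
      simp only [Prod.mk.injEq, Cf.q, Cf.sub] at h ⊢
      tauto
  have h3 := hc_ge_of Q (X := fun ω => fl (s' - s) ((c.sub s).pt ω))
    (B := fun ω => (c.t ω, (c.sub s).A ω)) (D := o.G)
    (W := fun _ => ()) (Y := fun ω => (c.q s ω, c.t ω, o.G ω, c.A ω)) (e1 := e) (e2 := 0)
    (by
      intro ω ω' _ _ h
      simp only [Prod.mk.injEq, Cf.q, Cf.sub] at h ⊢
      tauto) h2
    (by
      rw [hc_zero]
      intro ω ω' _ _ _
      rfl)
  have h4 := hc_le_add Q (fun ω => fl (s' - s) ((c.sub s).pt ω)) (fun ω => fl s' (c.pt ω))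
    (fun ω => (c.q s ω, c.t ω, o.G ω, c.A ω))
  have h5 := hc_sub_of_pt Q c s (s' - s)
    (fun ω => (fl s' (c.pt ω), c.q s ω, c.t ω, o.G ω, c.A ω)) (by
      rw [Nat.add_sub_cancel' hs]
      intro ω ω' _ _ h
      simp only [Prod.mk.injEq] at h ⊢
      tauto)
  have h6 := H.k2
  linarith

theorem pJ_digits (H : Pre Q c o L h e) {T : Type*} {s s' : ℕ} (hs : s ≤ s') (Z : Ω → T)
    (hZ : Fn Q (fun ω => (c.q s ω, c.t ω)) Z) :
    hc Q (o.pJ c s') Z ≤ κ * ((s' : ℝ) - s) * Real.log 2 + e := by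
  have hcard : (Fintype.card {j // j ∈ o.J} : ℝ) = κ := by
    rw [Fintype.card_coe, o.card]
  have h1 : hc Q (o.pJ c s) Z ≤ e := by
    refine le_trans ?_ H.k3
    have := hc_fl_det Q (s := s) 2 (fun ω => fun j : {j // j ∈ o.J} => c.pt ω j) Z (by
      intro ω ω' hω hω' h j
      have h2 := hZ ω ω' hω hω' h
      simp only [Prod.mk.injEq, Cf.q] at h2
      obtain ⟨⟨hx, hy⟩, ht⟩ := h2
      have hx' := congrFun hx j
      have hy' := congrFun hy j
      simp only [fl] at hx' hy'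
      have h3 := Int.abs_sub_lt_one_of_floor_eq_floor hx'
      have h4 := Int.abs_sub_lt_one_of_floor_eq_floor hy'
      have ht0 := H.good.t01 ω
      simp only [Cf.pt, ← ht]
      have e1 : (2 : ℝ) ^ s * (c.x ω j + c.t ω * c.y ω j) -
          2 ^ s * (c.x ω' j + c.t ω * c.y ω' j) =
          (2 ^ s * c.x ω j - 2 ^ s * c.x ω' j) +
            c.t ω * (2 ^ s * c.y ω j - 2 ^ s * c.y ω' j) := by ring
      rw [e1]
      refine (abs_add_le _ _).trans ?_
      rw [abs_mul, abs_of_nonneg ht0.1]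
      have h5 : c.t ω * |2 ^ s * c.y ω j - 2 ^ s * c.y ω' j| ≤ 1 * 1 :=
        mul_le_mul ht0.2.le h4.le (abs_nonneg _) (by norm_num)
      push_cast
      linarith)
    rw [hcard] at this
    refine this.trans (le_of_eq ?_)
    norm_num
  have h2 := hc_le_add Q (o.pJ c s') (o.pJ c s) Z
  have h3 := hc_fl_digits_le Q hs (fun ω => fun j : {j // j ∈ o.J} => c.pt ω j) Z
  rw [hcard, Nat.cast_sub hs] at h3
  have h4 : hc Q (o.pJ c s') (fun ω => (o.pJ c s ω, Z ω)) ≤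
      κ * ((s' : ℝ) - s) * Real.log 2 := h3
  linarith

theorem lo (H : Pre Q c o L h e) {s s' : ℕ} (hs : s ≤ s') (hL : s' ≤ L) :
    (h - κ) * ((s' : ℝ) - s) * Real.log 2 - 5 * e ≤
      hc Q (fun ω => fl s' (o.F c ω)) (fun ω => (c.q s ω, c.t ω, o.G ω, c.A ω)) := by
  have h1 := H.pt hs hL
  set Y : Ω → _ := fun ω => (c.q s ω, c.t ω, o.G ω, c.A ω) with hY
  have h2 := hc_le_add Q (fun ω => fl s' (c.pt ω)) (fun ω => (fl s' (o.F c ω), o.pJ c s' ω)) Y
  have h3 := hc_pt_of_F Q c o s' (fun ω => ((fl s' (o.F c ω), o.pJ c s' ω), Y ω)) (by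
    intro ω ω' _ _ h
    simp only [Prod.mk.injEq, hY] at h ⊢
    tauto)
  have h4 := hc_pair Q (fun ω => fl s' (o.F c ω)) (o.pJ c s') Y
  have h5 := H.pJ_digits hs (fun ω => (fl s' (o.F c ω), Y ω)) (by
    intro ω ω' _ _ h
    simp only [Prod.mk.injEq, hY] at h ⊢
    tauto)
  have h6 := H.k1
  linarith

theorem lo0 (H : Pre Q c o L h e) {s : ℕ} (hL : s ≤ L) :
    (h - κ) * s * Real.log 2 - 5 * e ≤
      hc Q (fun ω => fl s (o.F c ω)) (fun ω => (c.t ω, o.G ω, c.A ω)) := by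
  have h1 := H.lo (Nat.zero_le s) hL
  have h2 := hc_mono_right Q (fun ω => fl s (o.F c ω)) (Y := fun ω => (c.t ω, o.G ω, c.A ω))
    (Y' := fun ω => (c.q 0 ω, c.t ω, o.G ω, c.A ω)) (by
      intro ω ω' _ _ h
      simp only [Prod.mk.injEq] at h ⊢
      tauto)
  have h3 : (h - κ) * (((s : ℕ) : ℝ) - ((0 : ℕ) : ℝ)) * Real.log 2 =
      (h - κ) * s * Real.log 2 := by
    push_cast
    ring
  linarith

theorem lo' (H : Pre Q c o L h e) {s s' : ℕ} (hs : s ≤ s') (hL : s' ≤ L) :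
    (h - κ) * ((s' : ℝ) - s) * Real.log 2 - 6 * e ≤
      hc Q (fun ω => fl s' (o.F c ω)) (fun ω => (fl s (o.F c ω), c.t ω, o.G ω, c.A ω)) := by
  have h1 := H.lo hs hL
  have h2 := hc_ge_of Q (X := fun ω => fl s' (o.F c ω))
    (B := fun ω => (c.q s ω, c.t ω, o.G ω, c.A ω)) (D := fun _ => ())
    (W := fun ω => fl s (o.F c ω)) (Y := fun ω => (fl s (o.F c ω), c.t ω, o.G ω, c.A ω))
    (e1 := 0) (e2 := e)
    (by
      intro ω ω' _ _ h
      simp only [Prod.mk.injEq] at h ⊢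
      tauto)
    (by
      refine (mi_le_hc' Q _ _ _).trans ?_
      rw [hc_zero]
      intro ω ω' _ _ _
      rfl)
    (by
      refine le_trans ?_ H.k1
      refine hc_F_of_q Q c o s _ (fun ω _ => H.good.t01 ω) ?_
      intro ω ω' _ _ h
      simp only [Prod.mk.injEq] at h ⊢
      tauto)
  linarith

end Pre

end Vale.Agent.P127.Stk
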