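import Vale.Agent.P127.Stk.RatesDefs

/-!
# P127 / Stk : rates, tools
-/

namespace Vale.Agent.P127.Stk

open Finset Vale.Agent.P127

/-! ### Tools -/

section tools

variable {Ω : Type} [Fintype Ω] {ι : Type} [Fintype ι] {S S' T T' U V : Type*}

/-- counting: if `Z` determines `2^s v` up to `B`, the digits cost only `O(1)` -/
theorem hc_fl_det (P : Law Ω) {s : ℕ} (B : ℕ) (v : Ω → ι → ℝ) (Z : Ω → T)
    (h : ∀ ω ω', 0 < P.w ω → 0 < P.w ω' → Z ω = Z ω' → ∀ i,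
      |(2 : ℝ) ^ s * v ω i - 2 ^ s * v ω' i| ≤ B) :
    hc P (fun ω => fl s (v ω)) Z ≤ Fintype.card ι * Real.log (2 * B + 3) := by
  classical
  have h1 := hc_le_log P (fun ω => fl s (v ω)) Z ((2 * B + 3) ^ Fintype.card ι) (fun ω hω => by
    refine ⟨Fintype.piFinset fun i : ι =>
      Finset.Icc (fl s (v ω) i - (B + 1)) (fl s (v ω) i + (B + 1)), ?_, ?_⟩
    · rw [Fintype.card_piFinset]
      simp only [Int.card_Icc]
      rw [Finset.prod_congr rfl (fun i _ => (by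
        congr 1
        push_cast
        ring : (fl s (v ω) i + ((B : ℤ) + 1) + 1 - (fl s (v ω) i - ((B : ℤ) + 1))).toNat =
          (((2 * B + 3 : ℕ) : ℤ)).toNat))]
      · rw [Finset.prod_const, Int.toNat_natCast, Finset.card_univ]
    · intro ω' hω' hZ
      rw [Fintype.mem_piFinset]
      intro i
      have h2 : |⌊(2 : ℝ) ^ s * v ω' i⌋ - ⌊(2 : ℝ) ^ s * v ω i⌋| ≤ (B : ℤ) + 1 :=
        floor_close_aux (h ω' ω hω' hω hZ i)
      have h3 := abs_le.1 h2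
      rw [Finset.mem_Icc]
      have e1 : fl s (v ω') i = ⌊(2 : ℝ) ^ s * v ω' i⌋ := rfl
      have e2 : fl s (v ω) i = ⌊(2 : ℝ) ^ s * v ω i⌋ := rfl
      rw [e1, e2]
      constructor <;> linarith [h3.1, h3.2])
  refine h1.trans (le_of_eq ?_)
  push_cast
  rw [Real.log_pow]

/-- subtracting costs: `Y` is a function of `(base, D, V)`, where `D` has small information about
`X` and `V` has small entropy -/
theorem hc_ge_of (P : Law Ω) {X : Ω → S} {B : Ω → T} {D : Ω → U} {W : Ω → V} {Y : Ω → T'}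
    {e1 e2 : ℝ} (hY : Fn P Y (fun ω => (B ω, D ω, W ω))) (hD : mi P X D B ≤ e1)
    (hW : hc P W (fun ω => (B ω, D ω)) ≤ e2) : hc P X B - e1 - e2 ≤ hc P X Y := by
  have h1 : hc P X (fun ω => (W ω, (B ω, D ω))) ≤ hc P X Y := by
    refine hc_mono_right P X ?_
    intro ω ω' p p' e
    simp only [Prod.mk.injEq] at e
    exact hY ω ω' p p' (by simp only [Prod.mk.injEq]; exact ⟨e.2.1, e.2.2, e.1⟩)
  have h2 := hc_le_add' P X W (fun ω => (B ω, D ω))
  have h3 : hc P X (fun ω => (D ω, B ω)) = hc P X (fun ω => (B ω, D ω)) := by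
    refine hc_congr P (fun ω ω' _ _ e => congrArg Prod.fst e)
      (fun ω ω' _ _ e => congrArg Prod.fst e) ?_ ?_
    · intro ω ω' _ _ e
      simp only [Prod.mk.injEq] at e ⊢
      exact ⟨e.2, e.1⟩
    · intro ω ω' _ _ e
      simp only [Prod.mk.injEq] at e ⊢
      exact ⟨e.2, e.1⟩
  unfold mi at hD
  rw [h3] at hD
  linarith

/-- the information of `D` about a function of the line is at most the cost: `X` is a function of
`(l, Z, B')`, `B'` is a function of `(l, Z)` -/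
theorem mi_le_cost (P : Law Ω) {X : Ω → S} {l : Ω → S'} {D : Ω → U} {Z : Ω → T} {B' : Ω → T'}
    (hX : Fn P X (fun ω => (l ω, Z ω))) (hB : Fn P B' (fun ω => (l ω, Z ω))) :
    mi P X D (fun ω => (B' ω, Z ω)) ≤ mi P l D Z := by
  refine (mi_mono_left P (X' := l) D ?_).trans (mi_cond_le P (X := l) D (W := B') Z hB)
  intro ω ω' p p' e
  simp only [Prod.mk.injEq] at e
  exact hX ω ω' p p' (by simp only [Prod.mk.injEq]; exact ⟨e.1, e.2.2⟩)

end tools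

/-! ### Relations between the digits (G3) -/

section geom0

variable {Ω : Type} {m κ : ℕ} {T : Type*}

theorem abs_sub_lt_of_floor {x y : ℝ} (h : ⌊x⌋ = ⌊y⌋) : |x - y| ≤ 1 := by
  have a1 := Int.floor_le x
  have a2 := Int.lt_floor_add_one x
  have b1 := Int.floor_le y
  have b2 := Int.lt_floor_add_one y
  rw [h] at a1 a2
  rw [abs_le]
  constructor <;> linarith

theorem app_bdd (o : Ob Ω m κ) (ω : Ω) (v : Fin m → ℝ) {B : ℝ} (hB : 0 ≤ B)
    (hv : ∀ i, |v i| ≤ B) (i : Fin m) : |o.app ω v i| ≤ B * (1 + κ * 3 ^ κ) := by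
  classical
  have h3 : (0 : ℝ) ≤ 3 ^ κ := by positivity
  unfold Ob.app
  split_ifs with hi
  · rw [abs_zero]
    positivity
  · have h1 : |∑ j ∈ o.J, o.Γ ω i j * v j| ≤ ∑ j ∈ o.J, (3 ^ κ * B) := by
      refine (Finset.abs_sum_le_sum_abs _ _).trans (Finset.sum_le_sum fun j _ => ?_)
      rw [abs_mul]
      exact mul_le_mul (o.bd ω i j) (hv j) (abs_nonneg _) h3
    rw [Finset.sum_const, o.card, nsmul_eq_mul] at h1
    have h2 := abs_sub (v i) (∑ j ∈ o.J, o.Γ ω i j * v j)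
    have h4 := hv i
    calc |v i - ∑ j ∈ o.J, o.Γ ω i j * v j|
        ≤ |v i| + |∑ j ∈ o.J, o.Γ ω i j * v j| := h2
      _ ≤ B + κ * (3 ^ κ * B) := add_le_add h4 h1
      _ = B * (1 + κ * 3 ^ κ) := by ring

theorem app_diff (o : Ob Ω m κ) {ω ω' : Ω} (hG : o.G ω = o.G ω') (v v' : Fin m → ℝ) (c : ℝ)
    (i : Fin m) :
    c * o.app ω v i - c * o.app ω' v' i = o.app ω (fun i => c * v i - c * v' i) i := by
  classical
  have hΓ := o.fn ω ω' hG
  unfold Ob.app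
  split_ifs with hi
  · ring
  · rw [← hΓ]
    have h1 : ∑ j ∈ o.J, o.Γ ω i j * (c * v j - c * v' j) =
        c * ∑ j ∈ o.J, o.Γ ω i j * v j - c * ∑ j ∈ o.J, o.Γ ω i j * v' j := by
      rw [Finset.mul_sum, Finset.mul_sum, ← Finset.sum_sub_distrib]
      exact Finset.sum_congr rfl fun j _ => by ring
    rw [h1]
    ring

theorem pt_diff_of_q (c : Cf Ω m) (s : ℕ) {ω ω' : Ω} (ht : 0 ≤ c.t ω ∧ c.t ω < 1)
    (hq : c.q s ω = c.q s ω') (htt : c.t ω = c.t ω') (i : Fin m) :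
    |(2 : ℝ) ^ s * c.pt ω i - 2 ^ s * c.pt ω' i| ≤ 2 := by
  have hx : |(2 : ℝ) ^ s * c.x ω i - 2 ^ s * c.x ω' i| ≤ 1 :=
    abs_sub_lt_of_floor (congrFun (congrArg Prod.fst hq) i)
  have hy : |(2 : ℝ) ^ s * c.y ω i - 2 ^ s * c.y ω' i| ≤ 1 :=
    abs_sub_lt_of_floor (congrFun (congrArg Prod.snd hq) i)
  have e : (2 : ℝ) ^ s * c.pt ω i - 2 ^ s * c.pt ω' i =
      ((2 : ℝ) ^ s * c.x ω i - 2 ^ s * c.x ω' i) +
        c.t ω * ((2 : ℝ) ^ s * c.y ω i - 2 ^ s * c.y ω' i) := by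
    unfold Cf.pt
    rw [← htt]
    ring
  rw [e]
  refine (abs_add_le _ _).trans ?_
  rw [abs_mul, abs_of_nonneg ht.1]
  have h1 : c.t ω * |(2 : ℝ) ^ s * c.y ω i - 2 ^ s * c.y ω' i| ≤ 1 * 1 :=
    mul_le_mul ht.2.le hy (abs_nonneg _) zero_le_one
  linarith

theorem cst_mono {B : ℝ} (m κ : ℕ) (hB0 : 0 ≤ B) (hB : B ≤ 2 * (1 + κ * 3 ^ κ)) :
    (m : ℝ) * Real.log (2 * B + 3) ≤ cst m κ := by
  unfold cst
  refine mul_le_mul_of_nonneg_left (Real.log_le_log (by linarith) ?_) (Nat.cast_nonneg m)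
  have h3 : (0 : ℝ) ≤ κ * 3 ^ κ := by positivity
  linarith

end geom0

section geom

variable {Ω : Type} [Fintype Ω] {m κ : ℕ} {T : Type*}

theorem pt_sub_diff (c : Cf Ω m) (r s : ℕ) {ω ω' : Ω}
    (hq : c.q r ω = c.q r ω') (htt : c.t ω = c.t ω') (i : Fin m) :
    (2 : ℝ) ^ (r + s) * c.pt ω i - 2 ^ (r + s) * c.pt ω' i =
      2 ^ s * (c.sub r).pt ω i - 2 ^ s * (c.sub r).pt ω' i := by
  have h1 := pt_sub c r ω i
  have h2 := pt_sub c r ω' i
  have hx : fl r (c.x ω) i = fl r (c.x ω') i := congrFun (congrArg Prod.fst hq) i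
  have hy : fl r (c.y ω) i = fl r (c.y ω') i := congrFun (congrArg Prod.snd hq) i
  rw [hx, hy, htt] at h1
  have e1 : (2 : ℝ) ^ (r + s) * c.pt ω i = 2 ^ s * (2 ^ r * c.pt ω i) := by
    rw [pow_add]
    ring
  have e2 : (2 : ℝ) ^ (r + s) * c.pt ω' i = 2 ^ s * (2 ^ r * c.pt ω' i) := by
    rw [pow_add]
    ring
  rw [e1, e2, h1, h2]
  ring

theorem F_sub_diff (c : Cf Ω m) (o : Ob Ω m κ) (r s : ℕ) {ω ω' : Ω}
    (hq : c.q r ω = c.q r ω') (htt : c.t ω = c.t ω') (hG : o.G ω = o.G ω') (i : Fin m) :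
    (2 : ℝ) ^ (r + s) * o.F c ω i - 2 ^ (r + s) * o.F c ω' i =
      2 ^ s * o.F (c.sub r) ω i - 2 ^ s * o.F (c.sub r) ω' i := by
  unfold Ob.F
  rw [app_diff o hG, app_diff o hG]
  congr 1
  funext j
  exact pt_sub_diff c r s hq htt j

omit [Fintype Ω] in
/-- the projected point is bounded -/
theorem F_bdd (c : Cf Ω m) (o : Ob Ω m κ) (ω : Ω) (hx : ∀ i, 0 ≤ c.x ω i ∧ c.x ω i < 1)
    (hy : ∀ i, 0 ≤ c.y ω i ∧ c.y ω i < 1) (ht : 0 ≤ c.t ω ∧ c.t ω < 1) (i : Fin m) :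
    |o.F c ω i| ≤ 2 * (1 + κ * 3 ^ κ) := by
  refine app_bdd o ω (c.pt ω) (by norm_num) (fun j => ?_) i
  have h1 : 0 ≤ c.t ω * c.y ω j := mul_nonneg ht.1 (hy j).1
  have h2 : c.t ω * c.y ω j ≤ 1 * 1 :=
    mul_le_mul ht.2.le (hy j).2.le (hy j).1 zero_le_one
  have h3 := hx j
  show |c.x ω j + c.t ω * c.y ω j| ≤ 2
  rw [abs_le]
  constructor <;> linarith

/-- `[F]_s` is a function of `(Q_s, t, G)` up to `O(1)` values -/
theorem hc_F_of_q (P : Law Ω) (c : Cf Ω m) (o : Ob Ω m κ) (s : ℕ) (Z : Ω → T)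
    (h : ∀ ω, 0 < P.w ω → 0 ≤ c.t ω ∧ c.t ω < 1)
    (hZ : Fn P (fun ω => (c.q s ω, c.t ω, o.G ω)) Z) :
    hc P (fun ω => fl s (o.F c ω)) Z ≤ cst m κ := by
  have h1 := hc_fl_det P (s := s) (2 * (1 + κ * 3 ^ κ)) (fun ω => o.F c ω) Z (by
    intro ω ω' p p' e i
    have h2 := hZ ω ω' p p' e
    simp only [Prod.mk.injEq] at h2
    unfold Ob.F
    rw [app_diff o h2.2.2]
    have h3 := app_bdd o ω (fun i => (2 : ℝ) ^ s * c.pt ω i - 2 ^ s * c.pt ω' i)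
      (B := 2) (by norm_num) (fun j => pt_diff_of_q c s (h ω p) h2.1 h2.2.1 j) i
    push_cast
    exact h3)
  refine h1.trans ?_
  rw [Fintype.card_fin]
  refine cst_mono m κ (by positivity) ?_
  push_cast
  exact le_rfl

/-- `[c_t]_s` is a function of `(Q_s, t)` up to `O(1)` values -/
theorem hc_pt_of_q (P : Law Ω) (c : Cf Ω m) (s : ℕ) (Z : Ω → T)
    (h : ∀ ω, 0 < P.w ω → 0 ≤ c.t ω ∧ c.t ω < 1)
    (hZ : Fn P (fun ω => (c.q s ω, c.t ω)) Z) :
    hc P (fun ω => fl s (c.pt ω)) Z ≤ cst m 0 := by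
  have h1 := hc_fl_det P (s := s) 2 (fun ω => c.pt ω) Z (by
    intro ω ω' p p' e i
    have h2 := hZ ω ω' p p' e
    simp only [Prod.mk.injEq] at h2
    exact pt_diff_of_q c s (h ω p) h2.1 h2.2 i)
  refine h1.trans ?_
  rw [Fintype.card_fin]
  refine cst_mono m 0 (by positivity) ?_
  norm_num

/-- `[c_t]_s` is a function of `([F]_s, [(c_t)_J]_s, G)` up to `O(1)` values -/
theorem hc_pt_of_F (P : Law Ω) (c : Cf Ω m) (o : Ob Ω m κ) (s : ℕ) (Z : Ω → T)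
    (hZ : Fn P (fun ω => (fl s (o.F c ω), o.pJ c s ω, o.G ω)) Z) :
    hc P (fun ω => fl s (c.pt ω)) Z ≤ cst m κ := by
  classical
  have h1 := hc_fl_det P (s := s) (1 + κ * 3 ^ κ) (fun ω => c.pt ω) Z (by
    intro ω ω' p p' e i
    have h2 := hZ ω ω' p p' e
    simp only [Prod.mk.injEq] at h2
    obtain ⟨hF, hJ, hG⟩ := h2
    have hJ' : ∀ j ∈ o.J, |(2 : ℝ) ^ s * c.pt ω j - 2 ^ s * c.pt ω' j| ≤ 1 := by
      intro j hj
      exact abs_sub_lt_of_floor (congrFun hJ ⟨j, hj⟩)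
    have h30 : (0 : ℝ) ≤ κ * 3 ^ κ := by positivity
    push_cast
    by_cases hi : i ∈ o.J
    · exact (hJ' i hi).trans (by linarith)
    · have hF' : |(2 : ℝ) ^ s * o.F c ω i - 2 ^ s * o.F c ω' i| ≤ 1 :=
        abs_sub_lt_of_floor (congrFun hF i)
      unfold Ob.F at hF'
      rw [app_diff o hG] at hF'
      unfold Ob.app at hF'
      rw [if_neg hi] at hF'
      have h4 : |∑ j ∈ o.J, o.Γ ω i j * ((2 : ℝ) ^ s * c.pt ω j - 2 ^ s * c.pt ω' j)| ≤
          ∑ j ∈ o.J, ((3 : ℝ) ^ κ * 1) := by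
        refine (Finset.abs_sum_le_sum_abs _ _).trans (Finset.sum_le_sum fun j hj => ?_)
        rw [abs_mul]
        exact mul_le_mul (o.bd ω i j) (hJ' j hj) (abs_nonneg _) (by positivity)
      rw [Finset.sum_const, o.card, nsmul_eq_mul, mul_one] at h4
      have h5 := abs_le.1 hF'
      have h6 := abs_le.1 h4
      rw [abs_le]
      constructor <;> linarith [h5.1, h5.2, h6.1, h6.2])
  refine h1.trans ?_
  rw [Fintype.card_fin]
  refine cst_mono m κ (by positivity) ?_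
  push_cast
  have h30 : (0 : ℝ) ≤ κ * 3 ^ κ := by positivity
  linarith

/-- `[F]_s` is a function of `([c_t]_s, G)` up to `O(1)` values -/
theorem hc_F_of_pt (P : Law Ω) (c : Cf Ω m) (o : Ob Ω m κ) (s : ℕ) (Z : Ω → T)
    (hZ : Fn P (fun ω => (fl s (c.pt ω), o.G ω)) Z) :
    hc P (fun ω => fl s (o.F c ω)) Z ≤ cst m κ := by
  have h1 := hc_fl_det P (s := s) (1 + κ * 3 ^ κ) (fun ω => o.F c ω) Z (by
    intro ω ω' p p' e i
    have h2 := hZ ω ω' p p' e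
    simp only [Prod.mk.injEq] at h2
    unfold Ob.F
    rw [app_diff o h2.2]
    have h3 := app_bdd o ω (fun i => (2 : ℝ) ^ s * c.pt ω i - 2 ^ s * c.pt ω' i)
      (B := 1) (by norm_num) (fun j => abs_sub_lt_of_floor (congrFun h2.1 j)) i
    push_cast
    linarith)
  refine h1.trans ?_
  rw [Fintype.card_fin]
  refine cst_mono m κ (by positivity) ?_
  push_cast
  have h30 : (0 : ℝ) ≤ κ * 3 ^ κ := by positivity
  linarith

theorem cst_one (m κ : ℕ) : (m : ℝ) * Real.log (2 * ((1 : ℕ) : ℝ) + 3) ≤ cst m κ := by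
  refine cst_mono m κ (by norm_num) ?_
  have h30 : (0 : ℝ) ≤ κ * 3 ^ κ := by positivity
  push_cast
  linarith

/-- `[F]_{r+s}` from `[F']_s`, where `F'` belongs to `c.sub r` -/
theorem hc_F_of_sub (P : Law Ω) (c : Cf Ω m) (o : Ob Ω m κ) (r s : ℕ) (Z : Ω → T)
    (hZ : Fn P (fun ω => (fl s (o.F (c.sub r) ω), c.q r ω, c.t ω, o.G ω)) Z) :
    hc P (fun ω => fl (r + s) (o.F c ω)) Z ≤ cst m κ := by
  have h1 := hc_fl_det P (s := r + s) 1 (fun ω => o.F c ω) Z (by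
    intro ω ω' p p' e i
    have h2 := hZ ω ω' p p' e
    simp only [Prod.mk.injEq] at h2
    obtain ⟨hF, hq, ht, hG⟩ := h2
    rw [F_sub_diff c o r s hq ht hG]
    rw [Nat.cast_one]
    exact abs_sub_lt_of_floor (congrFun hF i))
  refine h1.trans ?_
  rw [Fintype.card_fin]
  exact cst_one m κ

/-- `[F']_s` from `[F]_{r+s}`, where `F'` belongs to `c.sub r` -/
theorem hc_sub_of_F (P : Law Ω) (c : Cf Ω m) (o : Ob Ω m κ) (r s : ℕ) (Z : Ω → T)
    (hZ : Fn P (fun ω => (fl (r + s) (o.F c ω), c.q r ω, c.t ω, o.G ω)) Z) :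
    hc P (fun ω => fl s (o.F (c.sub r) ω)) Z ≤ cst m κ := by
  have h1 := hc_fl_det P (s := s) 1 (fun ω => o.F (c.sub r) ω) Z (by
    intro ω ω' p p' e i
    have h2 := hZ ω ω' p p' e
    simp only [Prod.mk.injEq] at h2
    obtain ⟨hF, hq, ht, hG⟩ := h2
    rw [← F_sub_diff c o r s hq ht hG]
    rw [Nat.cast_one]
    exact abs_sub_lt_of_floor (congrFun hF i))
  refine h1.trans ?_
  rw [Fintype.card_fin]
  exact cst_one m κ

/-- `[c_t]_{r+s}` from `[c'_t]_s` -/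
theorem hc_pt_of_sub (P : Law Ω) (c : Cf Ω m) (r s : ℕ) (Z : Ω → T)
    (hZ : Fn P (fun ω => (fl s ((c.sub r).pt ω), c.q r ω, c.t ω)) Z) :
    hc P (fun ω => fl (r + s) (c.pt ω)) Z ≤ cst m 0 := by
  have h1 := hc_fl_det P (s := r + s) 1 (fun ω => c.pt ω) Z (by
    intro ω ω' p p' e i
    have h2 := hZ ω ω' p p' e
    simp only [Prod.mk.injEq] at h2
    obtain ⟨hF, hq, ht⟩ := h2
    rw [pt_sub_diff c r s hq ht]
    rw [Nat.cast_one]
    exact abs_sub_lt_of_floor (congrFun hF i))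
  refine h1.trans ?_
  rw [Fintype.card_fin]
  exact cst_one m 0

/-- `[c'_t]_s` from `[c_t]_{r+s}` -/
theorem hc_sub_of_pt (P : Law Ω) (c : Cf Ω m) (r s : ℕ) (Z : Ω → T)
    (hZ : Fn P (fun ω => (fl (r + s) (c.pt ω), c.q r ω, c.t ω)) Z) :
    hc P (fun ω => fl s ((c.sub r).pt ω)) Z ≤ cst m 0 := by
  have h1 := hc_fl_det P (s := s) 1 (fun ω => (c.sub r).pt ω) Z (by
    intro ω ω' p p' e i
    have h2 := hZ ω ω' p p' e
    simp only [Prod.mk.injEq] at h2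
    obtain ⟨hF, hq, ht⟩ := h2
    rw [← pt_sub_diff c r s hq ht]
    rw [Nat.cast_one]
    exact abs_sub_lt_of_floor (congrFun hF i))
  refine h1.trans ?_
  rw [Fintype.card_fin]
  exact cst_one m 0

end geom

end Vale.Agent.P127.Stk
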