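import Vale.Agent.P127.Stk.RatesPre

/-!
# P127 / Stk : rates, the upper bounds for one law
-/

namespace Vale.Agent.P127.Stk

open Finset Vale.Agent.P127

namespace Pre

variable {Ω : Type} [Fintype Ω] {m κ : ℕ} {Q : Law Ω} {c : Cf Ω m} {o : Ob Ω m κ} {L : ℕ}
  {h e u : ℝ}

theorem up0 (H : Pre Q c o L h e)
    (hu : hc Q (fun ω => fl L (o.F c ω)) (fun ω => (c.t ω, o.G ω, c.A ω)) ≤
      (h - κ) * L * Real.log 2 + u) {s : ℕ} (hL : s ≤ L) :
    hc Q (fun ω => fl s (o.F c ω)) (fun ω => (c.t ω, o.G ω, c.A ω)) ≤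
      (h - κ) * s * Real.log 2 + u + 6 * e := by
  have h1 := H.lo' hL le_rfl
  have h2 := hc_pair Q (fun ω => fl s (o.F c ω)) (fun ω => fl L (o.F c ω))
    (fun ω => (c.t ω, o.G ω, c.A ω))
  have h3 := hc_mono_left Q (X := fun ω => (fl s (o.F c ω), fl L (o.F c ω)))
    (X' := fun ω => fl L (o.F c ω)) (Y := fun ω => (c.t ω, o.G ω, c.A ω)) (by
      intro ω ω' _ _ h
      simp only [Prod.mk.injEq] at h ⊢
      exact ⟨fl_of_fl hL _ _ h.1, h.1⟩)
  have e1 : (h - κ) * ((L : ℝ) - s) * Real.log 2 =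
    (h - κ) * L * Real.log 2 - (h - κ) * s * Real.log 2 := by ring
  linarith

theorem up (H : Pre Q c o L h e)
    (hu : hc Q (fun ω => fl L (o.F c ω)) (fun ω => (c.t ω, o.G ω, c.A ω)) ≤
      (h - κ) * L * Real.log 2 + u) {s s' : ℕ} (hs : s ≤ s') (hL : s' ≤ L) :
    hc Q (fun ω => fl s' (o.F c ω)) (fun ω => (fl s (o.F c ω), c.t ω, o.G ω, c.A ω)) ≤
      (h - κ) * ((s' : ℝ) - s) * Real.log 2 + u + 11 * e := by
  have h1 := H.up0 hu hL
  have h0 := H.lo0 (hs.trans hL)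
  have h2 := hc_pair Q (fun ω => fl s (o.F c ω)) (fun ω => fl s' (o.F c ω))
    (fun ω => (c.t ω, o.G ω, c.A ω))
  have h3 := hc_mono_left Q (X := fun ω => (fl s (o.F c ω), fl s' (o.F c ω)))
    (X' := fun ω => fl s' (o.F c ω)) (Y := fun ω => (c.t ω, o.G ω, c.A ω)) (by
      intro ω ω' _ _ h
      simp only [Prod.mk.injEq] at h ⊢
      exact ⟨fl_of_fl hs _ _ h.1, h.1⟩)
  have e1 : (h - κ) * ((s' : ℝ) - s) * Real.log 2 =
    (h - κ) * s' * Real.log 2 - (h - κ) * s * Real.log 2 := by ring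
  linarith

theorem cJ (H : Pre Q c o L h e)
    (hu : hc Q (fun ω => fl L (o.F c ω)) (fun ω => (c.t ω, o.G ω, c.A ω)) ≤
      (h - κ) * L * Real.log 2 + u) {s s' : ℕ} (hs : s ≤ s') (hL : s' ≤ L) :
    κ * s * Real.log 2 - (u + 17 * e) ≤
      hc Q (o.pJ c s) (fun ω => (fl s' (o.F c ω), c.t ω, o.G ω, c.A ω)) := by
  set Z : Ω → _ := fun ω => (c.t ω, o.G ω, c.A ω) with hZ
  -- the chain rules
  have h1 := hc_pair Q (fun ω => fl s' (o.F c ω)) (o.pJ c s) Z
  have h2 := hc_pair Q (fun ω => (o.pJ c s ω, fl s (o.F c ω))) (fun ω => fl s' (o.F c ω)) Z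
  have h3 : hc Q (fun ω => ((o.pJ c s ω, fl s (o.F c ω)), fl s' (o.F c ω))) Z ≤
      hc Q (fun ω => (fl s' (o.F c ω), o.pJ c s ω)) Z := by
    refine hc_mono_left Q ?_
    intro ω ω' _ _ h
    simp only [Prod.mk.injEq] at h ⊢
    exact ⟨⟨h.1.2, fl_of_fl hs _ _ h.1.1⟩, h.1.1⟩
  -- the point at the scale `s`
  have h4 : h * s * Real.log 2 - 4 * e ≤ hc Q (fun ω => (o.pJ c s ω, fl s (o.F c ω))) Z := by
    have a1 := H.pt (Nat.zero_le s) (hs.trans hL)
    have a2 := hc_mono_right Q (fun ω => fl s (c.pt ω)) (Y := Z)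
      (Y' := fun ω => (c.q 0 ω, c.t ω, o.G ω, c.A ω)) (by
        intro ω ω' _ _ h
        simp only [Prod.mk.injEq, hZ] at h ⊢
        tauto)
    have a3 := hc_le_add Q (fun ω => fl s (c.pt ω)) (fun ω => (o.pJ c s ω, fl s (o.F c ω))) Z
    have a4 := hc_pt_of_F Q c o s (fun ω => ((o.pJ c s ω, fl s (o.F c ω)), Z ω)) (by
      intro ω ω' _ _ h
      simp only [Prod.mk.injEq, hZ] at h ⊢
      tauto)
    have a5 := H.k1
    have a6 : h * (((s : ℕ) : ℝ) - ((0 : ℕ) : ℝ)) * Real.log 2 = h * s * Real.log 2 := by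
      push_cast
      ring
    linarith
  -- the remaining digits
  have h5 : (h - κ) * ((s' : ℝ) - s) * Real.log 2 - 7 * e ≤
      hc Q (fun ω => fl s' (o.F c ω)) (fun ω => ((o.pJ c s ω, fl s (o.F c ω)), Z ω)) := by
    have a1 := H.lo hs hL
    have a2 := hc_ge_of Q (X := fun ω => fl s' (o.F c ω))
      (B := fun ω => (c.q s ω, c.t ω, o.G ω, c.A ω)) (D := fun _ => ())
      (W := fun ω => (o.pJ c s ω, fl s (o.F c ω)))
      (Y := fun ω => ((o.pJ c s ω, fl s (o.F c ω)), Z ω))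
      (e1 := 0) (e2 := 2 * e)
      (by
        intro ω ω' _ _ h
        simp only [Prod.mk.injEq, hZ] at h ⊢
        tauto)
      (by
        refine (mi_le_hc' Q _ _ _).trans ?_
        rw [hc_zero]
        intro ω ω' _ _ _
        rfl)
      (by
        rw [hc_pair]
        have b1 := H.pJ_digits (le_refl s)
          (fun ω => ((c.q s ω, c.t ω, o.G ω, c.A ω), ())) (by
            intro ω ω' _ _ h
            simp only [Prod.mk.injEq] at h ⊢
            tauto)
        have b2 := hc_F_of_q Q c o s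
          (fun ω => (o.pJ c s ω, ((c.q s ω, c.t ω, o.G ω, c.A ω), ())))
          (fun ω _ => H.good.t01 ω) (by
            intro ω ω' _ _ h
            simp only [Prod.mk.injEq] at h ⊢
            tauto)
        have b3 := H.k1
        have b4 : (κ : ℝ) * ((s : ℝ) - s) * Real.log 2 = 0 := by ring
        linarith)
    linarith
  have h6 := H.up0 hu hL
  have h7 : hc Q (o.pJ c s) (fun ω => (fl s' (o.F c ω), Z ω)) =
      hc Q (o.pJ c s) (fun ω => (fl s' (o.F c ω), c.t ω, o.G ω, c.A ω)) := rfl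
  have e1 : (h - κ) * ((s' : ℝ) - s) * Real.log 2 =
    (h - κ) * s' * Real.log 2 - (h - κ) * s * Real.log 2 := by ring
  have e2 : (h - κ) * s * Real.log 2 = h * s * Real.log 2 - κ * s * Real.log 2 := by ring
  linarith

theorem q_lo' (H : Pre Q c o L h e)
    (hu : hc Q (fun ω => fl L (o.F c ω)) (fun ω => (c.t ω, o.G ω, c.A ω)) ≤
      (h - κ) * L * Real.log 2 + u) {s s' : ℕ} (hs : s ≤ s') (hL : s' ≤ L) :
    (m - (h - κ)) * s * Real.log 2 - (u + 14 * e) ≤
      hc Q (c.q s) (fun ω => (fl s' (o.F c ω), c.t ω, o.G ω, c.A ω)) := by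
  set Z : Ω → _ := fun ω => (c.t ω, o.G ω, c.A ω) with hZ
  have h1 := hc_pair Q (fun ω => fl s' (o.F c ω)) (c.q s) Z
  have h2 := hc_pair Q (c.q s) (fun ω => fl s' (o.F c ω)) Z
  have h3 : hc Q (fun ω => (c.q s ω, fl s' (o.F c ω))) Z ≤
      hc Q (fun ω => (fl s' (o.F c ω), c.q s ω)) Z := by
    refine hc_mono_left Q ?_
    intro ω ω' _ _ h
    simp only [Prod.mk.injEq] at h ⊢
    tauto
  have h4 : m * s * Real.log 2 - 3 * e ≤ hc Q (c.q s) Z := by
    refine (H.y_lo (hs.trans hL)).trans ?_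
    refine hc_mono_left Q ?_
    intro ω ω' _ _ h
    simp only [Prod.mk.injEq, Cf.q] at h ⊢
    tauto
  have h5 : (h - κ) * ((s' : ℝ) - s) * Real.log 2 - 5 * e ≤
      hc Q (fun ω => fl s' (o.F c ω)) (fun ω => (c.q s ω, Z ω)) := H.lo hs hL
  have h6 := H.up0 hu hL
  have h7 : hc Q (c.q s) (fun ω => (fl s' (o.F c ω), Z ω)) =
      hc Q (c.q s) (fun ω => (fl s' (o.F c ω), c.t ω, o.G ω, c.A ω)) := rfl
  have e1 : (h - κ) * ((s' : ℝ) - s) * Real.log 2 =
    (h - κ) * s' * Real.log 2 - (h - κ) * s * Real.log 2 := by ring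
  have e2 : (m - (h - κ)) * s * Real.log 2 = m * s * Real.log 2 - (h - κ) * s * Real.log 2 := by
    ring
  linarith

theorem q_up' (H : Pre Q c o L h e)
    (hu : hc Q (fun ω => fl L (o.F c ω)) (fun ω => (c.t ω, o.G ω, c.A ω)) ≤
      (h - κ) * L * Real.log 2 + u) {s s' : ℕ} (hs : s ≤ s') (hL : s' ≤ L) :
    hc Q (c.q s) (fun ω => (fl s' (o.F c ω), c.t ω, o.G ω, c.A ω)) ≤
      (m - (h - κ)) * s * Real.log 2 + (u + 18 * e) := by
  set Z : Ω → _ := fun ω => (c.t ω, o.G ω, c.A ω) with hZ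
  have h1 := hc_pair Q (fun ω => fl s' (o.F c ω)) (c.q s) Z
  have h2 := hc_pair Q (c.q s) (fun ω => fl s' (o.F c ω)) Z
  have h3 : hc Q (fun ω => (fl s' (o.F c ω), c.q s ω)) Z ≤
      hc Q (fun ω => (c.q s ω, fl s' (o.F c ω))) Z := by
    refine hc_mono_left Q ?_
    intro ω ω' _ _ h
    simp only [Prod.mk.injEq] at h ⊢
    tauto
  have h4 : hc Q (c.q s) Z ≤ m * s * Real.log 2 + e := by
    refine le_trans ?_ (H.q_up (hs.trans hL))
    refine hc_mono_right Q _ ?_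
    intro ω ω' _ _ h
    simp only [Prod.mk.injEq, hZ] at h
    exact h.2.2
  have h5 : hc Q (fun ω => fl s' (o.F c ω)) (fun ω => (c.q s ω, Z ω)) ≤
      (h - κ) * ((s' : ℝ) - s) * Real.log 2 + u + 12 * e := by
    have a1 := hc_le_add Q (fun ω => fl s' (o.F c ω)) (fun ω => fl s (o.F c ω))
      (fun ω => (c.q s ω, Z ω))
    have a2 := hc_F_of_q Q c o s (fun ω => (c.q s ω, Z ω)) (fun ω _ => H.good.t01 ω) (by
      intro ω ω' _ _ h
      simp only [Prod.mk.injEq, hZ] at h ⊢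
      tauto)
    have a3 := H.up hu hs hL
    have a4 := hc_mono_right Q (fun ω => fl s' (o.F c ω))
      (Y := fun ω => (fl s (o.F c ω), c.t ω, o.G ω, c.A ω))
      (Y' := fun ω => (fl s (o.F c ω), c.q s ω, Z ω)) (by
        intro ω ω' _ _ h
        simp only [Prod.mk.injEq, hZ] at h ⊢
        tauto)
    have a5 := H.k1
    linarith
  have h6 := H.lo0 hL
  have h7 : hc Q (c.q s) (fun ω => (fl s' (o.F c ω), Z ω)) =
      hc Q (c.q s) (fun ω => (fl s' (o.F c ω), c.t ω, o.G ω, c.A ω)) := rfl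
  have e1 : (h - κ) * ((s' : ℝ) - s) * Real.log 2 =
    (h - κ) * s' * Real.log 2 - (h - κ) * s * Real.log 2 := by ring
  have e2 : (m - (h - κ)) * s * Real.log 2 = m * s * Real.log 2 - (h - κ) * s * Real.log 2 := by
    ring
  linarith

/-- all the rates -/
theorem rate (H : Pre Q c o L h e) (hu0 : 0 ≤ u)
    (hu : hc Q (fun ω => fl L (o.F c ω)) (fun ω => (c.t ω, o.G ω, c.A ω)) ≤
      (h - κ) * L * Real.log 2 + u) : Rate Q c o L h (u + 18 * e) := by
  have he := H.nn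
  refine ⟨H.good.x01, H.good.y01, H.good.t01, by linarith, ?_, ?_, ?_, ?_, ?_, ?_, ?_, ?_, ?_, ?_,
    ?_, ?_, ?_⟩
  · have := H.cost2
    linarith
  · intro s hs
    have := H.q_up hs
    linarith
  · intro s hs
    have := H.y_lo hs
    linarith
  · intro s hs
    have := H.q_y hs
    linarith
  · intro s s' hs hL
    have := H.pt hs hL
    linarith
  · intro s s' hs hL
    have := H.lo hs hL
    linarith
  · intro s hL
    have := H.lo0 hL
    linarith
  · intro s hL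
    have := H.up0 hu hL
    linarith
  · intro s s' hs hL
    have := H.lo' hs hL
    linarith
  · intro s s' hs hL
    have := H.up hu hs hL
    linarith
  · intro s s' hs hL
    have := H.cJ hu hs hL
    linarith
  · intro s s' hs hL
    have := H.q_lo' hu hs hL
    linarith
  · intro s s' hs hL
    have := H.q_up' hu hs hL
    linarith

end Pre

end Vale.Agent.P127.Stk
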