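import Vale.Agent.P127.Stk.Final
import Vale.Agent.P127.MaxSphere

/-!
# P127 / Stk : the affine reduction for a set of directions of positive outer measure
-/

namespace Vale.Agent.P127.Stk

open MeasureTheory Vale.Agent.P127

variable {m : ℕ}

/-- the unit sphere -/
abbrev Sph (n : ℕ) : Type := Metric.sphere (0 : EuclideanSpace ℝ (Fin n)) 1

lemma dir_eq_uv (v : Fin m → ℝ) : dir v = uv v := by
  have h : pt 0 v 1 = dv v := by
    ext i
    refine Fin.lastCases ?_ (fun i => ?_) i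
    · rw [pt_last, dv_last]
    · rw [pt_castSucc, dv_cast]
      simp
  unfold dir uv
  rw [h]

/-- a chart of the sphere in which a set of directions has a non-null set of slopes -/
theorem exists_chart {D : Set (Sph (m + 1))}
    (hD : (volume : Measure (EuclideanSpace ℝ (Fin (m + 1)))).toSphere D ≠ 0) :
    ∃ U : EuclideanSpace ℝ (Fin (m + 1)) ≃ₗᵢ[ℝ] EuclideanSpace ℝ (Fin (m + 1)),
      volume {v : Fin m → ℝ | (∀ i, |v i| ≤ 1) ∧ ∃ e ∈ D, U e.1 = uv v} ≠ 0 := by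
  by_contra hcon
  push Not at hcon
  apply hD
  set V : Fin (m + 1) × Bool → Set (Fin m → ℝ) := fun q =>
    {v | (∀ i, |v i| ≤ 1) ∧ ∃ e ∈ D, swapIso q.1 q.2 e.1 = uv v} with hV
  have hV0 : ∀ q, volume (toMeasurable volume (V q)) = 0 := by
    intro q
    rw [measure_toMeasurable]
    exact hcon _
  have hsub : D ⊆ ⋃ q : Fin (m + 1) × Bool, {e : Sph (m + 1) |
      0 < (swapIso q.1 q.2 e.1).ofLp (Fin.last m) ∧
        slope (swapIso q.1 q.2 e.1) ∈ toMeasurable volume (V q)} := by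
    intro e he
    have hn : ‖e.1‖ = 1 := by simp
    have hne : e.1 ≠ 0 := by
      intro h0
      rw [h0, norm_zero] at hn
      exact zero_ne_one hn
    obtain ⟨i, b, h1, h2⟩ := exists_swapIso hne
    refine Set.mem_iUnion.2 ⟨(i, b), h1, subset_toMeasurable _ _ ⟨fun j => ?_, e, he, ?_⟩⟩
    · simp only [slope]
      rw [abs_div, abs_of_pos h1, div_le_one h1]
      exact h2 _
    · rw [← dir_eq_uv, dir_slope (by rw [LinearIsometryEquiv.norm_map]; exact hn) h1]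
  refine le_antisymm ?_ zero_le
  calc _ ≤ _ := measure_mono hsub
    _ ≤ ∑ q : Fin (m + 1) × Bool, _ := measure_iUnion_fintype_le _ _
    _ ≤ ∑ q : Fin (m + 1) × Bool, ((m + 1 : ℕ) : ENNReal) * volume (toMeasurable volume (V q)) :=
        Finset.sum_le_sum fun q _ => toSphere_slope_le _ (measurableSet_toMeasurable _ _)
    _ = 0 := by simp [hV0]

/-- the action of an isometry on the space of lines -/
noncomputable def isoLS (U : EuclideanSpace ℝ (Fin (m + 1)) ≃ₗᵢ[ℝ] EuclideanSpace ℝ (Fin (m + 1)))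
    (p : LS m) : LS m :=
  ((U.toContinuousLinearEquiv : EuclideanSpace ℝ (Fin (m + 1)) →L[ℝ]
      EuclideanSpace ℝ (Fin (m + 1))).comp (p.1.comp
    (U.symm.toContinuousLinearEquiv : EuclideanSpace ℝ (Fin (m + 1)) →L[ℝ]
      EuclideanSpace ℝ (Fin (m + 1)))), U p.2)

lemma isoLS_fst (U : EuclideanSpace ℝ (Fin (m + 1)) ≃ₗᵢ[ℝ] EuclideanSpace ℝ (Fin (m + 1)))
    (p : LS m) (u : EuclideanSpace ℝ (Fin (m + 1))) : (isoLS U p).1 u = U (p.1 (U.symm u)) := rfl

lemma isoLS_dist (U : EuclideanSpace ℝ (Fin (m + 1)) ≃ₗᵢ[ℝ] EuclideanSpace ℝ (Fin (m + 1)))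
    (p q : LS m) : dist (isoLS U p) (isoLS U q) ≤ dist p q := by
  rw [Prod.dist_eq, Prod.dist_eq]
  refine max_le_max ?_ ?_
  · rw [dist_eq_norm, dist_eq_norm]
    refine ContinuousLinearMap.opNorm_le_bound _ (norm_nonneg _) fun u => ?_
    have h1 : ((isoLS U p).1 - (isoLS U q).1) u = U ((p.1 - q.1) (U.symm u)) := by
      rw [sub_apply, isoLS_fst, isoLS_fst, ← map_sub, sub_apply]
    rw [h1, LinearIsometryEquiv.norm_map]
    have h2 := (p.1 - q.1).le_opNorm (U.symm u)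
    rwa [LinearIsometryEquiv.norm_map] at h2
  · exact (U.dist_map _ _).le

lemma isLn_iso (U : EuclideanSpace ℝ (Fin (m + 1)) ≃ₗᵢ[ℝ] EuclideanSpace ℝ (Fin (m + 1)))
    (a e : EuclideanSpace ℝ (Fin (m + 1))) (he : ‖e‖ = 1) :
    IsLn (isoLS U (toLine a e)) (U a) (U e) := by
  obtain ⟨h1, h2⟩ := isLn_toLine a e he
  constructor
  · intro u
    rw [isoLS_fst, h1, map_smul]
    congr 1
    rw [← U.inner_map_map, U.apply_symm_apply]
  · show U (toLine a e).2 = _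
    rw [h2, map_sub, map_smul, U.inner_map_map]

lemma ln_reg' {p : LS m} {a : EuclideanSpace ℝ (Fin (m + 1))} {y : Fin m → ℝ}
    (h : IsLn p a (uv y)) (hy : ∀ i, |y i| ≤ 1) {R : ℝ} (hR : ‖p.2‖ ≤ R) :
    p ∈ Reg m (1 / ((m : ℝ) + 1)) R := by
  have h0 := dv_one_le y
  refine ⟨?_, fun i => ?_, hR⟩
  · rw [ln_elast h, WithLp.ofLp_smul, Pi.smul_apply, uv_last, smul_eq_mul, ← mul_inv, ← pow_two,
      one_div]
    refine inv_anti₀ (by positivity) ?_
    rw [dv_sq]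
    have : ∑ i, y i ^ 2 ≤ m := by
      calc ∑ i, y i ^ 2 ≤ ∑ _i : Fin m, (1 : ℝ) := by
            refine Finset.sum_le_sum fun i _ => ?_
            rw [← sq_abs]
            exact pow_le_one₀ (abs_nonneg _) (hy i)
        _ = m := by simp
    linarith
  · rw [ln_slp h]
    exact hy i

/-- the classes of slopes -/
def Vcl (K : Set (EuclideanSpace ℝ (Fin (m + 1)))) (V : Set (Fin m → ℝ))
    (l : (Fin m → ℝ) → LS m) (S : ℕ → Set (LS m))
    (q : ℕ × ℚ × ℚ × (Fin m → ℤ) × (Fin m → ℤ) × ℕ) : Set (Fin m → ℝ) :=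
  {v | v ∈ V ∧ l v ∈ S q.1 ∧ (q.2.1 : ℝ) < q.2.2.1 ∧
    (∀ r ∈ Set.Icc (q.2.1 : ℝ) q.2.2.1, pt (ps0 (l v)) v r ∈ K) ∧
    (∀ i, ⌊v i⌋ = q.2.2.2.1 i) ∧
    (∀ i, 0 ≤ (ps0 (l v) i + q.2.1 * v i) / (q.2.2.1 - q.2.1) - q.2.2.2.2.1 i ∧
      (ps0 (l v) i + q.2.1 * v i) / (q.2.2.1 - q.2.1) - q.2.2.2.2.1 i < 1) ∧
    ‖(l v).2‖ ≤ q.2.2.2.2.2}

theorem exists_Vcl {K : Set (EuclideanSpace ℝ (Fin (m + 1)))} {V : Set (Fin m → ℝ)}
    (hV : volume V ≠ 0) {b : (Fin m → ℝ) → EuclideanSpace ℝ (Fin (m + 1))}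
    (hK : ∀ v ∈ V, ∃ r > 0, ∀ t ∈ Set.Icc (0 : ℝ) r, b v + t • uv v ∈ K)
    {l : (Fin m → ℝ) → LS m} (hl : ∀ v ∈ V, IsLn (l v) (b v) (uv v))
    {S : ℕ → Set (LS m)} (hS : ∀ v ∈ V, ∃ i, l v ∈ S i) :
    ∃ q, volume (Vcl K V l S q) ≠ 0 := by
  have hcov : V ⊆ ⋃ q, Vcl K V l S q := by
    intro y hy
    obtain ⟨i, hi⟩ := hS _ hy
    obtain ⟨r0, hr0, hr⟩ := hK _ hy
    have h0 := dv_one_le y
    have hinv : (0 : ℝ) < ‖dv y‖⁻¹ := inv_pos.2 (by linarith)
    have hL := hl _ hy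
    set al := (b y).ofLp (Fin.last m) with hal
    obtain ⟨h₁, h11, h12⟩ := exists_rat_btwn
      (show al < al + r0 * ‖dv y‖⁻¹ by
        have := mul_pos hr0 hinv
        linarith)
    obtain ⟨h₂, h21, h22⟩ := exists_rat_btwn h12
    obtain ⟨R, hR⟩ := exists_nat_ge ‖(l y).2‖
    refine Set.mem_iUnion.2 ⟨(i, h₁, h₂, (fun i => ⌊y i⌋), (fun i =>
      ⌊(ps0 (l y) i + h₁ * y i) / (h₂ - h₁)⌋), R), hy, hi, by exact_mod_cast h21, ?_,
      fun _ => rfl, ?_, hR⟩
    · intro r hr'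
      rw [ln_pt hL]
      refine hr _ ⟨?_, ?_⟩
      · have : 0 ≤ r - al := by
          have := hr'.1
          simp only at this
          linarith
        positivity
      · have h3 : r - al ≤ r0 * ‖dv y‖⁻¹ := by
          have := hr'.2
          simp only at this
          linarith
        calc (r - al) * ‖dv y‖ ≤ (r0 * ‖dv y‖⁻¹) * ‖dv y‖ :=
              mul_le_mul_of_nonneg_right h3 (norm_nonneg _)
          _ = r0 := by rw [mul_assoc, inv_mul_cancel₀ (by linarith), mul_one]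
    · intro i
      simp only
      constructor
      · linarith [Int.floor_le ((ps0 (l y) i + h₁ * y i) / (h₂ - h₁))]
      · linarith [Int.lt_floor_add_one ((ps0 (l y) i + h₁ * y i) / (h₂ - h₁))]
  have hvol : volume (⋃ q, Vcl K V l S q) ≠ 0 := fun h0 => hV (measure_mono_null hcov h0)
  obtain ⟨q, hpos⟩ := exists_measure_pos_of_not_measure_iUnion_null hvol
  exact ⟨q, hpos.ne'⟩

/-- the affine reduction for a set of directions of positive outer measure and segments of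
arbitrary lengths -/
theorem red2 {K : Set (EuclideanSpace ℝ (Fin (m + 1)))} {D : Set (Sph (m + 1))}
    (hD : (volume : Measure (EuclideanSpace ℝ (Fin (m + 1)))).toSphere D ≠ 0)
    {a : Sph (m + 1) → EuclideanSpace ℝ (Fin (m + 1))}
    (hK : ∀ e ∈ D, ∃ r > 0, ∀ t ∈ Set.Icc (0 : ℝ) r, a e + t • e.1 ∈ K)
    {S : ℕ → Set (LS m)} (hS : ∀ e ∈ D, ∃ i, toLine (a e) e.1 ∈ S i) {η : ℝ}
    (hbox : ∀ i, ∃ A : ℝ, ∀ s : ℕ, ∃ C : Finset (LS m), (C.card : ℝ) ≤ A * 2 ^ ((m + η) * s) ∧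
      S i ⊆ ⋃ c ∈ C, Metric.closedBall c ((1 / 2 : ℝ) ^ s)) :
    ∃ (K' : Set (EuclideanSpace ℝ (Fin (m + 1)))) (Y : Set (Fin m → ℝ))
      (x : (Fin m → ℝ) → Fin m → ℝ), dimH K' ≤ dimH K ∧
      (∀ y ∈ Y, ∀ i, 0 ≤ y i ∧ y i < 1) ∧ (∀ y ∈ Y, ∀ i, 0 ≤ x y i ∧ x y i < 1) ∧
      volume Y ≠ 0 ∧ (∀ y ∈ Y, ∀ t ∈ Set.Icc (0 : ℝ) 1, pt (x y) y t ∈ K') ∧
      ∃ A : ℝ, ∀ s : ℕ, ∃ F : Finset ((Fin m → ℤ) × (Fin m → ℤ)),
        (F.card : ℝ) ≤ A * 2 ^ ((m + η) * s) ∧ ∀ y ∈ Y, (fl s (x y), fl s y) ∈ F := by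
  classical
  obtain ⟨U, hU⟩ := exists_chart hD
  set V : Set (Fin m → ℝ) := {v | (∀ i, |v i| ≤ 1) ∧ ∃ e ∈ D, U e.1 = uv v} with hV
  have hVne : V.Nonempty := nonempty_of_measure_ne_zero hU
  obtain ⟨v0, hv0⟩ := hVne
  obtain ⟨e0, he0, _⟩ := hv0.2
  have hex : ∀ v : Fin m → ℝ, ∃ e : Sph (m + 1), v ∈ V → e ∈ D ∧ U e.1 = uv v := by
    intro v
    by_cases hv : v ∈ V
    · obtain ⟨e, he, h⟩ := hv.2
      exact ⟨e, fun _ => ⟨he, h⟩⟩
    · exact ⟨e0, fun h => absurd h hv⟩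
  choose ε hε using hex
  set l : (Fin m → ℝ) → LS m := fun v => isoLS U (toLine (a (ε v)) (ε v).1) with hl
  set b : (Fin m → ℝ) → EuclideanSpace ℝ (Fin (m + 1)) := fun v => U (a (ε v)) with hb0
  have hlL : ∀ v ∈ V, IsLn (l v) (b v) (uv v) := by
    intro v hv
    rw [← (hε v hv).2]
    exact isLn_iso U _ _ (by simp)
  obtain ⟨⟨i, h₁, h₂, z, kk, R⟩, hvol⟩ := exists_Vcl (K := U '' K) hU (b := b) (l := l)
    (S := fun i => isoLS U '' S i) (by
      intro v hv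
      obtain ⟨r, hr, h⟩ := hK _ (hε v hv).1
      refine ⟨r, hr, fun t ht => ⟨_, h t ht, ?_⟩⟩
      rw [map_add, map_smul, (hε v hv).2]) hlL (by
      intro v hv
      obtain ⟨i, hi⟩ := hS _ (hε v hv).1
      exact ⟨i, _, hi, rfl⟩)
  set W := Vcl (U '' K) V l (fun i => isoLS U '' S i) (i, h₁, h₂, z, kk, R) with hW
  have hWne : W.Nonempty := nonempty_of_measure_ne_zero hvol
  have hlt : (h₁ : ℝ) < h₂ := by
    obtain ⟨y, hy⟩ := hWne
    exact hy.2.2.1
  set lam : ℝ := h₂ - h₁ with hlam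
  have hlam0 : 0 < lam := by linarith
  set zr : Fin m → ℝ := fun i => z i with hzr
  set Y : Set (Fin m → ℝ) := (fun y => y + zr) ⁻¹' W with hY
  have hY0 : volume Y ≠ 0 := by
    rw [hY, measure_preimage_add_right]
    exact hvol
  set x : (Fin m → ℝ) → Fin m → ℝ := fun y i =>
    (ps0 (l (y + zr)) i + h₁ * (y + zr) i) / lam - kk i with hx
  set zv : EuclideanSpace ℝ (Fin (m + 1)) :=
    WithLp.toLp 2 (Fin.snoc (α := fun _ => ℝ) zr 0) with hzv
  have hzvc : ∀ i : Fin m, zv.ofLp (Fin.castSucc i) = z i := fun i => by simp [hzv, hzr]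
  have hzvl : zv.ofLp (Fin.last m) = 0 := by simp [hzv]
  set bb : EuclideanSpace ℝ (Fin (m + 1)) :=
    WithLp.toLp 2 (Fin.snoc (α := fun _ => ℝ) (fun i => (kk i : ℝ) - h₁ * z i / lam)
      (h₁ / lam)) with hbb
  have hbc : ∀ i : Fin m, bb.ofLp (Fin.castSucc i) = kk i - h₁ * z i / lam := fun i => by
    simp [hbb]
  have hbl : bb.ofLp (Fin.last m) = h₁ / lam := by simp [hbb]
  set T0 : EuclideanSpace ℝ (Fin (m + 1)) →L[ℝ] EuclideanSpace ℝ (Fin (m + 1)) :=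
    lam⁻¹ • (ContinuousLinearMap.id ℝ _ -
      (EuclideanSpace.proj (𝕜 := ℝ) (Fin.last m)).smulRight zv) with hT0
  have hT0a : ∀ p, T0 p = lam⁻¹ • (p - p.ofLp (Fin.last m) • zv) := by
    intro p
    simp [hT0]
  set L : EuclideanSpace ℝ (Fin (m + 1)) → EuclideanSpace ℝ (Fin (m + 1)) := fun p =>
    T0 p - bb with hL
  have hLip : LipschitzWith ‖T0‖₊ L := by
    refine LipschitzWith.of_dist_le_mul fun p q => ?_
    rw [hL]
    simp only
    rw [dist_sub_right]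
    exact T0.lipschitz.dist_le_mul p q
  refine ⟨L '' (U '' K), Y, x, ?_, ?_, fun y hy => hy.2.2.2.2.2.1, hY0, ?_, ?_⟩
  · exact (hLip.dimH_image_le _).trans (le_of_eq (U.isometry.dimH_image K))
  · intro y hy j
    have h1 := hy.2.2.2.2.1 j
    simp only [Pi.add_apply, hzr] at h1
    have h2 := Int.floor_le (y j + (z j : ℝ))
    have h3 := Int.lt_floor_add_one (y j + (z j : ℝ))
    rw [h1] at h2 h3
    constructor <;> linarith
  · intro y hy t ht
    have hr : (h₁ : ℝ) + lam * t ∈ Set.Icc (h₁ : ℝ) h₂ := by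
      constructor
      · have := mul_nonneg hlam0.le ht.1
        linarith
      · have := mul_le_mul_of_nonneg_left ht.2 hlam0.le
        linarith
    refine ⟨_, hy.2.2.2.1 _ hr, ?_⟩
    ext j
    refine Fin.lastCases ?_ (fun j => ?_) j
    · rw [pt_last, hL]
      simp only [hT0a, WithLp.ofLp_sub, WithLp.ofLp_smul, Pi.sub_apply, Pi.smul_apply,
        smul_eq_mul, hbl, pt_last, hzvl]
      field_simp
      ring
    · rw [pt_castSucc, hL]
      simp only [hT0a, WithLp.ofLp_sub, WithLp.ofLp_smul, Pi.sub_apply, Pi.smul_apply,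
        smul_eq_mul, hbc, pt_castSucc, pt_last, hx, hzvc, Pi.add_apply, hzr]
      field_simp
      ring
  · obtain ⟨A, hA⟩ := hbox i
    set γ : ℝ := 1 / ((m : ℝ) + 1) with hγ
    have hγ0 : 0 < γ := by positivity
    set c1 : ℝ := (2 + (R : ℝ) * (2 / γ) + |(h₁ : ℝ)| * (2 / γ)) / lam with hc1
    obtain ⟨N, hN⟩ := exists_nat_ge (max (2 * c1) (2 * (2 / γ)))
    have hN1 : 2 * c1 ≤ N := (le_max_left _ _).trans hN
    have hN2 : 2 * (2 / γ) ≤ N := (le_max_right _ _).trans hN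
    refine ⟨(2 * N + 3) ^ (2 * m) * A, fun s => ?_⟩
    obtain ⟨C, hC, hCS⟩ := hA s
    set T : Set (LS m) := l '' W with hT
    have hTreg : ∀ p ∈ T, p ∈ Reg m γ R := by
      rintro _ ⟨v, hv, rfl⟩
      exact ln_reg' (hlL v hv.1) hv.1.1 hv.2.2.2.2.2.2
    have hTS : T ⊆ ⋃ c ∈ C.image (isoLS U), Metric.closedBall c ((1 / 2 : ℝ) ^ s) := by
      rintro _ ⟨v, hv, rfl⟩
      obtain ⟨p, hp, hpe⟩ := hv.2.1
      obtain ⟨c, hc, hpc⟩ := Set.mem_iUnion₂.1 (hCS hp)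
      refine Set.mem_iUnion₂.2 ⟨isoLS U c, Finset.mem_image_of_mem _ hc, ?_⟩
      rw [← hpe, Metric.mem_closedBall]
      exact (isoLS_dist U p c).trans hpc
    obtain ⟨F, hF, hF'⟩ := cells_of_cover (T := T) (s := s)
      (fun p i => (ps0 p i + h₁ * slp p i) / lam - kk i) (fun p i => slp p i - z i) N (by
        intro p hp q hq j
        have e : (ps0 p j + h₁ * slp p j) / lam - kk j - ((ps0 q j + h₁ * slp q j) / lam - kk j) =
            ((ps0 p j - ps0 q j) + h₁ * (slp p j - slp q j)) / lam := by ring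
        rw [e, abs_div, abs_of_pos hlam0]
        have h3 := ps0_lip hγ0 (hTreg p hp) (hTreg q hq) j
        have h4 := slp_lip hγ0 (hTreg p hp) (hTreg q hq) j
        have h5 := abs_add_le (ps0 p j - ps0 q j) (h₁ * (slp p j - slp q j))
        rw [abs_mul] at h5
        have h6 : |(h₁ : ℝ)| * |slp p j - slp q j| ≤ |(h₁ : ℝ)| * (2 / γ * dist p q) :=
          mul_le_mul_of_nonneg_left h4 (abs_nonneg _)
        have h7 : |(ps0 p j - ps0 q j) + h₁ * (slp p j - slp q j)| / lam ≤ c1 * dist p q := by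
          rw [hc1, div_mul_eq_mul_div]
          refine div_le_div_of_nonneg_right ?_ hlam0.le
          nlinarith
        have h8 : 2 * c1 * dist p q ≤ N * dist p q :=
          mul_le_mul_of_nonneg_right hN1 dist_nonneg
        linarith) (by
        intro p hp q hq j
        have h4 := slp_lip hγ0 (hTreg p hp) (hTreg q hq) j
        have h8 : 2 * (2 / γ) * dist p q ≤ N * dist p q :=
          mul_le_mul_of_nonneg_right hN2 dist_nonneg
        have e : slp p j - z j - (slp q j - z j) = slp p j - slp q j := by ring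
        rw [e]
        linarith) _ hTS
    refine ⟨F, hF.trans ?_, fun y hy => ?_⟩
    · rw [mul_assoc]
      refine mul_le_mul_of_nonneg_left ?_ (by positivity)
      refine le_trans ?_ hC
      exact_mod_cast Finset.card_image_le
    · have h3 := hF' _ ⟨_, hy, rfl⟩
      have h4 : ∀ j, slp (l (y + zr)) j = (y + zr) j := fun j =>
        ln_slp (hlL _ hy.1) j
      have h5 : (fun i => slp (l (y + zr)) i - (z i : ℝ)) = y := by
        funext j
        rw [h4 j]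
        simp [hzr]
      have h6 : (fun i => (ps0 (l (y + zr)) i + h₁ * slp (l (y + zr)) i) / lam - (kk i : ℝ)) =
          x y := by
        funext j
        rw [h4 j]
      rw [h5, h6] at h3
      exact h3

end Vale.Agent.P127.Stk
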