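import Mathlib

/-!
# P127 / Stk / StepR : facts on polynomials (normalised by the `ℓ¹` norm of the coefficients)
-/

namespace Vale.Agent.P127.Stk.R

open Finset Polynomial

/-- sum of the absolute values of the coefficients -/
noncomputable def pn (P : ℝ[X]) : ℝ := P.sum fun _ a => |a|

theorem pn_eq_range (P : ℝ[X]) (n : ℕ) (h : P.natDegree < n) :
    pn P = ∑ i ∈ range n, |P.coeff i| := by
  unfold pn
  exact P.sum_over_range' (fun i => by simp) n h

theorem pn_nonneg (P : ℝ[X]) : 0 ≤ pn P := by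
  rw [pn_eq_range P _ (Nat.lt_succ_self _)]
  exact Finset.sum_nonneg fun i _ => abs_nonneg _

theorem pn_zero : pn 0 = 0 := by
  rw [pn_eq_range 0 1 (by simp)]; simp

theorem pn_add_le (P Q : ℝ[X]) : pn (P + Q) ≤ pn P + pn Q := by
  have h1 : (P + Q).natDegree ≤ max P.natDegree Q.natDegree := natDegree_add_le P Q
  rw [pn_eq_range (P + Q) (max P.natDegree Q.natDegree + 1) (by omega),
    pn_eq_range P (max P.natDegree Q.natDegree + 1) (by omega),
    pn_eq_range Q (max P.natDegree Q.natDegree + 1) (by omega), ← Finset.sum_add_distrib]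
  refine Finset.sum_le_sum fun i _ => ?_
  rw [coeff_add]
  exact abs_add_le _ _

theorem pn_C_mul (a : ℝ) (P : ℝ[X]) : pn (C a * P) = |a| * pn P := by
  have h1 : (C a * P).natDegree ≤ P.natDegree := natDegree_C_mul_le a P
  rw [pn_eq_range (C a * P) (P.natDegree + 1) (by omega),
    pn_eq_range P (P.natDegree + 1) (by omega), Finset.mul_sum]
  refine Finset.sum_congr rfl fun i _ => ?_
  rw [coeff_C_mul, abs_mul]

theorem pn_X_mul (P : ℝ[X]) : pn (X * P) = pn P := by
  have h1 : (X * P).natDegree ≤ P.natDegree + 1 := by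
    have := natDegree_mul_le (p := (X : ℝ[X])) (q := P)
    have h2 := natDegree_X_le (R := ℝ)
    omega
  rw [pn_eq_range (X * P) (P.natDegree + 1 + 1) (by omega),
    pn_eq_range P (P.natDegree + 1) (by omega), Finset.sum_range_succ']
  simp [coeff_X_mul]

theorem pn_sum_le {ι : Type*} (s : Finset ι) (f : ι → ℝ[X]) :
    pn (∑ i ∈ s, f i) ≤ ∑ i ∈ s, pn (f i) := by
  classical
  induction s using Finset.induction_on with
  | empty => simp [pn_zero]
  | insert a s ha ih =>
    rw [Finset.sum_insert ha, Finset.sum_insert ha]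
    exact (pn_add_le _ _).trans (by linarith)

theorem pn_X_sub_C_mul_le (u : ℝ) (P : ℝ[X]) : pn ((X - C u) * P) ≤ (1 + |u|) * pn P := by
  have h : (X - C u) * P = X * P + C (-u) * P := by
    rw [C_neg]; ring
  rw [h]
  refine (pn_add_le _ _).trans ?_
  rw [pn_X_mul, pn_C_mul, abs_neg]
  linarith

theorem pn_prod_le {ι : Type*} (s : Finset ι) (u : ι → ℝ) (hu : ∀ i ∈ s, |u i| ≤ 1) :
    pn (∏ i ∈ s, (X - C (u i))) ≤ 2 ^ s.card := by
  classical
  induction s using Finset.induction_on with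
  | empty =>
    have : pn (1 : ℝ[X]) = 1 := by
      rw [pn_eq_range 1 1 (by simp)]; simp
    simp [this]
  | insert a s ha ih =>
    rw [Finset.prod_insert ha, Finset.card_insert_of_notMem ha, pow_succ]
    refine (pn_X_sub_C_mul_le _ _).trans ?_
    have h1 := ih fun i hi => hu i (Finset.mem_insert_of_mem hi)
    have h2 := hu a (Finset.mem_insert_self a s)
    have h3 := pn_nonneg (∏ i ∈ s, (X - C (u i)))
    have h4 := abs_nonneg (u a)
    nlinarith

theorem abs_eval_le_pn (P : ℝ[X]) {u : ℝ} (h0 : 0 ≤ u) (h1 : u ≤ 1) : |P.eval u| ≤ pn P := by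
  rw [eval_eq_sum_range, pn_eq_range P (P.natDegree + 1) (by omega)]
  refine (Finset.abs_sum_le_sum_abs _ _).trans (Finset.sum_le_sum fun i _ => ?_)
  rw [abs_mul, abs_pow, abs_of_nonneg h0]
  exact mul_le_of_le_one_right (abs_nonneg _) (pow_le_one₀ h0 h1)

/-- Lagrange: small values at `D + 1` separated points bound the coefficients -/
theorem pn_le_of_points (D : ℕ) (P : ℝ[X]) (hP : P.natDegree ≤ D) (ρ : ℝ) (h0 : 0 < ρ)
    (_h1 : ρ ≤ 1) (u : Fin (D + 1) → ℝ) (hu : ∀ i, 0 ≤ u i ∧ u i ≤ 1)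
    (hs : ∀ i j, i ≠ j → ρ ≤ |u i - u j|) (μ : ℝ) (hμ : ∀ i, |P.eval (u i)| ≤ μ) :
    pn P ≤ (D + 1) * (2 / ρ) ^ D * μ := by
  classical
  have hinj : Set.InjOn u (Finset.univ : Finset (Fin (D + 1))) := by
    intro i _ j _ hij
    by_contra hne
    have := hs i j hne
    rw [hij, sub_self, abs_zero] at this
    linarith
  have hdeg : P.degree < (Finset.univ : Finset (Fin (D + 1))).card := by
    rw [Finset.card_univ, Fintype.card_fin]
    refine lt_of_le_of_lt degree_le_natDegree ?_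
    exact_mod_cast Nat.lt_succ_of_le hP
  have hP' : P = ∑ i, C (P.eval (u i)) * Lagrange.basis Finset.univ u i := by
    have := Lagrange.eq_interpolate hinj hdeg
    conv_lhs => rw [this]
    rw [Lagrange.interpolate_apply]
  have hb : ∀ i, pn (Lagrange.basis Finset.univ u i) ≤ (2 / ρ) ^ D := by
    intro i
    have e1 : Lagrange.basis Finset.univ u i =
        C (∏ j ∈ Finset.univ.erase i, (u i - u j)⁻¹) * ∏ j ∈ Finset.univ.erase i, (X - C (u j)) := by
      unfold Lagrange.basis Lagrange.basisDivisor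
      rw [Finset.prod_mul_distrib, ← map_prod]
    rw [e1, pn_C_mul, Finset.abs_prod]
    have hcard : (Finset.univ.erase i : Finset (Fin (D + 1))).card = D := by
      rw [Finset.card_erase_of_mem (Finset.mem_univ _), Finset.card_univ, Fintype.card_fin]; rfl
    have h2 : pn (∏ j ∈ Finset.univ.erase i, (X - C (u j))) ≤ 2 ^ D := by
      have := pn_prod_le (Finset.univ.erase i) u fun j _ => by
        rw [abs_of_nonneg (hu j).1]; exact (hu j).2
      rwa [hcard] at this
    have h3 : ∏ j ∈ Finset.univ.erase i, |(u i - u j)⁻¹| ≤ (1 / ρ) ^ D := by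
      have : ∏ j ∈ Finset.univ.erase i, |(u i - u j)⁻¹| ≤ ∏ _j ∈ Finset.univ.erase i, (1 / ρ) := by
        refine Finset.prod_le_prod (fun _ _ => abs_nonneg _) fun j hj => ?_
        have hne : i ≠ j := (Finset.ne_of_mem_erase hj).symm
        rw [abs_inv, one_div]
        exact inv_anti₀ h0 (hs i j hne)
      rwa [Finset.prod_const, hcard] at this
    calc (∏ j ∈ Finset.univ.erase i, |(u i - u j)⁻¹|) * pn (∏ j ∈ Finset.univ.erase i, (X - C (u j)))
        ≤ (1 / ρ) ^ D * 2 ^ D := mul_le_mul h3 h2 (pn_nonneg _) (by positivity)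
      _ = (2 / ρ) ^ D := by rw [← mul_pow]; congr 1; ring
  have hμ0 : 0 ≤ μ := (abs_nonneg _).trans (hμ 0)
  calc pn P = pn (∑ i, C (P.eval (u i)) * Lagrange.basis Finset.univ u i) := by rw [← hP']
    _ ≤ ∑ i, pn (C (P.eval (u i)) * Lagrange.basis Finset.univ u i) := pn_sum_le _ _
    _ ≤ ∑ _i : Fin (D + 1), μ * (2 / ρ) ^ D := by
      refine Finset.sum_le_sum fun i _ => ?_
      rw [pn_C_mul]
      exact mul_le_mul (hμ i) (hb i) (pn_nonneg _) hμ0
    _ = (D + 1) * (2 / ρ) ^ D * μ := by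
      rw [Finset.sum_const, Finset.card_univ, Fintype.card_fin, nsmul_eq_mul]
      push_cast; ring

/-- the points of `[0,1)` where `|P|` is much smaller than `pn P` lie in few dyadic cells -/
theorem cells_card (D j : ℕ) (P : ℝ[X]) (hP : P.natDegree ≤ D) :
    ∃ F : Finset ℤ, F.card ≤ 2 * D ∧ ∀ u : ℝ, 0 ≤ u → u < 1 →
      |P.eval u| * ((D + 1) * 2 ^ ((j + 1) * D)) < pn P → ⌊(2 : ℝ) ^ j * u⌋ ∈ F := by
  classical
  let bad : ℝ → Prop := fun u => 0 ≤ u ∧ u < 1 ∧ |P.eval u| * ((D + 1) * 2 ^ ((j + 1) * D)) < pn P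
  let F : Finset ℤ := (Finset.Ico (0 : ℤ) (2 ^ j)).filter
    fun k => ∃ u, bad u ∧ ⌊(2 : ℝ) ^ j * u⌋ = k
  have hpow : (0 : ℝ) < 2 ^ j := by positivity
  refine ⟨F, ?_, ?_⟩
  · by_contra hcon
    push Not at hcon
    obtain ⟨G, hGF, hG⟩ := Finset.exists_subset_card_eq (Nat.succ_le_of_lt hcon)
    let s := G.orderEmbOfFin hG
    let idx : Fin (D + 1) → Fin (2 * D).succ := fun i => ⟨2 * i.1, by have := i.2; omega⟩
    have hmem : ∀ i : Fin (D + 1), ∃ u, bad u ∧ ⌊(2 : ℝ) ^ j * u⌋ = s (idx i) := by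
      intro i
      have : s (idx i) ∈ G := Finset.orderEmbOfFin_mem G hG (idx i)
      exact (Finset.mem_filter.1 (hGF this)).2
    choose u hub hus using hmem
    have hgap : ∀ i k : Fin (D + 1), i < k → s (idx i) + 2 ≤ s (idx k) := by
      intro i k hik
      have h1 : idx i < (⟨2 * i.1 + 1, by have := k.2; have : i.1 < k.1 := hik; omega⟩ :
          Fin (2 * D).succ) := by
        show 2 * i.1 < 2 * i.1 + 1
        omega
      have h2 : (⟨2 * i.1 + 1, by have := k.2; have : i.1 < k.1 := hik; omega⟩ :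
          Fin (2 * D).succ) < idx k := by
        show 2 * i.1 + 1 < 2 * k.1
        have : i.1 < k.1 := hik
        omega
      have h3 := s.strictMono h1
      have h4 := s.strictMono h2
      omega
    have hdist : ∀ i k : Fin (D + 1), i < k → 1 / 2 ^ j ≤ |u i - u k| := by
      intro i k hik
      have h1 := hgap i k hik
      rw [← hus i, ← hus k] at h1
      have h2 : (2 : ℝ) ^ j * u i < ⌊(2 : ℝ) ^ j * u i⌋ + 1 := Int.lt_floor_add_one _
      have h3 : (⌊(2 : ℝ) ^ j * u k⌋ : ℝ) ≤ (2 : ℝ) ^ j * u k := Int.floor_le _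
      have h4 : (⌊(2 : ℝ) ^ j * u i⌋ : ℝ) + 2 ≤ ⌊(2 : ℝ) ^ j * u k⌋ := by exact_mod_cast h1
      have h5 : 1 ≤ (2 : ℝ) ^ j * (u k - u i) := by nlinarith
      have h6 : 1 / (2 : ℝ) ^ j ≤ u k - u i := by
        rw [div_le_iff₀ hpow]; linarith
      calc 1 / (2 : ℝ) ^ j ≤ u k - u i := h6
        _ ≤ |u k - u i| := le_abs_self _
        _ = |u i - u k| := abs_sub_comm _ _
    have hs : ∀ i k : Fin (D + 1), i ≠ k → 1 / 2 ^ j ≤ |u i - u k| := by
      intro i k hik
      rcases lt_or_gt_of_ne hik with h | h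
      · exact hdist i k h
      · rw [abs_sub_comm]; exact hdist k i h
    obtain ⟨i0, -, hi0⟩ := Finset.exists_max_image (Finset.univ : Finset (Fin (D + 1)))
      (fun i => |P.eval (u i)|) ⟨0, Finset.mem_univ _⟩
    have hle := pn_le_of_points D P hP (1 / 2 ^ j) (by positivity)
      (by rw [div_le_one hpow]; exact one_le_pow₀ (by norm_num)) u
      (fun i => ⟨(hub i).1, (hub i).2.1.le⟩) hs (|P.eval (u i0)|) (fun i => hi0 i (Finset.mem_univ _))
    have hlt := (hub i0).2.2
    have e : ((D : ℝ) + 1) * (2 / (1 / 2 ^ j)) ^ D * |P.eval (u i0)| =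
        |P.eval (u i0)| * ((D + 1) * 2 ^ ((j + 1) * D)) := by
      have : (2 : ℝ) / (1 / 2 ^ j) = 2 ^ (j + 1) := by
        rw [pow_succ]; field_simp
      rw [this, ← pow_mul]; ring
    rw [e] at hle
    linarith
  · intro u hu0 hu1 hlt
    refine Finset.mem_filter.2 ⟨Finset.mem_Ico.2 ⟨Int.floor_nonneg.2 (by positivity), ?_⟩, u,
      ⟨hu0, hu1, hlt⟩, rfl⟩
    rw [Int.floor_lt]
    push_cast
    nlinarith

theorem taylor_mono (i : ℕ) {u v : ℝ} (hu : 0 ≤ u) (hu' : u ≤ 1)
    (hv : 0 ≤ v) (hv' : v ≤ 1) :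
    |v ^ i - u ^ i - (v - u) * (i * u ^ (i - 1))| ≤ i ^ 2 * (v - u) ^ 2 := by
  induction i with
  | zero => simp
  | succ i ih =>
    have e : v ^ (i + 1) - u ^ (i + 1) - (v - u) * ((i + 1 : ℕ) * u ^ (i + 1 - 1)) =
        v * (v ^ i - u ^ i - (v - u) * (i * u ^ (i - 1))) + i * (v - u) ^ 2 * u ^ (i - 1) := by
      rcases i with _ | i
      · simp
      · simp only [Nat.add_sub_cancel]
        push_cast
        ring
    rw [e]
    refine (abs_add_le _ _).trans ?_
    rw [abs_mul, abs_of_nonneg hv, abs_mul, abs_mul, Nat.abs_cast, abs_pow, abs_pow,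
      abs_of_nonneg hu, sq_abs]
    have h1 : v * |v ^ i - u ^ i - (v - u) * (i * u ^ (i - 1))| ≤ i ^ 2 * (v - u) ^ 2 :=
      (mul_le_of_le_one_left (abs_nonneg _) hv').trans ih
    have h2 : (i : ℝ) * (v - u) ^ 2 * u ^ (i - 1) ≤ i * (v - u) ^ 2 :=
      mul_le_of_le_one_right (by positivity) (pow_le_one₀ hu hu')
    have h3 : (0 : ℝ) ≤ i := Nat.cast_nonneg i
    have h4 : 0 ≤ (v - u) ^ 2 := sq_nonneg _
    push_cast
    nlinarith

/-- Taylor expansion of order two -/
theorem taylor_two (D : ℕ) (P : ℝ[X]) (hP : P.natDegree ≤ D) {u v : ℝ} (hu : 0 ≤ u) (hu' : u ≤ 1)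
    (hv : 0 ≤ v) (hv' : v ≤ 1) :
    |P.eval v - P.eval u - (v - u) * P.derivative.eval u| ≤ D ^ 2 * pn P * (v - u) ^ 2 := by
  have e1 : ∀ w : ℝ, P.eval w = ∑ i ∈ range (D + 1), P.coeff i * w ^ i := fun w =>
    eval_eq_sum_range' (by omega) w
  have e2 : P.derivative.eval u = ∑ i ∈ range (D + 1), P.coeff i * (i * u ^ (i - 1)) := by
    rw [derivative_eval, P.sum_over_range' (fun i => by simp) (D + 1) (by omega)]
    exact Finset.sum_congr rfl fun i _ => by ring
  rw [e1 v, e1 u, e2, ← Finset.sum_sub_distrib, Finset.mul_sum, ← Finset.sum_sub_distrib,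
    pn_eq_range P (D + 1) (by omega), Finset.mul_sum, Finset.sum_mul]
  refine (Finset.abs_sum_le_sum_abs _ _).trans (Finset.sum_le_sum fun i hi => ?_)
  have h1 : P.coeff i * v ^ i - P.coeff i * u ^ i - (v - u) * (P.coeff i * (i * u ^ (i - 1))) =
      P.coeff i * (v ^ i - u ^ i - (v - u) * (i * u ^ (i - 1))) := by ring
  rw [h1, abs_mul]
  have h2 := taylor_mono i hu hu' hv hv'
  have h3 : (i : ℝ) ^ 2 ≤ (D : ℝ) ^ 2 := by
    have : i ≤ D := Nat.lt_succ_iff.1 (Finset.mem_range.1 hi)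
    have : (i : ℝ) ≤ D := by exact_mod_cast this
    exact pow_le_pow_left₀ (Nat.cast_nonneg i) this 2
  have h4 : 0 ≤ (v - u) ^ 2 := sq_nonneg _
  calc |P.coeff i| * |v ^ i - u ^ i - (v - u) * (i * u ^ (i - 1))|
      ≤ |P.coeff i| * ((D : ℝ) ^ 2 * (v - u) ^ 2) :=
        mul_le_mul_of_nonneg_left (h2.trans (mul_le_mul_of_nonneg_right h3 h4)) (abs_nonneg _)
    _ = D ^ 2 * |P.coeff i| * (v - u) ^ 2 := by ring

theorem pn_derivative_le (D : ℕ) (P : ℝ[X]) (hP : P.natDegree ≤ D) :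
    pn P.derivative ≤ D * pn P := by
  have h1 : P.derivative.natDegree ≤ D := (natDegree_derivative_le P).trans (by omega)
  have hP' : pn P = ∑ i ∈ range (D + 1), |P.coeff (i + 1)| + |P.coeff 0| := by
    rw [pn_eq_range P (D + 1 + 1) (by omega), Finset.sum_range_succ']
  rw [hP', pn_eq_range P.derivative (D + 1) (by omega), mul_add, Finset.mul_sum]
  have h2 : ∑ i ∈ range (D + 1), |P.derivative.coeff i| ≤
      ∑ i ∈ range (D + 1), (D : ℝ) * |P.coeff (i + 1)| := by
    refine Finset.sum_le_sum fun i hi => ?_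
    rw [coeff_derivative, abs_mul]
    by_cases hiD : i + 1 ≤ D
    · have h3 : |(i : ℝ) + 1| ≤ D := by
        rw [abs_of_nonneg (by positivity)]; exact_mod_cast hiD
      rw [mul_comm]
      exact mul_le_mul_of_nonneg_right h3 (abs_nonneg _)
    · have h4 : P.coeff (i + 1) = 0 := coeff_eq_zero_of_natDegree_lt (by omega)
      rw [h4]; simp
  have h5 : 0 ≤ (D : ℝ) * |P.coeff 0| := by positivity
  linarith

/-- a polynomial with a root in `[0,1]` is controlled by its derivative -/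
theorem pn_le_derivative (P : ℝ[X]) {u : ℝ} (hu : 0 ≤ u) (hu' : u ≤ 1) (h : P.eval u = 0) :
    pn P ≤ 2 * pn P.derivative := by
  have h1 : P.derivative.natDegree ≤ P.natDegree := (natDegree_derivative_le P).trans (by omega)
  have hd : pn P.derivative = ∑ i ∈ range (P.natDegree + 1), |P.derivative.coeff i| :=
    pn_eq_range _ _ (by omega)
  have h2 : ∑ i ∈ range (P.natDegree + 1), |P.coeff (i + 1)| ≤ pn P.derivative := by
    rw [hd]
    refine Finset.sum_le_sum fun i _ => ?_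
    rw [coeff_derivative, abs_mul]
    refine le_mul_of_one_le_right (abs_nonneg _) ?_
    rw [abs_of_nonneg (by positivity)]
    have : (0 : ℝ) ≤ i := Nat.cast_nonneg i
    linarith
  have h3 : P.eval u = ∑ i ∈ range (P.natDegree + 1), P.coeff (i + 1) * u ^ (i + 1) + P.coeff 0 := by
    rw [eval_eq_sum_range' (n := P.natDegree + 1 + 1) (by omega) u, Finset.sum_range_succ']
    simp
  have h4 : |P.coeff 0| ≤ ∑ i ∈ range (P.natDegree + 1), |P.coeff (i + 1)| := by
    have e : P.coeff 0 = -∑ i ∈ range (P.natDegree + 1), P.coeff (i + 1) * u ^ (i + 1) := by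
      rw [h] at h3; linarith
    rw [e, abs_neg]
    refine (Finset.abs_sum_le_sum_abs _ _).trans (Finset.sum_le_sum fun i _ => ?_)
    rw [abs_mul, abs_pow, abs_of_nonneg hu]
    exact mul_le_of_le_one_right (abs_nonneg _) (pow_le_one₀ hu hu')
  rw [pn_eq_range P (P.natDegree + 1 + 1) (by omega), Finset.sum_range_succ']
  linarith

end Vale.Agent.P127.Stk.R
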