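import Vale.Agent.P127.Stk.StepRSO
import Vale.Agent.P127.Stk.StepRPoly

set_option linter.all false

/-!
# P127 / Stk / StepR : the contradiction inside one bin (parts (c), (e) of `coreR`)
-/

namespace Vale.Agent.P127.Stk.R

open Finset Polynomial Vale.Agent.P127

/-- the time rounded to `s` digits -/
noncomputable def rd (s : ℕ) (u : ℝ) : ℝ := (fl1 s u : ℝ) / 2 ^ s

theorem rd_nonneg {s : ℕ} {u : ℝ} (h : 0 ≤ u) : 0 ≤ rd s u := by
  unfold rd fl1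
  have : 0 ≤ ⌊(2 : ℝ) ^ s * u⌋ := Int.floor_nonneg.2 (by positivity)
  have h2 : (0 : ℝ) ≤ (⌊(2 : ℝ) ^ s * u⌋ : ℝ) := by exact_mod_cast this
  positivity

theorem rd_le {s : ℕ} {u : ℝ} : rd s u ≤ u := by
  unfold rd fl1
  rw [div_le_iff₀ (by positivity)]
  have := Int.floor_le ((2 : ℝ) ^ s * u)
  linarith

theorem sub_rd_le {s : ℕ} {u : ℝ} : |u - rd s u| ≤ (1 / 2 : ℝ) ^ s := by
  rw [abs_of_nonneg (sub_nonneg.2 rd_le)]
  unfold rd fl1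
  have h2 : (0 : ℝ) < 2 ^ s := by positivity
  have h3 := Int.lt_floor_add_one ((2 : ℝ) ^ s * u)
  rw [one_div, inv_pow, sub_le_iff_le_add, ← one_div, ← add_div, le_div_iff₀ h2]
  linarith

theorem fl1_rd {s j : ℕ} (h : j ≤ s) (u : ℝ) : fl1 j (rd s u) = fl1 j u := by
  unfold fl1
  rw [floor_pow_aux h, floor_pow_aux h u]
  congr 1
  unfold rd fl1
  have h2 : (2 : ℝ) ^ s ≠ 0 := by positivity
  rw [mul_div_cancel₀ _ h2, Int.floor_intCast]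

/-- the contradiction inside one bin -/
theorem core_bin (m D C0 : ℕ) : ∃ K : ℝ, 0 ≤ K ∧ ∀ (L n s w B s1 r j : ℕ) (f δ ε2 p0 : ℝ)
    (Ω : Type) [Fintype Ω] (Q : Law Ω) (τ : Type) (σ : Ω → τ) (J : Finset (Fin m))
    (u : Ω → ℝ) (X X' : Ω → Fin m → ℝ) (pol : Ω → Fin m → ℝ[X]) (E : Ω → Prop) (i0 : Fin m),
    0 < p0 → p0 ≤ prE Q E → s + w ≤ B + 2 * s1 → B + s1 = r + w → j + (B + w) = s → r ≤ s →
    (∀ ω, 0 < Q.w ω → 0 ≤ u ω ∧ u ω < 1) →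
    Fn Q pol σ →
    (∀ ω, 0 < Q.w ω → ∀ i, (pol ω i).natDegree ≤ D) →
    (∀ ω, 0 < Q.w ω → ∀ i ∈ J, pol ω i = 0) →
    (∀ ω, 0 < Q.w ω → ∀ i,
      |X' ω i - X ω i + (pol ω i).eval (u ω)| ≤ C0 * (1 / 2 : ℝ) ^ s) →
    (∀ ω, 0 < Q.w ω → E ω → ∀ i, pn (pol ω i) ≤ 2 ^ w * (1 / 2 : ℝ) ^ B) →
    (∀ ω, 0 < Q.w ω → E ω → (1 / 2 : ℝ) ^ (B + w) ≤
      |(pol ω i0).derivative.eval (rd s1 (u ω))|) →
    (∀ ω, 0 < Q.w ω → E ω → ∀ i, |(pol ω i).derivative.eval (rd s1 (u ω))| ≤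
      |(pol ω i0).derivative.eval (rd s1 (u ω))|) →
    hc (on Q E) (fun ω => fl s (X' ω)) (fun ω => (fl r (X' ω), σ ω)) ≤
      f * ((s : ℝ) - r) * Real.log 2 + ε2 * L →
    (j : ℝ) * Real.log 2 - ε2 * L ≤
      hc Q (fun ω => fl1 j (u ω)) (fun ω => (fl s (X ω), σ ω)) →
    (∀ v : Ω → Fin m → ℝ, Fn (on Q E) v (fun ω => (σ ω, fl1 s1 (u ω))) →
      (∀ ω, 0 < (on Q E).w ω → v ω i0 = 1) →
      (∀ ω, 0 < (on Q E).w ω → ∀ i ∈ J, v ω i = 0) →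
      (∀ ω, 0 < (on Q E).w ω → ∀ i, |v ω i| ≤ 1) →
      (f - 1) * ((s : ℝ) - r) * Real.log 2 + δ * L <
        hc (on Q E) (fun ω => fl s (fun i => X ω i - X ω i0 * v ω i))
          (fun ω => (fl r (X ω), σ ω, fl1 s1 (u ω)))) →
    δ * L < 2 * w * Real.log 2 + (2 / p0 + 1) * ε2 * L + 2 / p0 * Real.log 2 + K := by
  obtain ⟨K1, hK1⟩ := straight m (C0 + D ^ 2 + D)
  obtain ⟨K2, hK2⟩ := time_le m (C0 + D ^ 2 + D)
  refine ⟨|K1| + |K2|, by positivity, ?_⟩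
  intro L n s w B s1 r j f δ ε2 p0 Ω _ Q τ σ J u X X' pol E i0 hp0 hpE hs1 hr hj hrs hu hpol hdeg
    hJ hX hpn hlow hmax H1 H2 H3
  have hE0 : 0 < prE Q E := hp0.trans_le hpE
  set R := on Q E with hR
  have hRp : ∀ ω, 0 < R.w ω → E ω ∧ 0 < Q.w ω := fun ω hω => on_pos hE0 hω
  set u1 : Ω → ℝ := fun ω => rd s1 (u ω) with hu1
  have hu10 : ∀ ω, 0 < Q.w ω → 0 ≤ u1 ω := fun ω hω => rd_nonneg (hu ω hω).1
  have hu11 : ∀ ω, 0 < Q.w ω → u1 ω < 1 := fun ω hω => rd_le.trans_lt (hu ω hω).2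
  set lam : Ω → ℝ := fun ω => (pol ω i0).derivative.eval (u1 ω) with hlam
  have hlam0 : ∀ ω, 0 < R.w ω → lam ω ≠ 0 := by
    intro ω hω h0
    have h1 := hlow ω (hRp ω hω).2 (hRp ω hω).1
    have h2 : |(pol ω i0).derivative.eval (rd s1 (u ω))| = 0 := by
      rw [abs_eq_zero]
      exact h0
    rw [h2] at h1
    have : (0 : ℝ) < (1 / 2 : ℝ) ^ (B + w) := by positivity
    linarith
  set v : Ω → Fin m → ℝ := fun ω i => (pol ω i).derivative.eval (u1 ω) / lam ω with hv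
  set W : Ω → Fin m → ℝ := fun ω i => -(pol ω i).eval (u1 ω) with hW
  set S : Ω → τ × ℤ := fun ω => (σ ω, fl1 s1 (u ω)) with hS
  have hSpol : ∀ ω ω', 0 < R.w ω → 0 < R.w ω' → S ω = S ω' → pol ω = pol ω' ∧ u1 ω = u1 ω' := by
    intro ω ω' h1 h2 e
    have e1 : σ ω = σ ω' := congrArg Prod.fst e
    have e2 : fl1 s1 (u ω) = fl1 s1 (u ω') := congrArg Prod.snd e
    refine ⟨hpol ω ω' (hRp ω h1).2 (hRp ω' h2).2 e1, ?_⟩
    simp only [hu1, rd, e2]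
  have hFv : Fn R v S := by
    intro ω ω' h1 h2 e
    obtain ⟨e1, e2⟩ := hSpol ω ω' h1 h2 e
    simp only [hv, hlam, e1, e2]
  have hFW : Fn R W S := by
    intro ω ω' h1 h2 e
    obtain ⟨e1, e2⟩ := hSpol ω ω' h1 h2 e
    simp only [hW, e1, e2]
  have hFlam : Fn R (fun ω => -lam ω) S := by
    intro ω ω' h1 h2 e
    obtain ⟨e1, e2⟩ := hSpol ω ω' h1 h2 e
    simp only [hlam, e1, e2]
  have hFu1 : Fn R u1 S := by
    intro ω ω' h1 h2 e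
    exact (hSpol ω ω' h1 h2 e).2
  have hvi0 : ∀ ω, 0 < R.w ω → v ω i0 = 1 := by
    intro ω hω
    simp only [hv]
    exact div_self (hlam0 ω hω)
  have hvJ : ∀ ω, 0 < R.w ω → ∀ i ∈ J, v ω i = 0 := by
    intro ω hω i hi
    simp only [hv]
    rw [hJ ω (hRp ω hω).2 i hi]
    simp
  have hv1 : ∀ ω, 0 < R.w ω → ∀ i, |v ω i| ≤ 1 := by
    intro ω hω i
    simp only [hv]
    rw [abs_div]
    exact div_le_one_of_le₀ (hmax ω (hRp ω hω).2 (hRp ω hω).1 i) (abs_nonneg _)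
  -- Taylor
  have hpw : (2 : ℝ) ^ w * (1 / 2 : ℝ) ^ B * ((1 / 2 : ℝ) ^ s1) ^ 2 ≤ (1 / 2 : ℝ) ^ s := by
    have h1 : (2 : ℝ) ^ w * (1 / 2 : ℝ) ^ w = 1 := by
      rw [← mul_pow]; norm_num
    have h2 : (2 : ℝ) ^ w * (1 / 2 : ℝ) ^ B * ((1 / 2 : ℝ) ^ s1) ^ 2 =
        (2 : ℝ) ^ w * (1 / 2 : ℝ) ^ (B + 2 * s1) := by
      rw [pow_add, ← pow_mul, mul_comm s1 2]; ring
    rw [h2]
    have h3 : (1 / 2 : ℝ) ^ (B + 2 * s1) ≤ (1 / 2 : ℝ) ^ (s + w) :=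
      pow_le_pow_of_le_one (by norm_num) (by norm_num) hs1
    calc (2 : ℝ) ^ w * (1 / 2 : ℝ) ^ (B + 2 * s1) ≤ 2 ^ w * (1 / 2 : ℝ) ^ (s + w) :=
          mul_le_mul_of_nonneg_left h3 (by positivity)
      _ = (1 / 2 : ℝ) ^ s * ((2 : ℝ) ^ w * (1 / 2 : ℝ) ^ w) := by rw [pow_add]; ring
      _ = (1 / 2 : ℝ) ^ s := by rw [h1, mul_one]
  have hps : (0 : ℝ) < (1 / 2 : ℝ) ^ s := by positivity
  have hTay : ∀ ω, 0 < R.w ω → ∀ i,
      |X' ω i - (X ω i + W ω i + -((u ω - u1 ω) * (pol ω i).derivative.eval (u1 ω)))| ≤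
        ((C0 + D ^ 2 + D : ℕ) : ℝ) * (1 / 2 : ℝ) ^ s := by
    intro ω hω i
    obtain ⟨hEω, hQω⟩ := hRp ω hω
    have t1 := taylor_two D (pol ω i) (hdeg ω hQω i) (hu10 ω hQω) (hu11 ω hQω).le (hu ω hQω).1
      (hu ω hQω).2.le
    have t2 := hX ω hQω i
    have t3 : (D : ℝ) ^ 2 * pn (pol ω i) * (u ω - u1 ω) ^ 2 ≤ D ^ 2 * (1 / 2 : ℝ) ^ s := by
      have a1 : (u ω - u1 ω) ^ 2 ≤ ((1 / 2 : ℝ) ^ s1) ^ 2 := by
        rw [← sq_abs (u ω - u1 ω)]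
        exact pow_le_pow_left₀ (abs_nonneg _) sub_rd_le 2
      have a2 := hpn ω hQω hEω i
      calc (D : ℝ) ^ 2 * pn (pol ω i) * (u ω - u1 ω) ^ 2
          = D ^ 2 * (pn (pol ω i) * (u ω - u1 ω) ^ 2) := by ring
        _ ≤ D ^ 2 * (2 ^ w * (1 / 2 : ℝ) ^ B * ((1 / 2 : ℝ) ^ s1) ^ 2) := by
            refine mul_le_mul_of_nonneg_left ?_ (by positivity)
            exact mul_le_mul a2 a1 (sq_nonneg _) (by positivity)
        _ ≤ D ^ 2 * (1 / 2 : ℝ) ^ s := mul_le_mul_of_nonneg_left hpw (by positivity)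
    have t4 : X' ω i - (X ω i + W ω i + -((u ω - u1 ω) * (pol ω i).derivative.eval (u1 ω))) =
        (X' ω i - X ω i + (pol ω i).eval (u ω)) -
          ((pol ω i).eval (u ω) - (pol ω i).eval (u1 ω) -
            (u ω - u1 ω) * (pol ω i).derivative.eval (u1 ω)) := by
      simp only [hW]; ring
    rw [t4]
    refine (abs_sub _ _).trans ?_
    have t5 : (0 : ℝ) ≤ D * (1 / 2 : ℝ) ^ s := by positivity
    push_cast
    linarith
  -- bound for the displacement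
  have hmu : ∀ ω, 0 < R.w ω → |-((u ω - u1 ω) * lam ω)| ≤
      ((C0 + D ^ 2 + D : ℕ) : ℝ) * (1 / 2 : ℝ) ^ r := by
    intro ω hω
    obtain ⟨hEω, hQω⟩ := hRp ω hω
    have a1 : |u ω - u1 ω| ≤ (1 / 2 : ℝ) ^ s1 := sub_rd_le
    have a2 : |lam ω| ≤ D * (2 ^ w * (1 / 2 : ℝ) ^ B) := by
      have b1 := abs_eval_le_pn (pol ω i0).derivative (hu10 ω hQω) (hu11 ω hQω).le
      have b2 := pn_derivative_le D (pol ω i0) (hdeg ω hQω i0)
      have b3 := mul_le_mul_of_nonneg_left (hpn ω hQω hEω i0) (Nat.cast_nonneg (α := ℝ) D)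
      exact (b1.trans b2).trans b3
    have a3 : (1 / 2 : ℝ) ^ s1 * (D * (2 ^ w * (1 / 2 : ℝ) ^ B)) = D * (1 / 2 : ℝ) ^ r := by
      have h1 : (2 : ℝ) ^ w * (1 / 2 : ℝ) ^ w = 1 := by
        rw [← mul_pow]; norm_num
      calc (1 / 2 : ℝ) ^ s1 * (D * (2 ^ w * (1 / 2 : ℝ) ^ B))
          = D * (2 ^ w * (1 / 2 : ℝ) ^ (B + s1)) := by rw [pow_add]; ring
        _ = D * ((1 / 2 : ℝ) ^ r * (2 ^ w * (1 / 2 : ℝ) ^ w)) := by rw [hr, pow_add]; ring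
        _ = D * (1 / 2 : ℝ) ^ r := by rw [h1, mul_one]
    rw [abs_neg, abs_mul]
    calc |u ω - u1 ω| * |lam ω| ≤ (1 / 2 : ℝ) ^ s1 * (D * (2 ^ w * (1 / 2 : ℝ) ^ B)) :=
          mul_le_mul a1 a2 (abs_nonneg _) (by positivity)
      _ = D * (1 / 2 : ℝ) ^ r := a3
      _ ≤ ((C0 + D ^ 2 + D : ℕ) : ℝ) * (1 / 2 : ℝ) ^ r := by
          refine mul_le_mul_of_nonneg_right ?_ (by positivity)
          push_cast
          have : (0 : ℝ) ≤ C0 := Nat.cast_nonneg _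
          nlinarith [sq_nonneg (D : ℝ)]
  have G1 := hK1 R S X X' W v (fun ω => -((u ω - u1 ω) * lam ω)) r s i0 hrs hFW hFv hvi0 hv1
    (by
      intro ω hω i
      have e1 : -((u ω - u1 ω) * lam ω) * v ω i =
          -((u ω - u1 ω) * (pol ω i).derivative.eval (u1 ω)) := by
        simp only [hv]
        have := hlam0 ω hω
        field_simp
      simp only [e1]
      exact hTay ω hω i) hmu
  have G2 := hK2 R S X X' W u u1 (fun ω => -lam ω) s j (B + w) i0 hFW hFlam hFu1 (by omega)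
    (by
      intro ω hω
      have := hTay ω hω i0
      have e1 : (u ω - u1 ω) * -lam ω = -((u ω - u1 ω) * (pol ω i0).derivative.eval (u1 ω)) := by
        simp only [hlam]; ring
      simp only [e1]
      exact this)
    (by
      intro ω hω
      rw [abs_neg]
      exact hlow ω (hRp ω hω).2 (hRp ω hω).1)
  have G3 := H3 v hFv hvi0 hvJ hv1
  have G4 := le_hc_on Q E p0 hp0 hpE (fun ω => fl1 j (u ω)) (fun ω => (fl s (X ω), σ ω))
    ((j : ℝ) * Real.log 2) (by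
      intro R' hR'
      refine hc_fl1_le R' j u _ fun ω hω => hu ω ?_
      rcases (Q.nn ω).eq_or_lt with h0 | h0
      · rw [hR' ω h0.symm] at hω
        exact absurd hω (lt_irrefl _)
      · exact h0)
  have G5 := hc_le_add' R (fun ω => fl1 j (u ω)) (fun ω => fl1 s1 (u ω))
    (fun ω => (fl s (X ω), σ ω))
  have G6 : hc R (fun ω => fl1 s1 (u ω)) (fun ω => (fl s (X ω), σ ω)) ≤ s1 * Real.log 2 :=
    hc_fl1_le R s1 u _ fun ω hω => hu ω (hRp ω hω).2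
  have G7 : hc R (fun ω => fl1 j (u ω)) (fun ω => (fl1 s1 (u ω), fl s (X ω), σ ω)) ≤
      hc R (fun ω => fl1 j (u ω)) (fun ω => (fl s (X ω), S ω)) := by
    refine hc_mono_right R _ fun ω ω' _ _ e => ?_
    simp only [Prod.mk.injEq, hS] at e ⊢
    exact ⟨e.2.1, e.2.2, e.1⟩
  have G8 : hc R (fun ω => fl s (X' ω)) (fun ω => (fl r (X' ω), S ω)) ≤
      hc R (fun ω => fl s (X' ω)) (fun ω => (fl r (X' ω), σ ω)) := by
    refine hc_mono_right R _ fun ω ω' _ _ e => ?_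
    simp only [Prod.mk.injEq, hS] at e ⊢
    exact ⟨e.1, e.2.1⟩
  have c1 : (B : ℝ) + s1 = r + w := by exact_mod_cast hr
  have c2 : (j : ℝ) + (B + w) = s := by exact_mod_cast hj
  have hlog : 0 < Real.log 2 := Real.log_pos (by norm_num)
  have c3 : ((j : ℝ) - s1) * Real.log 2 = ((s : ℝ) - r) * Real.log 2 - 2 * w * Real.log 2 := by
    have : (j : ℝ) - s1 = (s : ℝ) - r - 2 * w := by linarith
    rw [this]; ring
  have c4 : (f - 1) * ((s : ℝ) - r) * Real.log 2 =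
      f * ((s : ℝ) - r) * Real.log 2 - ((s : ℝ) - r) * Real.log 2 := by ring
  have hp2 : 0 < 2 / p0 := by positivity
  have c5 : 2 / p0 * ((j : ℝ) * Real.log 2 -
      hc Q (fun ω => fl1 j (u ω)) (fun ω => (fl s (X ω), σ ω)) + Real.log 2) ≤
      2 / p0 * (ε2 * L + Real.log 2) := mul_le_mul_of_nonneg_left (by linarith) hp2.le
  have c6 : 2 / p0 * (ε2 * L + Real.log 2) + ε2 * L =
      (2 / p0 + 1) * ε2 * L + 2 / p0 * Real.log 2 := by ring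
  have c7 := le_abs_self K1
  have c8 := le_abs_self K2
  have G3' : (f - 1) * ((s : ℝ) - r) * Real.log 2 + δ * L <
      hc R (fun ω => fl s (fun i => X ω i - X ω i0 * v ω i)) (fun ω => (fl r (X ω), S ω)) := G3
  linarith

end Vale.Agent.P127.Stk.R
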