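import Vale.Agent.P127.Stk.StepRCoreA
import Vale.Agent.P127.Stk.StepRCoreB

set_option linter.all false

/-!
# P127 / Stk / StepR : the abstract core of section 9

Setting: `X` = projected point of the first line, `X'` = projected point of the second line (both
at the base time), `σ` = side information, `u ∈ [0,1)` the rescaled time, `pol` a vector of
polynomials of degree at most `D`, a function of `σ`, with a common root in `[0,1]`, and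
`X' = X - pol(u) + O(2^{-s})`.  `N = max_i pn (pol i)`.

Proof of `coreR` (write `b = log 2`, `g` small against `ε1` and `δ`, `w = ⌈g L⌉`,
`ε2` small against `g, p, δ`).

(a) `|pol_i(u)| ≤ (1+C0) 2^{-n}` as `fl n X = fl n X'`.  If `N > 2^{-n+gL}` and the maximum is at
`i1` then `u` lies in one of `2D` cells of length `2^{-j}`, `j ~ gL/D` (`cells_card`); by `rare`
(for every fixed `i1`) and the entropy of `u` given `σ` this has probability `≤ p/4` (sum over `i1`).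
(b) Otherwise `2^{-s+ε1 L} < N ≤ 2^{-n+gL}`; there are `O(1/g)` bins
`2^{-(B+w)} < N ≤ 2^{-B}` with `B ≥ n - w`, `B ≤ s - ε1 L + 1`; if the probability of the bad event
is more than `p`, one bin together with the index `i1` of the maximum has probability
`≥ p g / (8 m)`.
(c) `s1 = ⌈(s-B)/2⌉`, `u1 = 2^{-s1} ⌊2^{s1} u⌋`, a function of `fl1 s1 u`.  Taylor:
`X' = X - pol(u1) - (u-u1) pol'(u1) + O(2^{-s})`, since `2 s1 ≥ s - B`.
(d) `pn (pol_{i1})' ≥ N/2`; by `cells_card` for `(pol_{i1})'` at the point `u1`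
(its cell is the cell of `u` for `j ≤ s1`) and `rare`, with probability close to one (inside the
bin) `|pol_{i1}'(u1)| ≥ 2^{-w} N`.  Choose `i0` with maximal `|pol_i'(u1)|` (lose a factor `m`).
`v_i = pol_i'(u1) / pol_{i0}'(u1)`, `μ = -(u-u1) pol_{i0}'(u1)`,
`2^{-B-2w} ≤ |pol_{i0}'(u1)| ≤ D 2^{-B}`, `|μ| ≤ D 2^{-r}` with `r = B + s1`.
(e) `straight` with `S = (σ, fl1 s1 u)`, `w = -pol(u1)`, on the event `E` found so far
(probability `≥ p0`): `hc (fl s π(X)) (fl r X, S) + hc (fl s X') (fl s X, S) ≤ hc (fl s X') (fl r X', S) + K`,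
and `hc (fl1 j u) (fl s X, S) ≤ hc (fl s X') (fl s X, S) + K` with `j = s - B - 2w` (`time_le`); the
left side is `≥ (j - s1) b - small = (s - r) b - 2 w b - small`.  So
`hc (fl s π(X)) (fl r X, S) ≤ (f-1)(s-r) b + 2wb + small`, contradiction.
-/

namespace Vale.Agent.P127.Stk.R

open Finset Polynomial Vale.Agent.P127

theorem two_half (w : ℕ) : (2 : ℝ) ^ w * (1 / 2 : ℝ) ^ w = 1 := by
  rw [← mul_pow]; norm_num

theorem exists_of_prE {Ω : Type} [Fintype Ω] {Q : Law Ω} {E : Ω → Prop} (h : 0 < prE Q E) :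
    ∃ ω, 0 < Q.w ω ∧ E ω := by
  classical
  by_contra hcon
  push Not at hcon
  have : prE Q E = 0 := by
    unfold prE
    refine Finset.sum_eq_zero fun ω hω => ?_
    have hE := (Finset.mem_filter.1 hω).2
    rcases (Q.nn ω).eq_or_lt with h0 | h0
    · exact h0.symm
    · exact absurd hE (hcon ω h0)
  linarith

theorem bin_rel {n k w : ℕ} {t : ℝ} (h1 : (2 : ℝ) ^ t < 2 ^ w * (1 / 2 : ℝ) ^ (n + k * w)) :
    t < w - ((n + k * w : ℕ) : ℝ) := by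
  have h2 : (2 : ℝ) ^ w * (1 / 2 : ℝ) ^ (n + k * w) =
      (2 : ℝ) ^ ((w : ℝ) - ((n + k * w : ℕ) : ℝ)) := by
    rw [Real.rpow_sub (by norm_num), Real.rpow_natCast, one_div, inv_pow, Real.rpow_natCast]
    rfl
  rwa [h2, Real.rpow_lt_rpow_left_iff (by norm_num)] at h1

/-- the bins -/
theorem bins {m n w Kb : ℕ} (N : Fin m → ℝ) (hw : 0 < w) (t : ℝ)
    (hKb : ∀ k : ℕ, t < w - ((n + k * w : ℕ) : ℝ) → k < Kb)
    (hB : ∃ i, (2 : ℝ) ^ t < N i) (hA : ∀ i, N i ≤ 2 ^ w * (1 / 2 : ℝ) ^ n) :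
    ∃ k i1, k < Kb ∧ (1 / 2 : ℝ) ^ (n + k * w) < N i1 ∧
      ∀ i, N i ≤ 2 ^ w * (1 / 2 : ℝ) ^ (n + k * w) := by
  obtain ⟨i, hi⟩ := hB
  haveI : Nonempty (Fin m) := ⟨i⟩
  obtain ⟨i1, hi1⟩ := Finite.exists_max N
  have hpos : 0 < N i1 := by
    have h1 : (0 : ℝ) < (2 : ℝ) ^ t := Real.rpow_pos_of_pos (by norm_num) _
    exact (h1.trans hi).trans_le (hi1 i)
  have hex : ∃ k : ℕ, (1 / 2 : ℝ) ^ (n + k * w) < N i1 := by
    obtain ⟨k, hk⟩ := exists_pow_lt_of_lt_one hpos (show (1 / 2 : ℝ) < 1 by norm_num)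
    refine ⟨k, lt_of_le_of_lt ?_ hk⟩
    refine pow_le_pow_of_le_one (by norm_num) (by norm_num) ?_
    nlinarith
  classical
  set k := Nat.find hex with hk
  have hk1 : (1 / 2 : ℝ) ^ (n + k * w) < N i1 := Nat.find_spec hex
  have hk2 : N i1 ≤ 2 ^ w * (1 / 2 : ℝ) ^ (n + k * w) := by
    rcases Nat.eq_zero_or_pos k with h0 | h0
    · rw [h0, zero_mul, add_zero]
      exact hA i1
    · have h1 := Nat.find_min hex (show k - 1 < k by omega)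
      rw [not_lt] at h1
      refine h1.trans (le_of_eq ?_)
      have h2 : n + k * w = n + (k - 1) * w + w := by
        obtain ⟨k', hk'⟩ : ∃ k', k = k' + 1 := ⟨k - 1, by omega⟩
        rw [hk', Nat.add_sub_cancel]; ring
      rw [h2, pow_add _ _ w]
      calc (1 / 2 : ℝ) ^ (n + (k - 1) * w)
          = (1 / 2 : ℝ) ^ (n + (k - 1) * w) * ((2 : ℝ) ^ w * (1 / 2 : ℝ) ^ w) := by
            rw [two_half, mul_one]
        _ = _ := by ring
  exact ⟨k, i1, hKb k (bin_rel (hi.trans_le ((hi1 i).trans hk2))), hk1,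
    fun i' => (hi1 i').trans hk2⟩

/-- the number of bins -/
theorem bins_card {g L ε w n s : ℝ} {k Kb : ℕ} (hg0 : 0 < g) (hKb : Kb = ⌈1 / g⌉₊ + 2)
    (hw1 : g * L ≤ w) (hε : 0 ≤ ε * L) (hs : s ≤ n + L) (hw : 0 ≤ w)
    (h : -s + ε * L < w - (n + k * w)) : k < Kb := by
  have h3 : (k : ℝ) * w < L + w := by linarith
  have h4 : (k : ℝ) < 1 / g + 1 := by
    by_contra hcon
    push Not at hcon
    have h5 : (1 / g + 1) * w ≤ (k : ℝ) * w := mul_le_mul_of_nonneg_right hcon hw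
    have h6 : (L : ℝ) ≤ 1 / g * w := by
      rw [one_div, inv_mul_eq_div, le_div_iff₀ hg0]
      linarith
    linarith
  have h5 : (k : ℝ) < Kb := by
    have h6 := Nat.le_ceil (1 / g)
    rw [hKb]
    push_cast
    linarith
  exact_mod_cast h5

/-- (a), deterministic part -/
theorem small_eval {m n s w j D C0 : ℕ} {x x' : Fin m → ℝ} {e y : ℝ} {i : Fin m} (hns : n ≤ s)
    (hfl : fl n x = fl n x') (hX : |x' i - x i + e| ≤ C0 * (1 / 2 : ℝ) ^ s)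
    (hjc : (((2 + C0) * (D + 1 + 1) : ℕ) : ℝ) * 2 ^ ((j + 1) * (D + 1)) ≤ 2 ^ w)
    (hy : (2 : ℝ) ^ w * (1 / 2 : ℝ) ^ n < y) :
    |e| * ((((D + 1 : ℕ) : ℝ) + 1) * 2 ^ ((j + 1) * (D + 1))) < y := by
  have h1 : |e| ≤ (1 + C0) * (1 / 2 : ℝ) ^ n := by
    have a2 : |x' i - x i| ≤ (1 / 2 : ℝ) ^ n := by
      have b1 : ⌊(2 : ℝ) ^ n * x i⌋ = ⌊(2 : ℝ) ^ n * x' i⌋ := congrFun hfl i
      have b2 := Int.abs_sub_lt_one_of_floor_eq_floor b1.symm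
      rw [← mul_sub, abs_mul, abs_of_pos (show (0 : ℝ) < 2 ^ n by positivity)] at b2
      rw [one_div, inv_pow, ← one_div, le_div_iff₀ (by positivity)]
      linarith
    have a3 : (1 / 2 : ℝ) ^ s ≤ (1 / 2 : ℝ) ^ n :=
      pow_le_pow_of_le_one (by norm_num) (by norm_num) hns
    have a4 : e = (x' i - x i + e) - (x' i - x i) := by ring
    rw [a4]
    refine (abs_sub _ _).trans ?_
    have a5 : (C0 : ℝ) * (1 / 2 : ℝ) ^ s ≤ C0 * (1 / 2 : ℝ) ^ n :=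
      mul_le_mul_of_nonneg_left a3 (Nat.cast_nonneg _)
    linarith
  refine lt_of_le_of_lt ?_ hy
  calc |e| * ((((D + 1 : ℕ) : ℝ) + 1) * 2 ^ ((j + 1) * (D + 1)))
      ≤ ((1 + C0) * (1 / 2 : ℝ) ^ n) * ((((D + 1 : ℕ) : ℝ) + 1) * 2 ^ ((j + 1) * (D + 1))) :=
        mul_le_mul_of_nonneg_right h1 (by positivity)
    _ ≤ ((((2 + C0) * (D + 1 + 1) : ℕ) : ℝ) * 2 ^ ((j + 1) * (D + 1))) * (1 / 2 : ℝ) ^ n := by
        push_cast
        have : (0 : ℝ) ≤ (1 / 2 : ℝ) ^ n * ((((D : ℝ) + 1) + 1) * 2 ^ ((j + 1) * (D + 1))) := by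
          positivity
        nlinarith
    _ ≤ 2 ^ w * (1 / 2 : ℝ) ^ n := mul_le_mul_of_nonneg_right hjc (by positivity)

/-- (d), deterministic part -/
theorem slope_low {w j D C0 B : ℕ} {y N N' : ℝ} (hy0 : 0 ≤ y) (h1 : (1 / 2 : ℝ) ^ B < N)
    (h4 : N ≤ 2 * N')
    (hjc : (((2 + C0) * (D + 1 + 1) : ℕ) : ℝ) * 2 ^ ((j + 1) * (D + 1)) ≤ 2 ^ w)
    (h2 : N' ≤ y * ((((D + 1 : ℕ) : ℝ) + 1) * 2 ^ ((j + 1) * (D + 1)))) :
    (1 / 2 : ℝ) ^ (B + w) ≤ y := by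
  have h5 : (1 / 2 : ℝ) ^ B ≤ y * 2 ^ w := by
    calc (1 / 2 : ℝ) ^ B ≤ 2 * (y * ((((D + 1 : ℕ) : ℝ) + 1) * 2 ^ ((j + 1) * (D + 1)))) := by
          linarith
      _ ≤ y * ((((2 + C0) * (D + 1 + 1) : ℕ) : ℝ) * 2 ^ ((j + 1) * (D + 1))) := by
          push_cast
          have : (0 : ℝ) ≤ C0 * (y * (((D : ℝ) + 1 + 1) * 2 ^ ((j + 1) * (D + 1)))) := by
            positivity
          nlinarith
      _ ≤ y * 2 ^ w := mul_le_mul_of_nonneg_left hjc hy0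
  calc (1 / 2 : ℝ) ^ (B + w) = (1 / 2 : ℝ) ^ B * (1 / 2 : ℝ) ^ w := pow_add _ _ _
    _ ≤ (y * 2 ^ w) * (1 / 2 : ℝ) ^ w := mul_le_mul_of_nonneg_right h5 (by positivity)
    _ = y * ((2 : ℝ) ^ w * (1 / 2 : ℝ) ^ w) := by ring
    _ = y := by rw [two_half, mul_one]

/-- pigeonhole on the bins -/
theorem pigeon_bins {Ω : Type} [Fintype Ω] (Q : Law Ω) (m Kb : ℕ) (p p1 : ℝ) (hKb : 1 ≤ Kb)
    (hp1 : p1 * (2 * Kb * (m + 1)) = p) (hp1pos : 0 < p1) (Bad : Ω → Prop)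
    (A : Fin m → Ω → Prop) (E0 : ℕ → Fin m → Ω → Prop) (hbad : p < prE Q Bad)
    (hA : ∀ i, prE Q (A i) ≤ p1 / 2)
    (hcov : ∀ ω, 0 < Q.w ω → Bad ω → (∃ i, A i ω) ∨ ∃ k i1, k < Kb ∧ E0 k i1 ω) :
    ∃ k i1, p1 ≤ prE Q (E0 k i1) := by
  have hsum := prE_le_sum Q ((univ : Finset (Fin m)).disjSum (range Kb ×ˢ univ))
    (Sum.elim A (fun t => E0 t.1 t.2) : Fin m ⊕ (ℕ × Fin m) → Ω → Prop) Bad (by
      intro ω hω hB
      rcases hcov ω hω hB with ⟨i, hi⟩ | ⟨k, i1, hk, h⟩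
      · exact ⟨Sum.inl i, by simp, hi⟩
      · refine ⟨Sum.inr (k, i1), ?_, h⟩
        rw [Finset.inr_mem_disjSum, Finset.mem_product, Finset.mem_range]
        exact ⟨hk, Finset.mem_univ _⟩)
  rw [Finset.sum_disjSum] at hsum
  simp only [Sum.elim_inl, Sum.elim_inr] at hsum
  have hKb1 : (1 : ℝ) ≤ Kb := by exact_mod_cast hKb
  have hmR : (0 : ℝ) ≤ m := Nat.cast_nonneg _
  have hsA : ∑ i, prE Q (A i) ≤ m * (p1 / 2) := by
    refine (Finset.sum_le_card_nsmul _ _ _ fun i _ => hA i).trans (le_of_eq ?_)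
    rw [Finset.card_univ, Fintype.card_fin, nsmul_eq_mul]
  by_contra hcon
  push Not at hcon
  have h1 : ∑ t ∈ range Kb ×ˢ (univ : Finset (Fin m)), prE Q (E0 t.1 t.2) ≤
      (Kb * m) * p1 := by
    refine (Finset.sum_le_card_nsmul _ _ p1 fun t _ => (hcon t.1 t.2).le).trans (le_of_eq ?_)
    rw [Finset.card_product, Finset.card_range, Finset.card_univ, Fintype.card_fin,
      nsmul_eq_mul]
    push_cast
    ring
  have h2 : p < m * (p1 / 2) + Kb * m * p1 := lt_of_lt_of_le hbad (by linarith)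
  have h3 : (m : ℝ) * (p1 / 2) ≤ Kb * m * p1 := by
    have : (m : ℝ) * p1 * 1 ≤ m * p1 * Kb := mul_le_mul_of_nonneg_left hKb1 (by positivity)
    have h4 : 0 ≤ (m : ℝ) * p1 := by positivity
    linarith
  have h4 : p = 2 * (Kb * m * p1) + 2 * (Kb * p1) := by rw [← hp1]; ring
  have h5 : 0 < Kb * p1 := by positivity
  linarith

/-- pigeonhole on the index of the maximal slope -/
theorem pigeon_slope {Ω : Type} [Fintype Ω] (Q : Law Ω) (m : ℕ) (p1 p0 : ℝ)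
    (hp0 : p0 * (2 * (m + 1)) = p1) (hp0pos : 0 < p0) (F Rd : Ω → Prop)
    (E : Fin m → Ω → Prop) (hF : p1 ≤ prE Q F) (hRd : prE Q Rd ≤ p1 / 2)
    (hcov : ∀ ω, 0 < Q.w ω → F ω → Rd ω ∨ ∃ i, E i ω) : ∃ i0, p0 ≤ prE Q (E i0) := by
  by_contra hcon
  push Not at hcon
  have h1 := prE_le_sum Q (univ : Finset (Option (Fin m)))
    (fun o => Option.elim o Rd E) F (by
      intro ω hω h
      rcases hcov ω hω h with h1 | ⟨i, h1⟩
      · exact ⟨none, Finset.mem_univ _, h1⟩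
      · exact ⟨some i, Finset.mem_univ _, h1⟩)
  rw [Fintype.sum_option] at h1
  simp only [Option.elim_none, Option.elim_some] at h1
  have h2 : ∑ i, prE Q (E i) ≤ m * p0 := by
    refine (Finset.sum_le_card_nsmul _ _ _ fun i _ => (hcon i).le).trans (le_of_eq ?_)
    rw [Finset.card_univ, Fintype.card_fin, nsmul_eq_mul]
  have h4 : p1 = 2 * (m * p0) + 2 * p0 := by rw [← hp0]; ring
  linarith

/-- the choice of the scales -/
theorem scales {n s B w : ℕ} {L ε : ℝ} (hnB : n ≤ B) (hBs : (B : ℝ) < s - ε * L + w)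
    (hw : 4 * (w : ℝ) ≤ ε * L) (hw1 : 1 ≤ w) (hε8 : 8 ≤ ε * L) :
    ∃ s1 r j2 : ℕ, s + w ≤ B + 2 * s1 ∧ w ≤ s1 ∧ B + s1 = r + w ∧ n ≤ r ∧ r ≤ s ∧
      j2 + (B + w) = s ∧ ε / 8 * L ≤ (s : ℝ) - r ∧ (j2 : ℝ) ≤ s - n + ε * L := by
  have hnBR : (n : ℝ) ≤ B := by exact_mod_cast hnB
  have hwR : (0 : ℝ) ≤ w := Nat.cast_nonneg _
  have hBsN : B + w ≤ s := by
    have : ((B + w : ℕ) : ℝ) ≤ s := by push_cast; linarith
    exact_mod_cast this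
  set s1 : ℕ := (s + w - B + 1) / 2 with hs1
  have hs1a : s + w ≤ B + 2 * s1 := by omega
  have hs1b : B + 2 * s1 ≤ s + w + 1 := by omega
  have hws1 : w ≤ s1 := by omega
  obtain ⟨r, hr⟩ : ∃ r, B + s1 = r + w := ⟨B + s1 - w, by omega⟩
  obtain ⟨j2, hj2⟩ : ∃ j2, j2 + (B + w) = s := ⟨s - (B + w), by omega⟩
  have hrR : (B : ℝ) + s1 = r + w := by exact_mod_cast hr
  have hs1bR : (B : ℝ) + 2 * s1 ≤ s + w + 1 := by exact_mod_cast hs1b
  have hj2R : (j2 : ℝ) + (B + w) = s := by exact_mod_cast hj2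
  refine ⟨s1, r, j2, hs1a, hws1, hr, by omega, by omega, hj2, ?_, ?_⟩
  · linarith
  · linarith

/-- the final comparison of constants -/
theorem final_const {g δ L w p0 ε2 K b : ℝ} (hδ : 0 < δ) (hL : 0 < L) (hb : 0 ≤ b) (hb1 : b ≤ 1)
    (hw0 : 0 ≤ w) (hw : w ≤ 2 * g * L) (hg : g ≤ δ / 32) (hp0 : 0 < p0)
    (hε : ε2 ≤ δ / (8 * (2 / p0 + 1))) (hL3 : (2 / p0 * b + K) * 8 / δ ≤ L) :
    2 * w * b + (2 / p0 + 1) * ε2 * L + 2 / p0 * b + K ≤ δ * L := by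
  have f1 : 2 * w * b ≤ δ * L / 8 := by
    have h1 : 2 * w * b ≤ 2 * w * 1 := mul_le_mul_of_nonneg_left hb1 (by positivity)
    have h2 : g * L ≤ δ / 32 * L := mul_le_mul_of_nonneg_right hg hL.le
    linarith
  have f2 : (2 / p0 + 1) * ε2 * L ≤ δ * L / 8 := by
    have h0 : 0 < 2 / p0 + 1 := by positivity
    have h1 : (2 / p0 + 1) * ε2 ≤ δ / 8 := by
      rw [le_div_iff₀ (by positivity)] at hε
      linarith
    have := mul_le_mul_of_nonneg_right h1 hL.le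
    linarith
  have f3 : 2 / p0 * b + K ≤ δ * L / 8 := by
    rw [div_le_iff₀ hδ] at hL3
    linarith
  have f4 : 0 < δ * L := by positivity
  linarith

/-- the abstract core of section 9 -/
theorem coreR (m D C0 : ℕ) (ε1 p δ : ℝ) (hε : 0 < ε1) (hp : 0 < p) (hδ : 0 < δ) :
    ∃ p0 : ℝ, 0 < p0 ∧ ∃ ε2 : ℝ, 0 < ε2 ∧ ∃ L0 : ℕ, ∀ L n s : ℕ, L0 ≤ L → n ≤ s → s ≤ n + L →
      ∀ (Ω : Type) [Fintype Ω] (Q : Law Ω) (τ : Type) (σ : Ω → τ) (f : ℝ) (J : Finset (Fin m))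
        (u : Ω → ℝ) (X X' : Ω → Fin m → ℝ) (pol : Ω → Fin m → ℝ[X]),
        (∀ ω, 0 < Q.w ω → 0 ≤ u ω ∧ u ω < 1) →
        Fn Q pol σ →
        (∀ ω, 0 < Q.w ω → ∀ i, (pol ω i).natDegree ≤ D) →
        (∀ ω, 0 < Q.w ω → ∀ i ∈ J, pol ω i = 0) →
        (∀ ω, 0 < Q.w ω → ∃ v : ℝ, 0 ≤ v ∧ v ≤ 1 ∧ ∀ i, (pol ω i).eval v = 0) →
        (∀ ω, 0 < Q.w ω → fl n (X ω) = fl n (X' ω)) →
        (∀ ω, 0 < Q.w ω → ∀ i,
          |X' ω i - X ω i + (pol ω i).eval (u ω)| ≤ C0 * (1 / 2 : ℝ) ^ s) →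
        (∀ E : Ω → Prop, p0 ≤ prE Q E → ∀ r : ℕ, n ≤ r → r ≤ s →
          hc (on Q E) (fun ω => fl s (X' ω)) (fun ω => (fl r (X' ω), σ ω)) ≤
            f * ((s : ℝ) - r) * Real.log 2 + ε2 * L) →
        (∀ j : ℕ, (j : ℝ) ≤ (s : ℝ) - n + ε1 * L →
          (j : ℝ) * Real.log 2 - ε2 * L ≤
            hc Q (fun ω => fl1 j (u ω)) (fun ω => (fl s (X ω), σ ω))) →
        (∀ E : Ω → Prop, p0 ≤ prE Q E → ∀ r j : ℕ, n ≤ r → ε1 / 8 * L ≤ (s : ℝ) - r →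
          ∀ i0 ∉ J, ∀ v : Ω → Fin m → ℝ, Fn (on Q E) v (fun ω => (σ ω, fl1 j (u ω))) →
            (∀ ω, 0 < (on Q E).w ω → v ω i0 = 1) →
            (∀ ω, 0 < (on Q E).w ω → ∀ i ∈ J, v ω i = 0) →
            (∀ ω, 0 < (on Q E).w ω → ∀ i, |v ω i| ≤ 1) →
            (f - 1) * ((s : ℝ) - r) * Real.log 2 + δ * L <
              hc (on Q E) (fun ω => fl s (fun i => X ω i - X ω i0 * v ω i))
                (fun ω => (fl r (X ω), σ ω, fl1 j (u ω)))) →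
        prE Q (fun ω => ∃ i, (2 : ℝ) ^ (-(s : ℝ) + ε1 * L) < pn (pol ω i)) ≤ p := by
  classical
  obtain ⟨K, hK0, hK⟩ := core_bin m D C0
  have hlog : 0 < Real.log 2 := Real.log_pos (by norm_num)
  have hlog1 : Real.log 2 ≤ 1 := by
    have := Real.log_le_sub_one_of_pos (show (0 : ℝ) < 2 by norm_num)
    linarith
  -- constants
  obtain ⟨g, hg0, hg1, hg2⟩ : ∃ g : ℝ, 0 < g ∧ g ≤ ε1 / 8 ∧ g ≤ δ / 32 :=
    ⟨min (ε1 / 8) (δ / 32), lt_min (by positivity) (by positivity), min_le_left _ _,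
      min_le_right _ _⟩
  obtain ⟨Kb, hKb⟩ : ∃ Kb : ℕ, Kb = ⌈1 / g⌉₊ + 2 := ⟨_, rfl⟩
  have hKb1 : 1 ≤ Kb := by omega
  have hKbpos : (0 : ℝ) < Kb := by exact_mod_cast hKb1
  obtain ⟨p1, hp1pos, hp1⟩ : ∃ p1 : ℝ, 0 < p1 ∧ p1 * (2 * Kb * (m + 1)) = p :=
    ⟨p / (2 * Kb * (m + 1)), by positivity, div_mul_cancel₀ _ (by positivity)⟩
  obtain ⟨p0, hp0pos, hp0⟩ : ∃ p0 : ℝ, 0 < p0 ∧ p0 * (2 * (m + 1)) = p1 :=
    ⟨p1 / (2 * (m + 1)), by positivity, div_mul_cancel₀ _ (by positivity)⟩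
  obtain ⟨εl, hεl0, L1, hL1⟩ := level (D + 1) ((2 + C0) * (D + 1 + 1)) (by omega) g (p1 / 2) hg0
    (by positivity)
  obtain ⟨ε2, he0, he1, he2⟩ : ∃ ε2 : ℝ, 0 < ε2 ∧ ε2 ≤ εl ∧ ε2 ≤ δ / (8 * (2 / p0 + 1)) :=
    ⟨min εl (δ / (8 * (2 / p0 + 1))), lt_min hεl0 (by positivity), min_le_left _ _,
      min_le_right _ _⟩
  obtain ⟨L2, hL2⟩ := exists_nat_ge (1 / g)
  obtain ⟨L3, hL3⟩ := exists_nat_ge ((2 / p0 * Real.log 2 + K) * 8 / δ)
  refine ⟨p0, hp0pos, ε2, he0, max L1 (max L2 L3), ?_⟩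
  intro L n s hL hns hsn Ω _ Q τ σ f J u X X' pol hu hpol hdeg hJ hroot hfl hX H1 H2 H3
  have hLL1 : L1 ≤ L := (le_max_left _ _).trans hL
  have hLL2 : (1 / g : ℝ) ≤ L := hL2.trans (by
    exact_mod_cast (le_max_left _ _).trans ((le_max_right _ _).trans hL))
  have hLL3 : ((2 / p0 * Real.log 2 + K) * 8 / δ : ℝ) ≤ L := hL3.trans (by
    exact_mod_cast (le_max_right _ _).trans ((le_max_right _ _).trans hL))
  have hgL : 1 ≤ g * L := by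
    rw [div_le_iff₀ hg0] at hLL2
    linarith
  obtain ⟨w, hw1, hw2⟩ : ∃ w : ℕ, g * L ≤ w ∧ (w : ℝ) ≤ 2 * g * L := by
    refine ⟨⌈g * L⌉₊, Nat.le_ceil _, ?_⟩
    have := Nat.ceil_lt_add_one (show 0 ≤ g * (L : ℝ) by linarith)
    linarith
  have hLpos : (0 : ℝ) < L := by
    have : 0 < 1 / g := by positivity
    linarith
  have hgε : g * L ≤ ε1 / 8 * L := mul_le_mul_of_nonneg_right hg1 hLpos.le
  have hwε : 4 * (w : ℝ) ≤ ε1 * L := by linarith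
  have hε8 : 8 ≤ ε1 * L := by linarith
  have hwpos : 1 ≤ w := by
    have : (0 : ℝ) < w := by linarith
    exact_mod_cast this
  obtain ⟨j, hjw, hjc, hjq⟩ := hL1 L w hLL1 hw1
  have hnsR : (n : ℝ) ≤ s := by exact_mod_cast hns
  have hsnR : (s : ℝ) ≤ n + L := by exact_mod_cast hsn
  have hjwR : (j : ℝ) ≤ w := by exact_mod_cast hjw
  have hwR : (0 : ℝ) ≤ w := Nat.cast_nonneg _
  -- rare events
  have hrare : ∀ (P : Ω → ℝ[X]) (v : Ω → ℝ), (∀ ω, 0 < Q.w ω → 0 ≤ v ω ∧ v ω < 1) →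
      (∀ ω, 0 < Q.w ω → fl1 j (v ω) = fl1 j (u ω)) → Fn Q P σ →
      (∀ ω, 0 < Q.w ω → (P ω).natDegree ≤ D + 1) → ∀ E : Ω → Prop,
      (∀ ω, 0 < Q.w ω → E ω →
        |(P ω).eval (v ω)| * ((((D + 1 : ℕ) : ℝ) + 1) * 2 ^ ((j + 1) * (D + 1))) < pn (P ω)) →
      prE Q E ≤ p1 / 2 := by
    intro P v hv hvu hP hd E hE
    have h1 := rare_poly (D + 1) (by omega) Q σ P u v j hu hv hvu hP hd E hE
    refine hjq _ ε2 he1 (h1.trans ?_)
    have h2 := H2 j (by linarith)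
    have h3 := hc_mono_right Q (fun ω => fl1 j (u ω)) (Y := σ)
      (Y' := fun ω => (fl s (X ω), σ ω)) (fun ω ω' _ _ e => congrArg Prod.snd e)
    linarith
  by_contra hbad
  push Not at hbad
  obtain ⟨k, i1, hki⟩ := pigeon_bins Q m Kb p p1 hKb1 hp1 hp1pos
    (fun ω => ∃ i, (2 : ℝ) ^ (-(s : ℝ) + ε1 * L) < pn (pol ω i))
    (fun i ω => (2 : ℝ) ^ w * (1 / 2 : ℝ) ^ n < pn (pol ω i))
    (fun k i1 ω => (∃ i, (2 : ℝ) ^ (-(s : ℝ) + ε1 * L) < pn (pol ω i)) ∧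
      (1 / 2 : ℝ) ^ (n + k * w) < pn (pol ω i1) ∧
      ∀ i, pn (pol ω i) ≤ 2 ^ w * (1 / 2 : ℝ) ^ (n + k * w)) hbad
    (fun i => hrare (fun ω => pol ω i) u hu (fun _ _ => rfl)
      (fun ω ω' h1 h2 e => congrFun (hpol ω ω' h1 h2 e) i)
      (fun ω hω => (hdeg ω hω i).trans (by omega)) _
      (fun ω hω hA => small_eval hns (hfl ω hω) (hX ω hω i) hjc hA))
    (by
      intro ω hω hB
      by_cases hAA : ∃ i, (2 : ℝ) ^ w * (1 / 2 : ℝ) ^ n < pn (pol ω i)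
      · exact Or.inl hAA
      · push Not at hAA
        obtain ⟨k, i1, h1, h2, h3⟩ := bins (Kb := Kb) (fun i => pn (pol ω i)) hwpos
          (-(s : ℝ) + ε1 * L) (fun k hk => by
            push_cast at hk
            exact bins_card hg0 hKb hw1 (by linarith) hsnR hwR hk) hB hAA
        exact Or.inr ⟨k, i1, h1, hB, h2, h3⟩)
  obtain ⟨ω0, _, ⟨i, hi⟩, _, hω0⟩ := exists_of_prE (hp1pos.trans_le hki)
  have hBs := bin_rel (hi.trans_le (hω0 i))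
  obtain ⟨B, hB⟩ : ∃ B : ℕ, B = n + k * w := ⟨_, rfl⟩
  rw [← hB] at hBs
  simp only [← hB] at hki
  have hnB : n ≤ B := by omega
  obtain ⟨s1, r, j2, hs1, hws1, hr, hnr, hrs, hj2, hsr, hj2R⟩ :=
    scales (n := n) (s := s) (B := B) (w := w) (L := L) (ε := ε1) hnB (by linarith) hwε hwpos hε8
  -- (d)
  have hRdp : prE Q (fun ω => |(pol ω i1).derivative.eval (rd s1 (u ω))| *
      ((((D + 1 : ℕ) : ℝ) + 1) * 2 ^ ((j + 1) * (D + 1))) < pn (pol ω i1).derivative) ≤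
      p1 / 2 := by
    refine hrare (fun ω => (pol ω i1).derivative) (fun ω => rd s1 (u ω))
      (fun ω hω => ⟨rd_nonneg (hu ω hω).1, rd_le.trans_lt (hu ω hω).2⟩)
      (fun ω hω => fl1_rd (hjw.trans hws1) (u ω))
      (fun ω ω' h1 h2 e => by
        have := hpol ω ω' h1 h2 e
        simp only [this])
      (fun ω hω => ?_) _ (fun ω _ h => h)
    have h1 := Polynomial.natDegree_derivative_le (pol ω i1)
    have h2 := hdeg ω hω i1
    omega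
  obtain ⟨i0, hi0⟩ := pigeon_slope Q m p1 p0 hp0 hp0pos _ _
    (fun i0 ω => ((1 / 2 : ℝ) ^ B < pn (pol ω i1) ∧
      ∀ i, pn (pol ω i) ≤ 2 ^ w * (1 / 2 : ℝ) ^ B) ∧
      pn (pol ω i1).derivative ≤ |(pol ω i1).derivative.eval (rd s1 (u ω))| *
        ((((D + 1 : ℕ) : ℝ) + 1) * 2 ^ ((j + 1) * (D + 1))) ∧
      ∀ i, |(pol ω i).derivative.eval (rd s1 (u ω))| ≤
        |(pol ω i0).derivative.eval (rd s1 (u ω))|) hki hRdp (by
      intro ω hω h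
      by_cases hR : |(pol ω i1).derivative.eval (rd s1 (u ω))| *
          ((((D + 1 : ℕ) : ℝ) + 1) * 2 ^ ((j + 1) * (D + 1))) < pn (pol ω i1).derivative
      · exact Or.inl hR
      · haveI : Nonempty (Fin m) := ⟨i1⟩
        obtain ⟨i0, hi0⟩ := Finite.exists_max
          (fun i => |(pol ω i).derivative.eval (rd s1 (u ω))|)
        exact Or.inr ⟨i0, h.2, not_lt.1 hR, hi0⟩)
  -- lower bound for the slope
  have hlow : ∀ ω, 0 < Q.w ω → (((1 / 2 : ℝ) ^ B < pn (pol ω i1) ∧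
      ∀ i, pn (pol ω i) ≤ 2 ^ w * (1 / 2 : ℝ) ^ B) ∧
      pn (pol ω i1).derivative ≤ |(pol ω i1).derivative.eval (rd s1 (u ω))| *
        ((((D + 1 : ℕ) : ℝ) + 1) * 2 ^ ((j + 1) * (D + 1))) ∧
      ∀ i, |(pol ω i).derivative.eval (rd s1 (u ω))| ≤
        |(pol ω i0).derivative.eval (rd s1 (u ω))|) → (1 / 2 : ℝ) ^ (B + w) ≤
      |(pol ω i0).derivative.eval (rd s1 (u ω))| := by
    intro ω hω hEω
    obtain ⟨⟨h1, _⟩, h2, h3⟩ := hEω
    refine le_trans ?_ (h3 i1)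
    obtain ⟨v, hv0, hv1, hv⟩ := hroot ω hω
    exact slope_low (abs_nonneg _) h1 (pn_le_derivative (pol ω i1) hv0 hv1 (hv i1)) hjc h2
  have hi0J : i0 ∉ J := by
    intro hcon
    obtain ⟨ω, hω, hEω⟩ := exists_of_prE (hp0pos.trans_le hi0)
    have h1 := hlow ω hω hEω
    rw [hJ ω hω i0 hcon] at h1
    simp only [derivative_zero, eval_zero, abs_zero] at h1
    have : (0 : ℝ) < (1 / 2 : ℝ) ^ (B + w) := by positivity
    linarith
  have hfin := hK L n s w B s1 r j2 f δ ε2 p0 Ω Q τ σ J u X X' pol _ i0 hp0pos hi0 hs1 hr hj2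
    hrs hu hpol hdeg hJ hX (fun ω _ h => h.1.2) hlow (fun ω _ h => h.2.2)
    (H1 _ hi0 r hnr hrs) (H2 j2 hj2R)
    (fun v h1 h2 h3 h4 => H3 _ hi0 r s1 hnr hsr i0 hi0J v h1 h2 h3 h4)
  have hcmp := final_const hδ hLpos hlog.le hlog1 hwR hw2 hg2 hp0pos he2 hLL3
  linarith

end Vale.Agent.P127.Stk.R
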