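import Vale.Agent.P127.Stk.StepRSO
import Vale.Agent.P127.Stk.StepRPoly

/-!
# P127 / Stk / StepR : rare events for polynomials, choice of the level, union bound
-/

namespace Vale.Agent.P127.Stk.R

open Finset Polynomial Vale.Agent.P127

theorem rare_poly {Ω : Type} [Fintype Ω] {τ : Type} (D : ℕ) (hD : 1 ≤ D) (Q : Law Ω)
    (S : Ω → τ) (P : Ω → ℝ[X]) (u v : Ω → ℝ) (j : ℕ)
    (hu : ∀ ω, 0 < Q.w ω → 0 ≤ u ω ∧ u ω < 1)
    (hv : ∀ ω, 0 < Q.w ω → 0 ≤ v ω ∧ v ω < 1)
    (huv : ∀ ω, 0 < Q.w ω → fl1 j (v ω) = fl1 j (u ω)) (hP : Fn Q P S)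
    (hd : ∀ ω, 0 < Q.w ω → (P ω).natDegree ≤ D) (E : Ω → Prop)
    (hE : ∀ ω, 0 < Q.w ω → E ω →
      |(P ω).eval (v ω)| * ((D + 1) * 2 ^ ((j + 1) * D)) < pn (P ω)) :
    prE Q E * (j * Real.log 2 - Real.log (2 * D)) ≤
      j * Real.log 2 - hc Q (fun ω => fl1 j (u ω)) S + Real.log 2 := by
  have h := rare Q E (fun ω => fl1 j (u ω)) S (2 * D) (j * Real.log 2) (by omega)
    (fun ω hω hEω => by
      obtain ⟨F, hF, hF2⟩ := cells_card D j (P ω) (hd ω hω)
      refine ⟨F, hF, fun ω' hω' hEω' hS => ?_⟩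
      have e1 : P ω' = P ω := hP ω' ω hω' hω hS
      show fl1 j (u ω') ∈ F
      rw [← huv ω' hω']
      exact hF2 (v ω') (hv ω' hω').1 (hv ω' hω').2 (by rw [← e1]; exact hE ω' hω' hEω'))
    (fun R hR => by
      refine hc_fl1_le R j u S fun ω hω => hu ω ?_
      rcases (Q.nn ω).eq_or_lt with h0 | h0
      · rw [hR ω h0.symm] at hω
        exact absurd hω (lt_irrefl _)
      · exact h0)
  rw [show ((2 * D : ℕ) : ℝ) = 2 * D by push_cast; ring] at h
  exact h

theorem level (D c : ℕ) (hD : 1 ≤ D) (g q : ℝ) (hg : 0 < g) (hq : 0 < q) :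
    ∃ ε2 : ℝ, 0 < ε2 ∧ ∃ L0 : ℕ, ∀ L w : ℕ, L0 ≤ L → g * L ≤ w →
      ∃ j : ℕ, j ≤ w ∧ (c : ℝ) * 2 ^ ((j + 1) * D) ≤ 2 ^ w ∧
        ∀ x ε : ℝ, ε ≤ ε2 → x * (j * Real.log 2 - Real.log (2 * D)) ≤ ε * L + Real.log 2 →
          x ≤ q := by
  have hD' : (1 : ℝ) ≤ D := by exact_mod_cast hD
  have hD0 : (0 : ℝ) < D := by linarith
  have hb : 0 < Real.log 2 := Real.log_pos (by norm_num)
  have hl2 : 0 ≤ Real.log (2 * D) := Real.log_nonneg (by linarith)
  refine ⟨q * g * Real.log 2 / (4 * D), by positivity,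
    ⌈2 * D / (g * Real.log 2) * ((c + 2 * D) / D * Real.log 2 + Real.log (2 * D)) +
      4 * D / (q * g)⌉₊, fun L w hL hw => ?_⟩
  have hL' := (Nat.ceil_le.1 hL)
  have hA : 0 ≤ 2 * D / (g * Real.log 2) * ((c + 2 * D) / D * Real.log 2 + Real.log (2 * D)) := by
    positivity
  have hB : 0 < 4 * D / (q * g) := by positivity
  have hL1 : 2 * D / (g * Real.log 2) * ((c + 2 * D) / D * Real.log 2 + Real.log (2 * D)) ≤ L := by
    linarith
  have hL2 : 4 * D / (q * g) ≤ L := by linarith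
  have hLpos : (0 : ℝ) < L := lt_of_lt_of_le hB hL2
  have h1 : (c + 2 * D) / D * Real.log 2 + Real.log (2 * D) ≤ g * Real.log 2 / (2 * D) * L := by
    generalize (c + 2 * D) / D * Real.log 2 + Real.log (2 * D) = Y at hL1 ⊢
    rw [div_mul_eq_mul_div, div_le_iff₀ (by positivity)] at hL1
    rw [div_mul_eq_mul_div, le_div_iff₀ (by positivity)]
    linarith
  have h2 : Real.log 2 ≤ q * g * Real.log 2 / (4 * D) * L := by
    rw [div_le_iff₀ (by positivity)] at hL2
    rw [div_mul_eq_mul_div, le_div_iff₀ (by positivity)]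
    nlinarith
  have h3 : (c : ℝ) + 2 * D ≤ w := by
    have : (c + 2 * D) / D * Real.log 2 ≤ g * Real.log 2 / (2 * D) * L := by linarith
    have h4 : (c + 2 * D) / (D : ℝ) ≤ g / (2 * D) * L := by
      have e : g * Real.log 2 / (2 * D) * L = (g / (2 * D) * L) * Real.log 2 := by ring
      rw [e] at this
      exact le_of_mul_le_mul_right this hb
    rw [div_mul_eq_mul_div, div_le_div_iff₀ hD0 (by positivity)] at h4
    have h5 : ((c : ℝ) + 2 * D) * 2 ≤ g * L := by
      have : ((c : ℝ) + 2 * D) * 2 * D ≤ g * L * D := by linarith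
      exact le_of_mul_le_mul_right this hD0
    have : (0 : ℝ) ≤ (c : ℝ) + 2 * D := by positivity
    linarith
  have h3' : c + 2 * D ≤ w := by exact_mod_cast h3
  set j := (w - c - D) / D with hj
  have hj1 : j * D ≤ w - c - D := Nat.div_mul_le_self _ _
  have hj2 : w - c - D < (j + 1) * D := by
    have := Nat.lt_mul_div_succ (w - c - D) (show 0 < D by omega)
    rw [mul_comm]; exact this
  have hj3 : (j + 1) * D + c ≤ w := by
    have : (j + 1) * D = j * D + D := by ring
    omega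
  have hj4 : (w : ℝ) - c - 2 * D ≤ j * D := by
    have : w ≤ (j + 1) * D + D + c := by omega
    have : (w : ℝ) ≤ (j + 1) * D + D + c := by exact_mod_cast this
    linarith
  refine ⟨j, ?_, ?_, fun x ε hε hx => ?_⟩
  · have : j ≤ j * D := Nat.le_mul_of_pos_right j (by omega)
    omega
  · calc (c : ℝ) * 2 ^ ((j + 1) * D) ≤ 2 ^ c * 2 ^ ((j + 1) * D) := by
          refine mul_le_mul_of_nonneg_right ?_ (by positivity)
          exact_mod_cast (Nat.lt_two_pow_self (n := c)).le
      _ = 2 ^ (c + (j + 1) * D) := by rw [pow_add]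
      _ ≤ 2 ^ w := pow_le_pow_right₀ (by norm_num) (by omega)
  · by_contra hcon
    push Not at hcon
    have hj5 : g * Real.log 2 / (2 * D) * L ≤ j * Real.log 2 - Real.log (2 * D) := by
      have h6 : (g * L - c - 2 * D) / D ≤ j := by
        rw [div_le_iff₀ hD0]; linarith
      have h7 : (g * L - c - 2 * D) / D * Real.log 2 ≤ j * Real.log 2 :=
        mul_le_mul_of_nonneg_right h6 hb.le
      have e : (g * L - c - 2 * D) / D * Real.log 2 =
          2 * (g * Real.log 2 / (2 * D) * L) - (c + 2 * D) / D * Real.log 2 := by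
        field_simp
        ring
      rw [e] at h7
      linarith
    have hpos : 0 < g * Real.log 2 / (2 * D) * L := by positivity
    have h8 : q * (g * Real.log 2 / (2 * D) * L) < x * (j * Real.log 2 - Real.log (2 * D)) := by
      calc q * (g * Real.log 2 / (2 * D) * L) < x * (g * Real.log 2 / (2 * D) * L) :=
            mul_lt_mul_of_pos_right hcon hpos
        _ ≤ x * (j * Real.log 2 - Real.log (2 * D)) :=
            mul_le_mul_of_nonneg_left hj5 (by linarith)
    have h9 : ε * L ≤ q * g * Real.log 2 / (4 * D) * L := mul_le_mul_of_nonneg_right hε hLpos.le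
    have e : q * (g * Real.log 2 / (2 * D) * L) = 2 * (q * g * Real.log 2 / (4 * D) * L) := by
      field_simp
      ring
    rw [e] at h8
    linarith

theorem prE_le_sum {Ω ι : Type} [Fintype Ω] (Q : Law Ω) (s : Finset ι) (E : ι → Ω → Prop)
    (F : Ω → Prop) (h : ∀ ω, 0 < Q.w ω → F ω → ∃ i ∈ s, E i ω) :
    prE Q F ≤ ∑ i ∈ s, prE Q (E i) := by
  classical
  unfold prE
  simp only [Finset.sum_filter]
  rw [Finset.sum_comm]
  refine Finset.sum_le_sum fun ω _ => ?_
  have h0 : ∀ i ∈ s, 0 ≤ (if E i ω then Q.w ω else 0) := fun i _ => by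
    split_ifs
    · exact Q.nn ω
    · exact le_rfl
  split_ifs with hF
  · rcases (Q.nn ω).eq_or_lt with h1 | h1
    · rw [← h1]
      exact Finset.sum_nonneg fun i hi => by
        split_ifs <;> simp
    · obtain ⟨i, hi, hE⟩ := h ω h1 hF
      have h2 := Finset.single_le_sum h0 hi
      rw [if_pos hE] at h2
      exact h2
  · exact Finset.sum_nonneg h0

end Vale.Agent.P127.Stk.R
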