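import Vale.Agent.P127.Stk.StepRPt

/-!
# P127 / Stk / StepR : pointwise facts on cells and projected points
-/

namespace Vale.Agent.P127.Stk.R

open Finset Polynomial Vale.Agent.P127

section facts

variable {Ω : Type} {m κ : ℕ} {c : Cf Ω m} {o : Ob Ω m κ}

theorem h705_F_eq (ω : Ω) {i : Fin m} (hi : i ∉ o.J) :
    o.F c ω i = prj o.J (o.Γ ω) (c.t ω) (c.x ω) (c.y ω) i := by
  unfold Ob.F Ob.app Cf.pt prj
  rw [if_neg hi]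

theorem h705_F_mem (ω : Ω) {i : Fin m} (hi : i ∈ o.J) : o.F c ω i = 0 := by
  unfold Ob.F Ob.app
  rw [if_pos hi]

theorem h705_cell_close (n : ℕ) (x x' : Fin m → ℝ) (j : Fin m) :
    |x' j - x j - ((fl n x' j - fl n x j : ℤ) : ℝ) / 2 ^ n| ≤ (1 / 2 : ℝ) ^ n := by
  have h2 : (0 : ℝ) < 2 ^ n := by positivity
  have h3 : (1 / 2 : ℝ) ^ n * 2 ^ n = 1 := by rw [← mul_pow]; norm_num
  have h4 : (0 : ℝ) < (1 / 2) ^ n := by positivity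
  have a1 := Int.floor_le ((2 : ℝ) ^ n * x j)
  have a2 := Int.lt_floor_add_one ((2 : ℝ) ^ n * x j)
  have a3 := Int.floor_le ((2 : ℝ) ^ n * x' j)
  have a4 := Int.lt_floor_add_one ((2 : ℝ) ^ n * x' j)
  have e : x' j - x j - ((fl n x' j - fl n x j : ℤ) : ℝ) / 2 ^ n =
      (1 / 2 : ℝ) ^ n * ((2 ^ n * x' j - ⌊(2 : ℝ) ^ n * x' j⌋) -
        (2 ^ n * x j - ⌊(2 : ℝ) ^ n * x j⌋)) := by
    have e1 : x' j - x j = (1 / 2 : ℝ) ^ n * 2 ^ n * (x' j - x j) := by rw [h3, one_mul]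
    have e2 : ((fl n x' j - fl n x j : ℤ) : ℝ) / 2 ^ n =
        (1 / 2 : ℝ) ^ n * ((⌊(2 : ℝ) ^ n * x' j⌋ : ℝ) - ⌊(2 : ℝ) ^ n * x j⌋) := by
      unfold fl
      push_cast
      rw [one_div, inv_pow]
      field_simp
    rw [e2, e1]
    ring
  rw [e, abs_mul, abs_of_pos h4]
  have h5 : |(2 ^ n * x' j - (⌊(2 : ℝ) ^ n * x' j⌋ : ℝ)) -
        (2 ^ n * x j - (⌊(2 : ℝ) ^ n * x j⌋ : ℝ))| ≤ 1 := by
    rw [abs_le]
    constructor <;> linarith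
  calc (1 / 2 : ℝ) ^ n * _ ≤ (1 / 2 : ℝ) ^ n * 1 := mul_le_mul_of_nonneg_left h5 h4.le
    _ = _ := mul_one _

theorem h705_cell_bdd (n : ℕ) (x x' : Fin m → ℝ) (hx : ∀ i, 0 ≤ x i ∧ x i < 1)
    (hx' : ∀ i, 0 ≤ x' i ∧ x' i < 1) (j : Fin m) :
    |((fl n x' j - fl n x j : ℤ) : ℝ) / 2 ^ n| ≤ 1 := by
  have h2 : (0 : ℝ) < 2 ^ n := by positivity
  have f : ∀ z : Fin m → ℝ, (∀ i, 0 ≤ z i ∧ z i < 1) → 0 ≤ (fl n z j : ℝ) ∧
      (fl n z j : ℝ) ≤ 2 ^ n := by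
    intro z hz
    unfold fl
    constructor
    · have : 0 ≤ ⌊(2 : ℝ) ^ n * z j⌋ := Int.floor_nonneg.2 (mul_nonneg h2.le (hz j).1)
      exact_mod_cast this
    · have := Int.floor_le ((2 : ℝ) ^ n * z j)
      nlinarith [(hz j).2]
  have f1 := f x hx
  have f2 := f x' hx'
  rw [abs_div, abs_of_pos h2, div_le_one h2]
  push_cast
  rw [abs_le]
  constructor <;> linarith

theorem h705_flr_close {s : ℕ} {v w : ℝ} (h : ⌊(2 : ℝ) ^ s * v⌋ = ⌊(2 : ℝ) ^ s * w⌋) :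
    |v - w| ≤ (1 / 2 : ℝ) ^ s := by
  have h2 := Int.abs_sub_lt_one_of_floor_eq_floor h
  rw [← mul_sub, abs_mul, abs_of_pos (by positivity : (0 : ℝ) < 2 ^ s)] at h2
  rw [one_div, inv_pow, ← one_div, le_div_iff₀ (by positivity)]
  linarith

end facts

end Vale.Agent.P127.Stk.R
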