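import Vale.Agent.P127.Stk.Lib
import Vale.Agent.P127.Stk.StepRPtB

/-!
# P127 / Stk / StepR : deterministic facts (the polynomials, the pointwise identities)

The copies are `w : Fin (k+3) → Ω`; `w 0` is the time `t`, `w 1` the base time `t_*`, and
`w (nd l)`, `l : Fin (k+1)`, are the nodes.
-/

namespace Vale.Agent.P127.Stk.R

open Finset Polynomial Vale.Agent.P127

/-- index of the node `l` -/
def nd {k : ℕ} (l : Fin (k + 1)) : Fin (k + 3) := l.succ.succ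

/-- the index `0` or `1` -/
def ix {k : ℕ} (b : Bool) : Fin (k + 3) := if b then 1 else 0

/-- the nodes, and the point `ix b` as last point -/
def em {k : ℕ} (b : Bool) : Fin (k + 2) → Fin (k + 3) :=
  Fin.snoc (α := fun _ => Fin (k + 3)) (fun l : Fin (k + 1) => nd l) (ix b)

theorem em_last {k : ℕ} (b : Bool) : em (k := k) b (Fin.last (k + 1)) = ix b :=
  Fin.snoc_last (α := fun _ => Fin (k + 3)) (ix b) _

theorem em_castSucc {k : ℕ} (b : Bool) (l : Fin (k + 1)) : em b l.castSucc = nd l :=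
  Fin.snoc_castSucc (α := fun _ => Fin (k + 3)) (ix b) _ l

theorem r816_ix_ne {k : ℕ} (b : Bool) (l : Fin (k + 1)) : ix (k := k) b ≠ nd l := by
  intro h
  have h1 := congrArg Fin.val h
  have h2 : (nd l : Fin (k + 3)).val = l.val + 2 := by simp [nd]
  have h3 : (ix (k := k) b).val ≤ 1 := by
    cases b
    · simp [ix]
    · simp [ix]
  omega

theorem em_inj {k : ℕ} (b : Bool) : Function.Injective (em (k := k) b) := by
  intro p q h
  induction p using Fin.lastCases with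
  | last =>
    induction q using Fin.lastCases with
    | last => rfl
    | cast q =>
      rw [em_last, em_castSucc] at h
      exact absurd h (r816_ix_ne b q)
  | cast p =>
    induction q using Fin.lastCases with
    | last =>
      rw [em_last, em_castSucc] at h
      exact absurd h.symm (r816_ix_ne b p)
    | cast q =>
      rw [em_castSucc, em_castSucc] at h
      have h1 : p = q := Fin.succ_injective _ (Fin.succ_injective _ h)
      rw [h1]

section fam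

variable {Ω : Type} {m κ k : ℕ} (c : Cf Ω m) (o : Ob Ω m κ)

/-- the time `t` and its data -/
def vB (w : Fin (k + 3) → Ω) : ℝ × o.γ := (c.t (w 0), o.G (w 0))

/-- side information, nodes, base time, first digits of the base point -/
noncomputable def vA (n : ℕ) (w : Fin (k + 3) → Ω) :
    c.α × (Fin (k + 1) → ℝ × o.γ) × (ℝ × o.γ) × (Fin m → ℤ) :=
  (c.A (w 0), (fun l => (c.t (w (nd l)), o.G (w (nd l)))), (c.t (w 1), o.G (w 1)),
    fl n (o.F c (w 1)))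

/-- digits of the point at the time `t` -/
noncomputable def vY (s : ℕ) (w : Fin (k + 3) → Ω) : Fin m → ℤ := fl s (o.F c (w 0))

/-- digits of the point at the base time -/
noncomputable def vX (s : ℕ) (w : Fin (k + 3) → Ω) : Fin m → ℤ := fl s (o.F c (w 1))

/-- first digits of the line -/
noncomputable def vq (n : ℕ) (w : Fin (k + 3) → Ω) : (Fin m → ℤ) × (Fin m → ℤ) :=
  (fl n (c.x (w 0)), fl n (c.y (w 0)))

/-- the line -/
def vl (w : Fin (k + 3) → Ω) : (Fin m → ℝ) × (Fin m → ℝ) := (c.x (w 0), c.y (w 0))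

/-- the rescaled time -/
noncomputable def vu (a : ℕ) (w : Fin (k + 3) → Ω) : ℝ := Int.fract ((2 : ℝ) ^ a * c.t (w 0))

/-- the support of the copies -/
def Sup (a : ℕ) (w : Fin (k + 3) → Ω) : Prop := ∀ i, key c a (w i) = key c a (w 0)

/-- the typical event -/
def TE (η1 η2 : ℝ) (w : Fin (k + 3) → Ω) : Prop :=
  (∀ i ∉ o.J, ∀ j ∈ o.J, |o.Γ (w 0) i j - o.Γ (w 1) i j| ≤ η2) ∧
    ∀ b : Bool, ∀ i ∉ o.J, ∀ j ∈ o.J,
      |o.Γ (w (ix b)) i j - ∑ l, lag c.t (fun p => w (em b p)) l * o.Γ (w (nd l)) i j| ≤ η1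

/-- the polynomials of a pair of lines, in the rescaled time `u = 2^a t - [t]_a` -/
noncomputable def polW (a n : ℕ) (w : Fin (k + 3) → Ω)
    (q q' : (Fin m → ℤ) × (Fin m → ℤ)) (i : Fin m) : ℝ[X] :=
  polV a (fl1 a (c.t (w 1)) : ℝ) (fun l => c.t (w (nd l))) (fun l => o.Γ (w (nd l))) o.J
    (Int.fract ((2 : ℝ) ^ a * c.t (w 1)))
    (fun i => ((q'.1 i - q.1 i : ℤ) : ℝ) / 2 ^ n) (fun i => ((q'.2 i - q.2 i : ℤ) : ℝ) / 2 ^ n) i

end fam

theorem polW_deg {Ω : Type} {m κ k : ℕ} (c : Cf Ω m) (o : Ob Ω m κ) (a n : ℕ)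
    (w : Fin (k + 3) → Ω) (q q' : (Fin m → ℤ) × (Fin m → ℤ)) (i : Fin m) :
    (polW c o a n w q q' i).natDegree ≤ k + 1 := polV_deg ..

theorem polW_mem {Ω : Type} {m κ k : ℕ} (c : Cf Ω m) (o : Ob Ω m κ) (a n : ℕ)
    (w : Fin (k + 3) → Ω) (q q' : (Fin m → ℤ) × (Fin m → ℤ)) {i : Fin m} (hi : i ∈ o.J) :
    polW c o a n w q q' i = 0 := polV_mem _ _ _ _ _ _ _ _ hi

theorem polW_root {Ω : Type} {m κ k : ℕ} (c : Cf Ω m) (o : Ob Ω m κ) (a n : ℕ)
    (w : Fin (k + 3) → Ω) (q q' : (Fin m → ℤ) × (Fin m → ℤ)) (i : Fin m) :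
    (polW c o a n w q q' i).eval (Int.fract ((2 : ℝ) ^ a * c.t (w 1))) = 0 := polV_root ..

/-- the polynomials depend only on the data -/
theorem polW_congr {Ω : Type} {m κ k : ℕ} (c : Cf Ω m) (o : Ob Ω m κ) (a n : ℕ)
    (w v : Fin (k + 3) → Ω) (q q' : (Fin m → ℤ) × (Fin m → ℤ)) (h : vA c o n w = vA c o n v) :
    polW c o a n w q q' = polW c o a n v q q' := by
  have h1 : ∀ l, (c.t (w (nd l)), o.G (w (nd l))) = (c.t (v (nd l)), o.G (v (nd l))) :=
    congrFun (congrArg (fun z => z.2.1) h)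
  have h2 : c.t (w 1) = c.t (v 1) := congrArg (fun z => z.2.2.1.1) h
  have h3 : ∀ l, c.t (w (nd l)) = c.t (v (nd l)) := fun l => congrArg Prod.fst (h1 l)
  have h4 : ∀ l, o.Γ (w (nd l)) = o.Γ (v (nd l)) := fun l => o.fn _ _ (congrArg Prod.snd (h1 l))
  funext i
  unfold polW
  simp only [h2, h3, h4]

/-- the pointwise identity for a pair of lines with the same data -/
theorem pair_pt (m κ : ℕ) : ∃ C0 : ℕ, ∀ {Ω : Type} {k : ℕ} (c : Cf Ω m) (o : Ob Ω m κ)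
    (a n s : ℕ) (η1 η2 : ℝ) (w w' : Fin (k + 3) → Ω),
    (∀ ω i, 0 ≤ c.x ω i ∧ c.x ω i < 1) → (∀ ω i, 0 ≤ c.y ω i ∧ c.y ω i < 1) →
    (∀ ω, 0 ≤ c.t ω ∧ c.t ω < 1) →
    η1 ≤ 2 * (1 / 2 : ℝ) ^ s → η2 * (1 / 2 : ℝ) ^ n ≤ 2 * (1 / 2 : ℝ) ^ s → s ≤ n + a + 1 →
    Sup c a w → Sup c a w' → TE c o η1 η2 w →
    vA c o n w' = vA c o n w → vB c o w' = vB c o w → vY c o s w' = vY c o s w →
    ∀ i, |o.F c (w' 1) i - o.F c (w 1) i +
      (polW c o a n w (vq c n w) (vq c n w') i).eval (vu c a w)| ≤ C0 * (1 / 2 : ℝ) ^ s := by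
  refine ⟨3 + κ * (12 + 2 * 3 ^ κ), ?_⟩
  intro Ω k c o a n s η1 η2 w w' hx hy ht h1 h2 hs hw hw' hT hA hB hY i
  have hs0 : (0 : ℝ) < (1 / 2) ^ s := by positivity
  by_cases hi : i ∈ o.J
  · rw [h705_F_mem _ hi, h705_F_mem _ hi, polW_mem c o a n w _ _ hi]
    simp only [eval_zero, sub_zero, add_zero, abs_zero]
    positivity
  -- equalities of the data
  have k1 := hw 1
  unfold key at k1
  simp only [Prod.mk.injEq] at k1
  obtain ⟨kx, ky, _, kt⟩ := k1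
  have k2 := hw' 1
  unfold key at k2
  simp only [Prod.mk.injEq] at k2
  obtain ⟨kx', ky', _, kt'⟩ := k2
  unfold vB at hB
  simp only [Prod.mk.injEq] at hB
  have hA2 : (c.t (w' 1), o.G (w' 1)) = (c.t (w 1), o.G (w 1)) := congrArg (fun z => z.2.2.1) hA
  simp only [Prod.mk.injEq] at hA2
  have hΓ0 : o.Γ (w' 0) = o.Γ (w 0) := o.fn _ _ hB.2
  have hΓ1 : o.Γ (w' 1) = o.Γ (w 1) := o.fn _ _ hA2.2
  set b0 : ℝ := ((fl1 a (c.t (w 1)) : ℤ) : ℝ) with hb0
  set dx : Fin m → ℝ := fun j => ((fl n (c.x (w' 0)) j - fl n (c.x (w 0)) j : ℤ) : ℝ) / 2 ^ n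
    with hdx
  set dy : Fin m → ℝ := fun j => ((fl n (c.y (w' 0)) j - fl n (c.y (w 0)) j : ℤ) : ℝ) / 2 ^ n
    with hdy
  set g : Bool → Fin m → Fin m → ℝ := fun b i j => ∑ l, lag c.t (fun p => w (em b p)) l *
    o.Γ (w (nd l)) i j with hg
  have hg' : ∀ b i j, g b i j = (gP a b0 (fun l => c.t (w (nd l))) (fun l => o.Γ (w (nd l)))
      i j).eval ((2 : ℝ) ^ a * c.t (w (ix b)) - b0) := by
    intro b i j
    rw [gP_eval]
    simp only [hg, lag, em_castSucc, em_last]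
  have hu0 : vu c a w = (2 : ℝ) ^ a * c.t (w 0) - b0 := by
    unfold vu
    rw [Int.fract, hb0, kt]
    rfl
  have hu1 : Int.fract ((2 : ℝ) ^ a * c.t (w 1)) = (2 : ℝ) ^ a * c.t (w 1) - b0 := rfl
  have i0 : ix (k := k) false = 0 := rfl
  have i1 : ix (k := k) true = 1 := rfl
  have hpol : (polW c o a n w (vq c n w) (vq c n w') i).eval (vu c a w) =
      prj o.J (g false) (c.t (w 0)) dx dy i - prj o.J (g true) (c.t (w 1)) dx dy i := by
    unfold polW polV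
    rw [if_neg hi, eval_sub, eval_C, hu0, hu1, FP_eval, FP_eval]
    unfold prj
    simp only [hg', hdx, hdy, i0, i1, vq]
  rw [hpol, h705_F_eq _ hi, h705_F_eq _ hi, hΓ1, hA2.1]
  have hdt : |c.t (w 1) - c.t (w 0)| ≤ (1 / 2 : ℝ) ^ a := h705_flr_close kt
  have hest := prj_est o.J (g false) (g true) (o.Γ (w 0)) (o.Γ (w 1)) (c.t (w 0))
    (c.t (w 1)) (c.x (w 1)) (c.y (w 1)) (c.x (w' 1)) (c.y (w' 1))
    dx dy i (3 ^ κ) (max η2 0) (max η1 0) ((1 / 2) ^ n) ((1 / 2) ^ a) ((1 / 2) ^ s)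
    ⟨(ht _).1, (ht _).2.le⟩ ⟨(ht _).1, (ht _).2.le⟩ (fun j _ => o.bd _ i j) ?_ ?_ ?_
    (fun j => by rw [kx, kx']; exact h705_cell_close n _ _ j)
    (fun j => by rw [ky, ky']; exact h705_cell_close n _ _ j)
    (fun j => h705_cell_bdd n _ _ (hx _) (hx _) j)
    (fun j => h705_cell_bdd n _ _ (hy _) (hy _) j) hdt ?_
    (by positivity) (le_max_right _ _) (le_max_right _ _) (by positivity) (by positivity)
  · refine hest.trans ?_
    have e1 : max η2 0 * (1 / 2 : ℝ) ^ n ≤ 2 * (1 / 2) ^ s := by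
      rcases le_total η2 0 with h | h
      · rw [max_eq_right h, zero_mul]; positivity
      · rw [max_eq_left h]; exact h2
    have e2 : max η1 0 ≤ 2 * (1 / 2 : ℝ) ^ s := max_le h1 (by positivity)
    have e3 : (1 / 2 : ℝ) ^ a * (1 / 2) ^ n ≤ 2 * (1 / 2) ^ s := by
      have h5 : (1 / 2 : ℝ) ^ (n + a + 1) ≤ (1 / 2) ^ s :=
        pow_le_pow_of_le_one (by norm_num) (by norm_num) hs
      have h6 : (1 / 2 : ℝ) ^ (n + a + 1) = (1 / 2) ^ a * (1 / 2) ^ n * (1 / 2) := by ring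
      linarith
    rw [o.card]
    have h3k : (0 : ℝ) ≤ 3 ^ κ := by positivity
    have e4 : (2 * max η2 0 * (1 / 2 : ℝ) ^ n + 3 ^ κ * (1 / 2) ^ a * (1 / 2) ^ n +
        4 * max η1 0) ≤ (12 + 2 * 3 ^ κ) * (1 / 2) ^ s := by
      have h7 : (3 : ℝ) ^ κ * (1 / 2) ^ a * (1 / 2) ^ n ≤ 3 ^ κ * (2 * (1 / 2) ^ s) := by
        rw [mul_assoc]
        exact mul_le_mul_of_nonneg_left e3 h3k
      linarith
    have e5 : (κ : ℝ) * (2 * max η2 0 * (1 / 2 : ℝ) ^ n + 3 ^ κ * (1 / 2) ^ a * (1 / 2) ^ n +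
        4 * max η1 0) ≤ κ * ((12 + 2 * 3 ^ κ) * (1 / 2) ^ s) :=
      mul_le_mul_of_nonneg_left e4 (Nat.cast_nonneg _)
    push_cast
    linarith
  · intro j hj
    rw [abs_sub_comm]
    exact (hT.1 i hi j hj).trans (le_max_left _ _)
  · intro j hj
    exact (hT.2 false i hi j hj).trans (le_max_left _ _)
  · intro j hj
    exact (hT.2 true i hi j hj).trans (le_max_left _ _)
  · have h := congrFun hY i
    have h1 := h705_flr_close (s := s) (v := o.F c (w' 0) i) (w := o.F c (w 0) i) h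
    rw [h705_F_eq _ hi, h705_F_eq _ hi, hΓ0, hB.1] at h1
    rw [kx, ky, kx', ky']
    exact h1

/-- the difference of the projections at two close times is almost constant on a cell -/
theorem sd_two {m : ℕ} (J : Finset (Fin m)) (Γt Γs : Fin m → Fin m → ℝ) (t ts : ℝ)
    (x y x' y' : Fin m → ℝ) (i : Fin m) (K ρ δ : ℝ) (hts : 0 ≤ ts ∧ ts ≤ 1) (hK : 0 ≤ K)
    (hb : ∀ j ∈ J, |Γt i j| ≤ K) (h0 : ∀ j ∈ J, |Γt i j - Γs i j| * ρ ≤ δ)
    (h1 : |t - ts| * ρ ≤ δ) (hx : ∀ j, |x' j - x j| ≤ ρ) (hy : ∀ j, |y' j - y j| ≤ ρ) :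
    |(prj J Γt t x' y' i - prj J Γs ts x' y' i) - (prj J Γt t x y i - prj J Γs ts x y i)| ≤
      δ + J.card * ((2 + K) * δ) := by
  have e : (prj J Γt t x' y' i - prj J Γs ts x' y' i) -
      (prj J Γt t x y i - prj J Γs ts x y i) =
      (t - ts) * (y' i - y i) - ∑ j ∈ J, ((Γt i j - Γs i j) * (x' j - x j) +
        (Γt i j - Γs i j) * (ts * (y' j - y j)) + Γt i j * ((t - ts) * (y' j - y j))) := by
    unfold prj
    have e1 : ∑ j ∈ J, ((Γt i j - Γs i j) * (x' j - x j) +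
        (Γt i j - Γs i j) * (ts * (y' j - y j)) + Γt i j * ((t - ts) * (y' j - y j))) =
        (∑ j ∈ J, Γt i j * (x' j + t * y' j)) - (∑ j ∈ J, Γs i j * (x' j + ts * y' j)) -
        (∑ j ∈ J, Γt i j * (x j + t * y j)) + (∑ j ∈ J, Γs i j * (x j + ts * y j)) := by
      rw [← Finset.sum_sub_distrib, ← Finset.sum_sub_distrib, ← Finset.sum_add_distrib]
      exact Finset.sum_congr rfl fun j _ => by ring
    rw [e1]
    ring
  have hρ : 0 ≤ ρ := (abs_nonneg _).trans (hx i)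
  have hδ : 0 ≤ δ := (mul_nonneg (abs_nonneg _) hρ).trans h1
  have g1 : |(t - ts) * (y' i - y i)| ≤ δ := by
    rw [abs_mul]
    exact (mul_le_mul_of_nonneg_left (hy i) (abs_nonneg _)).trans h1
  have g2 : |∑ j ∈ J, ((Γt i j - Γs i j) * (x' j - x j) +
        (Γt i j - Γs i j) * (ts * (y' j - y j)) + Γt i j * ((t - ts) * (y' j - y j)))| ≤
      J.card * ((2 + K) * δ) := by
    refine (Finset.abs_sum_le_sum_abs _ _).trans ?_
    rw [← nsmul_eq_mul]
    refine Finset.sum_le_card_nsmul _ _ _ fun j hj => ?_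
    have a1 : |(Γt i j - Γs i j) * (x' j - x j)| ≤ δ := by
      rw [abs_mul]
      exact (mul_le_mul_of_nonneg_left (hx j) (abs_nonneg _)).trans (h0 j hj)
    have a2 : |(Γt i j - Γs i j) * (ts * (y' j - y j))| ≤ δ := by
      rw [abs_mul]
      refine (mul_le_mul_of_nonneg_left ?_ (abs_nonneg _)).trans (h0 j hj)
      rw [abs_mul, abs_of_nonneg hts.1]
      have := mul_le_mul hts.2 (hy j) (abs_nonneg _) zero_le_one
      rwa [one_mul] at this
    have a3 : |Γt i j * ((t - ts) * (y' j - y j))| ≤ K * δ := by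
      rw [abs_mul]
      refine mul_le_mul (hb j hj) ?_ (abs_nonneg _) hK
      rw [abs_mul]
      exact (mul_le_mul_of_nonneg_left (hy j) (abs_nonneg _)).trans h1
    have b1 := abs_add_le ((Γt i j - Γs i j) * (x' j - x j) +
      (Γt i j - Γs i j) * (ts * (y' j - y j))) (Γt i j * ((t - ts) * (y' j - y j)))
    have b2 := abs_add_le ((Γt i j - Γs i j) * (x' j - x j))
      ((Γt i j - Γs i j) * (ts * (y' j - y j)))
    linarith
  rw [e]
  have g3 := abs_sub ((t - ts) * (y' i - y i)) (∑ j ∈ J, ((Γt i j - Γs i j) * (x' j - x j) +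
        (Γt i j - Γs i j) * (ts * (y' j - y j)) + Γt i j * ((t - ts) * (y' j - y j))))
  linarith

theorem sd_floor {s : ℕ} {u v : ℝ} (h : ⌊(2 : ℝ) ^ s * u⌋ = ⌊(2 : ℝ) ^ s * v⌋) :
    |u - v| ≤ (1 / 2 : ℝ) ^ s := by
  have h2 := Int.abs_sub_lt_one_of_floor_eq_floor h
  have h3 : (0 : ℝ) < 2 ^ s := by positivity
  rw [← mul_sub, abs_mul, abs_of_pos h3] at h2
  rw [one_div, inv_pow, ← one_div, le_div_iff₀ h3, mul_comm]
  exact h2.le

/-- `vY` is determined by `vX`, the cell and the data, up to `O(1)` values -/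
theorem hc_Y_of_X (m κ : ℕ) : ∃ K0 : ℝ, ∀ {Ω : Type} [Fintype Ω] {k : ℕ} (c : Cf Ω m)
    (o : Ob Ω m κ) (a n s : ℕ) (η1 η2 : ℝ) (Q : Law (Fin (k + 3) → Ω)),
    (∀ ω i, 0 ≤ c.x ω i ∧ c.x ω i < 1) → (∀ ω i, 0 ≤ c.y ω i ∧ c.y ω i < 1) →
    (∀ ω, 0 ≤ c.t ω ∧ c.t ω < 1) →
    η2 * (1 / 2 : ℝ) ^ n ≤ 2 * (1 / 2 : ℝ) ^ s → s ≤ n + a + 1 →
    (∀ w, 0 < Q.w w → Sup c a w ∧ TE c o η1 η2 w) →
    hc Q (vY c o s) (fun w => (vX c o s w, vq c n w, vB c o w, vA c o n w)) ≤ K0 := by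
  obtain ⟨C0, hC0⟩ : ∃ C0 : ℕ, 2 + κ * ((2 + (3 : ℝ) ^ κ) * 2) ≤ C0 := exists_nat_ge _
  refine ⟨Real.log (((2 * (C0 + 2) + 1) ^ m : ℕ) : ℝ), ?_⟩
  intro Ω _ k c o a n s η1 η2 Q hx hy ht hη hs hQ
  refine hc_le_log Q _ _ ((2 * (C0 + 2) + 1) ^ m) fun w hw => ?_
  refine ⟨Fintype.piFinset fun i => Icc (vY c o s w i - (C0 + 2 : ℕ))
    (vY c o s w i + (C0 + 2 : ℕ)), ?_, ?_⟩
  · rw [Fintype.card_piFinset]
    refine (Finset.prod_le_pow_card _ _ (2 * (C0 + 2) + 1) fun i _ => ?_).trans (by simp)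
    rw [Int.card_Icc]
    have : vY c o s w i + (C0 + 2 : ℕ) + 1 - (vY c o s w i - (C0 + 2 : ℕ)) =
        ((2 * (C0 + 2) + 1 : ℕ) : ℤ) := by
      push_cast
      ring
    rw [this, Int.toNat_natCast]
  · intro w' hw' e
    simp only [vX, vq, vB, vA, Prod.mk.injEq] at e
    obtain ⟨eX, ⟨eq1, eq2⟩, ⟨et, eG⟩, eA, -, ⟨ets, eGs⟩, -⟩ := e
    obtain ⟨hS, hT⟩ := hQ w hw
    obtain ⟨hS', hT'⟩ := hQ w' hw'
    have hk : key c a (w 1) = key c a (w 0) := hS 1
    have hk' : key c a (w' 1) = key c a (w' 0) := hS' 1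
    unfold key at hk hk'
    simp only [Prod.mk.injEq] at hk hk'
    have h1 : |c.t (w 0) - c.t (w 1)| * (1 / 2 : ℝ) ^ n ≤ 2 * (1 / 2 : ℝ) ^ s := by
      have h1 : |c.t (w 0) - c.t (w 1)| ≤ (1 / 2 : ℝ) ^ a := sd_floor hk.2.2.2.symm
      have h2 : (1 / 2 : ℝ) ^ a * (1 / 2 : ℝ) ^ n ≤ 2 * (1 / 2 : ℝ) ^ s := by
        have h3 : (1 / 2 : ℝ) ^ (n + a + 1) ≤ (1 / 2 : ℝ) ^ s :=
          pow_le_pow_of_le_one (by norm_num) (by norm_num) hs
        rw [pow_succ, pow_add] at h3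
        linarith
      exact (mul_le_mul_of_nonneg_right h1 (by positivity)).trans h2
    have hF : ∀ i, |(o.F c (w' 0) i - o.F c (w' 1) i) - (o.F c (w 0) i - o.F c (w 1) i)| ≤
        C0 * (1 / 2 : ℝ) ^ s := by
      intro i
      by_cases hi : i ∈ o.J
      · have h2 : ∀ v, o.F c v i = 0 := fun v => by
          show o.app v (c.pt v) i = 0
          unfold Ob.app
          rw [if_pos hi]
        simp only [h2, sub_self, abs_zero]
        positivity
      · have h2 : ∀ v, o.F c v i = prj o.J (o.Γ v) (c.t v) (c.x v) (c.y v) i := fun v => by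
          show o.app v (c.pt v) i = _
          unfold Ob.app
          rw [if_neg hi]
          rfl
        rw [h2, h2, h2, h2, et, ets, o.fn _ _ eG, o.fn _ _ eGs, hk.1, hk.2.1, hk'.1, hk'.2.1]
        refine (sd_two o.J (o.Γ (w 0)) (o.Γ (w 1)) (c.t (w 0)) (c.t (w 1)) (c.x (w 0))
          (c.y (w 0)) (c.x (w' 0)) (c.y (w' 0)) i (3 ^ κ) ((1 / 2 : ℝ) ^ n)
          (2 * (1 / 2 : ℝ) ^ s) ⟨(ht _).1, (ht _).2.le⟩ (by positivity)
          (fun j _ => o.bd _ _ _) (fun j hj => ?_) h1 (fun j => sd_floor (congrFun eq1 j))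
          (fun j => sd_floor (congrFun eq2 j))).trans ?_
        · exact (mul_le_mul_of_nonneg_right (hT.1 i hi j hj) (by positivity)).trans hη
        · rw [o.card]
          have h3 : (0 : ℝ) ≤ (1 / 2 : ℝ) ^ s := by positivity
          have := mul_le_mul_of_nonneg_right hC0 h3
          linarith
    rw [Fintype.mem_piFinset]
    intro i
    have h3 : |o.F c (w' 1) i - o.F c (w 1) i| ≤ (1 / 2 : ℝ) ^ s := sd_floor (congrFun eX i)
    have h4 : |o.F c (w' 0) i - o.F c (w 0) i| ≤ ((C0 + 1 : ℕ) : ℝ) * (1 / 2 : ℝ) ^ s := by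
      have k1 := hF i
      rw [abs_le] at k1 h3 ⊢
      push_cast
      constructor <;> linarith [k1.1, k1.2, h3.1, h3.2]
    have h5 : |vY c o s w' i - vY c o s w i| ≤ ((C0 + 1 : ℕ) : ℤ) + 1 := by
      show |⌊(2 : ℝ) ^ s * o.F c (w' 0) i⌋ - ⌊(2 : ℝ) ^ s * o.F c (w 0) i⌋| ≤ _
      refine floor_close_aux ?_
      have h2 : (0 : ℝ) < 2 ^ s := by positivity
      rw [← mul_sub, abs_mul, abs_of_pos h2]
      refine (mul_le_mul_of_nonneg_left h4 h2.le).trans (le_of_eq ?_)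
      rw [one_div, inv_pow]
      field_simp
    rw [abs_le] at h5
    rw [mem_Icc]
    push_cast at h5 ⊢
    constructor <;> linarith [h5.1, h5.2]

end Vale.Agent.P127.Stk.R
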