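import Vale.Agent.P127.Stk.Rates
import Vale.Agent.P127.Stk.FamTools
import Vale.Agent.P127.Stk.StepRDet

/-!
# P127 / Stk / StepR : the family of `k + 3` copies, inequalities 1, 3 and 7
-/

namespace Vale.Agent.P127.Stk.R

open Finset Vale.Agent.P127

variable {Ω : Type} [Fintype Ω] {m κ k : ℕ} {P : Law Ω} {c : Cf Ω m} {o : Ob Ω m κ}
  {Q0 : Law (Fin (k + 3) → Ω)} {a L n s : ℕ} {h e εu η1 η2 : ℝ}

/-- the conditioned copies are dominated -/
theorem fam_dom (hQ0 : ∀ w, Q0.w w = cw P (key c a) (k + 2) w)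
    (hE : 1 / 2 ≤ prE Q0 (TE c o η1 η2)) (i : Fin (k + 3)) :
    Dom (on Q0 (TE c o η1 η2)) (fun w => w i) P 2 := by
  have h1 := Fam.on_dom hQ0 (by norm_num : (0 : ℝ) < 1 / 2) hE i
  norm_num at h1
  exact h1

/-- on the support of the conditioned copies the side information coincides -/
theorem fam_A (hQ0 : ∀ w, Q0.w w = cw P (key c a) (k + 2) w)
    (hE : 1 / 2 ≤ prE Q0 (TE c o η1 η2)) {w : Fin (k + 3) → Ω}
    (hw : 0 < (on Q0 (TE c o η1 η2)).w w) (i j : Fin (k + 3)) : c.A (w i) = c.A (w j) :=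
  (Fam.on_same hQ0 (by norm_num : (0 : ℝ) < 1 / 2) hE hw i j).2.2.1

/-- inequality 1 -/
theorem fam_ent1 (hns : n ≤ s) (hsL : s ≤ L)
    (hQ0 : ∀ w, Q0.w w = cw P (key c a) (k + 2) w)
    (hE : 1 / 2 ≤ prE Q0 (TE c o η1 η2))
    (hR : ∀ (Ω' : Type) [Fintype Ω'] (Q : Law Ω') (π : Ω' → Ω), Dom Q π P 2 →
      Rate Q (c.comp π) (o.comp π) L h e) :
    hc (on Q0 (TE c o η1 η2)) (vX c o s) (fun w => (vq c n w, vA c o n w)) ≤
        (h - κ) * ((s : ℝ) - n) * Real.log 2 + e := by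
  have h1 := (hR _ (on Q0 (TE c o η1 η2)) (fun w => w 1) (fam_dom hQ0 hE 1)).up n s hns hsL
  refine le_trans ?_ h1
  refine hc_mono_right (on Q0 (TE c o η1 η2)) (vX c o s) ?_
  intro w w' hw hw' h2
  simp only [Prod.mk.injEq, vA] at h2
  obtain ⟨-, hA, -, ⟨ht, hG⟩, hF⟩ := h2
  have hA1 := fam_A hQ0 hE hw 1 0
  have hA2 := fam_A hQ0 hE hw' 1 0
  show (fl n (o.F c (w 1)), c.t (w 1), o.G (w 1), c.A (w 1)) =
    (fl n (o.F c (w' 1)), c.t (w' 1), o.G (w' 1), c.A (w' 1))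
  rw [hF, ht, hG, hA1, hA2, hA]

/-- inequality 3 -/
theorem fam_ent3 (hns : n ≤ s) (hsL : s ≤ L)
    (hQ0 : ∀ w, Q0.w w = cw P (key c a) (k + 2) w)
    (hE : 1 / 2 ≤ prE Q0 (TE c o η1 η2))
    (hR : ∀ (Ω' : Type) [Fintype Ω'] (Q : Law Ω') (π : Ω' → Ω), Dom Q π P 2 →
      Rate Q (c.comp π) (o.comp π) L h e)
    (hRK : ∀ Q : Law (Fin 2 → Ω), (∀ w, Q.w w = cw P (key c a) 1 w) →
      hc Q (fun w => fl n (o.F c (w 1)))
          (fun w => (fl n (o.F c (w 0)), (fun i => (c.t (w i), o.G (w i))), c.A (w 0))) ≤ e) :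
    hc (on Q0 (TE c o η1 η2)) (vY c o s) (fun w => (vB c o w, vA c o n w)) ≤
        (h - κ) * ((s : ℝ) - n) * Real.log 2 + 3 * e := by
  obtain ⟨Q2, hQ2⟩ := cw_exists P (key c a) 1
  set i : Fin 2 → Fin (k + 3) := ![1, 0] with hi
  have hinj : Function.Injective i := by
    intro p q hpq
    fin_cases p <;> fin_cases q <;> simp_all
  have h0 := hRK Q2 hQ2
  have h1 := Fam.hc_sub_on (E := TE c o η1 η2) hQ0 hQ2 i hinj (by norm_num : (0 : ℝ) < 1 / 2) hE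
    (fun w => fl n (o.F c (w 1)))
    (fun w => (fl n (o.F c (w 0)), (fun i => (c.t (w i), o.G (w i))), c.A (w 0)))
  have h2 := hc_le_add (on Q0 (TE c o η1 η2)) (vY c o s) (fun w => fl n (o.F c (w 0)))
    (fun w => (vB c o w, vA c o n w))
  have h3 : hc (on Q0 (TE c o η1 η2)) (fun w => fl n (o.F c (w 0)))
      (fun w => (vB c o w, vA c o n w)) ≤ 2 * e := by
    refine le_trans ?_ (h1.trans ?_)
    · refine hc_mono_right (on Q0 (TE c o η1 η2)) (fun w => fl n (o.F c (w 0))) ?_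
      intro w w' hw hw' h4
      simp only [Prod.mk.injEq, vA, vB] at h4
      obtain ⟨⟨ht0, hG0⟩, hA, -, ⟨ht, hG⟩, hF⟩ := h4
      have hA1 := fam_A hQ0 hE hw 1 0
      have hA2 := fam_A hQ0 hE hw' 1 0
      show (fl n (o.F c (w 1)), (fun j => (c.t ((w ∘ i) j), o.G ((w ∘ i) j))), c.A (w 1)) =
        (fl n (o.F c (w' 1)), (fun j => (c.t ((w' ∘ i) j), o.G ((w' ∘ i) j))), c.A (w' 1))
      have hfun : (fun j => (c.t ((w ∘ i) j), o.G ((w ∘ i) j))) =
          (fun j => (c.t ((w' ∘ i) j), o.G ((w' ∘ i) j))) := by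
        funext j
        fin_cases j
        · show (c.t (w 1), o.G (w 1)) = (c.t (w' 1), o.G (w' 1))
          rw [ht, hG]
        · show (c.t (w 0), o.G (w 0)) = (c.t (w' 0), o.G (w' 0))
          rw [ht0, hG0]
      rw [hF, hfun, hA1, hA2, hA]
    · linarith
  have h5 := (hR _ (on Q0 (TE c o η1 η2)) (fun w => w 0) (fam_dom hQ0 hE 0)).up n s hns hsL
  have h6 : hc (on Q0 (TE c o η1 η2)) (vY c o s)
      (fun w => (fl n (o.F c (w 0)), vB c o w, vA c o n w)) ≤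
      (h - κ) * ((s : ℝ) - n) * Real.log 2 + e := by
    refine le_trans ?_ h5
    refine hc_mono_right (on Q0 (TE c o η1 η2)) (vY c o s) ?_
    intro w w' hw hw' h4
    simp only [Prod.mk.injEq, vA, vB] at h4
    obtain ⟨hF0, ⟨ht0, hG0⟩, hA, -⟩ := h4
    show (fl n (o.F c (w 0)), c.t (w 0), o.G (w 0), c.A (w 0)) =
      (fl n (o.F c (w' 0)), c.t (w' 0), o.G (w' 0), c.A (w' 0))
    rw [hF0, ht0, hG0, hA]
  linarith

/-- inequality 7 -/
theorem fam_ent7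
    (hQ0 : ∀ w, Q0.w w = cw P (key c a) (k + 2) w)
    (hE : 1 / 2 ≤ prE Q0 (TE c o η1 η2))
    (ht : ((L : ℝ) - a) * Real.log 2 - εu ≤ hc P (fun ω => fl1 L (c.t ω))
      (fun ω => (fl1 a (c.t ω), c.x ω, c.y ω, c.A ω))) (j : ℕ) (hj : a + j ≤ L) :
    (j : ℝ) * Real.log 2 - 4 * (εu + 1) ≤
      hc (on Q0 (TE c o η1 η2)) (fun w => fl1 j (vu c a w)) (vA c o n) := by
  -- the entropy under `P`
  have hfr : ∀ ω, 0 ≤ Int.fract ((2 : ℝ) ^ a * c.t ω) ∧ Int.fract ((2 : ℝ) ^ a * c.t ω) < 1 :=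
    fun ω => ⟨Int.fract_nonneg _, Int.fract_lt_one _⟩
  have h1 := hc_le_add P (fun ω => fl1 L (c.t ω)) (fun ω => fl1 (a + j) (c.t ω))
    (fun ω => (fl1 a (c.t ω), c.x ω, c.y ω, c.A ω))
  have h2 := hc_fl1_digits_le P hj (fun ω => c.t ω)
    (fun ω => (fl1 a (c.t ω), c.x ω, c.y ω, c.A ω))
  rw [Nat.cast_sub hj, Nat.cast_add] at h2
  have h3 : hc P (fun ω => fl1 (a + j) (c.t ω)) (fun ω => (fl1 a (c.t ω), c.x ω, c.y ω, c.A ω)) ≤
      hc P (fun ω => fl1 j (Int.fract ((2 : ℝ) ^ a * c.t ω)))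
        (fun ω => (fl1 a (c.t ω), c.x ω, c.y ω, c.A ω)) := by
    refine hc_mono_left P ?_
    intro ω ω' _ _ h4
    simp only [Prod.mk.injEq] at h4
    have e1 := fl_fract (ι := Unit) a j (fun _ => c.t ω) ()
    have e2 := fl_fract (ι := Unit) a j (fun _ => c.t ω') ()
    have e3 : fl1 a (c.t ω) = fl1 a (c.t ω') := h4.2.1
    have e4 : fl1 j (Int.fract ((2 : ℝ) ^ a * c.t ω)) =
      fl1 j (Int.fract ((2 : ℝ) ^ a * c.t ω')) := h4.1
    unfold fl1 at e3 e4 ⊢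
    unfold fl at e1 e2
    simp only at e1 e2
    rw [e4] at e1
    rw [e3] at e1
    linarith
  have h4 : hc P (fun ω => fl1 j (Int.fract ((2 : ℝ) ^ a * c.t ω)))
        (fun ω => (fl1 a (c.t ω), c.x ω, c.y ω, c.A ω)) ≤
      hc P (fun ω => fl1 j (Int.fract ((2 : ℝ) ^ a * c.t ω))) (key c a) := by
    refine hc_mono_right P _ ?_
    intro ω ω' _ _ h5
    simp only [Prod.mk.injEq] at h5
    unfold key
    simp only [Prod.mk.injEq]
    tauto
  -- the entropy under `Q0`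
  have h5 := cw_indep hQ0 0 (fun ω => fl1 j (Int.fract ((2 : ℝ) ^ a * c.t ω)))
    (fun w => ((fun l => (c.t (w (nd l)), o.G (w (nd l)))), (c.t (w 1), o.G (w 1)),
      fl n (o.F c (w 1)))) (by
      intro w w' hww
      have e1 : w 1 = w' 1 := hww 1 (by
        intro h0
        have := congrArg Fin.val h0
        simp at this)
      have e2 : ∀ l : Fin (k + 1), w (nd l) = w' (nd l) := fun l => hww (nd l) (by
        unfold nd
        exact Fin.succ_ne_zero _)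
      simp only [e1, e2])
  have h6 : hc Q0 (fun w => fl1 j (Int.fract ((2 : ℝ) ^ a * c.t (w 0))))
      (fun w => (((fun l => (c.t (w (nd l)), o.G (w (nd l)))), (c.t (w 1), o.G (w 1)),
      fl n (o.F c (w 1))), key c a (w 0))) ≤ hc Q0 (fun w => fl1 j (vu c a w)) (vA c o n) := by
    refine hc_mono_right Q0 (fun w => fl1 j (vu c a w)) ?_
    intro w w' _ _ h7
    unfold key at h7
    simp only [Prod.mk.injEq] at h7
    unfold vA
    simp only [Prod.mk.injEq]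
    tauto
  have h7 := (Dom.on (by norm_num : (0 : ℝ) < 1 / 2) hE).le_hc (fun w => fl1 j (vu c a w))
    (vA c o n) (j * Real.log 2) (fun R _ => hc_fl1_le R j (vu c a) (vA c o n)
      (fun w _ => ⟨Int.fract_nonneg _, Int.fract_lt_one _⟩))
  have hl := Real.log_two_lt_d9
  have h8 : hc (on Q0 (TE c o η1 η2)) ((fun w => fl1 j (vu c a w)) ∘ id) (vA c o n ∘ id) =
    hc (on Q0 (TE c o η1 η2)) (fun w => fl1 j (vu c a w)) (vA c o n) := rfl
  rw [h8] at h7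
  have h9 : 1 / (1 / 2 : ℝ) = 2 := by norm_num
  rw [h9] at h7
  have e1 : ((L : ℝ) - a) * Real.log 2 = ((L : ℝ) - (a + j)) * Real.log 2 + j * Real.log 2 := by
    ring
  linarith

end Vale.Agent.P127.Stk.R
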