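import Vale.Agent.P127.Stk.Rates
import Vale.Agent.P127.Stk.StepRDet
import Vale.Agent.P127.Stk.FamTools

/-!
# P127 / Stk / StepR : the entropy inequalities 2, 4, 5, 6, 8 for the family (`fam_ent`)
-/

namespace Vale.Agent.P127.Stk.R

open Finset Polynomial Vale.Agent.P127

section fam705

variable {Ω : Type} [Fintype Ω] {m κ k : ℕ} {P : Law Ω} {c : Cf Ω m} {o : Ob Ω m κ}
  {Q0 : Law (Fin (k + 3) → Ω)} {h e η1 η2 : ℝ} {a L n s : ℕ}

/-- all times and their data (the same function as `vT`) -/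
def vT' (c : Cf Ω m) (o : Ob Ω m κ) (w : Fin (k + 3) → Ω) : Fin (k + 3) → ℝ × o.γ :=
  fun i => (c.t (w i), o.G (w i))

theorem h705_dom (hQ0 : ∀ w, Q0.w w = cw P (key c a) (k + 2) w)
    (hE : 1 / 2 ≤ prE Q0 (TE c o η1 η2)) (i : Fin (k + 3)) :
    Dom (on Q0 (TE c o η1 η2)) (fun w => w i) P 2 := by
  have h1 := Fam.on_dom (a := a) (N := k + 2) hQ0 (p := 1 / 2) (by norm_num) hE i
  have h2 : (1 : ℝ) / (1 / 2) = 2 := by norm_num
  rwa [h2] at h1

theorem h705_sup (hQ0 : ∀ w, Q0.w w = cw P (key c a) (k + 2) w)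
    (hE : 1 / 2 ≤ prE Q0 (TE c o η1 η2)) {w : Fin (k + 3) → Ω}
    (hw : 0 < (on Q0 (TE c o η1 η2)).w w) : Sup c a w ∧ TE c o η1 η2 w := by
  have h1 := on_pos (lt_of_lt_of_le (by norm_num) hE) hw
  exact ⟨(cw_supp hQ0 h1.2).1, h1.1⟩

theorem h705_same (hQ0 : ∀ w, Q0.w w = cw P (key c a) (k + 2) w)
    (hE : 1 / 2 ≤ prE Q0 (TE c o η1 η2)) {w : Fin (k + 3) → Ω}
    (hw : 0 < (on Q0 (TE c o η1 η2)).w w) (i j : Fin (k + 3)) :
    c.x (w i) = c.x (w j) ∧ c.y (w i) = c.y (w j) ∧ c.A (w i) = c.A (w j) ∧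
      fl1 a (c.t (w i)) = fl1 a (c.t (w j)) :=
  Fam.on_same (N := k + 2) hQ0 (p := 1 / 2) (by norm_num) hE hw i j

/-- 8. the cost of all the data -/
theorem fam8 (he : 0 ≤ e) (hQ0 : ∀ w, Q0.w w = cw P (key c a) (k + 2) w)
    (hE : 1 / 2 ≤ prE Q0 (TE c o η1 η2))
    (hR : Rate P c o L h e) :
    mi (on Q0 (TE c o η1 η2)) (vl c) (vT' c o) (fun w => c.A (w 0)) ≤
      (2 * (k + 4) + 2) * (e + 1) := by
  have hl2 : Real.log 2 ≤ 1 := by
    have := Real.log_two_lt_d9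
    linarith
  have h1 := cw_cost hQ0 (fun ω => (c.x ω, c.y ω)) c.A (fun ω => (c.t ω, o.G ω))
    (fun ω => fl1 a (c.t ω)) (fun ω ω' _ _ e => by
      simp only [Prod.mk.injEq] at e
      show fl1 a (c.t ω) = fl1 a (c.t ω')
      rw [e.1]) (fun ω ω' _ _ e => by
      simp only [Prod.mk.injEq] at e
      show key c a ω = key c a ω'
      unfold key
      rw [e.1.1, e.1.2, e.2.1, e.2.2]) (fun ω ω' _ _ e => by
      unfold key at e
      simp only [Prod.mk.injEq] at e ⊢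
      exact ⟨⟨e.1, e.2.1⟩, e.2.2.1, e.2.2.2⟩) 0
  have h2 : mi P (fun ω => (c.x ω, c.y ω)) (fun ω => (c.t ω, o.G ω)) c.A ≤ e := hR.cost
  have h3 := (Dom.on (P := Q0) (E := TE c o η1 η2) (p := 1 / 2) (by norm_num) hE).mi_le
    (fun w => (c.x (w 0), c.y (w 0))) (fun w j => (c.t (w j), o.G (w j))) (fun w => c.A (w 0))
  have h4 : mi (on Q0 (TE c o η1 η2)) (vl c) (vT' c o) (fun w => c.A (w 0)) ≤
      1 / (1 / 2) * (mi Q0 (fun w => (c.x (w 0), c.y (w 0)))
        (fun w j => (c.t (w j), o.G (w j))) (fun w => c.A (w 0)) + Real.log 2) := h3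
  have h5 : (((k + 2 : ℕ) : ℝ) + 2) * mi P (fun ω => (c.x ω, c.y ω))
      (fun ω => (c.t ω, o.G ω)) c.A ≤ (((k + 2 : ℕ) : ℝ) + 2) * e :=
    mul_le_mul_of_nonneg_left h2 (by positivity)
  push_cast at h1 h5
  have hk : (0 : ℝ) ≤ k := Nat.cast_nonneg _
  nlinarith

/-- 6. `vY` is a function of the line and the time -/
theorem fam6 (Q : Law (Fin (k + 3) → Ω)) (n s : ℕ) :
    Fn Q (vY c o s) (fun w => (vl c w, vB c o w, vA c o n w)) := by
  intro w w' _ _ e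
  simp only [Prod.mk.injEq] at e
  obtain ⟨e1, e2, _⟩ := e
  unfold vl at e1
  unfold vB at e2
  simp only [Prod.mk.injEq] at e1 e2
  unfold vY Ob.F Ob.app Cf.pt
  rw [o.fn _ _ e2.2, e1.1, e1.2, e2.1]

/-- 2. the lower bound -/
theorem fam2 (he : 0 ≤ e) (hns : n ≤ s) (hsL : s ≤ L)
    (hQ0 : ∀ w, Q0.w w = cw P (key c a) (k + 2) w)
    (hE : 1 / 2 ≤ prE Q0 (TE c o η1 η2))
    (hR : ∀ (Ω' : Type) [Fintype Ω'] (Q : Law Ω') (π : Ω' → Ω), Dom Q π P 2 →
      Rate Q (c.comp π) (o.comp π) L h e) :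
    (h - κ) * ((s : ℝ) - n) * Real.log 2 - (2 * (k + 4) + 3 + cst m κ) * (e + 1) ≤
      hc (on Q0 (TE c o η1 η2)) (vY c o s) (fun w => (vq c n w, vB c o w, vA c o n w)) := by
  have hRP : Rate P c o L h e := hR Ω P id ((Dom.refl P).mono (by norm_num))
  set Q := on Q0 (TE c o η1 η2) with hQ
  have h0 := (hR _ Q (fun w => w 0) (h705_dom hQ0 hE 0)).lo n s hns hsL
  have h8 : mi Q (vl c) (vT' c o) (fun w => c.A (w 0)) ≤ (2 * (k + 4) + 2) * (e + 1) :=
    fam8 he hQ0 hE hRP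
  -- add all the times
  have h1 := Fam.add_T Q (X := vY c o s) (Y := vq c n) (l := vl c) (Z := vB c o)
    (T0 := vT' c o) (A := fun w => c.A (w 0))
    (fun w w' _ _ e => by
      simp only [Prod.mk.injEq] at e
      obtain ⟨e1, e2, _⟩ := e
      unfold vl at e1
      unfold vB at e2
      simp only [Prod.mk.injEq] at e1 e2
      unfold vY Ob.F Ob.app Cf.pt
      rw [o.fn _ _ e2.2, e1.1, e1.2, e2.1])
    (fun w w' _ _ e => by
      simp only [Prod.mk.injEq] at e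
      obtain ⟨e1, _, _⟩ := e
      unfold vl at e1
      simp only [Prod.mk.injEq] at e1
      unfold vq
      rw [e1.1, e1.2])
    (fun w w' _ _ e => congrFun e 0)
  have h2 : (h - κ) * ((s : ℝ) - n) * Real.log 2 - e ≤
      hc Q (vY c o s) (fun w => (vq c n w, vB c o w, c.A (w 0))) := by
    refine h0.trans (le_of_eq ?_)
    refine hc_congr Q (fun w w' _ _ e => congrArg Prod.fst e)
      (fun w w' _ _ e => congrArg Prod.fst e) (fun w w' _ _ e => ?_) (fun w w' _ _ e => ?_)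
    · simp only [Prod.mk.injEq] at e
      show (vq c n w, c.t (w 0), o.G (w 0), c.A (w 0)) =
        (vq c n w', c.t (w' 0), o.G (w' 0), c.A (w' 0))
      have e2 : (c.t (w 0), o.G (w 0)) = (c.t (w' 0), o.G (w' 0)) := e.2.1
      simp only [Prod.mk.injEq] at e2
      rw [e.1, e2.1, e2.2, e.2.2]
    · have e1 : vq c n w = vq c n w' := congrArg (fun z => z.1) e
      have e2 : c.t (w 0) = c.t (w' 0) := congrArg (fun z => z.2.1) e
      have e3 : o.G (w 0) = o.G (w' 0) := congrArg (fun z => z.2.2.1) e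
      have e4 : c.A (w 0) = c.A (w' 0) := congrArg (fun z => z.2.2.2) e
      show (vq c n w, (c.t (w 0), o.G (w 0)), c.A (w 0)) =
        (vq c n w', (c.t (w' 0), o.G (w' 0)), c.A (w' 0))
      rw [e1, e2, e3, e4]
  -- add the cell of the base point
  have h3 : hc Q (vX c o n) (fun w => (vq c n w, vT' c o w, c.A (w 0))) ≤ cst m κ := by
    refine hc_F_of_q Q (c.comp (fun w => w 1)) (o.comp (fun w => w 1)) n
      (fun w => (vq c n w, vT' c o w, c.A (w 0))) (fun w _ => hRP.t01 (w 1)) ?_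
    intro w w' hw hw' e
    simp only [Prod.mk.injEq] at e
    have e1 := h705_same hQ0 hE hw 1 0
    have e2 := h705_same hQ0 hE hw' 1 0
    have e3 : (c.t (w 1), o.G (w 1)) = (c.t (w' 1), o.G (w' 1)) := congrFun e.2.1 1
    have e4 : (fl n (c.x (w 0)), fl n (c.y (w 0))) = (fl n (c.x (w' 0)), fl n (c.y (w' 0))) :=
      e.1
    simp only [Prod.mk.injEq] at e3 e4
    show ((fl n (c.x (w 1)), fl n (c.y (w 1))), c.t (w 1), o.G (w 1)) =
      ((fl n (c.x (w' 1)), fl n (c.y (w' 1))), c.t (w' 1), o.G (w' 1))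
    rw [e1.1, e1.2.1, e2.1, e2.2.1, e4.1, e4.2, e3.1, e3.2]
  have h4 := Fam.add_V Q (X := vY c o s) (vX c o n)
    (Y := fun w => (vq c n w, vT' c o w, c.A (w 0)))
    (Z := fun w => (vq c n w, vB c o w, vA c o n w)) (v := cst m κ)
    (fun w w' _ _ e => by
      simp only [Prod.mk.injEq] at e
      obtain ⟨e0, e1, e2, e3⟩ := e
      have e4 : ∀ i, c.t (w i) = c.t (w' i) ∧ o.G (w i) = o.G (w' i) := by
        intro i
        have := congrFun e2 i
        unfold vT' at this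
        simp only [Prod.mk.injEq] at this
        exact this
      have e5 : fl n (o.F c (w 1)) = fl n (o.F c (w' 1)) := e0
      show (vq c n w, vB c o w, vA c o n w) = (vq c n w', vB c o w', vA c o n w')
      unfold vB vA
      rw [e1, e3, (e4 0).1, (e4 0).2, (e4 1).1, (e4 1).2, e5]
      have e6 : (fun l : Fin (k + 1) => (c.t (w (nd l)), o.G (w (nd l)))) =
          fun l : Fin (k + 1) => (c.t (w' (nd l)), o.G (w' (nd l))) := by
        funext l
        rw [(e4 (nd l)).1, (e4 (nd l)).2]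
      rw [e6]) h3
  have hcst : 0 ≤ cst m κ := le_trans (hc_nonneg Q _ _) h3
  have h5 : 0 ≤ cst m κ * e := mul_nonneg hcst he
  have h6 : (2 * ((k : ℝ) + 4) + 3 + cst m κ) * (e + 1) =
      (2 * (k + 4) + 2) * (e + 1) + (e + 1) + cst m κ * e + cst m κ := by ring
  rw [h6]
  linarith

/-- 4. the information of the time about the cell -/
theorem fam4 (he : 0 ≤ e) (hQ0 : ∀ w, Q0.w w = cw P (key c a) (k + 2) w)
    (hE : 1 / 2 ≤ prE Q0 (TE c o η1 η2)) (hR : Rate P c o L h e) :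
    mi (on Q0 (TE c o η1 η2)) (vq c n) (vB c o) (vA c o n) ≤ (2 * (k + 4) + 2) * (e + 1) := by
  set Q := on Q0 (TE c o η1 η2) with hQ
  have h8 : mi Q (vl c) (vT' c o) (fun w => c.A (w 0)) ≤ (2 * (k + 4) + 2) * (e + 1) :=
    fam8 he hQ0 hE hR
  refine le_trans ?_ h8
  have h1 := Fam.mi_part Q (X := vq c n) (Y := vX c o n) (l := vl c)
    (Z := fun w => ((fun l : Fin (k + 1) => (c.t (w (nd l)), o.G (w (nd l)))),
      (c.t (w 1), o.G (w 1)))) (B := vB c o) (T0 := vT' c o) (A := fun w => c.A (w 0))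
    (fun w w' _ _ e => by
      simp only [Prod.mk.injEq] at e
      obtain ⟨e1, _, _⟩ := e
      unfold vl at e1
      simp only [Prod.mk.injEq] at e1
      unfold vq
      rw [e1.1, e1.2])
    (fun w w' hw hw' e => by
      simp only [Prod.mk.injEq] at e
      obtain ⟨e1, ⟨_, e2⟩, _⟩ := e
      unfold vl at e1
      simp only [Prod.mk.injEq] at e1
      have s1 := h705_same hQ0 hE hw 1 0
      have s2 := h705_same hQ0 hE hw' 1 0
      unfold vX Ob.F Ob.app Cf.pt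
      rw [o.fn _ _ e2.2, s1.1, s1.2.1, s2.1, s2.2.1, e1.1, e1.2, e2.1])
    (fun w w' _ _ e => by
      have e4 : ∀ i, (c.t (w i), o.G (w i)) = (c.t (w' i), o.G (w' i)) := fun i => congrFun e i
      simp only [e4])
    (fun w w' _ _ e => congrFun e 0)
  refine le_trans (le_of_eq ?_) h1
  refine mi_congr_cond Q _ _ (fun w w' _ _ e => ?_) (fun w w' _ _ e => ?_)
  · simp only [Prod.mk.injEq] at e
    obtain ⟨e1, ⟨e2, e3⟩, e4⟩ := e
    have e5 : fl n (o.F c (w 1)) = fl n (o.F c (w' 1)) := e1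
    unfold vA
    rw [e4, e2, e3.1, e3.2, e5]
  · unfold vA at e
    simp only [Prod.mk.injEq] at e
    obtain ⟨e1, e2, e3, e4⟩ := e
    show (fl n (o.F c (w 1)), ((fun l : Fin (k + 1) => (c.t (w (nd l)), o.G (w (nd l)))),
      (c.t (w 1), o.G (w 1))), c.A (w 0)) = _
    rw [e1, e2, e3.1, e3.2, e4]
    rfl

/-- 5. the point at the time `t` from the base point -/
theorem fam5 (m κ : ℕ) : ∃ K0 : ℝ, 0 ≤ K0 ∧ ∀ {Ω : Type} [Fintype Ω] {k : ℕ} {P : Law Ω}
    {c : Cf Ω m} {o : Ob Ω m κ} {Q0 : Law (Fin (k + 3) → Ω)} {h e η1 η2 : ℝ} {a L n s : ℕ},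
    0 ≤ e → s ≤ n + a + 1 → η2 * (1 / 2 : ℝ) ^ n ≤ 2 * (1 / 2 : ℝ) ^ s →
    (∀ w, Q0.w w = cw P (key c a) (k + 2) w) → 1 / 2 ≤ prE Q0 (TE c o η1 η2) →
    Rate P c o L h e →
    hc (on Q0 (TE c o η1 η2)) (vY c o s)
      (fun w => (vX c o s w, vq c n w, vB c o w, vA c o n w)) ≤ K0 * (e + 1) := by
  obtain ⟨K0, hK0⟩ := hc_Y_of_X m κ
  refine ⟨max K0 0, le_max_right _ _, ?_⟩
  intro Ω _ k P c o Q0 h e η1 η2 a L n s he hs hη hQ0 hE hR
  have h1 := hK0 c o a n s η1 η2 (on Q0 (TE c o η1 η2)) hR.x01 hR.y01 hR.t01 hη hs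
    (fun w hw => h705_sup hQ0 hE hw)
  have h2 : K0 ≤ max K0 0 := le_max_left _ _
  have h3 : 0 ≤ max K0 0 := le_max_right _ _
  nlinarith

end fam705

end Vale.Agent.P127.Stk.R
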