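import Vale.Agent.P127.Stk.Rates
import Vale.Agent.P127.Stk.FamTools
import Vale.Agent.P127.Stk.StepRDet

/-!
# P127 / Stk / StepR : close vectors, cost of the data, back to two copies

Proofs of `close_exc`, `cost_D`, `fin_ent` of `StepRFam.lean`.
-/

namespace Vale.Agent.P127.Stk.R

open Finset Vale.Agent.P127

/-- close vectors outside of an exceptional event -/
theorem h856_close_exc {Ω : Type} [Fintype Ω] {m : ℕ} {T : Type} (Q : Law Ω) (E : Ω → Prop)
    (X X' : Ω → Fin m → ℝ) (Z : Ω → T) (n s : ℕ) (Rr : ℝ) (hns : n ≤ s) (hR : 0 ≤ Rr)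
    (h1 : ∀ ω, 0 < Q.w ω → fl n (X ω) = fl n (X' ω))
    (h2 : ∀ ω, 0 < Q.w ω → ¬ E ω → ∀ i, |X ω i - X' ω i| ≤ Rr * (1 / 2 : ℝ) ^ s) :
    hc Q (fun ω => fl s (X ω)) (fun ω => (fl s (X' ω), Z ω)) ≤
      Real.log 2 + m * Real.log (2 * Rr + 5) + prE Q E * (m * ((s : ℝ) - n) * Real.log 2) := by
  classical
  -- the digits between `n` and `s`
  set D : Ω → Fin m → ℤ := fun ω i => fl s (X ω) i - 2 ^ (s - n) * fl n (X ω) i with hD
  have e0 : hc Q (fun ω => fl s (X ω)) (fun ω => (fl s (X' ω), Z ω)) ≤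
      hc Q D (fun ω => (fl s (X' ω), Z ω)) := by
    refine hc_mono_left Q ?_
    intro ω ω' p p' e
    simp only [Prod.mk.injEq] at e
    have e1 : fl n (X ω) = fl n (X ω') := by
      rw [h1 ω p, h1 ω' p']
      exact fl_of_fl hns _ _ e.2.1
    funext i
    have e2 := congrFun e.1 i
    simp only [hD] at e2
    rw [e1] at e2
    linarith
  refine e0.trans ?_
  have hN := hc_le_exc Q E D (fun ω => (fl s (X' ω), Z ω)) ((2 ^ (s - n)) ^ m)
    ((2 * ⌈Rr⌉₊ + 3) ^ m) (Nat.one_le_pow _ _ (by omega)) ?_ ?_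
  · have l1 : Real.log (((2 * ⌈Rr⌉₊ + 3) ^ m : ℕ) : ℝ) ≤ m * Real.log (2 * Rr + 5) := by
      push_cast
      rw [Real.log_pow]
      refine mul_le_mul_of_nonneg_left ?_ (Nat.cast_nonneg m)
      refine Real.log_le_log (by positivity) ?_
      have := Nat.ceil_lt_add_one hR
      linarith
    have l2 : Real.log (((2 ^ (s - n)) ^ m : ℕ) : ℝ) = m * ((s : ℝ) - n) * Real.log 2 := by
      push_cast
      rw [Real.log_pow, Real.log_pow, Nat.cast_sub hns]
      ring
    rw [l2] at hN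
    linarith
  · -- all values
    refine ⟨Fintype.piFinset fun _ : Fin m => Finset.Ico (0 : ℤ) (2 ^ (s - n)), ?_, ?_⟩
    · rw [Fintype.card_piFinset]
      simp [toNat_pow_aux]
    · intro ω _
      rw [Fintype.mem_piFinset]
      intro i
      have := floor_mem_aux hns (x := X ω i) (y := X ω i) rfl
      rw [Finset.mem_Ico] at this ⊢
      simp only [hD]
      have e1 : fl s (X ω) i = ⌊(2 : ℝ) ^ s * X ω i⌋ := rfl
      have e2 : fl n (X ω) i = ⌊(2 : ℝ) ^ n * X ω i⌋ := rfl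
      rw [e1, e2]
      constructor
      · linarith [this.1]
      · linarith [this.2]
  · -- outside of the event
    intro ω hω hE
    refine ⟨Fintype.piFinset fun i : Fin m =>
      Finset.Icc (fl s (X' ω) i - 2 ^ (s - n) * fl n (X' ω) i - (⌈Rr⌉₊ + 1 : ℕ))
        (fl s (X' ω) i - 2 ^ (s - n) * fl n (X' ω) i + (⌈Rr⌉₊ + 1 : ℕ)), ?_, ?_⟩
    · rw [Fintype.card_piFinset]
      have : ∀ i : Fin m, (Finset.Icc (fl s (X' ω) i - 2 ^ (s - n) * fl n (X' ω) i -
          ((⌈Rr⌉₊ + 1 : ℕ) : ℤ)) (fl s (X' ω) i - 2 ^ (s - n) * fl n (X' ω) i +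
          ((⌈Rr⌉₊ + 1 : ℕ) : ℤ))).card = 2 * ⌈Rr⌉₊ + 3 := by
        intro i
        rw [Int.card_Icc]
        omega
      simp only [this, Finset.prod_const, Finset.card_univ, Fintype.card_fin]
      exact le_rfl
    · intro ω' hω' hE' e
      simp only [Prod.mk.injEq] at e
      rw [Fintype.mem_piFinset]
      intro i
      have h3 : ∀ i, |X ω' i - X' ω' i| ≤ (⌈Rr⌉₊ : ℝ) * (1 / 2 : ℝ) ^ s := fun i =>
        (h2 ω' hω' hE' i).trans (mul_le_mul_of_nonneg_right (Nat.le_ceil Rr) (by positivity))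
      have h4 := abs_le.1 (fl_sub_le h3 i)
      have h5 : fl n (X' ω') i = fl n (X' ω) i := congrFun (fl_of_fl hns _ _ e.1) i
      have h6 : fl s (X' ω') i = fl s (X' ω) i := congrFun e.1 i
      have h7 : fl n (X ω') i = fl n (X' ω) i := by rw [h1 ω' hω', h5]
      rw [Finset.mem_Icc]
      simp only [hD]
      rw [h7]
      rw [h6] at h4
      push_cast
      constructor <;> linarith [h4.1, h4.2]

theorem h856_cst_nonneg (m κ : ℕ) : 0 ≤ cst m κ := by
  unfold cst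
  refine mul_nonneg (Nat.cast_nonneg m) (Real.log_nonneg ?_)
  have h3 : (0 : ℝ) ≤ κ * 3 ^ κ := by positivity
  linarith

/-- the projected point is a function of the line, the time and the data -/
theorem h856_F_congr {Ω : Type} {m κ : ℕ} (c : Cf Ω m) (o : Ob Ω m κ) (ω ω' : Ω)
    (hx : c.x ω = c.x ω') (hy : c.y ω = c.y ω') (ht : c.t ω = c.t ω') (hG : o.G ω = o.G ω') :
    o.F c ω = o.F c ω' := by
  classical
  have hΓ := o.fn ω ω' hG
  unfold Ob.F Ob.app Cf.pt
  rw [hΓ, hx, hy, ht]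

/-- informations depend only on the law -/
theorem h856_mi_of_law {Ω₁ Ω₂ : Type} [Fintype Ω₁] [Fintype Ω₂] {S T U : Type*} (P₁ : Law Ω₁)
    (P₂ : Law Ω₂) (π : Ω₁ → Ω₂) (h : ∀ ω, P₁.pr π ω = P₂.w ω) (X : Ω₂ → S) (Y : Ω₂ → T)
    (Z : Ω₂ → U) :
    mi P₁ (fun ω => X (π ω)) (fun ω => Y (π ω)) (fun ω => Z (π ω)) = mi P₂ X Y Z := by
  unfold mi
  have e1 := hc_of_law P₁ P₂ π h X Z
  have e2 := hc_of_law P₁ P₂ π h X (fun ω => (Y ω, Z ω))
  simp only [Function.comp_def] at e1 e2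
  rw [e1, e2]

/-- the cost of the data of the killing lemma for the glued pair -/
theorem h856_cost_D (m κ k : ℕ) : ∃ K1 : ℝ, 0 ≤ K1 ∧ ∀ (e1 : ℝ) (a n r j : ℕ)
    (Ω : Type) [Fintype Ω] (c : Cf Ω m) (o : Ob Ω m κ) (Q1 : Law (Fin (k + 3) → Ω))
    (Ω' : Type) [Fintype Ω'] (Q' : Law Ω') (π π' : Ω' → (Fin (k + 3) → Ω)),
    (∀ ω, 0 ≤ c.t ω ∧ c.t ω < 1) → n ≤ r →
    (∀ w, 0 < Q1.w w → Sup c a w) → (∀ w, Q'.pr π w = Q1.w w) →
    mi Q1 (vl c) (fun (w : Fin (k + 3) → Ω) (i : Fin (k + 3)) => (c.t (w i), o.G (w i)))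
      (fun w => c.A (w 0)) ≤ e1 →
    mi Q' (fun ω => vl c (π ω)) (fun ω => vq c n (π' ω))
      (fun ω => (vq c n (π ω), vB c o (π ω), vA c o n (π ω))) ≤ e1 →
    mi Q' (fun ω => (c.x (π ω 1), c.y (π ω 1)))
      (fun ω => ((vA c o n (π ω), vq c n (π ω), vq c n (π' ω)), fl1 j (vu c a (π ω))))
      (fun ω => (c.t (π ω 1), c.A (π ω 1), fl r (c.x (π ω 1)), fl r (c.y (π ω 1)))) ≤
      2 * e1 + K1 := by
  refine ⟨cst m κ, h856_cst_nonneg m κ, ?_⟩
  intro e1 a n r j Ω _ c o Q1 Ω' _ Q' π π' ht hnr hsup hlaw hmi hglue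
  -- the support
  have hS : ∀ ω, 0 < Q'.w ω → Sup c a (π ω) := fun ω hω => hsup _ (by
    rw [← hlaw]
    exact Q'.pr_pos π hω)
  have hkey : ∀ ω, 0 < Q'.w ω → ∀ i, c.x (π ω i) = c.x (π ω 0) ∧ c.y (π ω i) = c.y (π ω 0) ∧
      c.A (π ω i) = c.A (π ω 0) := by
    intro ω hω i
    have h := hS ω hω i
    unfold key at h
    simp only [Prod.mk.injEq] at h
    exact ⟨h.1, h.2.1, h.2.2.1⟩
  set l : Ω' → (Fin m → ℝ) × (Fin m → ℝ) := fun ω => (c.x (π ω 1), c.y (π ω 1)) with hl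
  set T0 : Ω' → Fin (k + 3) → ℝ × o.γ := fun ω i => (c.t (π ω i), o.G (π ω i)) with hT0
  set A0 : Ω' → c.α := fun ω => c.A (π ω 1) with hA0
  set F0 : Ω' → Fin m → ℤ := fun ω => fl n (o.F c (π ω 1)) with hF0
  set q' : Ω' → (Fin m → ℤ) × (Fin m → ℤ) := fun ω => vq c n (π' ω) with hq'
  set Zr : Ω' → ℝ × c.α × (Fin m → ℤ) × (Fin m → ℤ) := fun ω =>
    (c.t (π ω 1), c.A (π ω 1), fl r (c.x (π ω 1)), fl r (c.y (π ω 1))) with hZr
  -- the hypothesis about the times on `Ω'`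
  have hm1 : mi Q' l T0 A0 ≤ e1 := by
    have h1 := h856_mi_of_law Q' Q1 π hlaw (vl c)
      (fun (w : Fin (k + 3) → Ω) (i : Fin (k + 3)) => (c.t (w i), o.G (w i)))
      (fun w => c.A (w 0))
    have h2 : mi Q' l T0 A0 ≤ mi Q' (fun ω => vl c (π ω)) T0 A0 := by
      refine mi_mono_left Q' T0 ?_
      intro ω ω' p p' e
      simp only [Prod.mk.injEq] at e
      have e2 : vl c (π ω) = vl c (π ω') := e.1
      unfold vl at e2
      simp only [Prod.mk.injEq] at e2
      simp only [hl, Prod.mk.injEq]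
      rw [(hkey ω p 1).1, (hkey ω p 1).2.1, (hkey ω' p' 1).1, (hkey ω' p' 1).2.1]
      exact e2
    have h3 : mi Q' (fun ω => vl c (π ω)) T0 A0 =
        mi Q' (fun ω => vl c (π ω)) T0 (fun ω => c.A (π ω 0)) := by
      refine mi_congr_cond Q' _ _ ?_ ?_
      · intro ω ω' p p' e
        simp only [hA0]
        rw [(hkey ω p 1).2.2, (hkey ω' p' 1).2.2]
        exact e
      · intro ω ω' p p' e
        simp only [hA0] at e
        rw [(hkey ω p 1).2.2, (hkey ω' p' 1).2.2] at e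
        exact e
    rw [h3] at h2
    rw [← h1] at hmi
    exact h2.trans hmi
  -- step 1 : the data are a function of `(T0, F0, q')` and `Zr`
  have s1 : mi Q' l (fun ω => ((vA c o n (π ω), vq c n (π ω), vq c n (π' ω)),
      fl1 j (vu c a (π ω)))) Zr ≤ mi Q' l (fun ω => (T0 ω, F0 ω, q' ω)) Zr := by
    refine mi_mono_right Q' l ?_
    intro ω ω' p p' e
    simp only [Prod.mk.injEq, hT0, hF0, hq', hZr] at e
    obtain ⟨⟨eT, eF, eq'⟩, et, eA, ex, ey⟩ := e
    have ex' := fl_of_fl hnr _ _ ex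
    have ey' := fl_of_fl hnr _ _ ey
    have eT' : ∀ i, c.t (π ω i) = c.t (π ω' i) ∧ o.G (π ω i) = o.G (π ω' i) := by
      intro i
      have := congrFun eT i
      simp only [Prod.mk.injEq] at this
      exact this
    have eA0 : c.A (π ω 0) = c.A (π ω' 0) := by
      rw [← (hkey ω p 1).2.2, ← (hkey ω' p' 1).2.2]
      exact eA
    have eq0 : vq c n (π ω) = vq c n (π ω') := by
      unfold vq
      rw [← (hkey ω p 1).1, ← (hkey ω p 1).2.1, ← (hkey ω' p' 1).1, ← (hkey ω' p' 1).2.1,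
        ex', ey']
    have eu : vu c a (π ω) = vu c a (π ω') := by
      unfold vu
      rw [(eT' 0).1]
    have evA : vA c o n (π ω) = vA c o n (π ω') := by
      unfold vA
      rw [eA0, (eT' 1).1, (eT' 1).2, eF]
      simp only [(eT' _).1, (eT' _).2]
    simp only [Prod.mk.injEq]
    exact ⟨⟨evA, eq0, eq'⟩, by rw [eu]⟩
  -- step 2 : the chain rule
  have s2 : mi Q' l (fun ω => (T0 ω, F0 ω, q' ω)) Zr = mi Q' l T0 Zr +
      mi Q' l (fun ω => (F0 ω, q' ω)) (fun ω => (T0 ω, Zr ω)) := mi_pair Q' l T0 _ Zr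
  have s3 : mi Q' l (fun ω => (F0 ω, q' ω)) (fun ω => (T0 ω, Zr ω)) =
      mi Q' l F0 (fun ω => (T0 ω, Zr ω)) + mi Q' l q' (fun ω => (F0 ω, T0 ω, Zr ω)) :=
    mi_pair Q' l F0 q' _
  -- the first term
  have t1 : mi Q' l T0 Zr ≤ e1 := by
    have g1 : mi Q' l T0 Zr = mi Q' l T0 (fun ω =>
        ((fl r (c.x (π ω 1)), fl r (c.y (π ω 1))), (c.t (π ω 1), A0 ω))) := by
      refine mi_congr_cond Q' _ _ ?_ ?_
      · intro ω ω' _ _ e
        simp only [Prod.mk.injEq, hZr, hA0] at e ⊢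
        tauto
      · intro ω ω' _ _ e
        simp only [Prod.mk.injEq, hZr, hA0] at e ⊢
        tauto
    have g2 : mi Q' l T0 (fun ω =>
        ((fl r (c.x (π ω 1)), fl r (c.y (π ω 1))), (c.t (π ω 1), A0 ω))) ≤
        mi Q' l T0 (fun ω => (c.t (π ω 1), A0 ω)) := by
      refine mi_cond_le Q' T0 _ ?_
      intro ω ω' _ _ e
      simp only [Prod.mk.injEq, hl] at e ⊢
      rw [e.1.1, e.1.2]
      exact ⟨rfl, rfl⟩
    have g3 := mi_pair Q' l (fun ω => c.t (π ω 1)) T0 A0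
    have g4 : mi Q' l (fun ω => (c.t (π ω 1), T0 ω)) A0 ≤ mi Q' l T0 A0 := by
      refine mi_mono_right Q' l ?_
      intro ω ω' _ _ e
      simp only [Prod.mk.injEq] at e ⊢
      have e1 := congrFun e.1 1
      simp only [hT0, Prod.mk.injEq] at e1
      exact ⟨e1.1, e.1⟩
    have g5 := mi_nonneg Q' l (fun ω => c.t (π ω 1)) A0
    linarith
  -- the second term
  have t2 : mi Q' l F0 (fun ω => (T0 ω, Zr ω)) ≤ cst m κ := by
    refine (mi_le_hc' Q' l F0 _).trans ?_
    have g := hc_F_of_q Q' (c.comp fun ω => π ω 1) (o.comp fun ω => π ω 1) n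
      (fun ω => (T0 ω, Zr ω)) (fun ω _ => ht _) (by
        intro ω ω' p p' e
        simp only [Prod.mk.injEq, hT0, hZr] at e
        obtain ⟨eT, et, eA, ex, ey⟩ := e
        have ex' := fl_of_fl hnr _ _ ex
        have ey' := fl_of_fl hnr _ _ ey
        have e1 := congrFun eT 1
        simp only [Prod.mk.injEq] at e1
        show (Cf.q (c.comp fun ω => π ω 1) n ω, c.t (π ω 1), o.G (π ω 1)) =
          (Cf.q (c.comp fun ω => π ω 1) n ω', c.t (π ω' 1), o.G (π ω' 1))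
        have e2 : Cf.q (c.comp fun ω => π ω 1) n ω = Cf.q (c.comp fun ω => π ω 1) n ω' :=
          Prod.ext ex' ey'
        rw [e2, e1.1, e1.2])
    exact g
  -- the third term
  have t3 : mi Q' l q' (fun ω => (F0 ω, T0 ω, Zr ω)) ≤ e1 := by
    have g0 : mi Q' l q' (fun ω => (F0 ω, T0 ω, Zr ω)) ≤
        mi Q' (fun ω => vl c (π ω)) q' (fun ω => (F0 ω, T0 ω, Zr ω)) := by
      refine mi_mono_left Q' q' ?_
      intro ω ω' p p' e
      simp only [Prod.mk.injEq] at e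
      have e2 : vl c (π ω) = vl c (π ω') := e.1
      unfold vl at e2
      simp only [Prod.mk.injEq] at e2
      simp only [hl, Prod.mk.injEq]
      rw [(hkey ω p 1).1, (hkey ω p 1).2.1, (hkey ω' p' 1).1, (hkey ω' p' 1).2.1]
      exact e2
    have g1 : mi Q' (fun ω => vl c (π ω)) q' (fun ω => (F0 ω, T0 ω, Zr ω)) =
        mi Q' (fun ω => vl c (π ω)) q' (fun ω => ((fl r (c.x (π ω 1)), fl r (c.y (π ω 1))),
          (vq c n (π ω), vB c o (π ω), vA c o n (π ω)))) := by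
      refine mi_congr_cond Q' _ _ ?_ ?_
      · intro ω ω' p p' e
        simp only [Prod.mk.injEq, vB, vA] at e
        obtain ⟨⟨ex, ey⟩, eq0, ⟨et0, eG0⟩, eA, en, ⟨et1, eG1⟩, eF⟩ := e
        simp only [Prod.mk.injEq, hZr, hF0, hT0]
        refine ⟨eF, ?_, et1, ?_, ex, ey⟩
        · funext i
          refine Fin.cases ?_ (fun i => ?_) i
          · rw [et0, eG0]
          · refine Fin.cases ?_ (fun i => ?_) i
            · show (c.t (π ω 1), o.G (π ω 1)) = (c.t (π ω' 1), o.G (π ω' 1))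
              rw [et1, eG1]
            · exact congrFun en i
        · rw [(hkey ω p 1).2.2, (hkey ω' p' 1).2.2, eA]
      · intro ω ω' p p' e
        simp only [Prod.mk.injEq, hZr, hF0, hT0] at e
        obtain ⟨eF, eT, et, eA, ex, ey⟩ := e
        have ex' := fl_of_fl hnr _ _ ex
        have ey' := fl_of_fl hnr _ _ ey
        have eT' : ∀ i, c.t (π ω i) = c.t (π ω' i) ∧ o.G (π ω i) = o.G (π ω' i) := by
          intro i
          have := congrFun eT i
          simp only [Prod.mk.injEq] at this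
          exact this
        simp only [Prod.mk.injEq, vB, vA, vq]
        refine ⟨⟨ex, ey⟩, ⟨?_, ?_⟩, ⟨(eT' 0).1, (eT' 0).2⟩, ?_, ?_, ⟨(eT' 1).1, (eT' 1).2⟩, eF⟩
        · rw [← (hkey ω p 1).1, ← (hkey ω' p' 1).1, ex']
        · rw [← (hkey ω p 1).2.1, ← (hkey ω' p' 1).2.1, ey']
        · rw [← (hkey ω p 1).2.2, ← (hkey ω' p' 1).2.2]
          exact eA
        · funext i
          rw [(eT' _).1, (eT' _).2]
    have g2 : mi Q' (fun ω => vl c (π ω)) q' (fun ω =>
          ((fl r (c.x (π ω 1)), fl r (c.y (π ω 1))),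
          (vq c n (π ω), vB c o (π ω), vA c o n (π ω)))) ≤
        mi Q' (fun ω => vl c (π ω)) q' (fun ω => (vq c n (π ω), vB c o (π ω), vA c o n (π ω))) := by
      refine mi_cond_le Q' q' _ ?_
      intro ω ω' p p' e
      simp only [Prod.mk.injEq] at e ⊢
      have e2 : vl c (π ω) = vl c (π ω') := e.1
      unfold vl at e2
      simp only [Prod.mk.injEq] at e2
      rw [(hkey ω p 1).1, (hkey ω p 1).2.1, (hkey ω' p' 1).1, (hkey ω' p' 1).2.1, e2.1, e2.2]
      exact ⟨rfl, rfl⟩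
    linarith
  linarith

/-- from the conditioned family back to two copies -/
theorem h856_fin_ent (m κ k : ℕ) : ∃ K1 : ℝ, 0 ≤ K1 ∧ ∀ (h e e' ε η1 η2 : ℝ) (a L n s : ℕ)
    (Ω : Type) [Fintype Ω] (P : Law Ω) (c : Cf Ω m) (o : Ob Ω m κ) (Q0 : Law (Fin (k + 3) → Ω)),
    0 ≤ e → 0 ≤ e' → 0 ≤ ε → a ≤ L → n ≤ s → s ≤ L →
    (∀ w, Q0.w w = cw P (key c a) (k + 2) w) →
    1 / 2 ≤ prE Q0 (TE c o η1 η2) → prE Q0 (fun w => ¬ TE c o η1 η2 w) ≤ ε →
    (∀ (Ω' : Type) [Fintype Ω'] (Q : Law Ω') (π : Ω' → Ω), Dom Q π P 2 →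
      Rate Q (c.comp π) (o.comp π) L h e) →
    (∀ Q : Law (Fin 2 → Ω), (∀ w, Q.w w = cw P (key c a) 1 w) →
      hc Q (fun w => fl n (o.F c (w 1)))
          (fun w => (fl n (o.F c (w 0)), (fun i => (c.t (w i), o.G (w i))), c.A (w 0))) ≤ e) →
    hc (on Q0 (TE c o η1 η2)) (vX c o s) (fun w => (vY c o s w, vB c o w, vA c o n w)) ≤ e' →
    ∀ Q : Law (Fin 2 → Ω), (∀ w, Q.w w = cw P (key c a) 1 w) →
      hc Q (fun w => fl s (o.F c (w 1)))
          (fun w => (fl s (o.F c (w 0)), (fun i => (c.t (w i), o.G (w i))), c.A (w 0))) ≤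
        e' + ε * (m * ((s : ℝ) - n) * Real.log 2) + K1 * (e + 1) := by
  classical
  refine ⟨k + 6, by positivity, ?_⟩
  intro h e e' ε η1 η2 a L n s Ω _ P c o Q0 he he' hε haL hns hsL hQ0 hE hE' hRate hRK hmain Q hQ
  have hl2 : Real.log 2 ≤ 1 := by
    have := Real.log_le_sub_one_of_pos (by norm_num : (0 : ℝ) < 2)
    linarith
  have hl0 : 0 ≤ Real.log 2 := Real.log_nonneg (by norm_num)
  have hsn : (0 : ℝ) ≤ (s : ℝ) - n := by
    have : (n : ℝ) ≤ s := by exact_mod_cast hns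
    linarith
  -- step 1 : from the event to all copies
  have s1 : hc Q0 (vX c o s) (fun w => (vY c o s w, vB c o w, vA c o n w)) ≤
      Real.log 2 + e' + ε * (m * ((s : ℝ) - n) * Real.log 2) := by
    have g1 : hc (on Q0 fun w => ¬ TE c o η1 η2 w) (vX c o s)
        (fun w => (vY c o s w, vB c o w, vA c o n w)) ≤ m * ((s : ℝ) - n) * Real.log 2 := by
      have g2 := hc_fl_digits_le (on Q0 fun w => ¬ TE c o η1 η2 w) hns
        (fun w : Fin (k + 3) → Ω => o.F c (w 1)) (fun w => (vY c o s w, vB c o w, vA c o n w))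
      rw [Fintype.card_fin, Nat.cast_sub hns] at g2
      refine le_trans ?_ g2
      refine hc_mono_right _ _ ?_
      intro w w' _ _ e
      simp only [Prod.mk.injEq, vA] at e ⊢
      tauto
    have g3 := Fam.hc_le_of_on Q0 (TE c o η1 η2) (by linarith) (vX c o s)
      (fun w => (vY c o s w, vB c o w, vA c o n w)) g1
    have g4 : (1 - prE Q0 (TE c o η1 η2)) * (m * ((s : ℝ) - n) * Real.log 2) ≤
        ε * (m * ((s : ℝ) - n) * Real.log 2) := by
      refine mul_le_mul_of_nonneg_right ?_ (by positivity)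
      rw [← prE_not]
      exact hE'
    linarith
  -- the cost of the data
  have hcost : mi Q0 (vl c) (fun (w : Fin (k + 3) → Ω) (i : Fin (k + 3)) =>
      (c.t (w i), o.G (w i))) (fun w => c.A (w 0)) ≤ (k + 4) * e := by
    have g1 := cw_cost hQ0 (fun ω => (c.x ω, c.y ω)) c.A (fun ω => (c.t ω, o.G ω))
      (fun ω => fl1 a (c.t ω)) (fun ω ω' _ _ e => by
        simp only [Prod.mk.injEq] at e
        show fl1 a (c.t ω) = fl1 a (c.t ω')
        rw [e.1]) (fun ω ω' _ _ e => by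
        simp only [Prod.mk.injEq] at e
        show key c a ω = key c a ω'
        unfold key
        rw [e.1.1, e.1.2, e.2.1, e.2.2]) (fun ω ω' _ _ e => by
        unfold key at e
        simp only [Prod.mk.injEq] at e ⊢
        exact ⟨⟨e.1, e.2.1⟩, e.2.2.1, e.2.2.2⟩) 0
    have g2 := (hRate Ω P id ((Dom.refl P).mono (by norm_num))).cost
    have g3 : mi P (fun ω => (c.x ω, c.y ω)) (fun ω => (c.t ω, o.G ω)) c.A ≤ e := g2
    have g4 : ((k + 2 : ℕ) : ℝ) + 2 = k + 4 := by push_cast; ring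
    rw [g4] at g1
    exact g1.trans (mul_le_mul_of_nonneg_left g3 (by positivity))
  -- step 2 : drop the nodes
  set ZZ : (Fin (k + 3) → Ω) → Fin 2 → ℝ × o.γ := fun w i =>
    if i = 0 then (c.t (w 0), o.G (w 0)) else (c.t (w 1), o.G (w 1)) with hZZ
  have hsame : ∀ w, 0 < Q0.w w → c.x (w 1) = c.x (w 0) ∧ c.y (w 1) = c.y (w 0) := by
    intro w hw
    have := Fam.cw_same hQ0 hw 1 0
    exact ⟨this.1, this.2.1⟩
  have hF : ∀ w w', 0 < Q0.w w → 0 < Q0.w w' → vl c w = vl c w' → ZZ w = ZZ w' →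
      o.F c (w 0) = o.F c (w' 0) ∧ o.F c (w 1) = o.F c (w' 1) := by
    intro w w' p p' el eZ
    unfold vl at el
    simp only [Prod.mk.injEq] at el
    have e0 := congrFun eZ 0
    have e1 := congrFun eZ 1
    simp only [hZZ, if_true] at e0
    simp only [hZZ] at e1
    rw [if_neg (by decide), if_neg (by decide)] at e1
    simp only [Prod.mk.injEq] at e0 e1
    refine ⟨h856_F_congr c o (w 0) (w' 0) el.1 el.2 e0.1 e0.2,
      h856_F_congr c o (w 1) (w' 1) ?_ ?_ e1.1 e1.2⟩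
    · rw [(hsame w p).1, (hsame w' p').1, el.1]
    · rw [(hsame w p).2, (hsame w' p').2, el.2]
  have s2 : hc Q0 (vX c o s) (fun w => ((fl s (o.F c (w 0)), fl n (o.F c (w 1))), ZZ w,
      c.A (w 0))) - (k + 4) * e ≤
      hc Q0 (vX c o s) (fun w => (vY c o s w, vB c o w, vA c o n w)) := by
    have g1 := Fam.add_T Q0 (X := vX c o s)
      (Y := fun w => (fl s (o.F c (w 0)), fl n (o.F c (w 1)))) (l := vl c) (Z := ZZ)
      (T0 := fun (w : Fin (k + 3) → Ω) (i : Fin (k + 3)) => (c.t (w i), o.G (w i)))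
      (A := fun w => c.A (w 0)) ?_ ?_ ?_
    · have g2 : hc Q0 (vX c o s) (fun w => ((fl s (o.F c (w 0)), fl n (o.F c (w 1))),
          (fun (i : Fin (k + 3)) => (c.t (w i), o.G (w i))), c.A (w 0))) ≤
          hc Q0 (vX c o s) (fun w => (vY c o s w, vB c o w, vA c o n w)) := by
        refine hc_mono_right Q0 _ ?_
        intro w w' _ _ e
        simp only [Prod.mk.injEq, vY, vB, vA] at e ⊢
        obtain ⟨⟨eY, eF⟩, eT, eA⟩ := e
        have eT' : ∀ i, c.t (w i) = c.t (w' i) ∧ o.G (w i) = o.G (w' i) := by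
          intro i
          have := congrFun eT i
          simp only [Prod.mk.injEq] at this
          exact this
        refine ⟨eY, eT' 0, eA, ?_, eT' 1, eF⟩
        funext i
        rw [(eT' _).1, (eT' _).2]
      -- direction
      have g3 : hc Q0 (vX c o s) (fun w => (vY c o s w, vB c o w, vA c o n w)) =
          hc Q0 (vX c o s) (fun w => ((fl s (o.F c (w 0)), fl n (o.F c (w 1))),
          (fun (i : Fin (k + 3)) => (c.t (w i), o.G (w i))), c.A (w 0))) := by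
        refine le_antisymm ?_ g2
        refine hc_mono_right Q0 _ ?_
        intro w w' _ _ e
        simp only [Prod.mk.injEq, vY, vB, vA] at e ⊢
        obtain ⟨eY, eB, eA, en, e1, eF⟩ := e
        refine ⟨⟨eY, eF⟩, ?_, eA⟩
        funext i
        refine Fin.cases ?_ (fun i => ?_) i
        · rw [eB.1, eB.2]
        · refine Fin.cases ?_ (fun i => ?_) i
          · show (c.t (w 1), o.G (w 1)) = (c.t (w' 1), o.G (w' 1))
            rw [e1.1, e1.2]
          · exact congrFun en i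
      rw [g3]
      linarith
    · intro w w' p p' e
      simp only [Prod.mk.injEq] at e
      unfold vX
      rw [(hF w w' p p' e.1 e.2.1).2]
    · intro w w' p p' e
      simp only [Prod.mk.injEq] at e ⊢
      rw [(hF w w' p p' e.1 e.2.1).1, (hF w w' p p' e.1 e.2.1).2]
      exact ⟨rfl, rfl⟩
    · intro w w' _ _ e
      have e' : ∀ i : Fin (k + 3), (c.t (w i), o.G (w i)) = (c.t (w' i), o.G (w' i)) :=
        fun i => congrFun e i
      simp only [hZZ]
      rw [e' 0, e' 1]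
  -- step 3 : two copies
  have s3 : hc Q (fun w => fl s (o.F c (w 1))) (fun w => (fl n (o.F c (w 1)),
      (fl s (o.F c (w 0)), (fun i => (c.t (w i), o.G (w i))), c.A (w 0)))) ≤
      hc Q0 (vX c o s) (fun w => ((fl s (o.F c (w 0)), fl n (o.F c (w 1))), ZZ w,
      c.A (w 0))) := by
    have hi : Function.Injective (fun b : Fin 2 => if b = 0 then (0 : Fin (k + 3)) else 1) := by
      intro b b' hb
      fin_cases b <;> fin_cases b' <;> simp_all
    have g1 := Fam.hc_sub (M := 1) hQ0 hQ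
      (fun b : Fin 2 => if b = 0 then (0 : Fin (k + 3)) else 1) hi
      (fun w : Fin 2 → Ω => fl s (o.F c (w 1))) (fun w => (fl n (o.F c (w 1)),
      (fl s (o.F c (w 0)), (fun i => (c.t (w i), o.G (w i))), c.A (w 0))))
    rw [← g1]
    refine hc_mono_right Q0 _ ?_
    intro w w' _ _ e
    simp only [Prod.mk.injEq] at e
    obtain ⟨eF, eY, eZ, eA⟩ := e
    have z0 : (c.t (w 0), o.G (w 0)) = (c.t (w' 0), o.G (w' 0)) := congrFun eZ 0
    have z1 : (c.t (w 1), o.G (w 1)) = (c.t (w' 1), o.G (w' 1)) := congrFun eZ 1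
    have eF' : fl n (o.F c (w 1)) = fl n (o.F c (w' 1)) := eF
    have eY' : fl s (o.F c (w 0)) = fl s (o.F c (w' 0)) := eY
    have eA' : c.A (w 0) = c.A (w' 0) := eA
    simp only [Prod.mk.injEq]
    refine ⟨⟨eY', eF'⟩, ?_, eA'⟩
    simp only [hZZ]
    rw [z0, z1]
  -- step 4 : the first digits
  have s4 := hc_le_add' Q (fun w => fl s (o.F c (w 1))) (fun w => fl n (o.F c (w 1)))
    (fun w => (fl s (o.F c (w 0)), (fun i => (c.t (w i), o.G (w i))), c.A (w 0)))
  have s5 : hc Q (fun w => fl n (o.F c (w 1)))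
      (fun w => (fl s (o.F c (w 0)), (fun i => (c.t (w i), o.G (w i))), c.A (w 0))) ≤ e := by
    refine le_trans ?_ (hRK Q hQ)
    refine hc_mono_right Q _ ?_
    intro w w' _ _ e
    simp only [Prod.mk.injEq] at e ⊢
    exact ⟨fl_of_fl hns _ _ e.1, e.2.1, e.2.2⟩
  have hk : (0 : ℝ) ≤ k := Nat.cast_nonneg k
  nlinarith [mul_nonneg hk he]

end Vale.Agent.P127.Stk.R
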