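import Vale.Agent.P127.Stk.Rates
import Vale.Agent.P127.Stk.StepRDet
import Vale.Agent.P127.Stk.StepRFin
import Vale.Agent.P127.Stk.StepRFamA
import Vale.Agent.P127.Stk.StepRFamB

/-!
# P127 / Stk / StepR : the family of `k + 3` copies (entropy)
-/

namespace Vale.Agent.P127.Stk.R

open Finset Polynomial Vale.Agent.P127

/-- all times and their data -/
def vT {Ω : Type} {m κ k : ℕ} (c : Cf Ω m) (o : Ob Ω m κ) (w : Fin (k + 3) → Ω) :
    Fin (k + 3) → ℝ × o.γ := fun i => (c.t (w i), o.G (w i))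

theorem r816_prE_law {Ω₁ Ω₂ : Type} [Fintype Ω₁] [Fintype Ω₂] (P₁ : Law Ω₁) (P₂ : Law Ω₂)
    (π : Ω₁ → Ω₂) (h : ∀ ω, P₁.pr π ω = P₂.w ω) (E : Ω₂ → Prop) :
    prE P₁ (fun ω => E (π ω)) = prE P₂ E := by
  rw [← prE_eq_aux, ← prE_eq_aux]
  exact pr_law_aux P₁ P₂ π h (fun ω => E ω) True

theorem r816_prE_or3 {Ω : Type} [Fintype Ω] (P : Law Ω) (E E1 E2 E3 : Ω → Prop)
    (h : ∀ ω, E ω → E1 ω ∨ E2 ω ∨ E3 ω) :
    prE P E ≤ prE P E1 + prE P E2 + prE P E3 := by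
  classical
  unfold prE
  simp only [Finset.sum_filter]
  rw [← Finset.sum_add_distrib, ← Finset.sum_add_distrib]
  refine Finset.sum_le_sum fun ω _ => ?_
  have h0 := P.nn ω
  by_cases hE : E ω
  · rw [if_pos hE]
    rcases h ω hE with h1 | h1 | h1
    · rw [if_pos h1]; split_ifs <;> linarith
    · rw [if_pos h1]; split_ifs <;> linarith
    · rw [if_pos h1]; split_ifs <;> linarith
  · rw [if_neg hE]; split_ifs <;> linarith

/-- the injection `0 ↦ 0`, `1 ↦ 1` -/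
def r816_e2 {k : ℕ} : Fin (1 + 1) → Fin (k + 3) := fun i => ⟨i.val, by have := i.isLt; omega⟩

theorem r816_e2_inj {k : ℕ} : Function.Injective (r816_e2 (k := k)) := by
  intro i j h
  have h1 := congrArg Fin.val h
  exact Fin.ext h1

open Classical in
/-- the typical event has large probability -/
theorem typ_prob {Ω : Type} [Fintype Ω] {m κ k a : ℕ} (P : Law Ω) (c : Cf Ω m) (o : Ob Ω m κ)
    (Q0 : Law (Fin (k + 3) → Ω)) (hQ0 : ∀ w, Q0.w w = cw P (key c a) (k + 2) w) (η1 η2 ε : ℝ)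
    (h1 : ∀ Q : Law (Fin (k + 2) → Ω), (∀ w, Q.w w = cw P (key c a) (k + 1) w) →
      ∑ w with (∃ i, i ∉ o.J ∧ ∃ j ∈ o.J, η1 <
        |o.Γ (w (Fin.last (k + 1))) i j -
          ∑ l : Fin (k + 1), lag c.t w l * o.Γ (w l.castSucc) i j|), Q.w w ≤ ε)
    (h2 : ∀ Q : Law (Fin (0 + 2) → Ω), (∀ w, Q.w w = cw P (key c a) (0 + 1) w) →
      ∑ w with (∃ i, i ∉ o.J ∧ ∃ j ∈ o.J, η2 <
        |o.Γ (w (Fin.last (0 + 1))) i j -
          ∑ l : Fin (0 + 1), lag c.t w l * o.Γ (w l.castSucc) i j|), Q.w w ≤ ε) :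
    prE Q0 (fun w => ¬ TE c o η1 η2 w) ≤ 3 * ε := by
  have key1 : ∀ b : Bool, prE Q0 (fun w => ∃ i, i ∉ o.J ∧ ∃ j ∈ o.J, η1 <
      |o.Γ (w (ix b)) i j - ∑ l, lag c.t (fun p => w (em b p)) l * o.Γ (w (nd l)) i j|) ≤ ε := by
    intro b
    obtain ⟨Q, hQ⟩ := cw_exists P (key c a) (k + 1)
    have e1 : prE Q (fun w => ∃ i, i ∉ o.J ∧ ∃ j ∈ o.J, η1 <
        |o.Γ (w (Fin.last (k + 1))) i j -
          ∑ l : Fin (k + 1), lag c.t w l * o.Γ (w l.castSucc) i j|) ≤ ε := by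
      refine le_trans (le_of_eq ?_) (h1 Q hQ)
      unfold prE
      exact Finset.sum_congr (by ext w; simp) fun _ _ => rfl
    have e2 := r816_prE_law Q0 Q (fun w => w ∘ em b)
      (fun v => by rw [hQ]; exact cw_sub hQ0 (em b) (em_inj b) v)
      (fun w => ∃ i, i ∉ o.J ∧ ∃ j ∈ o.J, η1 <
        |o.Γ (w (Fin.last (k + 1))) i j -
          ∑ l : Fin (k + 1), lag c.t w l * o.Γ (w l.castSucc) i j|)
    simp only [Function.comp_apply, em_last, em_castSucc] at e2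
    refine le_trans (le_of_eq ?_) (e2.trans_le e1)
    rfl
  have key2 : prE Q0 (fun w => ∃ i, i ∉ o.J ∧ ∃ j ∈ o.J, η2 <
      |o.Γ (w 1) i j - o.Γ (w 0) i j|) ≤ ε := by
    obtain ⟨Q, hQ⟩ := cw_exists P (key c a) (0 + 1)
    have e1 : prE Q (fun w => ∃ i, i ∉ o.J ∧ ∃ j ∈ o.J, η2 <
        |o.Γ (w (Fin.last (0 + 1))) i j -
          ∑ l : Fin (0 + 1), lag c.t w l * o.Γ (w l.castSucc) i j|) ≤ ε := by
      refine le_trans (le_of_eq ?_) (h2 Q hQ)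
      unfold prE
      exact Finset.sum_congr (by ext w; simp) fun _ _ => rfl
    have e2 := r816_prE_law Q0 Q (fun w => w ∘ r816_e2)
      (fun v => by rw [hQ]; exact cw_sub hQ0 r816_e2 r816_e2_inj v)
      (fun w => ∃ i, i ∉ o.J ∧ ∃ j ∈ o.J, η2 <
        |o.Γ (w (Fin.last (0 + 1))) i j -
          ∑ l : Fin (0 + 1), lag c.t w l * o.Γ (w l.castSucc) i j|)
    refine le_trans (le_of_eq ?_) (e2.trans_le e1)
    have h0 : ∀ l l' : Fin (0 + 1), l' = l := fun l l' => Fin.ext (by omega)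
    have h3 : ∀ w : Fin (k + 3) → Ω, ∀ l : Fin (0 + 1), lag c.t (w ∘ r816_e2) l = 1 := by
      intro w l
      unfold lag
      rw [Finset.prod_eq_one]
      intro l' hl'
      exact absurd (h0 l l') (Finset.ne_of_mem_erase hl')
    simp only [h3, one_mul]
    have h4 : (r816_e2 (k := k) (Fin.last (0 + 1))) = 1 := rfl
    have h5 : ∀ l : Fin (0 + 1), (r816_e2 (k := k) l.castSucc) = 0 := by
      intro l
      rw [h0 0 l]
      rfl
    simp only [Function.comp_apply, h4, h5]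
    simp
  refine (r816_prE_or3 Q0 _
    (fun w => ∃ i, i ∉ o.J ∧ ∃ j ∈ o.J, η2 < |o.Γ (w 1) i j - o.Γ (w 0) i j|)
    (fun w => ∃ i, i ∉ o.J ∧ ∃ j ∈ o.J, η1 < |o.Γ (w (ix false)) i j -
      ∑ l, lag c.t (fun p => w (em false p)) l * o.Γ (w (nd l)) i j|)
    (fun w => ∃ i, i ∉ o.J ∧ ∃ j ∈ o.J, η1 < |o.Γ (w (ix true)) i j -
      ∑ l, lag c.t (fun p => w (em true p)) l * o.Γ (w (nd l)) i j|) ?_).trans ?_
  · intro w hw
    unfold TE at hw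
    by_contra hcon
    push Not at hcon
    apply hw
    obtain ⟨c1, c2, c3⟩ := hcon
    refine ⟨fun i hi j hj => by rw [abs_sub_comm]; exact c1 i hi j hj, fun b => ?_⟩
    cases b
    · exact fun i hi j hj => c2 i hi j hj
    · exact fun i hi j hj => c3 i hi j hj
  · have a1 := key1 false
    have a2 := key1 true
    linarith

/-- the entropy inequalities for the copies conditioned on the typical event -/
theorem fam_ent (m κ k : ℕ) : ∃ K1 : ℝ, 0 ≤ K1 ∧ ∀ (h e εu η1 η2 : ℝ) (a L n s : ℕ)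
    (Ω : Type) [Fintype Ω] (P : Law Ω) (c : Cf Ω m) (o : Ob Ω m κ) (Q0 : Law (Fin (k + 3) → Ω)),
    0 ≤ e → 0 ≤ εu → a ≤ L → n ≤ s → s ≤ L → s ≤ n + a + 1 →
    η2 * (1 / 2 : ℝ) ^ n ≤ 2 * (1 / 2 : ℝ) ^ s →
    (∀ w, Q0.w w = cw P (key c a) (k + 2) w) →
    1 / 2 ≤ prE Q0 (TE c o η1 η2) →
    (∀ (Ω' : Type) [Fintype Ω'] (Q : Law Ω') (π : Ω' → Ω), Dom Q π P 2 →
      Rate Q (c.comp π) (o.comp π) L h e) →
    (∀ Q : Law (Fin 2 → Ω), (∀ w, Q.w w = cw P (key c a) 1 w) →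
      hc Q (fun w => fl n (o.F c (w 1)))
          (fun w => (fl n (o.F c (w 0)), (fun i => (c.t (w i), o.G (w i))), c.A (w 0))) ≤ e) →
    ((L : ℝ) - a) * Real.log 2 - εu ≤ hc P (fun ω => fl1 L (c.t ω))
      (fun ω => (fl1 a (c.t ω), c.x ω, c.y ω, c.A ω)) →
    hc (on Q0 (TE c o η1 η2)) (vX c o s) (fun w => (vq c n w, vA c o n w)) ≤
        (h - κ) * ((s : ℝ) - n) * Real.log 2 + K1 * (e + 1) ∧
    (h - κ) * ((s : ℝ) - n) * Real.log 2 - K1 * (e + 1) ≤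
      hc (on Q0 (TE c o η1 η2)) (vY c o s) (fun w => (vq c n w, vB c o w, vA c o n w)) ∧
    hc (on Q0 (TE c o η1 η2)) (vY c o s) (fun w => (vB c o w, vA c o n w)) ≤
        (h - κ) * ((s : ℝ) - n) * Real.log 2 + K1 * (e + 1) ∧
    mi (on Q0 (TE c o η1 η2)) (vq c n) (vB c o) (vA c o n) ≤ K1 * (e + 1) ∧
    hc (on Q0 (TE c o η1 η2)) (vY c o s)
      (fun w => (vX c o s w, vq c n w, vB c o w, vA c o n w)) ≤ K1 * (e + 1) ∧
    Fn (on Q0 (TE c o η1 η2)) (vY c o s) (fun w => (vl c w, vB c o w, vA c o n w)) ∧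
    (∀ j : ℕ, a + j ≤ L → (j : ℝ) * Real.log 2 - K1 * (e + εu + 1) ≤
      hc (on Q0 (TE c o η1 η2)) (fun w => fl1 j (vu c a w)) (vA c o n)) ∧
    mi (on Q0 (TE c o η1 η2)) (vl c) (vT c o) (fun w => c.A (w 0)) ≤ K1 * (e + 1) := by
  obtain ⟨K0, hK0, h5⟩ := fam5 m κ
  have hc0 : cst m κ ≤ |cst m κ| := le_abs_self _
  have hc1 : 0 ≤ |cst m κ| := abs_nonneg _
  have hk : (0 : ℝ) ≤ k := Nat.cast_nonneg _
  refine ⟨2 * (k + 4) + 3 + |cst m κ| + 4 + K0, by positivity, ?_⟩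
  intro h e εu η1 η2 a L n s Ω _ P c o Q0 he hεu haL hns hsL hsna hη hQ0 hE hR hRK ht
  have hRP : Rate P c o L h e := hR Ω P id ((Dom.refl P).mono (by norm_num))
  have he1 : 0 ≤ e + 1 := by linarith
  have q1 : 0 ≤ (2 * ((k : ℝ) + 4) + |cst m κ| + K0) * (e + 1) := mul_nonneg (by positivity) he1
  have q2 : (2 * ((k : ℝ) + 4) + 3 + |cst m κ| + 4 + K0) * (e + 1) =
      (2 * ((k : ℝ) + 4) + |cst m κ| + K0) * (e + 1) + 7 * (e + 1) := by ring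
  have q3 : 0 ≤ (|cst m κ| - cst m κ) * (e + 1) := mul_nonneg (by linarith) he1
  have q4 : 0 ≤ K0 * (e + 1) := mul_nonneg hK0 he1
  have q5 : 0 ≤ |cst m κ| * (e + 1) := mul_nonneg hc1 he1
  have q6 : 0 ≤ (2 * ((k : ℝ) + 4)) * (e + 1) := mul_nonneg (by positivity) he1
  refine ⟨?_, ?_, ?_, ?_, ?_, fam6 _ n s, ?_, ?_⟩
  · refine (fam_ent1 hns hsL hQ0 hE hR).trans ?_
    linarith
  · refine le_trans ?_ (fam2 he hns hsL hQ0 hE hR)
    have : (2 * ((k : ℝ) + 4) + 3 + cst m κ) * (e + 1) ≤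
        (2 * ((k : ℝ) + 4) + 3 + |cst m κ| + 4 + K0) * (e + 1) :=
      mul_le_mul_of_nonneg_right (by linarith) he1
    linarith
  · refine (fam_ent3 hns hsL hQ0 hE hR hRK).trans ?_
    linarith
  · refine (fam4 he hQ0 hE hRP).trans ?_
    exact mul_le_mul_of_nonneg_right (by linarith) he1
  · refine (h5 he hsna hη hQ0 hE hRP).trans ?_
    exact mul_le_mul_of_nonneg_right (by linarith) he1
  · intro j hj
    refine le_trans ?_ (fam_ent7 hQ0 hE ht j hj)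
    have r1 : (4 : ℝ) * (e + εu + 1) ≤ (2 * ((k : ℝ) + 4) + 3 + |cst m κ| + 4 + K0) * (e + εu + 1) :=
      mul_le_mul_of_nonneg_right (by linarith) (by linarith)
    linarith
  · refine le_trans ?_ ((fam8 he hQ0 hE hRP).trans
      (mul_le_mul_of_nonneg_right (b := 2 * ((k : ℝ) + 4) + 2) (by linarith) he1))
    exact le_of_eq rfl

/-- from the conditioned family back to two copies -/
theorem fin_ent (m κ k : ℕ) : ∃ K1 : ℝ, 0 ≤ K1 ∧ ∀ (h e e' ε η1 η2 : ℝ) (a L n s : ℕ)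
    (Ω : Type) [Fintype Ω] (P : Law Ω) (c : Cf Ω m) (o : Ob Ω m κ) (Q0 : Law (Fin (k + 3) → Ω)),
    0 ≤ e → 0 ≤ e' → 0 ≤ ε → a ≤ L → n ≤ s → s ≤ L →
    (∀ w, Q0.w w = cw P (key c a) (k + 2) w) →
    1 / 2 ≤ prE Q0 (TE c o η1 η2) → prE Q0 (fun w => ¬ TE c o η1 η2 w) ≤ ε →
    (∀ (Ω' : Type) [Fintype Ω'] (Q : Law Ω') (π : Ω' → Ω), Dom Q π P 2 →
      Rate Q (c.comp π) (o.comp π) L h e) →
    (∀ Q : Law (Fin 2 → Ω), (∀ w, Q.w w = cw P (key c a) 1 w) →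
      hc Q (fun w => fl n (o.F c (w 1)))
          (fun w => (fl n (o.F c (w 0)), (fun i => (c.t (w i), o.G (w i))), c.A (w 0))) ≤ e) →
    hc (on Q0 (TE c o η1 η2)) (vX c o s) (fun w => (vY c o s w, vB c o w, vA c o n w)) ≤ e' →
    ∀ Q : Law (Fin 2 → Ω), (∀ w, Q.w w = cw P (key c a) 1 w) →
      hc Q (fun w => fl s (o.F c (w 1)))
          (fun w => (fl s (o.F c (w 0)), (fun i => (c.t (w i), o.G (w i))), c.A (w 0))) ≤
        e' + ε * (m * ((s : ℝ) - n) * Real.log 2) + K1 * (e + 1) := h856_fin_ent m κ k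

/-- the cost of the data of the killing lemma for the glued pair -/
theorem cost_D (m κ k : ℕ) : ∃ K1 : ℝ, 0 ≤ K1 ∧ ∀ (e1 : ℝ) (a n r j : ℕ)
    (Ω : Type) [Fintype Ω] (c : Cf Ω m) (o : Ob Ω m κ) (Q1 : Law (Fin (k + 3) → Ω))
    (Ω' : Type) [Fintype Ω'] (Q' : Law Ω') (π π' : Ω' → (Fin (k + 3) → Ω)),
    (∀ ω, 0 ≤ c.t ω ∧ c.t ω < 1) → n ≤ r →
    (∀ w, 0 < Q1.w w → Sup c a w) → (∀ w, Q'.pr π w = Q1.w w) →
    mi Q1 (vl c) (vT c o) (fun w => c.A (w 0)) ≤ e1 →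
    mi Q' (fun ω => vl c (π ω)) (fun ω => vq c n (π' ω))
      (fun ω => (vq c n (π ω), vB c o (π ω), vA c o n (π ω))) ≤ e1 →
    mi Q' (fun ω => (c.x (π ω 1), c.y (π ω 1)))
      (fun ω => ((vA c o n (π ω), vq c n (π ω), vq c n (π' ω)), fl1 j (vu c a (π ω))))
      (fun ω => (c.t (π ω 1), c.A (π ω 1), fl r (c.x (π ω 1)), fl r (c.y (π ω 1)))) ≤
      2 * e1 + K1 := h856_cost_D m κ k

/-- close vectors outside of an exceptional event -/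
theorem close_exc {Ω : Type} [Fintype Ω] {m : ℕ} {T : Type} (Q : Law Ω) (E : Ω → Prop)
    (X X' : Ω → Fin m → ℝ) (Z : Ω → T) (n s : ℕ) (Rr : ℝ) (hns : n ≤ s) (hR : 0 ≤ Rr)
    (h1 : ∀ ω, 0 < Q.w ω → fl n (X ω) = fl n (X' ω))
    (h2 : ∀ ω, 0 < Q.w ω → ¬ E ω → ∀ i, |X ω i - X' ω i| ≤ Rr * (1 / 2 : ℝ) ^ s) :
    hc Q (fun ω => fl s (X ω)) (fun ω => (fl s (X' ω), Z ω)) ≤
      Real.log 2 + m * Real.log (2 * Rr + 5) + prE Q E * (m * ((s : ℝ) - n) * Real.log 2) :=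
  h856_close_exc Q E X X' Z n s Rr hns hR h1 h2

end Vale.Agent.P127.Stk.R
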