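import Vale.Agent.P127.Stk.StepRScale

/-!
# P127 / Stk / StepR : section 9 for a fixed configuration
-/

namespace Vale.Agent.P127.Stk.R

open Finset Vale.Agent.P127

theorem rp_le (x : ℝ) (s : ℕ) (h : x ≤ 1 - s) : (2 : ℝ) ^ x ≤ 2 * (1 / 2 : ℝ) ^ s := by
  have h1 : (2 : ℝ) ^ x ≤ 2 ^ (1 - (s : ℝ)) := Real.rpow_le_rpow_of_exponent_le (by norm_num) h
  have h2 : (2 : ℝ) ^ (1 - (s : ℝ)) = 2 * (1 / 2 : ℝ) ^ s := by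
    rw [Real.rpow_sub (by norm_num), Real.rpow_one, Real.rpow_natCast, one_div, inv_pow]
    rfl
  linarith

theorem rp_le' (x : ℝ) (n s : ℕ) (h : x ≤ 1 - s + n) :
    (2 : ℝ) ^ x * (1 / 2 : ℝ) ^ n ≤ 2 * (1 / 2 : ℝ) ^ s := by
  have h1 := rp_le (x - n) s (by linarith)
  have h2 : (2 : ℝ) ^ (x - n) = 2 ^ x * (1 / 2 : ℝ) ^ n := by
    rw [Real.rpow_sub (by norm_num), Real.rpow_natCast, one_div, inv_pow]
    rfl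
  rwa [h2] at h1

/-- the choice of the scale `n` -/
theorem fixNum (κ k a L s : ℕ) (ε1 ε3 εs : ℝ) (hLr : (L : ℝ) = (κ + 4) * a) (hk : 1 ≤ k)
    (hkκ : k ≤ κ + 1) (hε3 : 0 < ε3) (hε1 : 0 ≤ ε1) (a2 : 2 * ε3 ≤ εs)
    (a4 : 2 * (κ + 4) * ε3 ≤ 1) (a5 : 2 * (κ + 4) * ε1 ≤ 1) (a6 : 4 ≤ ε3 * (L : ℝ))
    (hs1 : (s : ℝ) + εs * (L : ℝ) ≤ (k + 1) * a) (hs2 : (k : ℝ) * a < (s : ℝ) + ε3 * (L : ℝ)) :
    ∃ n : ℕ, n ≤ s ∧ s ≤ L ∧ s ≤ n + a + 1 ∧ a ≤ L ∧ s ≤ n + L ∧ (n : ℝ) + ε3 * L ≤ k * a ∧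
      (2 : ℝ) ^ (-(((k + 1) * a : ℕ) : ℝ) + ε3 * L) ≤ 2 * (1 / 2 : ℝ) ^ s ∧
      (2 : ℝ) ^ (-(((0 + 1) * a : ℕ) : ℝ) + ε3 * L) * (1 / 2 : ℝ) ^ n ≤ 2 * (1 / 2 : ℝ) ^ s ∧
      (a : ℝ) + s - n + ε1 * L ≤ L := by
  have hκ0 : (0 : ℝ) ≤ κ := Nat.cast_nonneg κ
  have ha0 : (0 : ℝ) ≤ a := Nat.cast_nonneg a
  have hkr : (1 : ℝ) ≤ k := by exact_mod_cast hk
  have hkκr : (k : ℝ) ≤ κ + 1 := by exact_mod_cast hkκ
  have hεL : 2 * (ε3 * L) ≤ a := by rw [hLr]; nlinarith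
  have hε1L : 2 * (ε1 * L) ≤ a := by rw [hLr]; nlinarith
  have hL0 : (0 : ℝ) ≤ L := Nat.cast_nonneg L
  have ha8 : (8 : ℝ) ≤ a := by linarith
  have hkala : (a : ℝ) ≤ k * a := by nlinarith
  have hεsL : 0 ≤ εs * L := mul_nonneg (by linarith) hL0
  have hεsL2 : 2 * (ε3 * L) ≤ εs * L := by nlinarith
  have hka1 : ((k : ℝ) + 1) * a ≤ (κ + 2) * a := by nlinarith
  have hκa : ((κ : ℝ) + 2) * a + 2 * a = L := by rw [hLr]; ring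
  have hκa' : (0 : ℝ) ≤ (κ + 2) * a := by positivity
  have hceil := Nat.ceil_lt_add_one (show 0 ≤ ε3 * (L : ℝ) by positivity)
  have hceil' := Nat.le_ceil (ε3 * (L : ℝ))
  have hcn : ⌈ε3 * (L : ℝ)⌉₊ ≤ k * a := by
    have : ((⌈ε3 * (L : ℝ)⌉₊ : ℕ) : ℝ) ≤ ((k * a : ℕ) : ℝ) := by push_cast; linarith
    exact_mod_cast this
  have hnr : ((k * a - ⌈ε3 * (L : ℝ)⌉₊ : ℕ) : ℝ) = k * a - (⌈ε3 * (L : ℝ)⌉₊ : ℕ) := by
    rw [Nat.cast_sub hcn]; push_cast; ring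
  refine ⟨k * a - ⌈ε3 * (L : ℝ)⌉₊, ?_, ?_, ?_, ?_, ?_, ?_, ?_, ?_, ?_⟩
  · have : ((k * a - ⌈ε3 * (L : ℝ)⌉₊ : ℕ) : ℝ) ≤ s := by linarith
    exact_mod_cast this
  · have : (s : ℝ) ≤ L := by linarith
    exact_mod_cast this
  · have : (s : ℝ) ≤ ((k * a - ⌈ε3 * (L : ℝ)⌉₊ + a + 1 : ℕ) : ℝ) := by
      rw [Nat.cast_add, Nat.cast_add, hnr]; push_cast; linarith
    exact_mod_cast this
  · have : (a : ℝ) ≤ L := by linarith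
    exact_mod_cast this
  · have : (s : ℝ) ≤ ((k * a - ⌈ε3 * (L : ℝ)⌉₊ + L : ℕ) : ℝ) := by
      rw [Nat.cast_add, hnr]; linarith
    exact_mod_cast this
  · rw [hnr]; linarith
  · refine rp_le _ _ ?_
    push_cast
    linarith
  · refine rp_le' _ _ _ ?_
    rw [hnr]
    push_cast
    linarith
  · rw [hnr]; linarith

open Classical in
/-- section 9 for a fixed configuration: all limiting hypotheses are instantiated -/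
theorem fixR (m κ k : ℕ) : ∃ (C0 : ℕ) (K1 : ℝ), 0 ≤ K1 ∧
    ∀ (h δk p0 ε1 ε2 ε3 εs : ℝ) (a L : ℕ) (Ω : Type) [Fintype Ω] (P : Law Ω) (c : Cf Ω m)
      (o : Ob Ω m κ),
    (L : ℝ) = (κ + 4) * a → 1 ≤ k → 0 < p0 → 0 < ε3 → 0 ≤ ε1 → 6 * ε3 ≤ 1 → 2 * ε3 ≤ εs → ε3 ≤ ε2 →
    2 * (κ + 4) * ε3 ≤ 1 → 2 * (κ + 4) * ε1 ≤ 1 → 4 ≤ ε3 * (L : ℝ) →
    (∀ ω i, 0 ≤ c.x ω i ∧ c.x ω i < 1) → (∀ ω i, 0 ≤ c.y ω i ∧ c.y ω i < 1) →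
    (∀ ω, 0 ≤ c.t ω ∧ c.t ω < 1) →
    -- uniformity of the time
    ((L : ℝ) - (a : ℝ)) * Real.log 2 - 1 ≤ hc P (fun ω => fl1 L (c.t ω))
      (fun ω => (fl1 a (c.t ω), c.x ω, c.y ω, c.A ω)) →
    -- the killing lemma
    (∀ (Ω₂ : Type) [Fintype Ω₂] (Q : Law Ω₂) (ρ : Ω₂ → Ω), Dom Q ρ P (2 + 2 / p0) →
      ∀ (σ : Type) (D : Ω₂ → σ) (r r' : ℕ) (v : Ω₂ → Fin m → ℝ) (i0 : Fin m),
        r ≤ r' → r' ≤ L → ε1 / 8 * (L : ℝ) ≤ (r' : ℝ) - r → i0 ∉ o.J →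
        Fn Q (fun ω => o.Γ (ρ ω)) D → Fn Q v D →
        (∀ ω, 0 < Q.w ω → (∀ j ∈ o.J, v ω j = 0) ∧ v ω i0 = 1 ∧ ∀ i, |v ω i| ≤ 1) →
        mi Q (fun ω => (c.x (ρ ω), c.y (ρ ω))) D
          (fun ω => (c.t (ρ ω), c.A (ρ ω), fl r (c.x (ρ ω)), fl r (c.y (ρ ω)))) ≤
            δk * (L : ℝ) →
        (h - κ - 1) * ((r' : ℝ) - r) * Real.log 2 + δk * (L : ℝ) <
          hc Q (fun ω => fl r' (fun i => o.F c (ρ ω) i - o.F c (ρ ω) i0 * v ω i))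
            (fun ω => ((fl r (c.x (ρ ω)), fl r (c.y (ρ ω))), c.t (ρ ω), D ω, c.A (ρ ω)))) →
    -- the rates
    (∀ (Ω₂ : Type) [Fintype Ω₂] (Q : Law Ω₂) (ρ : Ω₂ → Ω), Dom Q ρ P (2 + 2 / p0) →
      Rate Q (c.comp ρ) (o.comp ρ) L h (ε3 * (L : ℝ))) →
    -- the core
    (∀ n s : ℕ, n ≤ s → s ≤ n + L →
      CoreAt m (k + 1) C0 ε1 ε1 (δk / 2) p0 ε2 L n s) →
    -- `R(k)`
    (∀ Q : Law (Fin 2 → Ω), (∀ w, Q.w w = cw P (key c a) 1 w) →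
      ∀ s : ℕ, (s : ℝ) + ε3 * (L : ℝ) ≤ k * a →
        hc Q (fun w => fl s (o.F c (w 1)))
          (fun w => (fl s (o.F c (w 0)), (fun i => (c.t (w i), o.G (w i))), c.A (w 0))) ≤
        ε3 * (L : ℝ)) →
    -- `C(k)`
    (∀ Q : Law (Fin (k + 2) → Ω), (∀ w, Q.w w = cw P (key c a) (k + 1) w) →
      ∑ w with (∃ i, i ∉ o.J ∧ ∃ j ∈ o.J,
          (2 : ℝ) ^ (-(((k + 1) * a : ℕ) : ℝ) + ε3 * (L : ℝ)) <
            |o.Γ (w (Fin.last (k + 1))) i j -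
              ∑ l : Fin (k + 1), lag c.t w l * o.Γ (w l.castSucc) i j|), Q.w w ≤ ε3) →
    -- `C(0)`
    (∀ Q : Law (Fin (0 + 2) → Ω), (∀ w, Q.w w = cw P (key c a) (0 + 1) w) →
      ∑ w with (∃ i, i ∉ o.J ∧ ∃ j ∈ o.J,
          (2 : ℝ) ^ (-(((0 + 1) * a : ℕ) : ℝ) + ε3 * (L : ℝ)) <
            |o.Γ (w (Fin.last (0 + 1))) i j -
              ∑ l : Fin (0 + 1), lag c.t w l * o.Γ (w l.castSucc) i j|), Q.w w ≤ ε3) →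
    1 / p0 * (8 * (K1 * (ε3 * (L : ℝ) + 2)) + K1 + Real.log 2) ≤
      δk * (L : ℝ) →
    K1 ≤ δk / 2 * (L : ℝ) →
    13 * (K1 * (ε3 * (L : ℝ) + 2)) ≤ ε2 * (L : ℝ) →
    ∀ Q : Law (Fin 2 → Ω), (∀ w, Q.w w = cw P (key c a) 1 w) →
      ∀ s : ℕ, (s : ℝ) + εs * (L : ℝ) ≤ (k + 1) * a →
        ((k : ℝ) * a < (s : ℝ) + ε3 * (L : ℝ)) → k ≤ κ + 1 →
        hc Q (fun w => fl s (o.F c (w 1)))
          (fun w => (fl s (o.F c (w 0)), (fun i => (c.t (w i), o.G (w i))), c.A (w 0))) ≤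
        Real.log 2 + m * (ε1 * (L : ℝ) * Real.log 2 + Real.log (2 * C0 + 7)) +
          ε1 * (m * (L : ℝ) * Real.log 2) +
          3 * ε3 * (m * (L : ℝ) * Real.log 2) +
          K1 * (ε3 * (L : ℝ) + 1) := by
  obtain ⟨C0, K1, hK1, hS⟩ := scaleR m κ k
  obtain ⟨K2, hK2, hF⟩ := fam_ent m κ k
  obtain ⟨K3, hK3, hE⟩ := fin_ent m κ k
  refine ⟨C0, K1 + K2 + K3, by positivity, ?_⟩
  intro h δk p0 ε1 ε2 ε3 εs a L Ω _ P c o hLr hk hp0 hε3 hε1 a1 a2 a3 a4 a5 a6 hx hy ht hunif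
    hkill hrate hcore hRK hCK hC0 b1 b2 b3 Q hQ s hs1 hs2 hkκ
  obtain ⟨n, hns, hsL, hsna, haL, hsnL, hn, e1, e2, n4⟩ := fixNum κ k a L s ε1 ε3 εs hLr hk hkκ
    hε3 hε1 a2 a4 a5 a6 hs1 hs2
  -- the copies
  obtain ⟨Q0, hQ0⟩ := cw_exists P (key c a) (k + 2)
  have htyp := typ_prob P c o Q0 hQ0 _ _ ε3 hCK hC0
  generalize (2 : ℝ) ^ (-(((k + 1) * a : ℕ) : ℝ) + ε3 * L) = η1 at e1 htyp
  generalize (2 : ℝ) ^ (-(((0 + 1) * a : ℕ) : ℝ) + ε3 * L) = η2 at e2 htyp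
  clear hCK hC0 a4 a5 a2 hs1 hs2
  have hnot := prE_not Q0 (TE c o η1 η2)
  have hhalf : 1 / 2 ≤ prE Q0 (TE c o η1 η2) := by linarith
  have hp1 : 0 < 2 / p0 := by positivity
  have hDom2 : ∀ (Ω₂ : Type) [Fintype Ω₂] (Q : Law Ω₂) (ρ : Ω₂ → Ω), Dom Q ρ P 2 →
      Rate Q (c.comp ρ) (o.comp ρ) L h (ε3 * L) := fun Ω₂ _ Q ρ hD =>
    hrate Ω₂ Q ρ (hD.mono (by linarith))
  have hRKn : ∀ Q : Law (Fin 2 → Ω), (∀ w, Q.w w = cw P (key c a) 1 w) →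
      hc Q (fun w => fl n (o.F c (w 1)))
          (fun w => (fl n (o.F c (w 0)), (fun i => (c.t (w i), o.G (w i))), c.A (w 0))) ≤
        ε3 * L := fun Q hQ => hRK Q hQ n hn
  have hL0 : (0 : ℝ) ≤ L := Nat.cast_nonneg L
  have hεL0 : 0 ≤ ε3 * (L : ℝ) := by positivity
  obtain ⟨f1, f2, f3, f4, f5, f6, f7, f8⟩ := hF h (ε3 * L) 1 η1 η2 a L n s Ω P c o Q0 hεL0
    zero_le_one haL hns hsL hsna e2 hQ0 hhalf hDom2 hRKn hunif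
  have hmarg : Dom Q0 (fun w => w 1) P 1 := fun ω => by
    rw [cw_marg hQ0 1 ω, one_mul]
  have hD1 : Dom (on Q0 (TE c o η1 η2)) (fun w => w 1) P 2 := by
    have h1 := (Dom.on (by norm_num) hhalf).comp hmarg
    norm_num at h1
    exact h1
  have hsup : ∀ w, 0 < (on Q0 (TE c o η1 η2)).w w → Sup c a w ∧ TE c o η1 η2 w := by
    intro w hw
    have h1 := on_pos (by linarith) hw
    exact ⟨(cw_supp hQ0 h1.2).1, h1.1⟩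
  have hKK : K2 * (ε3 * L + 1) ≤ (K1 + K2 + K3) * (ε3 * L + 2) :=
    mul_le_mul (by linarith) (by linarith) (by linarith) (by linarith)
  have hKK' : K2 * (ε3 * L + 1 + 1) ≤ (K1 + K2 + K3) * (ε3 * L + 2) :=
    mul_le_mul (by linarith) (by linarith) (by linarith) (by linarith)
  have hfin := hS h ((K1 + K2 + K3) * (ε3 * L + 2)) δk p0 ε1 ε2 ε1 η1 η2 a L n s Ω P c o
    (on Q0 (TE c o η1 η2)) hp0 hε1 hsL hns hsna e1 e2 hx hy ht hsup hD1 (f1.trans (by linarith))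
    (le_trans (by linarith) f2) (f3.trans (by linarith)) (f4.trans hKK) (f5.trans hKK) f6
    (fun j hj => le_trans (by linarith) (f7 j hj)) (f8.trans hKK)
    (fun Ω₂ _ Q ρ hD => hkill Ω₂ Q ρ (hD.mono (by linarith)))
    (fun Ω₂ _ Q ρ hD r hr => ((hrate Ω₂ Q ρ (hD.mono (by linarith))).up r s hr hsL).trans (by
      have : ε3 * (L : ℝ) ≤ ε2 * L := mul_le_mul_of_nonneg_right a3 hL0
      linarith))
    (hcore n s hns hsnL) (le_trans (by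
      refine mul_le_mul_of_nonneg_left ?_ (by positivity)
      linarith) b1) (le_trans (by linarith) b2) b3 n4
  have hfin2 := hE h (ε3 * L) _ (3 * ε3) η1 η2 a L n s Ω P c o Q0 hεL0
    ((hc_nonneg _ _ _).trans hfin) (by positivity) haL hns hsL hQ0 hhalf htyp hDom2 hRKn hfin Q hQ
  clear hfin f1 f2 f3 f4 f5 f6 f7 f8 hkill hrate hcore hRK b1 b2 b3 hDom2 hRKn hS hF hE hunif
  refine hfin2.trans ?_
  have hb0 : 0 < Real.log 2 := Real.log_pos (by norm_num)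
  have hsnLr : (s : ℝ) - n ≤ L := by
    have : (s : ℝ) ≤ n + L := by exact_mod_cast hsnL
    linarith
  have g1 : (m : ℝ) * ((s : ℝ) - n) * Real.log 2 ≤ m * L * Real.log 2 := by
    refine mul_le_mul_of_nonneg_right ?_ hb0.le
    exact mul_le_mul_of_nonneg_left hsnLr (Nat.cast_nonneg m)
  have g2 := mul_le_mul_of_nonneg_left g1 hε1
  have g3 := mul_le_mul_of_nonneg_left g1 (show 0 ≤ 3 * ε3 by positivity)
  have g4 : K3 * (ε3 * L + 1) ≤ (K1 + K2 + K3) * (ε3 * L + 1) :=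
    mul_le_mul_of_nonneg_right (by linarith) (by linarith)
  linarith

end Vale.Agent.P127.Stk.R
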