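import Vale.Agent.P127.Stk.LibEnt

/-!
# P127 / Stk / StepR : two lines which are conditionally independent given the projection at the
time `t` (PROOF.md, section 9, (i)-(iii))

`A` = side information and everything about the nodes and the base time, `B` = the time `t` and
its data, `Y` = digits of the projected point at the time `t`, `X` = digits of the projected point
at the base time, `q` = first digits of the line, `l` = the line, `τ` = digits of `t`.
-/

namespace Vale.Agent.P127.Stk.R

open Finset Vale.Agent.P127

/-- the glued law -/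
theorem glue_two {Ω : Type} [Fintype Ω] {α β γ δ ξ Λ : Type} (Q : Law Ω)
    (A : Ω → α) (B : Ω → β) (Y : Ω → γ) (q : Ω → δ) (X : Ω → ξ) (l : Ω → Λ) (R0 e : ℝ)
    (b1 : hc Q X (fun ω => (q ω, A ω)) ≤ R0 + e)
    (b2 : R0 - e ≤ hc Q Y (fun ω => (q ω, B ω, A ω)))
    (b3 : hc Q Y (fun ω => (B ω, A ω)) ≤ R0 + e)
    (b4 : mi Q q B A ≤ e)
    (b5 : hc Q Y (fun ω => (X ω, q ω, B ω, A ω)) ≤ e)
    (_b7 : Fn Q Y (fun ω => (l ω, B ω, A ω))) :
    ∃ (Ω' : Type) (_ : Fintype Ω') (Q' : Law Ω') (π π' : Ω' → Ω),
      (∀ ω, Q'.pr π ω = Q.w ω) ∧ (∀ ω, Q'.pr π' ω = Q.w ω) ∧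
      (∀ ω, A (π' ω) = A (π ω) ∧ B (π' ω) = B (π ω) ∧ Y (π' ω) = Y (π ω)) ∧
      (∀ τ : Ω → ℤ, Fn Q τ B →
        hc Q τ A - 12 * e ≤
          hc Q' (fun ω => τ (π ω)) (fun ω => (X (π ω), q (π ω), q (π' ω), A (π ω)))) ∧
      mi Q' (fun ω => l (π ω)) (fun ω => q (π' ω)) (fun ω => (q (π ω), B (π ω), A (π ω))) ≤
        4 * e ∧
      hc Q' (fun ω => X (π ω)) (fun ω => (X (π' ω), Y (π ω), B (π ω), A (π ω))) =
        hc Q X (fun ω => (Y ω, B ω, A ω)) := by
  classical
  let W : Ω → γ × β × α := fun ω => (Y ω, B ω, A ω)
  have hW : ∀ x, Q.pr W x = Q.pr W x := fun _ => rfl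
  let Q' := Law.glue Q Q W W hW
  have he : 0 ≤ e := (hc_nonneg Q _ _).trans b5
  have eqW : ∀ p : Law.GT W W, W p.fst = W p.snd := fun p => p.eq
  have eqA : ∀ p : Law.GT W W, A p.snd = A p.fst := fun p => by
    have := p.eq; simp only [W, Prod.mk.injEq] at this; exact this.2.2.symm
  have eqB : ∀ p : Law.GT W W, B p.snd = B p.fst := fun p => by
    have := p.eq; simp only [W, Prod.mk.injEq] at this; exact this.2.1.symm
  have eqY : ∀ p : Law.GT W W, Y p.snd = Y p.fst := fun p => by
    have := p.eq; simp only [W, Prod.mk.injEq] at this; exact this.1.symm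
  -- marginals
  have m0 : ∀ {T U : Type} (f : Ω → T) (g : Ω → U),
      hc Q' (fun p => f p.fst) (fun p => g p.fst) = hc Q f g := by
    intro T U f g
    unfold hc
    rw [Law.glue_H hW g, Law.glue_H hW (fun ω => (f ω, g ω))]
  have m1 : ∀ {T U : Type} (f : Ω → T) (g : Ω → U),
      hc Q' (fun p => f p.snd) (fun p => g p.snd) = hc Q f g := by
    intro T U f g
    unfold hc
    rw [Law.glue_H' hW g, Law.glue_H' hW (fun ω => (f ω, g ω))]
  -- conditional independence
  have ci0 : ∀ {T U : Type} (f : Ω → T) (g : Ω → U),
      hc Q' (fun p => f p.fst) (fun p => (g p.snd, W p.fst)) = hc Q f W := by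
    intro T U f g
    have h1 := Law.glue_indep hW f g
    have h2 : Q'.H (fun p => (g p.snd, W p.fst)) = Q.H (fun ω => (g ω, W ω)) := by
      rw [← Law.glue_H' hW (fun ω => (g ω, W ω))]
      refine Q'.H_congr fun p p' => ?_
      simp only [eqW]
    unfold hc
    change Q'.H (fun p => (f p.fst, g p.snd, W p.fst)) = _ at h1
    rw [h1, h2]
    ring
  have ci1 : ∀ {T U : Type} (f : Ω → T) (g : Ω → U),
      hc Q' (fun p => f p.snd) (fun p => (g p.fst, W p.fst)) = hc Q f W := by
    intro T U f g
    have h1 := Law.glue_indep hW g f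
    have h2 : Q'.H (fun p => (g p.fst, W p.fst)) = Q.H (fun ω => (g ω, W ω)) :=
      Law.glue_H hW (fun ω => (g ω, W ω))
    have h3 : Q'.H (fun p => (f p.snd, g p.fst, W p.fst)) =
        Q'.H (fun p => (g p.fst, f p.snd, W p.fst)) := by
      refine Q'.H_congr fun p p' => ?_
      simp only [Prod.mk.injEq]
      tauto
    unfold hc
    change Q'.H (fun p => (g p.fst, f p.snd, W p.fst)) = _ at h1
    rw [h3, h1, h2]
    ring
  -- information between `q` and `Y`
  have i1 : hc Q q (fun ω => (B ω, A ω)) - 2 * e ≤ hc Q q W := by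
    have h1 : mi Q q Y (fun ω => (B ω, A ω)) ≤ 2 * e := by
      rw [mi_symm]
      unfold mi
      linarith
    unfold mi at h1
    change hc Q q (fun ω => (B ω, A ω)) - hc Q q W ≤ 2 * e at h1
    linarith
  have i2 : hc Q q A - e ≤ hc Q q (fun ω => (B ω, A ω)) := by
    unfold mi at b4
    linarith
  refine ⟨Law.GT W W, inferInstance, Q', fun p => p.fst, fun p => p.snd, ?_, ?_, ?_, ?_, ?_, ?_⟩
  · intro ω
    have := Law.glue_pr hW (fun ω => ω) ω
    refine this.trans ?_
    unfold Law.pr
    rw [Finset.sum_filter]
    simp
  · intro ω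
    have := Law.glue_pr' hW (fun ω => ω) ω
    refine this.trans ?_
    unfold Law.pr
    rw [Finset.sum_filter]
    simp
  · exact fun p => ⟨eqA p, eqB p, eqY p⟩
  · intro τ hτ
    -- the information of `B` about `(X, q, q')`
    have key : mi Q' (fun p => (X p.fst, q p.fst, q p.snd)) (fun p => B p.fst)
        (fun p => A p.fst) ≤ 11 * e := by
      have u0 : hc Q' (fun p => (X p.fst, q p.fst, q p.snd)) (fun p => A p.fst) ≤
          2 * hc Q q A + (R0 + e) := by
        have v1 : hc Q' (fun p => (X p.fst, q p.fst, q p.snd)) (fun p => A p.fst) ≤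
            hc Q' (fun p => ((q p.fst, q p.snd), X p.fst)) (fun p => A p.fst) := by
          refine hc_mono_left Q' ?_
          intro p p' _ _
          simp only [Prod.mk.injEq]
          tauto
        rw [hc_pair Q' (fun p => (q p.fst, q p.snd)) (fun p => X p.fst),
          hc_pair Q' (fun p => q p.fst) (fun p => q p.snd)] at v1
        have v2 : hc Q' (fun p => q p.snd) (fun p => (q p.fst, A p.fst)) ≤ hc Q q A := by
          rw [← m1 q A]
          refine hc_mono_right Q' _ ?_
          intro p p' _ _
          simp only [Prod.mk.injEq, eqA]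
          tauto
        have v3 : hc Q' (fun p => X p.fst) (fun p => ((q p.fst, q p.snd), A p.fst)) ≤
            hc Q X (fun ω => (q ω, A ω)) := by
          rw [← m0 X (fun ω => (q ω, A ω))]
          refine hc_mono_right Q' _ ?_
          intro p p' _ _
          simp only [Prod.mk.injEq]
          tauto
        have v4 : hc Q' (fun p => q p.fst) (fun p => A p.fst) = hc Q q A := m0 q A
        linarith
      have u1 : 2 * (hc Q q A - 3 * e) + (R0 - 4 * e) ≤
          hc Q' (fun p => (X p.fst, q p.fst, q p.snd)) (fun p => (B p.fst, A p.fst)) := by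
        have v1 : hc Q' (fun p => ((q p.fst, q p.snd), X p.fst)) (fun p => (B p.fst, A p.fst)) ≤
            hc Q' (fun p => (X p.fst, q p.fst, q p.snd)) (fun p => (B p.fst, A p.fst)) := by
          refine hc_mono_left Q' ?_
          intro p p' _ _
          simp only [Prod.mk.injEq]
          tauto
        rw [hc_pair Q' (fun p => (q p.fst, q p.snd)) (fun p => X p.fst)] at v1
        have v2 : 2 * hc Q q W ≤ hc Q' (fun p => (q p.fst, q p.snd))
            (fun p => (B p.fst, A p.fst)) := by
          have w1 : hc Q' (fun p => (q p.fst, q p.snd)) (fun p => W p.fst) ≤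
              hc Q' (fun p => (q p.fst, q p.snd)) (fun p => (B p.fst, A p.fst)) := by
            refine hc_mono_right Q' _ ?_
            intro p p' _ _
            simp only [W, Prod.mk.injEq]
            tauto
          rw [hc_pair Q' (fun p => q p.fst) (fun p => q p.snd)] at w1
          have w2 : hc Q' (fun p => q p.fst) (fun p => W p.fst) = hc Q q W := m0 q W
          have w3 : hc Q' (fun p => q p.snd) (fun p => (q p.fst, W p.fst)) = hc Q q W := ci1 q q
          linarith
        have v3 : R0 - 4 * e ≤ hc Q' (fun p => X p.fst)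
            (fun p => ((q p.fst, q p.snd), B p.fst, A p.fst)) := by
          have w1 := hc_le_add Q' (fun p => Y p.fst) (fun p => X p.fst)
            (fun p => ((q p.fst, q p.snd), B p.fst, A p.fst))
          have w2 : hc Q' (fun p => Y p.fst)
              (fun p => (X p.fst, (q p.fst, q p.snd), B p.fst, A p.fst)) ≤ e := by
            refine le_trans ?_ b5
            rw [← m0 Y (fun ω => (X ω, q ω, B ω, A ω))]
            refine hc_mono_right Q' _ ?_
            intro p p' _ _
            simp only [Prod.mk.injEq]
            tauto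
          have w3 : hc Q' (fun p => Y p.fst) (fun p => (q p.fst, B p.fst, A p.fst)) - 2 * e ≤
              hc Q' (fun p => Y p.fst) (fun p => ((q p.fst, q p.snd), B p.fst, A p.fst)) := by
            have x1 : mi Q' (fun p => Y p.fst) (fun p => q p.snd)
                (fun p => (q p.fst, B p.fst, A p.fst)) ≤ 2 * e := by
              rw [mi_symm]
              unfold mi
              have y1 : hc Q' (fun p => q p.snd) (fun p => (q p.fst, B p.fst, A p.fst)) ≤
                  hc Q q (fun ω => (B ω, A ω)) := by
                rw [← m1 q (fun ω => (B ω, A ω))]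
                refine hc_mono_right Q' _ ?_
                intro p p' _ _
                simp only [Prod.mk.injEq, eqA, eqB]
                tauto
              have y2 : hc Q q W ≤ hc Q' (fun p => q p.snd)
                  (fun p => (Y p.fst, q p.fst, B p.fst, A p.fst)) := by
                rw [← ci1 q q]
                refine hc_mono_right Q' _ ?_
                intro p p' _ _
                simp only [W, Prod.mk.injEq]
                tauto
              linarith
            unfold mi at x1
            have x2 : hc Q' (fun p => Y p.fst) (fun p => (q p.snd, q p.fst, B p.fst, A p.fst)) =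
                hc Q' (fun p => Y p.fst) (fun p => ((q p.fst, q p.snd), B p.fst, A p.fst)) := by
              refine hc_congr Q' (fun p p' _ _ e => congrArg Prod.fst e)
                (fun p p' _ _ e => congrArg Prod.fst e) ?_ ?_
              · intro p p' _ _
                simp only [Prod.mk.injEq]
                tauto
              · intro p p' _ _
                simp only [Prod.mk.injEq]
                tauto
            linarith
          have w4 : hc Q' (fun p => Y p.fst) (fun p => (q p.fst, B p.fst, A p.fst)) =
              hc Q Y (fun ω => (q ω, B ω, A ω)) := m0 Y (fun ω => (q ω, B ω, A ω))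
          linarith
        linarith
      unfold mi
      linarith
    have k2 : mi Q' (fun p => τ p.fst) (fun p => (X p.fst, q p.fst, q p.snd))
        (fun p => A p.fst) ≤ 11 * e := by
      refine le_trans ?_ key
      rw [mi_symm Q' (fun p => (X p.fst, q p.fst, q p.snd))]
      refine mi_mono_left Q' _ ?_
      intro p p' hp hp' e
      simp only [Prod.mk.injEq] at e
      refine hτ p.fst p'.fst ?_ ?_ e.1
      · have hp1 : 0 < Q.w p.fst * Q.w p.snd / Q.pr W (W p.fst) := hp
        rcases (Q.nn p.fst).eq_or_lt with h0 | h0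
        · rw [← h0] at hp1; simp at hp1
        · exact h0
      · have hp1 : 0 < Q.w p'.fst * Q.w p'.snd / Q.pr W (W p'.fst) := hp'
        rcases (Q.nn p'.fst).eq_or_lt with h0 | h0
        · rw [← h0] at hp1; simp at hp1
        · exact h0
    unfold mi at k2
    have k3 : hc Q' (fun p => τ p.fst) (fun p => A p.fst) = hc Q τ A := m0 τ A
    have k4 : hc Q' (fun p => τ p.fst) (fun p => ((X p.fst, q p.fst, q p.snd), A p.fst)) =
        hc Q' (fun p => τ p.fst) (fun p => (X p.fst, q p.fst, q p.snd, A p.fst)) := by
      refine hc_congr Q' (fun p p' _ _ e => congrArg Prod.fst e)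
        (fun p p' _ _ e => congrArg Prod.fst e) ?_ ?_
      · intro p p' _ _
        simp only [Prod.mk.injEq]
        tauto
      · intro p p' _ _
        simp only [Prod.mk.injEq]
        tauto
    linarith
  · rw [mi_symm]
    unfold mi
    have y1 : hc Q' (fun p => q p.snd) (fun p => (q p.fst, B p.fst, A p.fst)) ≤
        hc Q q (fun ω => (B ω, A ω)) := by
      rw [← m1 q (fun ω => (B ω, A ω))]
      refine hc_mono_right Q' _ ?_
      intro p p' _ _
      simp only [Prod.mk.injEq, eqA, eqB]
      tauto
    have y2 : hc Q q W ≤ hc Q' (fun p => q p.snd)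
        (fun p => (l p.fst, q p.fst, B p.fst, A p.fst)) := by
      rw [← ci1 q (fun ω => (l ω, q ω))]
      refine hc_mono_right Q' _ ?_
      intro p p' _ _
      simp only [W, Prod.mk.injEq]
      tauto
    linarith
  · exact ci0 X X

end Vale.Agent.P127.Stk.R
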