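import Vale.Agent.P127.Stk.LibDom

/-!
# P127 / Stk / StepRM : general lemmas for the assembly of the step for the determinism
(PROOF.md, section 9)
-/

namespace Vale.Agent.P127.Stk

open Finset Vale.Agent.P127

section general

variable {Ω Ω' : Type} [Fintype Ω] [Fintype Ω'] {S S' T T' U V : Type*}

/-- if `E` has full probability, conditioning on `E` does nothing -/
theorem rm_on_full {P : Law Ω} {E : Ω → Prop} (h : prE P E = 1) : on P E = P := by
  classical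
  refine law_ext fun ω => ?_
  rw [on_w (by rw [h]; exact one_pos), h, div_one]
  split_ifs with hE
  · rfl
  · have h1 : prE P (fun ω => ¬ E ω) = 0 := by rw [prE_not, h, sub_self]
    have h2 : P.w ω ≤ prE P (fun ω => ¬ E ω) := by
      unfold prE
      exact Finset.single_le_sum (f := P.w) (fun ω _ => P.nn ω) (by simpa using hE)
    exact (le_antisymm (h2.trans h1.le) (P.nn ω)).symm

/-- conditional entropy split over an event, all cases -/
theorem rm_split (P : Law Ω) (E : Ω → Prop) (X : Ω → S) (Y : Ω → T) {a b : ℝ} (ha : 0 ≤ a)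
    (_hb : 0 ≤ b) (h1 : 0 < prE P E → hc (on P E) X Y ≤ a)
    (h2 : 0 < prE P (fun ω => ¬ E ω) → hc (on P fun ω => ¬ E ω) X Y ≤ b) :
    hc P X Y ≤ Real.log 2 + a + prE P (fun ω => ¬ E ω) * b := by
  have hl2 : 0 ≤ Real.log 2 := Real.log_nonneg (by norm_num)
  have hn := prE_not P E
  have hp0 := prE_nonneg P E
  have hp1 := prE_le_one P E
  rcases hp0.eq_or_lt with h0 | h0
  · have h3 : prE P (fun ω => ¬ E ω) = 1 := by rw [hn, ← h0, sub_zero]
    have h4 := h2 (by rw [h3]; exact one_pos)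
    rw [rm_on_full h3] at h4
    rw [h3]
    linarith
  · rcases hp1.eq_or_lt with h3 | h3
    · have h4 := h1 h0
      rw [rm_on_full h3] at h4
      have h5 : prE P (fun ω => ¬ E ω) = 0 := by rw [hn, h3, sub_self]
      rw [h5]
      linarith
    · have h4 := hc_le_on P E h0 h3 X Y
      have h5 := h1 h0
      have h6 := h2 (by rw [hn]; linarith)
      have h7 : prE P E * hc (on P E) X Y ≤ 1 * a :=
        mul_le_mul h3.le h5 (hc_nonneg _ _ _) (by norm_num)
      have h8 : prE P (fun ω => ¬ E ω) * hc (on P fun ω => ¬ E ω) X Y ≤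
          prE P (fun ω => ¬ E ω) * b := mul_le_mul_of_nonneg_left h6 (prE_nonneg _ _)
      rw [hn] at h8 ⊢
      linarith

/-- two variables which are close outside of an exceptional event -/
theorem rm_close {ι : Type} [Fintype ι] (P : Law Ω) (X X' : Ω → ι → ℤ) (Y : Ω → T) (B N : ℕ)
    (hN : 1 ≤ N)
    (hval : ∀ ω, 0 < P.w ω → ∃ F : Finset (ι → ℤ), F.card ≤ N ∧
      ∀ ω', 0 < P.w ω' → Y ω' = Y ω → X ω' ∈ F) :
    hc P X (fun ω => (X' ω, Y ω)) ≤ Real.log 2 + Fintype.card ι * Real.log (2 * B + 1) +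
      prE P (fun ω => ¬ ∀ i, |X ω i - X' ω i| ≤ B) * Real.log N := by
  refine rm_split P (fun ω => ∀ i, |X ω i - X' ω i| ≤ B) X (fun ω => (X' ω, Y ω)) ?_ ?_ ?_ ?_
  · have : 0 ≤ Real.log (2 * B + 1) := Real.log_nonneg (by
      have : (0 : ℝ) ≤ B := Nat.cast_nonneg _
      linarith)
    positivity
  · exact Real.log_nonneg (by exact_mod_cast hN)
  · intro h0
    have h1 := hc_sub_le (on P fun ω => ∀ i, |X ω i - X' ω i| ≤ B) X X'
      (fun ω => (X' ω, Y ω)) B (fun ω hω => (on_pos h0 hω).1)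
    have h2 : hc (on P fun ω => ∀ i, |X ω i - X' ω i| ≤ B) X' (fun ω => (X' ω, Y ω)) = 0 :=
      hc_zero _ fun ω ω' _ _ e => congrArg Prod.fst e
    linarith
  · intro h0
    refine hc_le_log _ X _ N fun ω hω => ?_
    obtain ⟨F, hF, hF'⟩ := hval ω (on_pos h0 hω).2
    refine ⟨F, hF, fun ω' hω' e => hF' ω' (on_pos h0 hω').2 ?_⟩
    exact congrArg Prod.snd e

/-- monotonicity in the number of digits: `A`, `B` coarse, `A1`, `B1` fine digits, `q` the coarse
digits of the line -/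
theorem rm_mono (Q : Law Ω) {A : Ω → S} {A1 : Ω → S'} {B : Ω → T} {B1 : Ω → T'} (q : Ω → U)
    (Z : Ω → V) (hA : Fn Q A A1) :
    hc Q A (fun ω => (B ω, Z ω)) ≤ hc Q A1 (fun ω => (B1 ω, Z ω)) +
      hc Q B1 (fun ω => (B ω, Z ω)) - hc Q B1 (fun ω => (q ω, Z ω)) +
      hc Q (fun ω => (A ω, B ω)) (fun ω => (q ω, Z ω)) := by
  -- `H(B1, A | B, Z)` in two ways
  have e1 := hc_pair Q B1 A (fun ω => (B ω, Z ω))
  have e2 := hc_pair Q A B1 (fun ω => (B ω, Z ω))
  have e3 : hc Q (fun ω => (B1 ω, A ω)) (fun ω => (B ω, Z ω)) =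
      hc Q (fun ω => (A ω, B1 ω)) (fun ω => (B ω, Z ω)) :=
    hc_congr Q (fun ω ω' _ _ e => by simp only [Prod.mk.injEq] at e ⊢; exact ⟨e.1.2, e.1.1⟩)
      (fun ω ω' _ _ e => by simp only [Prod.mk.injEq] at e ⊢; exact ⟨e.1.2, e.1.1⟩)
      (fun ω ω' _ _ e => e) (fun ω ω' _ _ e => e)
  have e4 : hc Q A (fun ω => (B1 ω, (B ω, Z ω))) ≤ hc Q A1 (fun ω => (B1 ω, Z ω)) := by
    refine le_trans (hc_mono_right Q A (Y := fun ω => (B1 ω, Z ω)) ?_) (hc_mono_left Q ?_)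
    · intro ω ω' _ _ e
      simp only [Prod.mk.injEq] at e ⊢
      exact ⟨e.1, e.2.2⟩
    · intro ω ω' p p' e
      simp only [Prod.mk.injEq] at e
      exact hA ω ω' p p' e.1
  have e5 : hc Q B1 (fun ω => (q ω, Z ω)) ≤
      hc Q B1 (fun ω => (A ω, (B ω, Z ω))) + hc Q (fun ω => (A ω, B ω)) (fun ω => (q ω, Z ω)) := by
    have f1 := hc_le_add' Q B1 (fun ω => (A ω, B ω)) (fun ω => (q ω, Z ω))
    have f2 : hc Q B1 (fun ω => ((A ω, B ω), (q ω, Z ω))) ≤ hc Q B1 (fun ω => (A ω, (B ω, Z ω))) := by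
      refine hc_mono_right Q B1 ?_
      intro ω ω' _ _ e
      simp only [Prod.mk.injEq] at e ⊢
      exact ⟨e.1.1, e.1.2, e.2.2⟩
    linarith
  linarith

/-- lower bounds for entropies of functions of the line survive cheap additional conditions -/
theorem rm_fam_low (Q : Law Ω) (l : Ω → S) (X : Ω → S') (Y : Ω → T) (Z : Ω → U) (Tt : Ω → V)
    (hX : Fn Q X (fun ω => (l ω, Z ω))) (hY : Fn Q Y (fun ω => (l ω, Z ω))) :
    hc Q X (fun ω => (Y ω, Z ω)) - mi Q l Tt Z ≤ hc Q X (fun ω => (Tt ω, Y ω, Z ω)) := by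
  have h1 : mi Q l Tt (fun ω => (Y ω, Z ω)) ≤ mi Q l Tt Z := mi_cond_le Q Tt Z hY
  have h2 : mi Q X Tt (fun ω => (Y ω, Z ω)) ≤ mi Q l Tt (fun ω => (Y ω, Z ω)) := by
    refine mi_mono_left Q Tt ?_
    intro ω ω' p p' e
    simp only [Prod.mk.injEq] at e
    exact hX ω ω' p p' (by simp only [Prod.mk.injEq]; exact ⟨e.1, e.2.2⟩)
  have h3 : mi Q X Tt (fun ω => (Y ω, Z ω)) = hc Q X (fun ω => (Y ω, Z ω)) -
      hc Q X (fun ω => (Tt ω, Y ω, Z ω)) := rfl
  linarith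

/-- dropping cheap conditions in upper bounds -/
theorem rm_drop (Q : Law Ω) (l : Ω → S) (X : Ω → S') (Y : Ω → T) (Z : Ω → U) (N : Ω → V)
    (hX : Fn Q X (fun ω => (l ω, Z ω))) (hY : Fn Q Y (fun ω => (l ω, Z ω))) :
    hc Q X (fun ω => (Y ω, Z ω)) ≤ hc Q X (fun ω => (N ω, Y ω, Z ω)) + mi Q l N Z := by
  have := rm_fam_low Q l X Y Z N hX hY
  linarith

end general

end Vale.Agent.P127.Stk
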