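import Vale.Agent.P127.Stk.StepRM
import Vale.Agent.P127.Stk.RatesTools

/-!
# P127 / Stk / StepRM2 : from the family of `k + 3` copies to the pair of copies in `RK (k + 1)`
-/

namespace Vale.Agent.P127.Stk

open Finset Vale.Agent.P127

section map

variable {Ω Ω' : Type} [Fintype Ω] [Fintype Ω'] {S S' T T' U V : Type*}

theorem rm_prE_map (Q : Law Ω') (π : Ω' → Ω) (E : Ω → Prop) :
    prE Q (fun w => E (π w)) = prE (push Q π) E := by
  rw [← prE_eq_aux, ← prE_eq_aux, push_pr]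
  rfl

theorem rm_prE_mono (Q : Law Ω) {E F : Ω → Prop} (h : ∀ ω, E ω → F ω) : prE Q E ≤ prE Q F := by
  classical
  unfold prE
  refine Finset.sum_le_sum_of_subset_of_nonneg ?_ fun _ _ _ => Q.nn _
  intro ω
  simp only [mem_filter, mem_univ, true_and]
  exact h ω

theorem rm_prE_or (Q : Law Ω) (E F : Ω → Prop) :
    prE Q (fun ω => E ω ∨ F ω) ≤ prE Q E + prE Q F := by
  classical
  unfold prE
  rw [Finset.sum_filter, Finset.sum_filter, Finset.sum_filter, ← Finset.sum_add_distrib]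
  refine Finset.sum_le_sum fun ω _ => ?_
  have := Q.nn ω
  by_cases h1 : E ω <;> by_cases h2 : F ω <;> simp [h1, h2, this]

theorem rm_cw_hc {P : Law Ω} {W : Ω → S} {M N : ℕ} {Q : Law (Fin (M + 1) → Ω)}
    (hQ : ∀ w, Q.w w = cw P W M w) {Q3 : Law (Fin (N + 1) → Ω)}
    (hQ3 : ∀ w, Q3.w w = cw P W N w) (e : Fin (M + 1) → Fin (N + 1))
    (he : Function.Injective e) (X : (Fin (M + 1) → Ω) → T) (Y : (Fin (M + 1) → Ω) → U) :
    hc Q X Y = hc Q3 (fun w => X (w ∘ e)) (fun w => Y (w ∘ e)) :=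
  (hc_of_law Q3 Q (fun w => w ∘ e) (fun v => by rw [cw_sub hQ3 e he v, hQ v]) X Y).symm

theorem rm_cw_prE {P : Law Ω} {W : Ω → S} {M N : ℕ} {Q : Law (Fin (M + 1) → Ω)}
    (hQ : ∀ w, Q.w w = cw P W M w) {Q3 : Law (Fin (N + 1) → Ω)}
    (hQ3 : ∀ w, Q3.w w = cw P W N w) (e : Fin (M + 1) → Fin (N + 1))
    (he : Function.Injective e) (E : (Fin (M + 1) → Ω) → Prop) :
    prE Q3 (fun w => E (w ∘ e)) = prE Q E := by
  rw [rm_prE_map Q3 (fun w => w ∘ e) E]
  congr 1
  refine law_ext fun v => ?_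
  rw [push_w, cw_sub hQ3 e he v, hQ v]

/-- moving a part of the data into the condition -/
theorem rm_mi_part (Q : Law Ω) (l : Ω → S) {N : Ω → T} {N' : Ω → T'} (A : Ω → U)
    (h : Fn Q N' (fun ω => (N ω, A ω))) : mi Q l N (fun ω => (N' ω, A ω)) ≤ mi Q l N A := by
  have h1 := mi_pair Q l N' N A
  have h2 : mi Q l (fun ω => (N' ω, N ω)) A ≤ mi Q l N A := by
    refine mi_mono_right Q l ?_
    intro ω ω' p p' e
    refine Prod.ext (h ω ω' p p' e) ?_
    simp only [Prod.mk.injEq] at e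
    exact e.1
  have h3 := mi_nonneg Q l N' A
  linarith

end map

section values

variable {Ω : Type} [Fintype Ω] {m κ : ℕ} {T : Type*}

/-- trivial bound for the entropy of the digits of the projected point -/
theorem rm_F_le (P : Law Ω) (c : Cf Ω m) (o : Ob Ω m κ) (s : ℕ) (Z : Ω → T)
    (hx : ∀ ω i, 0 ≤ c.x ω i ∧ c.x ω i < 1) (hy : ∀ ω i, 0 ≤ c.y ω i ∧ c.y ω i < 1)
    (ht : ∀ ω, 0 ≤ c.t ω ∧ c.t ω < 1) :
    hc P (fun ω => fl s (o.F c ω)) Z ≤ m * s * Real.log 2 + cst m κ := by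
  have h1 := hc_le_add P (fun ω => fl s (o.F c ω)) (fun ω => fl 0 (o.F c ω)) Z
  have h2 := hc_fl_digits_le P (Nat.zero_le s) (fun ω => o.F c ω) Z
  have h3 : hc P (fun ω => fl 0 (o.F c ω)) Z ≤ Fintype.card (Fin m) *
      Real.log (2 * ((4 * (1 + κ * 3 ^ κ) : ℕ) : ℝ) + 3) := by
    refine hc_fl_det P _ (fun ω => o.F c ω) Z ?_
    intro ω ω' _ _ _ i
    have a1 := F_bdd c o ω (hx ω) (hy ω) (ht ω) i
    have a2 := F_bdd c o ω' (hx ω') (hy ω') (ht ω') i
    rw [pow_zero, one_mul, one_mul]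
    have a3 := abs_sub (o.F c ω i) (o.F c ω' i)
    push_cast
    linarith
  have h4 : Real.log (2 * ((4 * (1 + κ * 3 ^ κ) : ℕ) : ℝ) + 3) ≤
      Real.log (8 * (1 + κ * 3 ^ κ) + 9) := by
    refine Real.log_le_log (by positivity) ?_
    push_cast
    linarith
  rw [Fintype.card_fin] at h2 h3
  unfold cst
  have h5 : (m : ℝ) * Real.log (2 * ((4 * (1 + κ * 3 ^ κ) : ℕ) : ℝ) + 3) ≤
      m * Real.log (8 * (1 + κ * 3 ^ κ) + 9) :=
    mul_le_mul_of_nonneg_left h4 (Nat.cast_nonneg _)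
  simp only [Nat.sub_zero] at h2
  linarith

theorem rm_cst_nonneg (m κ : ℕ) : 0 ≤ cst m κ := by
  unfold cst
  have : 0 ≤ Real.log (8 * (1 + κ * 3 ^ κ) + 9) := Real.log_nonneg (by
    have : (0 : ℝ) ≤ κ * 3 ^ κ := by positivity
    linarith)
  positivity

end values

section reduce

variable {Ω : Type} [Fintype Ω] {m κ k a : ℕ}

/-- the position of the base time -/
def rmFst (k : ℕ) : Fin (k + 3) := ⟨k + 1, by omega⟩

/-- the position of the second time -/
def rmSnd (k : ℕ) : Fin (k + 3) := Fin.last (k + 2)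

theorem rm_fst_ne_snd (k : ℕ) : rmSnd k ≠ rmFst k := by
  intro h
  have := congrArg Fin.val h
  simp [rmFst, rmSnd] at this

/-- all times and objects -/
def rmTT (c : Cf Ω m) (o : Ob Ω m κ) {N : ℕ} (w : Fin N → Ω) (i : Fin N) : ℝ × o.γ :=
  (c.t (w i), o.G (w i))

/-- on the support of the copies all points have the same line -/
theorem rm_key {P : Law Ω} {c : Cf Ω m} {N : ℕ} {Q : Law (Fin (N + 1) → Ω)}
    (hQ : ∀ w, Q.w w = cw P (key c a) N w) {w : Fin (N + 1) → Ω} (hw : 0 < Q.w w)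
    (i j : Fin (N + 1)) : c.x (w i) = c.x (w j) ∧ c.y (w i) = c.y (w j) ∧ c.A (w i) = c.A (w j) ∧
      fl1 a (c.t (w i)) = fl1 a (c.t (w j)) := by
  have h := (cw_supp hQ hw).1
  have h1 := (h i).trans (h j).symm
  unfold key at h1
  simp only [Prod.mk.injEq] at h1
  exact ⟨h1.1, h1.2.1, h1.2.2.1, h1.2.2.2⟩

/-- the cost of the copies -/
theorem rm_cost {P : Law Ω} {c : Cf Ω m} (o : Ob Ω m κ) {N : ℕ} {Q : Law (Fin (N + 1) → Ω)}
    (hQ : ∀ w, Q.w w = cw P (key c a) N w) (i : Fin (N + 1)) :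
    mi Q (fun w => (c.x (w i), c.y (w i))) (rmTT c o) (fun w => c.A (w i)) ≤
      (N + 2) * (mi P (fun ω => (c.x ω, c.y ω)) c.t c.A +
        mi P (fun ω => (c.x ω, c.y ω)) o.G (fun ω => (c.t ω, c.A ω))) := by
  have h1 := cw_cost hQ (fun ω => (c.x ω, c.y ω)) c.A (fun ω => (c.t ω, o.G ω))
    (fun ω => fl1 a (c.t ω)) (fun ω ω' _ _ e => by
      simp only [Prod.mk.injEq] at e
      beta_reduce
      rw [e.1]) (fun ω ω' _ _ e => by
      simp only [Prod.mk.injEq] at e
      unfold key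
      rw [e.1.1, e.1.2, e.2.1, e.2.2]) (fun ω ω' _ _ e => by
      unfold key at e
      simp only [Prod.mk.injEq] at e ⊢
      exact ⟨⟨e.1, e.2.1⟩, e.2.2.1, e.2.2.2⟩) i
  rw [mi_pair] at h1
  exact h1

omit [Fintype Ω] in
theorem rm_F_congr {c : Cf Ω m} {o : Ob Ω m κ} {ω ω' : Ω} (hx : c.x ω = c.x ω')
    (hy : c.y ω = c.y ω') (ht : c.t ω = c.t ω') (hG : o.G ω = o.G ω') :
    o.F c ω = o.F c ω' := by
  have h1 : c.pt ω = c.pt ω' := by
    unfold Cf.pt
    rw [hx, hy, ht]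
  have h2 : o.Γ ω = o.Γ ω' := o.fn _ _ hG
  unfold Ob.F Ob.app
  rw [h1, h2]

/-- **reduction**: from the family of `k + 3` copies, conditioned on an event `E` of large
probability, at the precision `s1`, to the pair of copies at any precision `s ≤ s1` -/
theorem rm_reduce {P : Law Ω} {c : Cf Ω m} {o : Ob Ω m κ} {L : ℕ} {h e1 e2 e3 p : ℝ}
    {Q2 : Law (Fin 2 → Ω)} (hQ2 : ∀ w, Q2.w w = cw P (key c a) 1 w)
    {Q3 : Law (Fin (k + 3) → Ω)} (hQ3 : ∀ w, Q3.w w = cw P (key c a) (k + 2) w)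
    (hx : ∀ ω i, 0 ≤ c.x ω i ∧ c.x ω i < 1) (hy : ∀ ω i, 0 ≤ c.y ω i ∧ c.y ω i < 1)
    (ht : ∀ ω, 0 ≤ c.t ω ∧ c.t ω < 1)
    (E : (Fin (k + 3) → Ω) → Prop) (hp : p ≤ 1 / 2) (hE : prE Q3 (fun w => ¬ E w) ≤ p)
    (hcost : mi P (fun ω => (c.x ω, c.y ω)) c.t c.A +
      mi P (fun ω => (c.x ω, c.y ω)) o.G (fun ω => (c.t ω, c.A ω)) ≤ e3)
    (hrate : Rate (on Q3 E) (c.comp fun w => w (rmSnd k)) (o.comp fun w => w (rmSnd k)) L h e2)
    {s s1 : ℕ} (hs : s ≤ s1) (hs1 : s1 ≤ L)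
    (hmain : hc (on Q3 E) (fun w => fl s1 (o.F c (w (rmFst k))))
      (fun w => (fl s1 (o.F c (w (rmSnd k))), rmTT c o w, c.A (w 0))) ≤ e1) :
    hc Q2 (fun w => fl s (o.F c (w 1)))
      (fun w => (fl s (o.F c (w 0)), (fun i => (c.t (w i), o.G (w i))), c.A (w 0))) ≤
      e1 + 2 * e2 + 3 * (k + 4) * e3 + p * (m * s * Real.log 2) + 3 * cst m κ + 3 := by
  classical
  have hb0 : 0 < Real.log 2 := Real.log_pos (by norm_num)
  have hb1 : Real.log 2 ≤ 1 := by
    have := Real.log_two_lt_d9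
    linarith
  have hcst := rm_cst_nonneg m κ
  have hp0 : 0 ≤ p := (prE_nonneg _ _).trans hE
  have hEpr : 1 / 2 ≤ prE Q3 E := by
    have := prE_not Q3 E
    linarith
  have hEpos : 0 < prE Q3 E := by linarith
  have he1 : 0 ≤ e1 := (hc_nonneg _ _ _).trans hmain
  have he2 : 0 ≤ e2 := hrate.nn
  have he3 : 0 ≤ e3 := (add_nonneg (mi_nonneg _ _ _ _) (mi_nonneg _ _ _ _)).trans hcost
  set i1 : Fin (k + 3) := rmFst k with hi1
  set i2 : Fin (k + 3) := rmSnd k with hi2
  have hinj : Function.Injective (![i2, i1] : Fin 2 → Fin (k + 3)) := by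
    intro i j hij
    fin_cases i <;> fin_cases j
    · rfl
    · exact absurd hij (rm_fst_ne_snd k)
    · exact absurd hij.symm (rm_fst_ne_snd k)
    · rfl
  -- the variables
  set l : (Fin (k + 3) → Ω) → (Fin m → ℝ) × (Fin m → ℝ) := fun w => (c.x (w 0), c.y (w 0))
    with hl
  set A0 : (Fin (k + 3) → Ω) → c.α := fun w => c.A (w 0) with hA0
  set T2 : (Fin (k + 3) → Ω) → Fin 2 → ℝ × o.γ := fun w i =>
    (c.t (w (![i2, i1] i)), o.G (w (![i2, i1] i))) with hT2
  set Xs : (Fin (k + 3) → Ω) → Fin m → ℤ := fun w => fl s (o.F c (w i1)) with hXs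
  set Ys : (Fin (k + 3) → Ω) → Fin m → ℤ := fun w => fl s (o.F c (w i2)) with hYs
  have key3 : ∀ w, 0 < Q3.w w → ∀ i j, c.x (w i) = c.x (w j) ∧ c.y (w i) = c.y (w j) ∧
      c.A (w i) = c.A (w j) ∧ fl1 a (c.t (w i)) = fl1 a (c.t (w j)) :=
    fun w hw i j => rm_key hQ3 hw i j
  have keyE : ∀ w, 0 < (on Q3 E).w w → ∀ i j, c.x (w i) = c.x (w j) ∧ c.y (w i) = c.y (w j) ∧
      c.A (w i) = c.A (w j) ∧ fl1 a (c.t (w i)) = fl1 a (c.t (w j)) :=
    fun w hw i j => rm_key hQ3 (on_pos hEpos hw).2 i j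
  -- functions of the line and the data
  have fF : ∀ (i : Fin (k + 3)) (w w' : Fin (k + 3) → Ω), 0 < Q3.w w → 0 < Q3.w w' →
      l w = l w' → c.t (w i) = c.t (w' i) → o.G (w i) = o.G (w' i) →
      o.F c (w i) = o.F c (w' i) := by
    intro i w w' g g' h1 h2 h3
    rw [hl] at h1
    simp only [Prod.mk.injEq] at h1
    refine rm_F_congr ?_ ?_ h2 h3
    · rw [(key3 w g i 0).1, (key3 w' g' i 0).1, h1.1]
    · rw [(key3 w g i 0).2.1, (key3 w' g' i 0).2.1, h1.2]
  -- step 1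
  have s1' : hc Q2 (fun w => fl s (o.F c (w 1)))
      (fun w => (fl s (o.F c (w 0)), (fun i => (c.t (w i), o.G (w i))), c.A (w 0))) =
      hc Q3 Xs (fun w => (Ys w, (T2 w, A0 w))) := by
    rw [rm_cw_hc hQ2 hQ3 ![i2, i1] hinj (fun v : Fin 2 → Ω => fl s (o.F c (v 1)))
      (fun v => (fl s (o.F c (v 0)), (fun i => (c.t (v i), o.G (v i))), c.A (v 0)))]
    refine hc_congr Q3 (fun w w' _ _ e => ?_) (fun w w' _ _ e => ?_) (fun w w' g g' e => ?_)
      (fun w w' g g' e => ?_)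
    · exact (Prod.mk.inj e).1
    · exact (Prod.mk.inj e).1
    · simp only [Prod.mk.injEq] at e ⊢
      refine ⟨e.1, e.2.1, ?_⟩
      rw [Function.comp_apply, Function.comp_apply, (key3 w g _ 0).2.2.1,
        (key3 w' g' _ 0).2.2.1]
      exact e.2.2
    · simp only [Prod.mk.injEq] at e ⊢
      refine ⟨e.1, e.2.1, ?_⟩
      have := e.2.2
      rw [Function.comp_apply, Function.comp_apply, (key3 w g _ 0).2.2.1,
        (key3 w' g' _ 0).2.2.1] at this
      exact this
  -- step 2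
  have s2 : hc Q3 Xs (fun w => (Ys w, (T2 w, A0 w))) ≤
      hc Q3 Xs (fun w => (rmTT c o w, Ys w, (T2 w, A0 w))) + mi Q3 l (rmTT c o)
        (fun w => (T2 w, A0 w)) := by
    refine rm_drop Q3 l Xs Ys (fun w => (T2 w, A0 w)) (rmTT c o) ?_ ?_
    · intro w w' g g' e
      simp only [Prod.mk.injEq] at e
      have h2 := congrFun e.2.1 1
      simp only [hT2, Matrix.cons_val_one, Prod.mk.injEq] at h2
      show fl s (o.F c (w i1)) = fl s (o.F c (w' i1))
      rw [fF i1 w w' g g' e.1 h2.1 h2.2]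
    · intro w w' g g' e
      simp only [Prod.mk.injEq] at e
      have h2 := congrFun e.2.1 0
      simp only [hT2, Matrix.cons_val_zero, Prod.mk.injEq] at h2
      show fl s (o.F c (w i2)) = fl s (o.F c (w' i2))
      rw [fF i2 w w' g g' e.1 h2.1 h2.2]
  -- step 3
  have hcQ3 : mi Q3 l (rmTT c o) A0 ≤ (k + 4) * e3 := by
    have h1 := rm_cost o hQ3 (0 : Fin (k + 3))
    refine h1.trans ?_
    have h2 := mul_le_mul_of_nonneg_left hcost (show (0 : ℝ) ≤ (k : ℝ) + 4 by positivity)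
    push_cast
    linarith
  have s3 : mi Q3 l (rmTT c o) (fun w => (T2 w, A0 w)) ≤ mi Q3 l (rmTT c o) A0 := by
    refine rm_mi_part Q3 l A0 ?_
    intro w w' _ _ e
    simp only [Prod.mk.injEq] at e
    funext i
    exact congrFun e.1 (![i2, i1] i)
  have s4 : hc Q3 Xs (fun w => (rmTT c o w, Ys w, (T2 w, A0 w))) ≤
      hc Q3 Xs (fun w => (Ys w, (rmTT c o w, A0 w))) := by
    refine hc_mono_right Q3 Xs ?_
    intro w w' _ _ e
    simp only [Prod.mk.injEq] at e ⊢
    exact ⟨e.2.1, e.1, e.2.2.2⟩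
  -- the conditioned law
  have hdom : Dom (on Q3 E) id Q3 2 := by
    have := Dom.on (P := Q3) (E := E) (p := 1 / 2) (by norm_num) hEpr
    norm_num at this
    exact this
  have hcE : mi (on Q3 E) l (rmTT c o) A0 ≤ 2 * ((k + 4) * e3 + 1) := by
    have h1 := hdom.mi_le l (rmTT c o) A0
    simp only [Function.comp_id] at h1
    refine h1.trans ?_
    have : mi Q3 l (rmTT c o) A0 + Real.log 2 ≤ (k + 4) * e3 + 1 := by linarith
    linarith
  have s6 : hc (on Q3 E) Xs (fun w => (Ys w, (rmTT c o w, A0 w))) ≤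
      e1 + 2 * e2 + 2 * ((k + 4) * e3 + 1) + 2 * cst m κ := by
    have h1 := rm_mono (on Q3 E) (A := Xs) (A1 := fun w => fl s1 (o.F c (w i1))) (B := Ys)
      (B1 := fun w => fl s1 (o.F c (w i2))) (fun w => (fl s (c.x (w 0)), fl s (c.y (w 0))))
      (fun w => (rmTT c o w, A0 w)) (fun w w' _ _ e => fl_of_fl hs _ _ e)
    have h2 : hc (on Q3 E) (fun w => fl s1 (o.F c (w i2))) (fun w => (Ys w, (rmTT c o w, A0 w))) ≤
        (h - κ) * ((s1 : ℝ) - s) * Real.log 2 + e2 := by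
      refine le_trans (hc_mono_right (on Q3 E) _ ?_) (hrate.up s s1 hs hs1)
      intro w w' g g' e
      simp only [Prod.mk.injEq] at e
      have h3 := congrFun e.2.1 i2
      unfold rmTT at h3
      simp only [Prod.mk.injEq] at h3
      have h4 : c.A (w i2) = c.A (w' i2) := by
        rw [(keyE w g i2 0).2.2.1, (keyE w' g' i2 0).2.2.1]
        exact e.2.2
      show (fl s (o.F c (w i2)), c.t (w i2), o.G (w i2), c.A (w i2)) =
        (fl s (o.F c (w' i2)), c.t (w' i2), o.G (w' i2), c.A (w' i2))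
      rw [show fl s (o.F c (w i2)) = fl s (o.F c (w' i2)) from e.1, h3.1, h3.2, h4]
    have h3 : (h - κ) * ((s1 : ℝ) - s) * Real.log 2 - e2 - 2 * ((k + 4) * e3 + 1) ≤
        hc (on Q3 E) (fun w => fl s1 (o.F c (w i2)))
          (fun w => ((fl s (c.x (w 0)), fl s (c.y (w 0))), (rmTT c o w, A0 w))) := by
      have r1 : (h - κ) * ((s1 : ℝ) - s) * Real.log 2 - e2 ≤
          hc (on Q3 E) (fun w => fl s1 (o.F c (w i2)))
            (fun w => ((fl s (c.x (w i2)), fl s (c.y (w i2))), c.t (w i2), o.G (w i2),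
              c.A (w i2))) := hrate.lo s s1 hs hs1
      have r2 := rm_fam_low (on Q3 E) l (fun w => fl s1 (o.F c (w i2)))
        (fun w => (fl s (c.x (w 0)), fl s (c.y (w 0))))
        (fun w => (c.t (w i2), o.G (w i2), A0 w)) (rmTT c o) ?_ ?_
      · have r3 : hc (on Q3 E) (fun w => fl s1 (o.F c (w i2)))
            (fun w => (rmTT c o w, (fl s (c.x (w 0)), fl s (c.y (w 0))),
              (c.t (w i2), o.G (w i2), A0 w))) ≤
            hc (on Q3 E) (fun w => fl s1 (o.F c (w i2)))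
              (fun w => ((fl s (c.x (w 0)), fl s (c.y (w 0))), (rmTT c o w, A0 w))) := by
          refine hc_mono_right (on Q3 E) _ ?_
          intro w w' _ _ e
          simp only [Prod.mk.injEq] at e ⊢
          exact ⟨e.2.1, e.1, e.2.2.2.2⟩
        have r4 : mi (on Q3 E) l (rmTT c o) (fun w => (c.t (w i2), o.G (w i2), A0 w)) ≤
            mi (on Q3 E) l (rmTT c o) A0 := by
          have r5 := rm_mi_part (on Q3 E) l (N := rmTT c o)
            (N' := fun w => (c.t (w i2), o.G (w i2))) A0 (by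
              intro w w' _ _ e
              simp only [Prod.mk.injEq] at e
              exact congrFun e.1 i2)
          refine le_trans (le_of_eq (mi_congr_cond (on Q3 E) l (rmTT c o) ?_ ?_)) r5
          · intro w w' _ _ e
            simp only [Prod.mk.injEq] at e ⊢
            exact ⟨e.1.1, e.1.2, e.2⟩
          · intro w w' _ _ e
            simp only [Prod.mk.injEq] at e ⊢
            exact ⟨⟨e.1, e.2.1⟩, e.2.2⟩
        have r6 : hc (on Q3 E) (fun w => fl s1 (o.F c (w i2)))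
            (fun w => ((fl s (c.x (w i2)), fl s (c.y (w i2))), c.t (w i2), o.G (w i2),
              c.A (w i2))) ≤
            hc (on Q3 E) (fun w => fl s1 (o.F c (w i2)))
              (fun w => ((fl s (c.x (w 0)), fl s (c.y (w 0))),
                (c.t (w i2), o.G (w i2), A0 w))) := by
          refine hc_mono_right (on Q3 E) _ ?_
          intro w w' g g' e
          simp only [Prod.mk.injEq] at e
          have a1 := e.1
          have a4 := e.2.2.2
          rw [(keyE w g i2 0).1, (keyE w' g' i2 0).1, (keyE w g i2 0).2.1,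
            (keyE w' g' i2 0).2.1] at a1
          rw [(keyE w g i2 0).2.2.1, (keyE w' g' i2 0).2.2.1] at a4
          simp only [Prod.mk.injEq, hA0]
          exact ⟨a1, e.2.1, e.2.2.1, a4⟩
        linarith
      · intro w w' g g' e
        simp only [Prod.mk.injEq] at e
        show fl s1 (o.F c (w i2)) = fl s1 (o.F c (w' i2))
        rw [fF i2 w w' (on_pos hEpos g).2 (on_pos hEpos g').2 e.1 e.2.1 e.2.2.1]
      · intro w w' _ _ e
        simp only [Prod.mk.injEq, hl] at e ⊢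
        rw [e.1.1, e.1.2]
        exact ⟨rfl, rfl⟩
    have h4 : hc (on Q3 E) (fun w => (Xs w, Ys w))
        (fun w => ((fl s (c.x (w 0)), fl s (c.y (w 0))), (rmTT c o w, A0 w))) ≤
        2 * cst m κ := by
      rw [hc_pair]
      have g1 : ∀ i : Fin (k + 3), Fn (on Q3 E)
          (fun w => ((c.comp fun w => w i).q s w, (c.comp fun w => w i).t w,
            (o.comp fun w => w i).G w))
          (fun w => ((fl s (c.x (w 0)), fl s (c.y (w 0))), (rmTT c o w, A0 w))) := by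
        intro i w w' g g' e
        simp only [Prod.mk.injEq] at e
        have h5 := congrFun e.2.1 i
        unfold rmTT at h5
        simp only [Prod.mk.injEq] at h5
        show ((fl s (c.x (w i)), fl s (c.y (w i))), c.t (w i), o.G (w i)) =
          ((fl s (c.x (w' i)), fl s (c.y (w' i))), c.t (w' i), o.G (w' i))
        rw [(keyE w g i 0).1, (keyE w' g' i 0).1, (keyE w g i 0).2.1, (keyE w' g' i 0).2.1,
          e.1.1, e.1.2, h5.1, h5.2]
      have g2 := hc_F_of_q (on Q3 E) (c.comp fun w => w i1) (o.comp fun w => w i1) s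
        (fun w => ((fl s (c.x (w 0)), fl s (c.y (w 0))), (rmTT c o w, A0 w)))
        (fun w _ => ht (w i1)) (g1 i1)
      have g3 := hc_F_of_q (on Q3 E) (c.comp fun w => w i2) (o.comp fun w => w i2) s
        (fun w => (Xs w, (fl s (c.x (w 0)), fl s (c.y (w 0))), (rmTT c o w, A0 w)))
        (fun w _ => ht (w i2)) (by
          intro w w' g g' e
          exact g1 i2 w w' g g' (Prod.mk.inj e).2)
      have g4 : hc (on Q3 E) Xs
          (fun w => ((fl s (c.x (w 0)), fl s (c.y (w 0))), (rmTT c o w, A0 w))) ≤ cst m κ := g2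
      have g5 : hc (on Q3 E) Ys
          (fun w => (Xs w, (fl s (c.x (w 0)), fl s (c.y (w 0))), (rmTT c o w, A0 w))) ≤
            cst m κ := g3
      linarith
    linarith
  -- step 5
  have hN0 : 0 ≤ (k + 4 : ℝ) * e3 := by positivity
  have s5 := rm_split Q3 E Xs (fun w => (Ys w, (rmTT c o w, A0 w)))
    (a := e1 + 2 * e2 + 2 * ((k + 4) * e3 + 1) + 2 * cst m κ)
    (b := m * s * Real.log 2 + cst m κ) (by positivity) (by positivity) (fun _ => s6)
    (fun _ => rm_F_le (on Q3 fun w => ¬ E w) (c.comp fun w => w i1) (o.comp fun w => w i1) s _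
      (fun w i => hx (w i1) i) (fun w i => hy (w i1) i) (fun w => ht (w i1)))
  have s7 : prE Q3 (fun w => ¬ E w) * (m * s * Real.log 2 + cst m κ) ≤
      p * (m * s * Real.log 2) + cst m κ := by
    have h1 : prE Q3 (fun w => ¬ E w) * (m * s * Real.log 2 + cst m κ) ≤
        p * (m * s * Real.log 2 + cst m κ) :=
      mul_le_mul_of_nonneg_right hE (by positivity)
    have h2 : p * cst m κ ≤ 1 * cst m κ := mul_le_mul_of_nonneg_right (by linarith) hcst
    linarith
  rw [s1']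
  linarith

end reduce

end Vale.Agent.P127.Stk
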