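import Vale.Agent.P127.Stk.Props
import Vale.Agent.P127.Stk.LibFloors

/-!
# P127 / Stk / StepR : pointwise facts (PROOF.md, section 9), the vector of polynomials `polV`

`τ l` = times of the nodes, `Γ l` = matrices at the nodes, `b0` = `⌊2^a t⌋` (common to all times),
`dx, dy` = difference of the lines (or of the cells), rescaled time `u = 2^a t - b0`.
-/

namespace Vale.Agent.P127.Stk.R

open Finset Polynomial Vale.Agent.P127

section defs

variable {m k : ℕ}

/-- Lagrange basis polynomial in the rescaled time `u = 2^a t - b0` -/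
noncomputable def basP (a : ℕ) (b0 : ℝ) (τ : Fin (k + 1) → ℝ) (l : Fin (k + 1)) : ℝ[X] :=
  ∏ l' ∈ (Finset.univ : Finset (Fin (k + 1))).erase l,
    (C ((2 : ℝ) ^ a * τ l - 2 ^ a * τ l')⁻¹ * (X - C ((2 : ℝ) ^ a * τ l' - b0)))

/-- interpolation polynomial of the entry `(i, j)` -/
noncomputable def gP (a : ℕ) (b0 : ℝ) (τ : Fin (k + 1) → ℝ)
    (Γ : Fin (k + 1) → Fin m → Fin m → ℝ) (i j : Fin m) : ℝ[X] :=
  ∑ l, C (Γ l i j) * basP a b0 τ l

/-- the coordinate `i` of the point of the line `(dx, dy)` at the rescaled time -/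
noncomputable def ptP (a : ℕ) (b0 : ℝ) (dx dy : Fin m → ℝ) (i : Fin m) : ℝ[X] :=
  C (dx i) + C (dy i * (1 / 2 : ℝ) ^ a) * (X + C b0)

/-- projected point at the rescaled time -/
noncomputable def FP (a : ℕ) (b0 : ℝ) (τ : Fin (k + 1) → ℝ)
    (Γ : Fin (k + 1) → Fin m → Fin m → ℝ) (J : Finset (Fin m)) (dx dy : Fin m → ℝ)
    (i : Fin m) : ℝ[X] :=
  ptP a b0 dx dy i - ∑ j ∈ J, gP a b0 τ Γ i j * ptP a b0 dx dy j

open Classical in
/-- the vector of polynomials of section 9 -/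
noncomputable def polV (a : ℕ) (b0 : ℝ) (τ : Fin (k + 1) → ℝ)
    (Γ : Fin (k + 1) → Fin m → Fin m → ℝ) (J : Finset (Fin m)) (us : ℝ) (dx dy : Fin m → ℝ)
    (i : Fin m) : ℝ[X] :=
  if i ∈ J then 0 else FP a b0 τ Γ J dx dy i - C ((FP a b0 τ Γ J dx dy i).eval us)

end defs

section facts

variable {m k : ℕ} (a : ℕ) (b0 : ℝ) (τ : Fin (k + 1) → ℝ)
  (Γ : Fin (k + 1) → Fin m → Fin m → ℝ) (J : Finset (Fin m)) (us : ℝ) (dx dy : Fin m → ℝ)

theorem basP_deg (l : Fin (k + 1)) : (basP a b0 τ l).natDegree ≤ k := by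
  unfold basP
  refine (natDegree_prod_le _ _).trans ?_
  have h1 : ∀ l' ∈ (Finset.univ : Finset (Fin (k + 1))).erase l,
      (C ((2 : ℝ) ^ a * τ l - 2 ^ a * τ l')⁻¹ * (X - C ((2 : ℝ) ^ a * τ l' - b0))).natDegree
        ≤ 1 := by
    intro l' _
    refine (natDegree_C_mul_le _ _).trans ?_
    exact (natDegree_X_sub_C _).le
  refine (Finset.sum_le_sum h1).trans ?_
  simp

theorem gP_deg (i j : Fin m) : (gP a b0 τ Γ i j).natDegree ≤ k := by
  unfold gP
  refine natDegree_sum_le_of_forall_le _ _ fun l _ => ?_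
  exact (natDegree_C_mul_le _ _).trans (basP_deg a b0 τ l)

theorem ptP_deg (i : Fin m) : (ptP a b0 dx dy i).natDegree ≤ 1 := by
  unfold ptP
  refine natDegree_add_le_of_degree_le ?_ ?_
  · simp
  · refine (natDegree_C_mul_le _ _).trans ?_
    exact (natDegree_X_add_C _).le

theorem FP_deg (i : Fin m) : (FP a b0 τ Γ J dx dy i).natDegree ≤ k + 1 := by
  unfold FP
  refine (natDegree_sub_le _ _).trans (max_le ?_ ?_)
  · exact (ptP_deg a b0 dx dy i).trans (by omega)
  · refine natDegree_sum_le_of_forall_le _ _ fun j _ => ?_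
    exact natDegree_mul_le.trans (add_le_add (gP_deg a b0 τ Γ i j) (ptP_deg a b0 dx dy j))

theorem polV_deg (i : Fin m) : (polV a b0 τ Γ J us dx dy i).natDegree ≤ k + 1 := by
  unfold polV
  split_ifs
  · simp
  · refine (natDegree_sub_le _ _).trans (max_le (FP_deg a b0 τ Γ J dx dy i) ?_)
    simp

theorem polV_mem {i : Fin m} (hi : i ∈ J) : polV a b0 τ Γ J us dx dy i = 0 := by
  unfold polV
  rw [if_pos hi]

theorem polV_root (i : Fin m) : (polV a b0 τ Γ J us dx dy i).eval us = 0 := by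
  unfold polV
  split_ifs
  · simp
  · simp

theorem basP_eval (t : ℝ) (l : Fin (k + 1)) :
    (basP a b0 τ l).eval ((2 : ℝ) ^ a * t - b0) =
      ∏ l' ∈ (Finset.univ : Finset (Fin (k + 1))).erase l, (t - τ l') / (τ l - τ l') := by
  unfold basP
  rw [eval_prod]
  refine Finset.prod_congr rfl fun l' _ => ?_
  have h2 : (2 : ℝ) ^ a ≠ 0 := by positivity
  simp only [eval_mul, eval_C, eval_sub, eval_X]
  rw [← mul_sub, mul_inv, show (2 : ℝ) ^ a * t - b0 - (2 ^ a * τ l' - b0) =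
    2 ^ a * (t - τ l') by ring, div_eq_mul_inv]
  field_simp

theorem gP_eval (t : ℝ) (i j : Fin m) :
    (gP a b0 τ Γ i j).eval ((2 : ℝ) ^ a * t - b0) =
      ∑ l, (∏ l' ∈ (Finset.univ : Finset (Fin (k + 1))).erase l, (t - τ l') / (τ l - τ l')) *
        Γ l i j := by
  unfold gP
  rw [eval_finsetSum]
  refine Finset.sum_congr rfl fun l _ => ?_
  rw [eval_mul, eval_C, basP_eval, mul_comm]

theorem ptP_eval (t : ℝ) (i : Fin m) :
    (ptP a b0 dx dy i).eval ((2 : ℝ) ^ a * t - b0) = dx i + t * dy i := by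
  unfold ptP
  simp only [eval_add, eval_mul, eval_C, eval_X, sub_add_cancel]
  have : (1 / 2 : ℝ) ^ a * 2 ^ a = 1 := by
    rw [← mul_pow]; norm_num
  calc dx i + dy i * (1 / 2 : ℝ) ^ a * (2 ^ a * t) = dx i + dy i * t * ((1 / 2 : ℝ) ^ a * 2 ^ a) := by
        ring
    _ = _ := by rw [this]; ring

theorem FP_eval (t : ℝ) (i : Fin m) :
    (FP a b0 τ Γ J dx dy i).eval ((2 : ℝ) ^ a * t - b0) = dx i + t * dy i -
      ∑ j ∈ J, (gP a b0 τ Γ i j).eval ((2 : ℝ) ^ a * t - b0) * (dx j + t * dy j) := by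
  unfold FP
  rw [eval_sub, ptP_eval, eval_finsetSum]
  congr 1
  refine Finset.sum_congr rfl fun j _ => ?_
  rw [eval_mul, ptP_eval]

end facts

section est

variable {m k : ℕ}

/-- the projection along the graph of `g` over `J`, one coordinate -/
noncomputable def prj (J : Finset (Fin m)) (g : Fin m → Fin m → ℝ) (t : ℝ) (x y : Fin m → ℝ)
    (i : Fin m) : ℝ := x i + t * y i - ∑ j ∈ J, g i j * (x j + t * y j)

/-- the main pointwise estimate -/
theorem prj_est (J : Finset (Fin m)) (g gs Γt Γs : Fin m → Fin m → ℝ) (t ts : ℝ)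
    (x y x' y' dx dy : Fin m → ℝ) (i : Fin m) (G δ0 δ1 δ2 δ3 δ4 : ℝ)
    (ht : 0 ≤ t ∧ t ≤ 1) (hts : 0 ≤ ts ∧ ts ≤ 1) (hG : ∀ j ∈ J, |Γt i j| ≤ G)
    (h0 : ∀ j ∈ J, |Γs i j - Γt i j| ≤ δ0) (h1 : ∀ j ∈ J, |Γt i j - g i j| ≤ δ1)
    (h1' : ∀ j ∈ J, |Γs i j - gs i j| ≤ δ1)
    (hx : ∀ j, |x' j - x j - dx j| ≤ δ2) (hy : ∀ j, |y' j - y j - dy j| ≤ δ2)
    (hdx : ∀ j, |dx j| ≤ 1) (hdy : ∀ j, |dy j| ≤ 1) (hT : |ts - t| ≤ δ3)
    (hF : |prj J Γt t x' y' i - prj J Γt t x y i| ≤ δ4)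
    (p0 : 0 ≤ G) (p1 : 0 ≤ δ0) (p2 : 0 ≤ δ1) (p3 : 0 ≤ δ2) (p4 : 0 ≤ δ3) :
    |prj J Γs ts x' y' i - prj J Γs ts x y i + (prj J g t dx dy i - prj J gs ts dx dy i)| ≤
      δ4 + δ3 * δ2 + J.card * (2 * δ0 * δ2 + G * δ3 * δ2 + 4 * δ1) := by
  have key : prj J Γs ts x' y' i - prj J Γs ts x y i +
      (prj J g t dx dy i - prj J gs ts dx dy i) =
      (prj J Γt t x' y' i - prj J Γt t x y i) + (ts - t) * (y' i - y i - dy i) -
      ∑ j ∈ J, ((Γs i j - Γt i j) * ((x' j - x j - dx j) + ts * (y' j - y j - dy j)) +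
        Γt i j * (ts - t) * (y' j - y j - dy j) +
        (Γs i j - gs i j) * (dx j + ts * dy j) - (Γt i j - g i j) * (dx j + t * dy j)) := by
    unfold prj
    have e : ∑ j ∈ J, ((Γs i j - Γt i j) * ((x' j - x j - dx j) + ts * (y' j - y j - dy j)) +
        Γt i j * (ts - t) * (y' j - y j - dy j) +
        (Γs i j - gs i j) * (dx j + ts * dy j) - (Γt i j - g i j) * (dx j + t * dy j)) =
        (∑ j ∈ J, Γs i j * (x' j + ts * y' j)) - (∑ j ∈ J, Γs i j * (x j + ts * y j)) -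
        (∑ j ∈ J, Γt i j * (x' j + t * y' j)) + (∑ j ∈ J, Γt i j * (x j + t * y j)) -
        (∑ j ∈ J, gs i j * (dx j + ts * dy j)) + (∑ j ∈ J, g i j * (dx j + t * dy j)) := by
      rw [← Finset.sum_sub_distrib, ← Finset.sum_sub_distrib, ← Finset.sum_add_distrib,
        ← Finset.sum_sub_distrib, ← Finset.sum_add_distrib]
      exact Finset.sum_congr rfl fun j _ => by ring
    rw [e]
    ring
  rw [key]
  have hterm : ∀ j ∈ J, |(Γs i j - Γt i j) * ((x' j - x j - dx j) + ts * (y' j - y j - dy j)) +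
        Γt i j * (ts - t) * (y' j - y j - dy j) +
        (Γs i j - gs i j) * (dx j + ts * dy j) - (Γt i j - g i j) * (dx j + t * dy j)| ≤
      2 * δ0 * δ2 + G * δ3 * δ2 + 4 * δ1 := by
    intro j hj
    have b1 : |(x' j - x j - dx j) + ts * (y' j - y j - dy j)| ≤ 2 * δ2 := by
      refine (abs_add_le _ _).trans ?_
      rw [abs_mul, abs_of_nonneg hts.1]
      have := hx j
      have := hy j
      nlinarith [abs_nonneg (y' j - y j - dy j)]
    have b2 : |dx j + ts * dy j| ≤ 2 := by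
      refine (abs_add_le _ _).trans ?_
      rw [abs_mul, abs_of_nonneg hts.1]
      have := hdx j
      have := hdy j
      nlinarith [abs_nonneg (dy j)]
    have b3 : |dx j + t * dy j| ≤ 2 := by
      refine (abs_add_le _ _).trans ?_
      rw [abs_mul, abs_of_nonneg ht.1]
      have := hdx j
      have := hdy j
      nlinarith [abs_nonneg (dy j)]
    have c1 : |(Γs i j - Γt i j) * ((x' j - x j - dx j) + ts * (y' j - y j - dy j))| ≤
        δ0 * (2 * δ2) := by
      rw [abs_mul]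
      exact mul_le_mul (h0 j hj) b1 (abs_nonneg _) p1
    have c2 : |Γt i j * (ts - t) * (y' j - y j - dy j)| ≤ G * δ3 * δ2 := by
      rw [abs_mul, abs_mul]
      exact mul_le_mul (mul_le_mul (hG j hj) hT (abs_nonneg _) p0) (hy j) (abs_nonneg _)
        (mul_nonneg p0 p4)
    have c3 : |(Γs i j - gs i j) * (dx j + ts * dy j)| ≤ δ1 * 2 := by
      rw [abs_mul]
      exact mul_le_mul (h1' j hj) b2 (abs_nonneg _) p2
    have c4 : |(Γt i j - g i j) * (dx j + t * dy j)| ≤ δ1 * 2 := by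
      rw [abs_mul]
      exact mul_le_mul (h1 j hj) b3 (abs_nonneg _) p2
    have d1 := abs_sub ((Γs i j - Γt i j) * ((x' j - x j - dx j) + ts * (y' j - y j - dy j)) +
        Γt i j * (ts - t) * (y' j - y j - dy j) + (Γs i j - gs i j) * (dx j + ts * dy j))
        ((Γt i j - g i j) * (dx j + t * dy j))
    have d2 := abs_add_le ((Γs i j - Γt i j) * ((x' j - x j - dx j) + ts * (y' j - y j - dy j)) +
        Γt i j * (ts - t) * (y' j - y j - dy j)) ((Γs i j - gs i j) * (dx j + ts * dy j))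
    have d3 := abs_add_le ((Γs i j - Γt i j) * ((x' j - x j - dx j) + ts * (y' j - y j - dy j)))
        (Γt i j * (ts - t) * (y' j - y j - dy j))
    linarith
  have hsum : |∑ j ∈ J, ((Γs i j - Γt i j) * ((x' j - x j - dx j) + ts * (y' j - y j - dy j)) +
        Γt i j * (ts - t) * (y' j - y j - dy j) +
        (Γs i j - gs i j) * (dx j + ts * dy j) - (Γt i j - g i j) * (dx j + t * dy j))| ≤
      J.card * (2 * δ0 * δ2 + G * δ3 * δ2 + 4 * δ1) := by
    refine (Finset.abs_sum_le_sum_abs _ _).trans ?_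
    rw [← nsmul_eq_mul]
    exact Finset.sum_le_card_nsmul _ _ _ hterm
  have e1 : |(ts - t) * (y' i - y i - dy i)| ≤ δ3 * δ2 := by
    rw [abs_mul]
    exact mul_le_mul hT (hy i) (abs_nonneg _) p4
  have e2 := abs_sub ((prj J Γt t x' y' i - prj J Γt t x y i) + (ts - t) * (y' i - y i - dy i))
    (∑ j ∈ J, ((Γs i j - Γt i j) * ((x' j - x j - dx j) + ts * (y' j - y j - dy j)) +
        Γt i j * (ts - t) * (y' j - y j - dy j) +
        (Γs i j - gs i j) * (dx j + ts * dy j) - (Γt i j - g i j) * (dx j + t * dy j)))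
  have e3 := abs_add_le (prj J Γt t x' y' i - prj J Γt t x y i)
    ((ts - t) * (y' i - y i - dy i))
  linarith

end est

end Vale.Agent.P127.Stk.R
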