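import Vale.Agent.P127.Stk.Lib

/-!
# P127 / Stk / StepR : rare events and straight displacement
-/

namespace Vale.Agent.P127.Stk.R

open Finset Vale.Agent.P127

theorem rare_aux {Ω : Type} [Fintype Ω] (Q : Law Ω) (E : Ω → Prop) (h : prE Q E = 0) {ω : Ω}
    (hω : E ω) : Q.w ω = 0 := by
  classical
  exact (Finset.sum_eq_zero_iff_of_nonneg fun ω _ => Q.nn ω).1 h ω
    (Finset.mem_filter.2 ⟨Finset.mem_univ _, hω⟩)

/-- an event on which `X` takes few values given `Y` is rare when `hc Q X Y` is almost maximal -/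
theorem rare {Ω : Type} [Fintype Ω] {S T : Type*} (Q : Law Ω) (E : Ω → Prop) (X : Ω → S)
    (Y : Ω → T) (N : ℕ) (R0 : ℝ) (hN : 1 ≤ N)
    (h1 : ∀ ω, 0 < Q.w ω → E ω → ∃ F : Finset S, F.card ≤ N ∧
      ∀ ω', 0 < Q.w ω' → E ω' → Y ω' = Y ω → X ω' ∈ F)
    (h2 : ∀ R : Law Ω, (∀ ω, Q.w ω = 0 → R.w ω = 0) → hc R X Y ≤ R0) :
    prE Q E * (R0 - Real.log N) ≤ R0 - hc Q X Y + Real.log 2 := by
  have hl2 : 0 ≤ Real.log 2 := Real.log_nonneg (by norm_num)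
  have hQ := h2 Q fun _ h => h
  have hp0 := prE_nonneg Q E
  have hp1 := prE_le_one Q E
  rcases hp0.eq_or_lt with h0 | h0
  · rw [← h0, zero_mul]
    linarith
  have hon : hc (on Q E) X Y ≤ Real.log N := by
    refine hc_le_log (on Q E) X Y N fun ω hω => ?_
    obtain ⟨g1, g2⟩ := on_pos h0 hω
    obtain ⟨F, hF1, hF2⟩ := h1 ω g2 g1
    refine ⟨F, hF1, fun ω' hω' hY => ?_⟩
    obtain ⟨g3, g4⟩ := on_pos h0 hω'
    exact hF2 ω' g4 g3 hY
  rcases hp1.eq_or_lt with h3 | h3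
  · have h4 : on Q E = Q := by
      refine law_ext fun ω => ?_
      rw [on_w h0, h3, div_one]
      split_ifs with hE
      · rfl
      · have h5 : prE Q (fun ω => ¬ E ω) = 0 := by rw [prE_not, h3, sub_self]
        exact (rare_aux Q (fun ω => ¬ E ω) h5 hE).symm
    rw [h4] at hon
    rw [h3, one_mul]
    linarith
  · have h4 := hc_le_on Q E h0 h3 X Y
    have h5 : hc (on Q fun ω => ¬ E ω) X Y ≤ R0 := by
      refine h2 _ fun ω hω => ?_
      rw [on_w (by rw [prE_not]; linarith), hω, zero_div, ite_self]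
    have h6 : prE Q E * hc (on Q E) X Y ≤ prE Q E * Real.log N :=
      mul_le_mul_of_nonneg_left hon h0.le
    have h7 : (1 - prE Q E) * hc (on Q fun ω => ¬ E ω) X Y ≤ (1 - prE Q E) * R0 :=
      mul_le_mul_of_nonneg_left h5 (by linarith)
    linarith

/-- lower bound for an entropy under conditioning on an event -/
theorem le_hc_on {Ω : Type} [Fintype Ω] {S T : Type*} (Q : Law Ω) (E : Ω → Prop) (p : ℝ)
    (hp : 0 < p) (hE : p ≤ prE Q E) (X : Ω → S) (Y : Ω → T) (R0 : ℝ)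
    (h2 : ∀ R : Law Ω, (∀ ω, Q.w ω = 0 → R.w ω = 0) → hc R X Y ≤ R0) :
    R0 - 2 / p * (R0 - hc Q X Y + Real.log 2) ≤ hc (on Q E) X Y := by
  have hl2 : 0 ≤ Real.log 2 := Real.log_nonneg (by norm_num)
  have hQ := h2 Q fun _ h => h
  have h0 : 0 < prE Q E := hp.trans_le hE
  have hp1 := prE_le_one Q E
  have hx : 0 ≤ R0 - hc Q X Y + Real.log 2 := by linarith
  have h1p : 1 ≤ 1 / p := by
    rw [le_div_iff₀ hp]
    linarith
  have e1 : 2 / p * (R0 - hc Q X Y + Real.log 2) =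
      1 / p * (R0 - hc Q X Y + Real.log 2) + 1 / p * (R0 - hc Q X Y + Real.log 2) := by ring
  have e2 : 0 ≤ 1 / p * (R0 - hc Q X Y + Real.log 2) := by positivity
  rcases hp1.eq_or_lt with h3 | h3
  · have h4 : on Q E = Q := by
      refine law_ext fun ω => ?_
      rw [on_w h0, h3, div_one]
      split_ifs with hE
      · rfl
      · have h5 : prE Q (fun ω => ¬ E ω) = 0 := by rw [prE_not, h3, sub_self]
        exact (rare_aux Q (fun ω => ¬ E ω) h5 hE).symm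
    have e3 : 1 * (R0 - hc Q X Y + Real.log 2) ≤ 1 / p * (R0 - hc Q X Y + Real.log 2) :=
      mul_le_mul_of_nonneg_right h1p hx
    rw [h4, e1]
    linarith
  · have h4 := hc_le_on Q E h0 h3 X Y
    have h5 : hc (on Q fun ω => ¬ E ω) X Y ≤ R0 := by
      refine h2 _ fun ω hω => ?_
      rw [on_w (by rw [prE_not]; linarith), hω, zero_div, ite_self]
    have h7 : (1 - prE Q E) * hc (on Q fun ω => ¬ E ω) X Y ≤ (1 - prE Q E) * R0 :=
      mul_le_mul_of_nonneg_left h5 (by linarith)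
    have h8 : prE Q E * (R0 - hc (on Q E) X Y) ≤ R0 - hc Q X Y + Real.log 2 := by linarith
    have h9 : R0 - hc (on Q E) X Y ≤ 1 / p * (R0 - hc Q X Y + Real.log 2) := by
      rw [one_div, inv_mul_eq_div, le_div_iff₀ hp]
      rcases le_total 0 (R0 - hc (on Q E) X Y) with h10 | h10
      · have := mul_le_mul_of_nonneg_right hE h10
        linarith
      · have := mul_nonneg_of_nonpos_of_nonpos h10 (neg_nonpos.2 hp.le)
        linarith
    rw [e1]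
    linarith


/-- digits recover the number up to one unit -/
theorem so_dig_aux (s : ℕ) (x : ℝ) : |x - (1 / 2 : ℝ) ^ s * (⌊(2 : ℝ) ^ s * x⌋ : ℤ)| ≤
    (1 / 2 : ℝ) ^ s := by
  have h2 : (0 : ℝ) < (1 / 2 : ℝ) ^ s := by positivity
  have h3 : (1 / 2 : ℝ) ^ s * (2 : ℝ) ^ s = 1 := by
    rw [← mul_pow]
    norm_num
  have h4 := Int.floor_le ((2 : ℝ) ^ s * x)
  have h5 := (Int.lt_floor_add_one ((2 : ℝ) ^ s * x)).le
  have h6 : x - (1 / 2 : ℝ) ^ s * (⌊(2 : ℝ) ^ s * x⌋ : ℤ) =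
      (1 / 2 : ℝ) ^ s * ((2 : ℝ) ^ s * x - (⌊(2 : ℝ) ^ s * x⌋ : ℤ)) := by
    rw [mul_sub, ← mul_assoc, h3, one_mul]
  rw [h6, abs_mul, abs_of_pos h2]
  have h7 : |(2 : ℝ) ^ s * x - (⌊(2 : ℝ) ^ s * x⌋ : ℤ)| ≤ 1 := by
    rw [abs_le]
    constructor <;> linarith
  calc (1 / 2 : ℝ) ^ s * |(2 : ℝ) ^ s * x - (⌊(2 : ℝ) ^ s * x⌋ : ℤ)| ≤ (1 / 2 : ℝ) ^ s * 1 :=
        mul_le_mul_of_nonneg_left h7 h2.le
    _ = _ := mul_one _

/-- if the vector `V` is within `N 2^{-s}` of a function `u` of `Z`, its digits are cheap given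
`Z` -/
theorem so_cheap_aux {Ω : Type} [Fintype Ω] {ι : Type} [Fintype ι] {T : Type*} (P : Law Ω)
    {s : ℕ} (N : ℕ) (V u : Ω → ι → ℝ) (Z : Ω → T) (hu : Fn P u Z)
    (h : ∀ ω, 0 < P.w ω → ∀ i, |V ω i - u ω i| ≤ N * (1 / 2 : ℝ) ^ s) :
    hc P (fun ω => fl s (V ω)) Z ≤ Fintype.card ι * Real.log (2 * N + 3) := by
  refine le_trans (hc_mono_right P (fun ω => fl s (V ω)) (Y := fun ω => (fl s (u ω), Z ω)) ?_)
    (hc_fl_close P N V u Z h)
  intro ω ω' h1 h2 he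
  simp only [Prod.mk.injEq]
  exact ⟨by rw [hu ω ω' h1 h2 he], he⟩

/-- straight displacement -/
theorem straight (m C0 : ℕ) : ∃ K : ℝ, ∀ {Ω : Type} [Fintype Ω] {τ : Type} (Q : Law Ω)
    (S : Ω → τ) (X X' w v : Ω → Fin m → ℝ) (μ : Ω → ℝ) (r s : ℕ) (i0 : Fin m),
    r ≤ s → Fn Q w S → Fn Q v S →
    (∀ ω, 0 < Q.w ω → v ω i0 = 1) → (∀ ω, 0 < Q.w ω → ∀ i, |v ω i| ≤ 1) →
    (∀ ω, 0 < Q.w ω → ∀ i, |X' ω i - (X ω i + w ω i + μ ω * v ω i)| ≤ C0 * (1 / 2 : ℝ) ^ s) →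
    (∀ ω, 0 < Q.w ω → |μ ω| ≤ C0 * (1 / 2 : ℝ) ^ r) →
    hc Q (fun ω => fl s (fun i => X ω i - X ω i0 * v ω i)) (fun ω => (fl r (X ω), S ω)) +
        hc Q (fun ω => fl s (X' ω)) (fun ω => (fl s (X ω), S ω)) ≤
      hc Q (fun ω => fl s (X' ω)) (fun ω => (fl r (X' ω), S ω)) + K := by
  refine ⟨(m : ℝ) * Real.log (2 * ((2 * (C0 + 1) : ℕ) : ℝ) + 3) +
    2 * ((m : ℝ) * Real.log (2 * ((2 * C0 + 1 : ℕ) : ℝ) + 3)) +
    (m : ℝ) * Real.log (2 * ((2 : ℕ) : ℝ) + 3), ?_⟩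
  intro Ω _ τ Q S X X' w v μ r s i0 hrs hw hv hv1 hvb hX hμ
  -- the cheap variables
  have hP1 : hc Q (fun ω => fl s (fun i => X ω i - X ω i0 * v ω i))
      (fun ω => (fl s (X' ω), S ω)) ≤
      (m : ℝ) * Real.log (2 * ((2 * (C0 + 1) : ℕ) : ℝ) + 3) := by
    have := so_cheap_aux Q (s := s) (2 * (C0 + 1))
      (fun ω i => X ω i - X ω i0 * v ω i)
      (fun ω i => ((1 / 2 : ℝ) ^ s * (fl s (X' ω) i : ℤ) - w ω i) -
        ((1 / 2 : ℝ) ^ s * (fl s (X' ω) i0 : ℤ) - w ω i0) * v ω i)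
      (fun ω => (fl s (X' ω), S ω)) ?_ ?_
    · simpa using this
    · intro ω ω' h1 h2 he
      simp only [Prod.mk.injEq] at he
      have e1 := hw ω ω' h1 h2 he.2
      have e2 := hv ω ω' h1 h2 he.2
      simp only [he.1, e1, e2]
    · intro ω hω i
      have a1 := so_dig_aux s (X' ω i)
      have a2 := so_dig_aux s (X' ω i0)
      have a3 := hX ω hω i
      have a4 := hX ω hω i0
      have a5 := hvb ω hω i
      have a6 := hv1 ω hω
      simp only [fl]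
      set p := (1 / 2 : ℝ) ^ s
      set b1 := p * ((⌊(2 : ℝ) ^ s * X' ω i⌋ : ℤ) : ℝ)
      set b2 := p * ((⌊(2 : ℝ) ^ s * X' ω i0⌋ : ℤ) : ℝ)
      have e1 : |b1 - (X ω i + w ω i + μ ω * v ω i)| ≤ (C0 + 1) * p := by
        have := abs_sub_le b1 (X' ω i) (X ω i + w ω i + μ ω * v ω i)
        rw [abs_sub_comm b1 (X' ω i)] at this
        linarith
      have e2 : |b2 - (X ω i0 + w ω i0 + μ ω * v ω i0)| ≤ (C0 + 1) * p := by
        have := abs_sub_le b2 (X' ω i0) (X ω i0 + w ω i0 + μ ω * v ω i0)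
        rw [abs_sub_comm b2 (X' ω i0)] at this
        linarith
      have e3 : X ω i - X ω i0 * v ω i - (b1 - w ω i - (b2 - w ω i0) * v ω i) =
          -(b1 - (X ω i + w ω i + μ ω * v ω i)) +
            (b2 - (X ω i0 + w ω i0 + μ ω * v ω i0)) * v ω i := by
        rw [a6]
        ring
      rw [e3]
      have e4 := abs_add_le (-(b1 - (X ω i + w ω i + μ ω * v ω i)))
        ((b2 - (X ω i0 + w ω i0 + μ ω * v ω i0)) * v ω i)
      rw [abs_neg, abs_mul] at e4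
      have e5 : |b2 - (X ω i0 + w ω i0 + μ ω * v ω i0)| * |v ω i| ≤
          |b2 - (X ω i0 + w ω i0 + μ ω * v ω i0)| * 1 :=
        mul_le_mul_of_nonneg_left a5 (abs_nonneg _)
      push_cast
      linarith
  have hP2 : hc Q (fun ω => fl r (X' ω)) (fun ω => (fl r (X ω), S ω)) ≤
      (m : ℝ) * Real.log (2 * ((2 * C0 + 1 : ℕ) : ℝ) + 3) := by
    have := so_cheap_aux Q (s := r) (2 * C0 + 1)
      (fun ω => X' ω) (fun ω i => (1 / 2 : ℝ) ^ r * (fl r (X ω) i : ℤ) + w ω i)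
      (fun ω => (fl r (X ω), S ω)) ?_ ?_
    · simpa using this
    · intro ω ω' h1 h2 he
      simp only [Prod.mk.injEq] at he
      have e1 := hw ω ω' h1 h2 he.2
      simp only [he.1, e1]
    · intro ω hω i
      have a1 := so_dig_aux r (X ω i)
      have a3 := hX ω hω i
      have a5 := hvb ω hω i
      have a6 := hμ ω hω
      have a7 : (1 / 2 : ℝ) ^ s ≤ (1 / 2 : ℝ) ^ r :=
        pow_le_pow_of_le_one (by norm_num) (by norm_num) hrs
      simp only [fl]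
      set p := (1 / 2 : ℝ) ^ r
      set p' := (1 / 2 : ℝ) ^ s
      set b := p * ((⌊(2 : ℝ) ^ r * X ω i⌋ : ℤ) : ℝ)
      have hC : (0 : ℝ) ≤ C0 := Nat.cast_nonneg _
      have a8 : (C0 : ℝ) * p' ≤ C0 * p := mul_le_mul_of_nonneg_left a7 hC
      have a9 : |μ ω * v ω i| ≤ C0 * p := by
        rw [abs_mul]
        calc |μ ω| * |v ω i| ≤ |μ ω| * 1 := mul_le_mul_of_nonneg_left a5 (abs_nonneg _)
          _ ≤ C0 * p := by linarith
      have e3 : X' ω i - (b + w ω i) =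
          (X' ω i - (X ω i + w ω i + μ ω * v ω i)) + (X ω i - b) + μ ω * v ω i := by ring
      rw [e3]
      have e4 := abs_add_three (X' ω i - (X ω i + w ω i + μ ω * v ω i)) (X ω i - b)
        (μ ω * v ω i)
      push_cast
      linarith
  have hP3 : hc Q (fun ω => fl s (fun i => X ω i - X ω i0 * v ω i))
      (fun ω => (fl s (X ω), S ω)) ≤ (m : ℝ) * Real.log (2 * ((2 : ℕ) : ℝ) + 3) := by
    have := so_cheap_aux Q (s := s) 2
      (fun ω i => X ω i - X ω i0 * v ω i)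
      (fun ω i => (1 / 2 : ℝ) ^ s * (fl s (X ω) i : ℤ) -
        ((1 / 2 : ℝ) ^ s * (fl s (X ω) i0 : ℤ)) * v ω i)
      (fun ω => (fl s (X ω), S ω)) ?_ ?_
    · simpa using this
    · intro ω ω' h1 h2 he
      simp only [Prod.mk.injEq] at he
      have e2 := hv ω ω' h1 h2 he.2
      simp only [he.1, e2]
    · intro ω hω i
      have a1 := so_dig_aux s (X ω i)
      have a2 := so_dig_aux s (X ω i0)
      have a5 := hvb ω hω i
      simp only [fl]
      set p := (1 / 2 : ℝ) ^ s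
      set b1 := p * ((⌊(2 : ℝ) ^ s * X ω i⌋ : ℤ) : ℝ)
      set b2 := p * ((⌊(2 : ℝ) ^ s * X ω i0⌋ : ℤ) : ℝ)
      have e3 : X ω i - X ω i0 * v ω i - (b1 - b2 * v ω i) =
          (X ω i - b1) + (-((X ω i0 - b2) * v ω i)) := by ring
      rw [e3]
      have e4 := abs_add_le (X ω i - b1) (-((X ω i0 - b2) * v ω i))
      rw [abs_neg, abs_mul] at e4
      have e5 : |X ω i0 - b2| * |v ω i| ≤ |X ω i0 - b2| * 1 :=
        mul_le_mul_of_nonneg_left a5 (abs_nonneg _)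
      push_cast
      linarith
  -- entropy bookkeeping
  set Pv : Ω → Fin m → ℤ := fun ω => fl s (fun i => X ω i - X ω i0 * v ω i) with hP
  set A : Ω → Fin m → ℤ := fun ω => fl s (X' ω) with hA
  set B : Ω → Fin m → ℤ := fun ω => fl r (X' ω) with hB
  set C : Ω → Fin m → ℤ := fun ω => fl r (X ω) with hC
  set D : Ω → Fin m → ℤ := fun ω => fl s (X ω) with hD
  have hCD : ∀ ω ω', D ω = D ω' → C ω = C ω' := fun ω ω' h => fl_of_fl hrs _ _ h
  have c1 : hc Q A (fun ω => (B ω, C ω, S ω)) ≤ hc Q A (fun ω => (B ω, S ω)) := by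
    refine hc_mono_right Q A ?_
    intro ω ω' _ _ he
    simp only [Prod.mk.injEq] at he ⊢
    exact ⟨he.1, he.2.2⟩
  have c2 := hc_pair Q A Pv (fun ω => (B ω, C ω, S ω))
  have c3 := hc_pair Q Pv A (fun ω => (B ω, C ω, S ω))
  have c4 : hc Q (fun ω => (A ω, Pv ω)) (fun ω => (B ω, C ω, S ω)) =
      hc Q (fun ω => (Pv ω, A ω)) (fun ω => (B ω, C ω, S ω)) := by
    refine hc_congr Q ?_ ?_ ?_ ?_
    · intro ω ω' _ _ he
      simp only [Prod.mk.injEq] at he ⊢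
      exact ⟨he.1.2, he.1.1⟩
    · intro ω ω' _ _ he
      simp only [Prod.mk.injEq] at he ⊢
      exact ⟨he.1.2, he.1.1⟩
    · intro ω ω' _ _ he
      exact he
    · intro ω ω' _ _ he
      exact he
  have c5 : hc Q Pv (fun ω => (A ω, B ω, C ω, S ω)) ≤ hc Q Pv (fun ω => (A ω, S ω)) := by
    refine hc_mono_right Q Pv ?_
    intro ω ω' _ _ he
    simp only [Prod.mk.injEq] at he ⊢
    exact ⟨he.1, he.2.2.2⟩
  have c6 := hc_le_add' Q Pv B (fun ω => (C ω, S ω))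
  have c7 := hc_le_add' Q A (fun ω => (Pv ω, B ω)) (fun ω => (D ω, S ω))
  have c8 : hc Q A (fun ω => ((Pv ω, B ω), (D ω, S ω))) ≤
      hc Q A (fun ω => (Pv ω, (B ω, C ω, S ω))) := by
    refine hc_mono_right Q A ?_
    intro ω ω' _ _ he
    simp only [Prod.mk.injEq] at he ⊢
    exact ⟨he.1.1, he.1.2, hCD _ _ he.2.1, he.2.2⟩
  have c9 := hc_pair Q Pv B (fun ω => (D ω, S ω))
  have c10 : hc Q B (fun ω => (Pv ω, D ω, S ω)) ≤ hc Q B (fun ω => (C ω, S ω)) := by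
    refine hc_mono_right Q B ?_
    intro ω ω' _ _ he
    simp only [Prod.mk.injEq] at he ⊢
    exact ⟨hCD _ _ he.2.1, he.2.2⟩
  linarith

/-- the displacement along a line of known slope determines the time -/
theorem time_le (m C0 : ℕ) : ∃ K : ℝ, ∀ {Ω : Type} [Fintype Ω] {τ : Type} (Q : Law Ω)
    (S : Ω → τ) (X X' w : Ω → Fin m → ℝ) (u u1 lam : Ω → ℝ) (s j B' : ℕ) (i0 : Fin m),
    Fn Q w S → Fn Q lam S → Fn Q u1 S → j + B' ≤ s →
    (∀ ω, 0 < Q.w ω → |X' ω i0 - (X ω i0 + w ω i0 + (u ω - u1 ω) * lam ω)| ≤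
      C0 * (1 / 2 : ℝ) ^ s) →
    (∀ ω, 0 < Q.w ω → (1 / 2 : ℝ) ^ B' ≤ |lam ω|) →
    hc Q (fun ω => fl1 j (u ω)) (fun ω => (fl s (X ω), S ω)) ≤
      hc Q (fun ω => fl s (X' ω)) (fun ω => (fl s (X ω), S ω)) + K := by
  refine ⟨Real.log (2 * ((C0 + 2 : ℕ) : ℝ) + 3), ?_⟩
  intro Ω _ τ Q S X X' w u u1 lam s j B' i0 hw hlam hu1 hjs hX hlam2
  have h1 := hc_le_add' Q (fun ω => fl1 j (u ω)) (fun ω => fl s (X' ω))
    (fun ω => (fl s (X ω), S ω))
  have h2 : hc Q (fun ω => fl1 j (u ω)) (fun ω => (fl s (X' ω), fl s (X ω), S ω)) ≤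
      hc Q (fun ω => fl (ι := Unit) j (fun _ => u ω))
        (fun ω => (fl s (X' ω), fl s (X ω), S ω)) := by
    refine hc_mono_left Q ?_
    intro ω ω' _ _ he
    simp only [Prod.mk.injEq] at he
    have := congrFun he.1 ()
    simpa [fl, fl1] using this
  have h3 := so_cheap_aux Q (s := j) (ι := Unit) (C0 + 2) (fun ω _ => u ω)
    (fun ω _ => u1 ω + ((1 / 2 : ℝ) ^ s * (fl s (X' ω) i0 : ℤ) -
      (1 / 2 : ℝ) ^ s * (fl s (X ω) i0 : ℤ) - w ω i0) / lam ω)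
    (fun ω => (fl s (X' ω), fl s (X ω), S ω)) ?_ ?_
  · simp only [Fintype.card_unit, Nat.cast_one, one_mul] at h3
    linarith
  · intro ω ω' g1 g2 he
    simp only [Prod.mk.injEq] at he
    have e1 := hw ω ω' g1 g2 he.2.2
    have e2 := hlam ω ω' g1 g2 he.2.2
    have e3 := hu1 ω ω' g1 g2 he.2.2
    simp only [he.1, he.2.1, e1, e2, e3]
  · intro ω hω _
    have a1 := so_dig_aux s (X' ω i0)
    have a2 := so_dig_aux s (X ω i0)
    have a3 := hX ω hω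
    have a4 := hlam2 ω hω
    simp only [fl]
    have hB0 : (0 : ℝ) < (1 / 2 : ℝ) ^ B' := by positivity
    have hl0 : 0 < |lam ω| := hB0.trans_le a4
    have hl1 : lam ω ≠ 0 := abs_pos.1 hl0
    have a5 : (1 / 2 : ℝ) ^ s ≤ (1 / 2 : ℝ) ^ j * (1 / 2 : ℝ) ^ B' := by
      rw [← pow_add]
      exact pow_le_pow_of_le_one (by norm_num) (by norm_num) hjs
    set p := (1 / 2 : ℝ) ^ s
    set b1 := p * ((⌊(2 : ℝ) ^ s * X' ω i0⌋ : ℤ) : ℝ)
    set b2 := p * ((⌊(2 : ℝ) ^ s * X ω i0⌋ : ℤ) : ℝ)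
    have e3 : u ω - (u1 ω + (b1 - b2 - w ω i0) / lam ω) =
        (-(X' ω i0 - (X ω i0 + w ω i0 + (u ω - u1 ω) * lam ω)) + (X' ω i0 - b1) +
          (-(X ω i0 - b2))) / lam ω := by
      field_simp
      ring
    rw [e3, abs_div, div_le_iff₀ hl0]
    have e4 := abs_add_three (-(X' ω i0 - (X ω i0 + w ω i0 + (u ω - u1 ω) * lam ω)))
      (X' ω i0 - b1) (-(X ω i0 - b2))
    rw [abs_neg, abs_neg] at e4
    have hC : (0 : ℝ) ≤ C0 := Nat.cast_nonneg _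
    have e5 : ((C0 : ℝ) + 2) * p ≤ (C0 + 2) * ((1 / 2 : ℝ) ^ j * |lam ω|) := by
      refine mul_le_mul_of_nonneg_left (a5.trans ?_) (by linarith)
      exact mul_le_mul_of_nonneg_left a4 (by positivity)
    push_cast
    nlinarith

end Vale.Agent.P127.Stk.R
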