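import Vale.Agent.P127.Stk.StepRFam
import Vale.Agent.P127.Stk.StepRCore
import Vale.Agent.P127.Stk.StepRGlue
import Vale.Agent.P127.Stk.Kill

/-!
# P127 / Stk / StepR : section 9 at a fixed scale
-/

namespace Vale.Agent.P127.Stk.R

open Finset Polynomial Vale.Agent.P127

/-- the killing hypothesis of `coreR` for the glued pair -/
theorem killR (m κ k : ℕ) : ∃ K1 : ℝ, 0 ≤ K1 ∧ ∀ (h e1 δk p0 : ℝ) (a L n s : ℕ)
    (Ω : Type) [Fintype Ω] (P : Law Ω) (c : Cf Ω m) (o : Ob Ω m κ) (Q1 : Law (Fin (k + 3) → Ω))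
    (Ω' : Type) [Fintype Ω'] (Q' : Law Ω') (π π' : Ω' → (Fin (k + 3) → Ω)) (η : ℝ),
    0 < p0 → s ≤ L →
    (∀ ω, 0 ≤ c.t ω ∧ c.t ω < 1) →
    (∀ w, 0 < Q1.w w → Sup c a w) → (∀ w, Q'.pr π w = Q1.w w) →
    Dom Q1 (fun w => w 1) P 2 →
    mi Q1 (vl c) (vT c o) (fun w => c.A (w 0)) ≤ e1 →
    mi Q' (fun ω => vl c (π ω)) (fun ω => vq c n (π' ω))
      (fun ω => (vq c n (π ω), vB c o (π ω), vA c o n (π ω))) ≤ e1 →
    -- the killing lemma for `P`, `c`, `o`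
    (∀ (Ω₂ : Type) [Fintype Ω₂] (Q : Law Ω₂) (ρ : Ω₂ → Ω), Dom Q ρ P (2 / p0) →
      ∀ (σ : Type) (D : Ω₂ → σ) (r r' : ℕ) (v : Ω₂ → Fin m → ℝ) (i0 : Fin m),
        r ≤ r' → r' ≤ L → η * L ≤ (r' : ℝ) - r → i0 ∉ o.J →
        Fn Q (fun ω => o.Γ (ρ ω)) D → Fn Q v D →
        (∀ ω, 0 < Q.w ω → (∀ j ∈ o.J, v ω j = 0) ∧ v ω i0 = 1 ∧ ∀ i, |v ω i| ≤ 1) →
        mi Q (fun ω => (c.x (ρ ω), c.y (ρ ω))) D
          (fun ω => (c.t (ρ ω), c.A (ρ ω), fl r (c.x (ρ ω)), fl r (c.y (ρ ω)))) ≤ δk * L →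
        (h - κ - 1) * ((r' : ℝ) - r) * Real.log 2 + δk * L <
          hc Q (fun ω => fl r' (fun i => o.F c (ρ ω) i - o.F c (ρ ω) i0 * v ω i))
            (fun ω => ((fl r (c.x (ρ ω)), fl r (c.y (ρ ω))), c.t (ρ ω), D ω, c.A (ρ ω)))) →
    1 / p0 * (2 * e1 + K1 + Real.log 2) ≤ δk * L → K1 ≤ δk / 2 * L → 0 ≤ η →
    ∀ E : Ω' → Prop, p0 ≤ prE Q' E → ∀ r j : ℕ, n ≤ r → η * L ≤ (s : ℝ) - r →
      ∀ i0 ∉ o.J, ∀ v : Ω' → Fin m → ℝ,
        Fn (on Q' E) v (fun ω => ((vA c o n (π ω), vq c n (π ω), vq c n (π' ω)),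
          fl1 j (vu c a (π ω)))) →
        (∀ ω, 0 < (on Q' E).w ω → v ω i0 = 1) →
        (∀ ω, 0 < (on Q' E).w ω → ∀ i ∈ o.J, v ω i = 0) →
        (∀ ω, 0 < (on Q' E).w ω → ∀ i, |v ω i| ≤ 1) →
        (h - κ - 1) * ((s : ℝ) - r) * Real.log 2 + δk / 2 * L <
          hc (on Q' E) (fun ω => fl s (fun i => o.F c (π ω 1) i - o.F c (π ω 1) i0 * v ω i))
            (fun ω => (fl r (o.F c (π ω 1)), (vA c o n (π ω), vq c n (π ω), vq c n (π' ω)),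
              fl1 j (vu c a (π ω)))) := by
  obtain ⟨K1, hK1, hcost⟩ := cost_D m κ k
  refine ⟨K1 + klc m (1 + 2 * (1 + κ * 3 ^ κ)), by
    have := klc_nonneg (m := m) (B := 1 + 2 * (1 + (κ : ℝ) * 3 ^ κ)) (by positivity)
    positivity, ?_⟩
  have hk0 := klc_nonneg (m := m) (B := 1 + 2 * (1 + (κ : ℝ) * 3 ^ κ)) (by positivity)
  intro h e1 δk p0 a L n s Ω _ P c o Q1 Ω' _ Q' π π' η hp0 hsL ht hSup hπ hD1 hc1 hc2 hkill hn1
    hn2 hη E hE r j hnr hrs i0 hi0 v hv hv1 hvJ hvb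
  have hrs' : r ≤ s := by
    have : 0 ≤ η * L := by positivity
    have h2 : (r : ℝ) ≤ s := by linarith
    exact_mod_cast h2
  have hDπ : Dom Q' π Q1 1 := fun w => by rw [hπ, one_mul]
  have hDE : Dom (on Q' E) id Q' (1 / p0) := Dom.on hp0 hE
  have hDom : Dom (on Q' E) (fun ω => π ω 1) P (2 / p0) := by
    have h1 := hDE.comp (hDπ.comp hD1)
    have h2 : 1 / p0 * (1 * 2) = 2 / p0 := by ring
    rw [h2] at h1
    exact h1
  have hE0 : 0 < prE Q' E := lt_of_lt_of_le hp0 hE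
  have hsup' : ∀ ω, 0 < (on Q' E).w ω → Sup c a (π ω) := by
    intro ω hω
    exact hSup _ (hDπ.pos (on_pos hE0 hω).2)
  have hΓ : Fn (on Q' E) (fun ω => o.Γ (π ω 1))
      (fun ω => ((vA c o n (π ω), vq c n (π ω), vq c n (π' ω)), fl1 j (vu c a (π ω)))) := by
    intro ω ω' _ _ he
    have h1 : vA c o n (π ω) = vA c o n (π ω') := congrArg (fun z => z.1.1) he
    exact o.fn _ _ (congrArg (fun z => z.2.2.1.2) h1)
  have hmi : mi (on Q' E) (fun ω => (c.x (π ω 1), c.y (π ω 1)))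
      (fun ω => ((vA c o n (π ω), vq c n (π ω), vq c n (π' ω)), fl1 j (vu c a (π ω))))
      (fun ω => (c.t (π ω 1), c.A (π ω 1), fl r (c.x (π ω 1)), fl r (c.y (π ω 1)))) ≤ δk * L := by
    have h1 := hcost e1 a n r j Ω c o Q1 Ω' Q' π π' ht hnr hSup hπ hc1 hc2
    have h2 := hDE.mi_le (fun ω => (c.x (π ω 1), c.y (π ω 1)))
      (fun ω => ((vA c o n (π ω), vq c n (π ω), vq c n (π' ω)), fl1 j (vu c a (π ω))))
      (fun ω => (c.t (π ω 1), c.A (π ω 1), fl r (c.x (π ω 1)), fl r (c.y (π ω 1))))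
    refine h2.trans (le_trans ?_ hn1)
    refine mul_le_mul_of_nonneg_left ?_ (by positivity)
    linarith
  have hk := hkill Ω' (on Q' E) (fun ω => π ω 1) hDom _
    (fun ω => ((vA c o n (π ω), vq c n (π ω), vq c n (π' ω)), fl1 j (vu c a (π ω)))) r s v i0
    hrs' hsL hrs hi0 hΓ hv (fun ω hω => ⟨hvJ ω hω, hv1 ω hω, hvb ω hω⟩) hmi
  -- replace the cell by the digits of the projected point
  have h3 : hc (on Q' E) (fun ω => fl s (fun i => o.F c (π ω 1) i - o.F c (π ω 1) i0 * v ω i))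
      (fun ω => ((fl r (c.x (π ω 1)), fl r (c.y (π ω 1))), c.t (π ω 1),
        ((vA c o n (π ω), vq c n (π ω), vq c n (π' ω)), fl1 j (vu c a (π ω))), c.A (π ω 1))) ≤
      hc (on Q' E) (fun ω => fl s (fun i => o.F c (π ω 1) i - o.F c (π ω 1) i0 * v ω i))
        (fun ω => (fl r (o.F c (π ω 1)), (vA c o n (π ω), vq c n (π ω), vq c n (π' ω)),
              fl1 j (vu c a (π ω)))) + klc m (1 + 2 * (1 + κ * 3 ^ κ)) := by
    have h4 := hc_le_add' (on Q' E)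
      (fun ω => fl s (fun i => o.F c (π ω 1) i - o.F c (π ω 1) i0 * v ω i))
      (fun ω => fl r (o.F c (π ω 1)))
      (fun ω => ((fl r (c.x (π ω 1)), fl r (c.y (π ω 1))), c.t (π ω 1),
        ((vA c o n (π ω), vq c n (π ω), vq c n (π' ω)), fl1 j (vu c a (π ω))), c.A (π ω 1)))
    have h5 := kl_cell (on Q' E) c o (fun ω => π ω 1)
      (fun ω => ((vA c o n (π ω), vq c n (π ω), vq c n (π' ω)), fl1 j (vu c a (π ω)))) r ht hΓ
    have h6 : hc (on Q' E)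
        (fun ω => fl s (fun i => o.F c (π ω 1) i - o.F c (π ω 1) i0 * v ω i))
        (fun ω => (fl r (o.F c (π ω 1)), ((fl r (c.x (π ω 1)), fl r (c.y (π ω 1))), c.t (π ω 1),
          ((vA c o n (π ω), vq c n (π ω), vq c n (π' ω)), fl1 j (vu c a (π ω))),
          c.A (π ω 1)))) ≤
        hc (on Q' E) (fun ω => fl s (fun i => o.F c (π ω 1) i - o.F c (π ω 1) i0 * v ω i))
          (fun ω => (fl r (o.F c (π ω 1)), (vA c o n (π ω), vq c n (π ω), vq c n (π' ω)),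
              fl1 j (vu c a (π ω)))) := by
      refine hc_mono_right _ _ fun ω ω' _ _ he => ?_
      have e1 := congrArg Prod.fst he
      have e2 := congrArg (fun z => z.2.2.2.1) he
      exact Prod.ext e1 e2
    linarith
  linarith

/-- the conclusion of `coreR` at a fixed scale, as a proposition -/
def CoreAt (m D C0 : ℕ) (ε1 p δ p0 ε2 : ℝ) (L n s : ℕ) : Prop :=
  ∀ (Ω : Type) [Fintype Ω] (Q : Law Ω) (τ : Type) (σ : Ω → τ) (f : ℝ) (J : Finset (Fin m))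
    (u : Ω → ℝ) (X X' : Ω → Fin m → ℝ) (pol : Ω → Fin m → ℝ[X]),
    (∀ ω, 0 < Q.w ω → 0 ≤ u ω ∧ u ω < 1) →
    Fn Q pol σ →
    (∀ ω, 0 < Q.w ω → ∀ i, (pol ω i).natDegree ≤ D) →
    (∀ ω, 0 < Q.w ω → ∀ i ∈ J, pol ω i = 0) →
    (∀ ω, 0 < Q.w ω → ∃ v : ℝ, 0 ≤ v ∧ v ≤ 1 ∧ ∀ i, (pol ω i).eval v = 0) →
    (∀ ω, 0 < Q.w ω → fl n (X ω) = fl n (X' ω)) →
    (∀ ω, 0 < Q.w ω → ∀ i,
      |X' ω i - X ω i + (pol ω i).eval (u ω)| ≤ C0 * (1 / 2 : ℝ) ^ s) →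
    (∀ E : Ω → Prop, p0 ≤ prE Q E → ∀ r : ℕ, n ≤ r → r ≤ s →
      hc (on Q E) (fun ω => fl s (X' ω)) (fun ω => (fl r (X' ω), σ ω)) ≤
        f * ((s : ℝ) - r) * Real.log 2 + ε2 * L) →
    (∀ j : ℕ, (j : ℝ) ≤ (s : ℝ) - n + ε1 * L →
      (j : ℝ) * Real.log 2 - ε2 * L ≤
        hc Q (fun ω => fl1 j (u ω)) (fun ω => (fl s (X ω), σ ω))) →
    (∀ E : Ω → Prop, p0 ≤ prE Q E → ∀ r j : ℕ, n ≤ r → ε1 / 8 * L ≤ (s : ℝ) - r →
      ∀ i0 ∉ J, ∀ v : Ω → Fin m → ℝ, Fn (on Q E) v (fun ω => (σ ω, fl1 j (u ω))) →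
        (∀ ω, 0 < (on Q E).w ω → v ω i0 = 1) →
        (∀ ω, 0 < (on Q E).w ω → ∀ i ∈ J, v ω i = 0) →
        (∀ ω, 0 < (on Q E).w ω → ∀ i, |v ω i| ≤ 1) →
        (f - 1) * ((s : ℝ) - r) * Real.log 2 + δ * L <
          hc (on Q E) (fun ω => fl s (fun i => X ω i - X ω i0 * v ω i))
            (fun ω => (fl r (X ω), σ ω, fl1 j (u ω)))) →
    prE Q (fun ω => ∃ i, (2 : ℝ) ^ (-(s : ℝ) + ε1 * L) < pn (pol ω i)) ≤ p

/-- section 9 at a fixed scale -/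
theorem scaleR (m κ k : ℕ) : ∃ (C0 : ℕ) (K1 : ℝ), 0 ≤ K1 ∧
    ∀ (h e δk p0 ε1 ε2 p η1 η2 : ℝ) (a L n s : ℕ)
    (Ω : Type) [Fintype Ω] (P : Law Ω) (c : Cf Ω m) (o : Ob Ω m κ) (Q1 : Law (Fin (k + 3) → Ω)),
    0 < p0 → 0 ≤ ε1 → s ≤ L → n ≤ s → s ≤ n + a + 1 →
    η1 ≤ 2 * (1 / 2 : ℝ) ^ s → η2 * (1 / 2 : ℝ) ^ n ≤ 2 * (1 / 2 : ℝ) ^ s →
    (∀ ω i, 0 ≤ c.x ω i ∧ c.x ω i < 1) → (∀ ω i, 0 ≤ c.y ω i ∧ c.y ω i < 1) →
    (∀ ω, 0 ≤ c.t ω ∧ c.t ω < 1) →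
    (∀ w, 0 < Q1.w w → Sup c a w ∧ TE c o η1 η2 w) →
    Dom Q1 (fun w => w 1) P 2 →
    -- the inequalities for the family
    hc Q1 (vX c o s) (fun w => (vq c n w, vA c o n w)) ≤
        (h - κ) * ((s : ℝ) - n) * Real.log 2 + e →
    (h - κ) * ((s : ℝ) - n) * Real.log 2 - e ≤
      hc Q1 (vY c o s) (fun w => (vq c n w, vB c o w, vA c o n w)) →
    hc Q1 (vY c o s) (fun w => (vB c o w, vA c o n w)) ≤
        (h - κ) * ((s : ℝ) - n) * Real.log 2 + e →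
    mi Q1 (vq c n) (vB c o) (vA c o n) ≤ e →
    hc Q1 (vY c o s) (fun w => (vX c o s w, vq c n w, vB c o w, vA c o n w)) ≤ e →
    Fn Q1 (vY c o s) (fun w => (vl c w, vB c o w, vA c o n w)) →
    (∀ j : ℕ, a + j ≤ L → (j : ℝ) * Real.log 2 - e ≤
      hc Q1 (fun w => fl1 j (vu c a w)) (vA c o n)) →
    mi Q1 (vl c) (vT c o) (fun w => c.A (w 0)) ≤ e →
    -- the killing lemma for `P`, `c`, `o`
    (∀ (Ω₂ : Type) [Fintype Ω₂] (Q : Law Ω₂) (ρ : Ω₂ → Ω), Dom Q ρ P (2 / p0) →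
      ∀ (σ : Type) (D : Ω₂ → σ) (r r' : ℕ) (v : Ω₂ → Fin m → ℝ) (i0 : Fin m),
        r ≤ r' → r' ≤ L → ε1 / 8 * L ≤ (r' : ℝ) - r → i0 ∉ o.J →
        Fn Q (fun ω => o.Γ (ρ ω)) D → Fn Q v D →
        (∀ ω, 0 < Q.w ω → (∀ j ∈ o.J, v ω j = 0) ∧ v ω i0 = 1 ∧ ∀ i, |v ω i| ≤ 1) →
        mi Q (fun ω => (c.x (ρ ω), c.y (ρ ω))) D
          (fun ω => (c.t (ρ ω), c.A (ρ ω), fl r (c.x (ρ ω)), fl r (c.y (ρ ω)))) ≤ δk * L →
        (h - κ - 1) * ((r' : ℝ) - r) * Real.log 2 + δk * L <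
          hc Q (fun ω => fl r' (fun i => o.F c (ρ ω) i - o.F c (ρ ω) i0 * v ω i))
            (fun ω => ((fl r (c.x (ρ ω)), fl r (c.y (ρ ω))), c.t (ρ ω), D ω, c.A (ρ ω)))) →
    -- R3
    (∀ (Ω₂ : Type) [Fintype Ω₂] (Q : Law Ω₂) (ρ : Ω₂ → Ω), Dom Q ρ P (2 / p0) →
      ∀ r : ℕ, r ≤ s → hc Q (fun ω => fl s (o.F c (ρ ω)))
        (fun ω => (fl r (o.F c (ρ ω)), c.t (ρ ω), o.G (ρ ω), c.A (ρ ω))) ≤
          (h - κ) * ((s : ℝ) - r) * Real.log 2 + ε2 * L) →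
    CoreAt m (k + 1) C0 ε1 p (δk / 2) p0 ε2 L n s →
    1 / p0 * (8 * e + K1 + Real.log 2) ≤ δk * L → K1 ≤ δk / 2 * L → 13 * e ≤ ε2 * L →
    (a : ℝ) + s - n + ε1 * L ≤ L →
    hc Q1 (vX c o s) (fun w => (vY c o s w, vB c o w, vA c o n w)) ≤
      Real.log 2 + m * (ε1 * L * Real.log 2 + Real.log (2 * C0 + 7)) +
        p * (m * ((s : ℝ) - n) * Real.log 2) := by
  obtain ⟨C0, hC0⟩ := pair_pt m κ
  obtain ⟨K1, hK1, hkillR⟩ := killR m κ k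
  refine ⟨C0, K1, hK1, ?_⟩
  intro h e δk p0 ε1 ε2 p η1 η2 a L n s Ω _ P c o Q1 hp0 hε1 hsL hns hsna hη1 hη2 hx hy ht hsup
    hD1 f1 f2 f3 f4 f5 f6 f7 f8 hkill hR3 hcore n1 n2 n3 n4
  have he0 : 0 ≤ e := (mi_nonneg _ _ _ _).trans f4
  obtain ⟨Ω', inst, Q', π, π', g1, g2, g3, g4, g5, g6⟩ :=
    glue_two Q1 (vA c o n) (vB c o) (vY c o s) (vq c n) (vX c o s) (vl c)
      ((h - κ) * ((s : ℝ) - n) * Real.log 2) e f1 f2 f3 f4 f5 f6
  have hDπ : Dom Q' π Q1 1 := fun w => by rw [g1, one_mul]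
  have hDπ' : Dom Q' π' Q1 1 := fun w => by rw [g2, one_mul]
  have hsπ : ∀ ω, 0 < Q'.w ω → Sup c a (π ω) ∧ TE c o η1 η2 (π ω) := fun ω hω =>
    hsup _ (hDπ.pos hω)
  have hsπ' : ∀ ω, 0 < Q'.w ω → Sup c a (π' ω) ∧ TE c o η1 η2 (π' ω) := fun ω hω =>
    hsup _ (hDπ'.pos hω)
  have hfn : ∀ ω, fl n (o.F c (π ω 1)) = fl n (o.F c (π' ω 1)) := by
    intro ω
    exact (congrArg (fun z => z.2.2.2) (g3 ω).1).symm
  have hpt : ∀ ω, 0 < Q'.w ω → ∀ i, |o.F c (π' ω 1) i - o.F c (π ω 1) i +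
      (polW c o a n (π ω) (vq c n (π ω)) (vq c n (π' ω)) i).eval (vu c a (π ω))| ≤
        C0 * (1 / 2 : ℝ) ^ s := by
    intro ω hω
    exact hC0 c o a n s η1 η2 (π ω) (π' ω) hx hy ht hη1 hη2 hsna (hsπ ω hω).1 (hsπ' ω hω).1
      (hsπ ω hω).2 (g3 ω).1 (g3 ω).2.1 (g3 ω).2.2
  have hfrac : ∀ z : ℝ, 0 ≤ Int.fract z ∧ Int.fract z < 1 := fun z =>
    ⟨Int.fract_nonneg z, Int.fract_lt_one z⟩
  have hmain : prE Q' (fun ω => ∃ i, (2 : ℝ) ^ (-(s : ℝ) + ε1 * L) <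
      pn (polW c o a n (π ω) (vq c n (π ω)) (vq c n (π' ω)) i)) ≤ p := by
    refine hcore Ω' Q' _ (fun ω => (vA c o n (π ω), vq c n (π ω), vq c n (π' ω))) (h - κ) o.J
      (fun ω => vu c a (π ω)) (fun ω => o.F c (π ω 1)) (fun ω => o.F c (π' ω 1))
      (fun ω => polW c o a n (π ω) (vq c n (π ω)) (vq c n (π' ω))) ?_ ?_ ?_ ?_ ?_ ?_ ?_ ?_ ?_ ?_
    · intro ω _
      exact hfrac _
    · intro ω ω' _ _ hh
      have h1 := congrArg Prod.fst hh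
      have h2 := congrArg (fun z => z.2.1) hh
      have h3 := congrArg (fun z => z.2.2) hh
      simp only at h1 h2 h3 ⊢
      rw [h2, h3]
      exact polW_congr c o a n _ _ _ _ h1
    · intro ω _ i
      exact polW_deg ..
    · intro ω _ i hi
      exact polW_mem c o a n _ _ _ hi
    · intro ω _
      exact ⟨_, (hfrac _).1, (hfrac _).2.le, fun i => polW_root c o a n (π ω) _ _ i⟩
    · intro ω _
      exact hfn ω
    · exact hpt
    · intro E hE r hr1 hr2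
      have hDE : Dom (on Q' E) (fun ω => π' ω 1) P (2 / p0) := by
        have h1 := (Dom.on hp0 hE).comp (hDπ'.comp hD1)
        have h2 : 1 / p0 * (1 * 2) = 2 / p0 := by ring
        rw [h2] at h1
        exact h1
      refine le_trans ?_ (hR3 Ω' (on Q' E) (fun ω => π' ω 1) hDE r hr2)
      refine hc_mono_right _ _ fun ω ω' hω hω' he => ?_
      have hE0 : 0 < prE Q' E := lt_of_lt_of_le hp0 hE
      have e1 := congrArg Prod.fst he
      have e2 : vA c o n (π ω) = vA c o n (π ω') := congrArg (fun z => z.2.1) he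
      rw [← (g3 ω).1, ← (g3 ω').1] at e2
      have e3 : (c.t (π' ω 1), o.G (π' ω 1)) = (c.t (π' ω' 1), o.G (π' ω' 1)) :=
        congrArg (fun z => z.2.2.1) e2
      have e4 : c.A (π' ω 0) = c.A (π' ω' 0) := congrArg (fun z => z.1) e2
      have e5 : ∀ ω, 0 < (on Q' E).w ω → c.A (π' ω 1) = c.A (π' ω 0) := fun ω hω =>
        congrArg (fun z => z.2.2.1) ((hsπ' ω (on_pos hE0 hω).2).1 1)
      have e6 : c.A (π' ω 1) = c.A (π' ω' 1) := by rw [e5 ω hω, e5 ω' hω', e4]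
      simp only [Prod.mk.injEq] at e3 ⊢
      exact ⟨e1, e3.1, e3.2, e6⟩
    · intro j hj
      have hj' : a + j ≤ L := by
        have : (a : ℝ) + j ≤ L := by linarith
        exact_mod_cast this
      have h1 := f7 j hj'
      have h2 := g4 (fun w => fl1 j (vu c a w)) (by
        intro w w' _ _ hh
        have : c.t (w 0) = c.t (w' 0) := congrArg Prod.fst hh
        simp only [vu, this])
      have h3 : hc Q' (fun ω => fl1 j (vu c a (π ω)))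
          (fun ω => (vX c o s (π ω), vq c n (π ω), vq c n (π' ω), vA c o n (π ω))) ≤
          hc Q' (fun ω => fl1 j (vu c a (π ω))) (fun ω => (fl s (o.F c (π ω 1)),
            (vA c o n (π ω), vq c n (π ω), vq c n (π' ω)))) := by
        refine hc_mono_right _ _ fun ω ω' _ _ he => ?_
        have e1 : fl s (o.F c (π ω 1)) = fl s (o.F c (π ω' 1)) := congrArg Prod.fst he
        have e2 := congrArg (fun z => z.2.2.2) he
        have e3 := congrArg (fun z => z.2.1) he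
        have e4 := congrArg (fun z => z.2.2.1) he
        simp only at e2 e3 e4 ⊢
        rw [e1, e2, e3, e4]
      refine le_trans ?_ (h2.trans h3)
      linarith
    · have hk := hkillR h (4 * e) δk p0 a L n s Ω P c o Q1 Ω' Q' π π' (ε1 / 8) hp0 hsL ht
        (fun w hw => (hsup w hw).1) g1 hD1 (by linarith) g5 hkill (by
          refine le_trans (le_of_eq ?_) n1
          ring) n2 (by positivity)
      intro E hE r j hr1 hr2 i0 hi0 v hv hv1 hvJ hvb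
      exact hk E hE r j hr1 hr2 i0 hi0 v hv hv1 hvJ hvb
  -- conclusion
  rw [← g6]
  have hpow : (1 : ℝ) ≤ 2 ^ (ε1 * L) := Real.one_le_rpow (by norm_num) (by positivity)
  have hclose := close_exc Q' (fun ω => ∃ i, (2 : ℝ) ^ (-(s : ℝ) + ε1 * L) <
      pn (polW c o a n (π ω) (vq c n (π ω)) (vq c n (π' ω)) i)) (fun ω => o.F c (π ω 1))
      (fun ω => o.F c (π' ω 1)) (fun ω => (vY c o s (π ω), vB c o (π ω), vA c o n (π ω))) n s
      ((2 : ℝ) ^ (ε1 * L) + C0) hns (by positivity) (fun ω _ => hfn ω) (by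
        intro ω hω hE i
        push Not at hE
        have h1 := hpt ω hω i
        have h2 := abs_eval_le_pn
          (polW c o a n (π ω) (vq c n (π ω)) (vq c n (π' ω)) i) (hfrac _).1 (hfrac _).2.le
            (u := vu c a (π ω))
        have h3 := hE i
        have h4 : (2 : ℝ) ^ (-(s : ℝ) + ε1 * L) = 2 ^ (ε1 * L) * (1 / 2 : ℝ) ^ s := by
          rw [Real.rpow_add (by norm_num), Real.rpow_neg (by norm_num), Real.rpow_natCast,
            one_div, inv_pow, mul_comm]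
        rw [h4] at h3
        rw [add_mul]
        rw [abs_sub_comm]
        have h5 : o.F c (π' ω 1) i - o.F c (π ω 1) i = (o.F c (π' ω 1) i - o.F c (π ω 1) i +
          (polW c o a n (π ω) (vq c n (π ω)) (vq c n (π' ω)) i).eval (vu c a (π ω))) -
          (polW c o a n (π ω) (vq c n (π ω)) (vq c n (π' ω)) i).eval (vu c a (π ω)) := by ring
        rw [h5]
        refine (abs_sub _ _).trans ?_
        linarith)
  refine hclose.trans ?_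
  have hm : (0 : ℝ) ≤ m * ((s : ℝ) - n) * Real.log 2 := by
    have h1 : (n : ℝ) ≤ s := by exact_mod_cast hns
    have h2 : 0 ≤ Real.log 2 := Real.log_nonneg (by norm_num)
    have h3 : 0 ≤ (s : ℝ) - n := by linarith
    positivity
  have h1 := mul_le_mul_of_nonneg_right hmain hm
  have h2 : Real.log (2 * ((2 : ℝ) ^ (ε1 * L) + C0) + 5) ≤
      ε1 * L * Real.log 2 + Real.log (2 * C0 + 7) := by
    have h3 : (2 : ℝ) * (2 ^ (ε1 * L) + C0) + 5 ≤ 2 ^ (ε1 * L) * (2 * C0 + 7) := by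
      have : (0 : ℝ) ≤ C0 := Nat.cast_nonneg _
      nlinarith
    have h4 := Real.log_le_log (by positivity) h3
    rwa [Real.log_mul (by positivity) (by positivity), Real.log_rpow (by norm_num)] at h4
  have h3 : (m : ℝ) * Real.log (2 * ((2 : ℝ) ^ (ε1 * L) + C0) + 5) ≤
      m * (ε1 * L * Real.log 2 + Real.log (2 * C0 + 7)) :=
    mul_le_mul_of_nonneg_left h2 (Nat.cast_nonneg _)
  linarith

end Vale.Agent.P127.Stk.R
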