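import Mathlib

/-!
# P127 / Stk / WhitB : dyadic refinement (Whitney's theorem along dyadic steps)

A function on an integer interval whose differences of order `p` with steps `1, 2, 4, ..., 2^J`
are at most `F` is close to a polynomial of degree `< p`, up to a factor `C (J + 1)`.
-/

namespace Vale.Agent.P127.Stk

open Finset

/-- the shift by `h` -/
noncomputable def sh (h : ℤ) : Module.End ℝ (ℤ → ℝ) :=
  LinearMap.funLeft ℝ ℝ (fun x : ℤ => x + h)

/-- the difference with step `h` -/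
noncomputable def DD (h : ℤ) : Module.End ℝ (ℤ → ℝ) := sh h - 1

theorem sh_apply (h : ℤ) (f : ℤ → ℝ) (x : ℤ) : sh h f x = f (x + h) := rfl

theorem DD_apply (h : ℤ) (f : ℤ → ℝ) (x : ℤ) : DD h f x = f (x + h) - f x := rfl

theorem sh_add (a b : ℤ) : sh (a + b) = sh a * sh b := by
  ext f x
  simp only [Module.End.mul_apply, sh_apply]
  congr 1
  ring

theorem sh_pow (h : ℤ) (n : ℕ) (f : ℤ → ℝ) (x : ℤ) : ((sh h) ^ n) f x = f (x + n * h) := by
  induction n generalizing x with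
  | zero => simp
  | succ n ih =>
    rw [pow_succ', Module.End.mul_apply, sh_apply, ih]
    congr 1
    push_cast
    ring

theorem DD_two (h : ℤ) : DD (2 * h) = DD h * (DD h + 2) := by
  have e : DD (2 * h) = sh h * sh h - 1 := by
    rw [DD, two_mul, sh_add]
  have h2 : (2 : Module.End ℝ (ℤ → ℝ)) = 1 + 1 := by norm_num
  rw [e, DD, h2]
  generalize sh h = a
  have e1 : a - 1 + (1 + 1) = a + 1 := by abel
  rw [e1, sub_mul, mul_add, mul_one, one_mul]
  abel

/-- expansion of the differences -/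
theorem DD_pow_apply (h : ℤ) (n : ℕ) (f : ℤ → ℝ) (x : ℤ) :
    ((DD h) ^ n) f x = ∑ m ∈ range (n + 1), (-1 : ℝ) ^ (n - m) * (n.choose m : ℝ) * f (x + m * h) := by
  set c : Module.End ℝ (ℤ → ℝ) := algebraMap ℝ (Module.End ℝ (ℤ → ℝ)) (-1) with hcdef
  have hc : Commute (sh h) c := Algebra.commute_algebraMap_right _ _
  have e0 : DD h = sh h + c := by
    ext g y
    rw [DD_apply, LinearMap.add_apply, Pi.add_apply, sh_apply, hcdef, Module.algebraMap_end_apply,
      Pi.smul_apply, smul_eq_mul]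
    ring
  have e : (DD h) ^ n = ∑ m ∈ range (n + 1),
      (sh h) ^ m * c ^ (n - m) * (n.choose m : Module.End ℝ (ℤ → ℝ)) := by
    rw [e0, hc.add_pow]
  rw [e, LinearMap.sum_apply, Finset.sum_apply]
  refine Finset.sum_congr rfl fun m _ => ?_
  have h1 : ((n.choose m : Module.End ℝ (ℤ → ℝ))) f = (n.choose m : ℝ) • f := by
    rw [Module.End.natCast_apply, Nat.cast_smul_eq_nsmul]
  have h2 : ∀ g : ℤ → ℝ, (c ^ (n - m)) g = ((-1 : ℝ) ^ (n - m)) • g := by
    intro g
    rw [hcdef, ← map_pow, Module.algebraMap_end_apply]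
  rw [Module.End.mul_apply, Module.End.mul_apply, h1, h2, sh_pow]
  simp only [Pi.smul_apply, smul_eq_mul]
  ring

/-- a difference of higher order is bounded by differences of order `p` -/
theorem DD_higher (h : ℤ) (p r : ℕ) (f : ℤ → ℝ) (x : ℤ) (F : ℝ)
    (hF : ∀ m : ℕ, m ≤ r → |((DD h) ^ p) f (x + m * h)| ≤ F) :
    |((DD h) ^ (p + r)) f x| ≤ 2 ^ r * F := by
  have e : ((DD h) ^ (p + r)) f x = ((DD h) ^ r) (((DD h) ^ p) f) x := by
    rw [add_comm, pow_add, Module.End.mul_apply]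
  rw [e, DD_pow_apply]
  refine (abs_sum_le_sum_abs _ _).trans ?_
  have h2 : ∑ m ∈ range (r + 1), ((r.choose m : ℕ) : ℝ) * F = 2 ^ r * F := by
    rw [← Finset.sum_mul]
    congr 1
    have := Nat.sum_range_choose r
    exact_mod_cast this
  rw [← h2]
  refine Finset.sum_le_sum fun m hm => ?_
  rw [abs_mul, abs_mul, abs_pow, abs_neg, abs_one, one_pow, one_mul, Nat.abs_cast]
  exact mul_le_mul_of_nonneg_left (hF m (by simpa [Nat.lt_succ_iff] using hm)) (Nat.cast_nonneg _)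

/-- doubling the step -/
theorem DD_two_pow (h : ℤ) (i : ℕ) (f : ℤ → ℝ) (x : ℤ) :
    ((DD (2 * h)) ^ i) f x =
      ∑ m ∈ range (i + 1), (2 : ℝ) ^ (i - m) * (i.choose m : ℝ) * ((DD h) ^ (i + m)) f x := by
  have hc1 : Commute (DD h) (DD h + 2) :=
    (Commute.refl _).add_right (Commute.ofNat_right _ 2)
  have hc2 : Commute (DD h) (2 : Module.End ℝ (ℤ → ℝ)) := Commute.ofNat_right _ 2
  have e : (DD (2 * h)) ^ i = ∑ m ∈ range (i + 1),
      (DD h) ^ (i + m) * (2 : Module.End ℝ (ℤ → ℝ)) ^ (i - m) *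
        (i.choose m : Module.End ℝ (ℤ → ℝ)) := by
    rw [DD_two, hc1.mul_pow, hc2.add_pow, Finset.mul_sum]
    refine Finset.sum_congr rfl fun m _ => ?_
    rw [pow_add]
    noncomm_ring
  rw [e, LinearMap.sum_apply, Finset.sum_apply]
  refine Finset.sum_congr rfl fun m _ => ?_
  have h1 : ((i.choose m : Module.End ℝ (ℤ → ℝ))) f = (i.choose m : ℝ) • f := by
    rw [Module.End.natCast_apply, Nat.cast_smul_eq_nsmul]
  have h2 : ∀ (n : ℕ) (g : ℤ → ℝ), ((2 : Module.End ℝ (ℤ → ℝ)) ^ n) g = ((2 : ℝ) ^ n) • g := by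
    intro n g
    have : ((2 : Module.End ℝ (ℤ → ℝ)) ^ n) = ((2 ^ n : ℕ) : Module.End ℝ (ℤ → ℝ)) := by
      push_cast; rfl
    rw [this, Module.End.natCast_apply, ← Nat.cast_smul_eq_nsmul ℝ]
    push_cast
    rfl
  rw [Module.End.mul_apply, Module.End.mul_apply, h1, h2, map_smul, map_smul]
  simp only [Pi.smul_apply, smul_eq_mul]
  ring

/-- the hypotheses of the dyadic refinement -/
structure Dya (p : ℕ) (f : ℤ → ℝ) (J : ℕ) (b : ℤ) (F : ℝ) : Prop where
  F0 : 0 ≤ F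
  dif : ∀ j ≤ J, ∀ x : ℤ, 0 ≤ x → x + p * 2 ^ j ≤ b + 2 * p * 2 ^ J →
    |((DD (2 ^ j)) ^ p) f x| ≤ F
  val : ∀ l : ℕ, (l : ℤ) * 2 ^ J ≤ b + p * 2 ^ J → |f (l * 2 ^ J)| ≤ F

theorem dya_top {p : ℕ} {f : ℤ → ℝ} {J : ℕ} {b : ℤ} {F : ℝ} (D : Dya p f J b F) {i : ℕ}
    (hi : i ≤ p) (l : ℕ) (hl : (l : ℤ) * 2 ^ J ≤ b) :
    |((DD (2 ^ J)) ^ i) f (l * 2 ^ J)| ≤ 2 ^ i * F := by
  have h := DD_higher (2 ^ J) 0 i f (l * 2 ^ J) F (fun m hm => by
    rw [pow_zero, Module.End.one_apply]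
    have e : (l : ℤ) * 2 ^ J + m * 2 ^ J = ((l + m : ℕ) : ℤ) * 2 ^ J := by push_cast; ring
    rw [e]
    refine D.val _ ?_
    have h1 : ((m : ℕ) : ℤ) ≤ p := by exact_mod_cast hm.trans hi
    have h2 : (0 : ℤ) ≤ 2 ^ J := by positivity
    have h3 := mul_le_mul_of_nonneg_right h1 h2
    push_cast
    linarith [add_mul (l : ℤ) m (2 ^ J)])
  rwa [zero_add] at h

theorem dya_high {p : ℕ} {f : ℤ → ℝ} {J : ℕ} {b : ℤ} {F : ℝ} (D : Dya p f J b F) {i : ℕ}
    (hi : p ≤ i) (hi2 : i ≤ 2 * p) {j : ℕ} (hj : j ≤ J) (x : ℤ) (hx : 0 ≤ x) (hxb : x ≤ b) :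
    |((DD (2 ^ j)) ^ i) f x| ≤ 2 ^ (i - p) * F := by
  obtain ⟨r, rfl⟩ := Nat.exists_eq_add_of_le hi
  rw [Nat.add_sub_cancel_left]
  refine DD_higher _ _ _ _ _ _ fun m hm => D.dif j hj _ ?_ ?_
  · positivity
  · have h1 : ((m : ℕ) : ℤ) ≤ p := by
      have : m ≤ p := by omega
      exact_mod_cast this
    have h2 : (0 : ℤ) ≤ 2 ^ j := by positivity
    have h3 := mul_le_mul_of_nonneg_right h1 h2
    have h4 : (2 : ℤ) ^ j ≤ 2 ^ J := pow_le_pow_right₀ (by norm_num) hj
    have h5 : (0 : ℤ) ≤ p := by positivity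
    have h6 := mul_le_mul_of_nonneg_left h4 h5
    linarith

/-- one order `i`, given all higher orders -/
theorem dya_step {p : ℕ} {κ : ℝ} (hκ : 0 ≤ κ) {i : ℕ} (hi1 : 1 ≤ i) (hip : i < p)
    {f : ℤ → ℝ} {J : ℕ} {b : ℤ} {F : ℝ} (D : Dya p f J b F)
    (hb : ∀ i', i < i' → i' ≤ 2 * p → ∀ j ≤ J, ∀ l : ℕ, (l : ℤ) * 2 ^ j ≤ b →
      |((DD (2 ^ j)) ^ i') f (l * 2 ^ j)| ≤ κ * F) :
    ∀ k ≤ J, ∀ l : ℕ, (l : ℤ) * 2 ^ (J - k) ≤ b →
      |((DD (2 ^ (J - k))) ^ i) f (l * 2 ^ (J - k))| ≤ (2 * (3 ^ i + 1) * κ + 2 ^ i) * F := by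
  set κ' := 2 * (3 ^ i + 1) * κ + 2 ^ i with hκ'
  have hF := D.F0
  have h3i : (0 : ℝ) ≤ 3 ^ i := by positivity
  have h2i : (0 : ℝ) ≤ 2 ^ i := by positivity
  have h3κ : 0 ≤ 3 ^ i * κ := mul_nonneg h3i hκ
  intro k
  induction k with
  | zero =>
    intro _ l hl
    rw [Nat.sub_zero] at hl ⊢
    refine (dya_top D hip.le l hl).trans (mul_le_mul_of_nonneg_right ?_ hF)
    rw [hκ']
    nlinarith
  | succ k ih =>
    intro hk l hl
    have hk' : k ≤ J := by omega
    set j := J - (k + 1) with hj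
    have hjk : J - k = j + 1 := by omega
    have hjJ : j ≤ J := by omega
    have ih' : ∀ l : ℕ, (l : ℤ) * 2 ^ (j + 1) ≤ b →
        |((DD (2 ^ (j + 1))) ^ i) f (l * 2 ^ (j + 1))| ≤ κ' * F := by
      intro l hl
      have := ih hk' l
      rw [hjk] at this
      exact this hl
    -- even points
    have even : ∀ l' : ℕ, ((2 * l' : ℕ) : ℤ) * 2 ^ j ≤ b →
        |((DD (2 ^ j)) ^ i) f ((2 * l' : ℕ) * 2 ^ j)| ≤ (κ' / 2 + 3 ^ i * κ) * F := by
      intro l' hl'
      have e1 : (((2 * l' : ℕ) : ℤ)) * 2 ^ j = (l' : ℤ) * 2 ^ (j + 1) := by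
        push_cast; ring
      have h1 := ih' l' (by rw [← e1]; exact hl')
      rw [← e1] at h1
      have e2 : (2 : ℤ) ^ (j + 1) = 2 * 2 ^ j := by ring
      rw [e2, DD_two_pow, Finset.sum_range_succ'] at h1
      simp only [Nat.sub_zero, Nat.choose_zero_right, Nat.cast_one, mul_one, add_zero] at h1
      set X := ((DD (2 ^ j)) ^ i) f ((2 * l' : ℕ) * 2 ^ j) with hX
      set R := ∑ m ∈ range i, (2 : ℝ) ^ (i - (m + 1)) * (i.choose (m + 1) : ℝ) *
        ((DD (2 ^ j)) ^ (i + (m + 1))) f ((2 * l' : ℕ) * 2 ^ j) with hR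
      have hR1 : |R| ≤ 3 ^ i * κ * F := by
        rw [hR]
        refine (abs_sum_le_sum_abs _ _).trans ?_
        have h3 : ∑ m ∈ range (i + 1), (2 : ℝ) ^ (i - m) * (i.choose m : ℝ) = 3 ^ i := by
          have := add_pow (1 : ℝ) 2 i
          norm_num at this
          rw [this]
        have h4 : ∑ m ∈ range i, (2 : ℝ) ^ (i - (m + 1)) * (i.choose (m + 1) : ℝ) ≤ 3 ^ i := by
          rw [← h3, Finset.sum_range_succ']
          simp only [Nat.sub_zero, Nat.choose_zero_right, Nat.cast_one, mul_one]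
          linarith
        calc ∑ m ∈ range i, |(2 : ℝ) ^ (i - (m + 1)) * (i.choose (m + 1) : ℝ) *
              ((DD (2 ^ j)) ^ (i + (m + 1))) f ((2 * l' : ℕ) * 2 ^ j)|
            ≤ ∑ m ∈ range i, (2 : ℝ) ^ (i - (m + 1)) * (i.choose (m + 1) : ℝ) * (κ * F) := by
              refine Finset.sum_le_sum fun m hm => ?_
              rw [abs_mul, abs_of_nonneg (by positivity :
                (0 : ℝ) ≤ (2 : ℝ) ^ (i - (m + 1)) * (i.choose (m + 1) : ℝ))]
              refine mul_le_mul_of_nonneg_left ?_ (by positivity)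
              have hm' : m < i := Finset.mem_range.mp hm
              exact hb (i + (m + 1)) (by omega) (by omega) j hjJ (2 * l') hl'
          _ = (∑ m ∈ range i, (2 : ℝ) ^ (i - (m + 1)) * (i.choose (m + 1) : ℝ)) * (κ * F) := by
              rw [Finset.sum_mul]
          _ ≤ 3 ^ i * (κ * F) := mul_le_mul_of_nonneg_right h4 (mul_nonneg hκ hF)
          _ = 3 ^ i * κ * F := by ring
      have h5 : |(2 : ℝ) ^ i * X| ≤ κ' * F + 3 ^ i * κ * F := by
        have e3 : (2 : ℝ) ^ i * X = (R + 2 ^ i * X) - R := by ring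
        rw [e3]
        exact (abs_sub _ _).trans (add_le_add h1 hR1)
      rw [abs_mul, abs_of_nonneg h2i] at h5
      have h6 : (2 : ℝ) ≤ 2 ^ i := by
        calc (2 : ℝ) = 2 ^ 1 := by norm_num
          _ ≤ 2 ^ i := pow_le_pow_right₀ (by norm_num) hi1
      have h7 : 2 * |X| ≤ 2 ^ i * |X| := mul_le_mul_of_nonneg_right h6 (abs_nonneg _)
      have h8 : 0 ≤ 3 ^ i * κ * F := mul_nonneg h3κ hF
      have h9 : (κ' / 2 + 3 ^ i * κ) * F = (κ' * F + 2 * (3 ^ i * κ * F)) / 2 := by ring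
      rw [h9]
      linarith
    have hkk : κ' / 2 + 3 ^ i * κ + κ ≤ κ' := by rw [hκ']; linarith
    rcases Nat.even_or_odd' l with ⟨l', rfl | rfl⟩
    · refine (even l' hl).trans (mul_le_mul_of_nonneg_right (by linarith) hF)
    · have h2j : (0 : ℤ) < 2 ^ j := by positivity
      have hl2 : ((2 * l' : ℕ) : ℤ) * 2 ^ j ≤ b := by
        refine le_trans ?_ hl
        push_cast
        nlinarith
      have e4 : (((2 * l' + 1 : ℕ) : ℤ)) * 2 ^ j = ((2 * l' : ℕ) : ℤ) * 2 ^ j + 2 ^ j := by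
        push_cast; ring
      have e5 : ((DD (2 ^ j)) ^ i) f (((2 * l' : ℕ) : ℤ) * 2 ^ j + 2 ^ j) =
          ((DD (2 ^ j)) ^ i) f (((2 * l' : ℕ) : ℤ) * 2 ^ j) +
          ((DD (2 ^ j)) ^ (i + 1)) f (((2 * l' : ℕ) : ℤ) * 2 ^ j) := by
        rw [pow_succ', Module.End.mul_apply, DD_apply]
        ring
      rw [e4, e5]
      refine (abs_add_le _ _).trans ?_
      have h1 := even l' hl2
      have h2 := hb (i + 1) (by omega) (by omega) j hjJ (2 * l') hl2
      calc _ ≤ (κ' / 2 + 3 ^ i * κ) * F + κ * F := add_le_add h1 h2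
        _ = (κ' / 2 + 3 ^ i * κ + κ) * F := by ring
        _ ≤ κ' * F := mul_le_mul_of_nonneg_right hkk hF

/-- all orders between `1` and `2 p` at once -/
theorem dya_all (p : ℕ) (hp : 1 ≤ p) : ∀ n : ℕ, n < 2 * p → ∃ κ : ℝ, 0 ≤ κ ∧
    ∀ (f : ℤ → ℝ) (J : ℕ) (b : ℤ) (F : ℝ), Dya p f J b F →
      ∀ i, 2 * p ≤ i + n → i ≤ 2 * p → ∀ j ≤ J, ∀ l : ℕ, (l : ℤ) * 2 ^ j ≤ b →
        |((DD (2 ^ j)) ^ i) f (l * 2 ^ j)| ≤ κ * F := by
  intro n
  induction n with
  | zero =>
    intro _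
    refine ⟨2 ^ p, by positivity, fun f J b F D i h1 h2 j hj l hl => ?_⟩
    have hi : i = 2 * p := by omega
    refine (dya_high D (by omega) h2 hj _ (by positivity) hl).trans ?_
    have : i - p = p := by omega
    rw [this]
  | succ n ih =>
    intro hn
    obtain ⟨κ, hκ, hb⟩ := ih (by omega)
    set i0 := 2 * p - (n + 1) with hi0
    have hi01 : 1 ≤ i0 := by omega
    have hk3 : (0 : ℝ) ≤ 2 * (3 ^ i0 + 1) * κ := by positivity
    refine ⟨2 * (3 ^ i0 + 1) * κ + 2 ^ i0 + κ, by positivity,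
      fun f J b F D i h1 h2 j hj l hl => ?_⟩
    have hF := D.F0
    rcases Nat.lt_or_ge i0 i with hlt | hge
    · refine (hb f J b F D i (by omega) h2 j hj l hl).trans
        (mul_le_mul_of_nonneg_right ?_ hF)
      have : (0 : ℝ) ≤ 2 ^ i0 := by positivity
      linarith
    · have hii : i = i0 := by omega
      rw [hii]
      rcases Nat.lt_or_ge i0 p with hip | hip
      · have h3 := dya_step hκ hi01 hip D
          (fun i' h3 h4 j hj l hl => hb f J b F D i' (by omega) h4 j hj l hl) (J - j) (by omega) l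
        have e : J - (J - j) = j := by omega
        rw [e] at h3
        refine (h3 hl).trans (mul_le_mul_of_nonneg_right (by linarith) hF)
      · refine (dya_high D hip (by omega) hj _ (by positivity) hl).trans
          (mul_le_mul_of_nonneg_right ?_ hF)
        have : (2 : ℝ) ^ (i0 - p) ≤ 2 ^ i0 := pow_le_pow_right₀ (by norm_num) (by omega)
        linarith

/-- **dyadic refinement**: the values are bounded up to a factor `J + 1` -/
theorem dya_val (p : ℕ) (hp : 1 ≤ p) : ∃ κ : ℝ, 1 ≤ κ ∧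
    ∀ (f : ℤ → ℝ) (J : ℕ) (b : ℤ) (F : ℝ), Dya p f J b F →
      ∀ x : ℤ, 0 ≤ x → x ≤ b → |f x| ≤ κ * (J + 1) * F := by
  obtain ⟨κ, hκ, hb⟩ := dya_all p hp (2 * p - 1) (by omega)
  refine ⟨κ + 1, by linarith, fun f J b F D x hx hxb => ?_⟩
  have hF := D.F0
  have key : ∀ k ≤ J, ∀ l : ℕ, (l : ℤ) * 2 ^ (J - k) ≤ b →
      |f (l * 2 ^ (J - k))| ≤ (1 + κ * k) * F := by
    intro k
    induction k with
    | zero =>
      intro _ l hl
      rw [Nat.sub_zero] at hl ⊢
      have h1 : (0 : ℤ) ≤ p * 2 ^ J := by positivity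
      have := D.val l (by linarith)
      simpa using this
    | succ k ih =>
      intro hk l hl
      set j := J - (k + 1) with hj
      have hjk : J - k = j + 1 := by omega
      have hjJ : j ≤ J := by omega
      have ih' : ∀ l : ℕ, (l : ℤ) * 2 ^ (j + 1) ≤ b → |f (l * 2 ^ (j + 1))| ≤ (1 + κ * k) * F := by
        intro l hl
        have := ih (by omega) l
        rw [hjk] at this
        exact this hl
      have hmon : (1 + κ * k) * F + κ * F = (1 + κ * ((k + 1 : ℕ) : ℝ)) * F := by push_cast; ring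
      have hκF : 0 ≤ κ * F := mul_nonneg hκ hF
      rcases Nat.even_or_odd' l with ⟨l', rfl | rfl⟩
      · have e1 : (((2 * l' : ℕ) : ℤ)) * 2 ^ j = (l' : ℤ) * 2 ^ (j + 1) := by
          push_cast; ring
        rw [e1] at hl ⊢
        have := ih' l' hl
        linarith
      · have h2j : (0 : ℤ) < 2 ^ j := by positivity
        have hl2 : ((2 * l' : ℕ) : ℤ) * 2 ^ j ≤ b := by
          refine le_trans ?_ hl
          push_cast
          nlinarith
        have e1 : (((2 * l' : ℕ) : ℤ)) * 2 ^ j = (l' : ℤ) * 2 ^ (j + 1) := by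
          push_cast; ring
        have e4 : (((2 * l' + 1 : ℕ) : ℤ)) * 2 ^ j = ((2 * l' : ℕ) : ℤ) * 2 ^ j + 2 ^ j := by
          push_cast; ring
        have h1 := ih' l' (by rw [← e1]; exact hl2)
        rw [← e1] at h1
        have h2 := hb f J b F D 1 (by omega) (by omega) j hjJ (2 * l') hl2
        rw [pow_one, DD_apply] at h2
        rw [e4]
        have h3 : f (((2 * l' : ℕ) : ℤ) * 2 ^ j + 2 ^ j) = f (((2 * l' : ℕ) : ℤ) * 2 ^ j) +
          (f (((2 * l' : ℕ) : ℤ) * 2 ^ j + 2 ^ j) - f (((2 * l' : ℕ) : ℤ) * 2 ^ j)) := by ring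
        rw [h3]
        refine (abs_add_le _ _).trans ?_
        linarith
  have h1 := key J le_rfl x.toNat
  rw [Nat.sub_self, pow_zero, mul_one, Int.toNat_of_nonneg hx] at h1
  refine (h1 hxb).trans (mul_le_mul_of_nonneg_right ?_ hF)
  have : (0 : ℝ) ≤ J := Nat.cast_nonneg _
  nlinarith

/-- the differences of order `n` of a polynomial of degree `< n` vanish -/
theorem DD_poly (P : Polynomial ℝ) (n : ℕ) (hn : 1 ≤ n) (hP : P.degree < n) (h x : ℤ) :
    ((DD h) ^ n) (fun z : ℤ => P.eval (z : ℝ)) x = 0 := by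
  rw [DD_pow_apply]
  set Q : Polynomial ℝ := P.comp (Polynomial.C (x : ℝ) + Polynomial.C (h : ℝ) * Polynomial.X)
    with hQ
  have hPn : P.natDegree < n := by
    by_cases hP0 : P = 0
    · rw [hP0, Polynomial.natDegree_zero]; omega
    · exact (Polynomial.natDegree_lt_iff_degree_lt hP0).mpr hP
  have hQn : Q.natDegree < n := by
    have h1 : (Polynomial.C (x : ℝ) + Polynomial.C (h : ℝ) * Polynomial.X).natDegree ≤ 1 := by
      refine (Polynomial.natDegree_add_le _ _).trans (max_le ?_ ?_)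
      · rw [Polynomial.natDegree_C]; omega
      · exact (Polynomial.natDegree_C_mul_le _ _).trans Polynomial.natDegree_X_le
    have h2 := Polynomial.natDegree_comp_le (p := P)
      (q := Polynomial.C (x : ℝ) + Polynomial.C (h : ℝ) * Polynomial.X)
    have h3 : P.natDegree * (Polynomial.C (x : ℝ) +
      Polynomial.C (h : ℝ) * Polynomial.X).natDegree ≤ P.natDegree * 1 :=
      Nat.mul_le_mul_left _ h1
    rw [hQ]
    omega
  have h0 := congrFun (fwdDiff_iter_sum_mul_pow_eq_zero (n := n) (fun k => Q.coeff k)) (0 : ℝ)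
  have e : (fun r : ℝ => ∑ k ∈ range n, Q.coeff k * r ^ k) = fun r => Q.eval r := by
    funext r
    rw [Polynomial.eval_eq_sum_range' hQn]
  rw [e, fwdDiff_iter_eq_sum_shift] at h0
  rw [Pi.zero_apply] at h0
  rw [← h0]
  refine Finset.sum_congr rfl fun m _ => ?_
  rw [hQ, Polynomial.eval_comp]
  simp only [Polynomial.eval_add, Polynomial.eval_C, Polynomial.eval_mul, Polynomial.eval_X,
    zsmul_eq_mul, nsmul_eq_mul, mul_one, zero_add]
  push_cast
  have e2 : (x : ℝ) + (m : ℝ) * (h : ℝ) = (x : ℝ) + (h : ℝ) * (m : ℝ) := by ring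
  rw [e2]

/-- extension of a bound along the coarse grid -/
theorem ext_grid {p : ℕ} {f : ℤ → ℝ} {H : ℤ} {F : ℝ} (hF : 0 ≤ F) (K : ℕ)
    (hd : ∀ l : ℕ, l + p ≤ K → |((DD H) ^ p) f (l * H)| ≤ F)
    (h0 : ∀ l : ℕ, l < p → f (l * H) = 0) :
    ∀ l : ℕ, l ≤ K → |f (l * H)| ≤ (2 ^ p + 1) ^ l * F := by
  intro l
  induction l using Nat.strong_induction_on with
  | _ l ih =>
    intro hl
    rcases Nat.lt_or_ge l p with hlp | hlp
    · rw [h0 l hlp, abs_zero]
      positivity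
    · rcases Nat.eq_zero_or_pos l with rfl | hl0
      · have hp0 : p = 0 := by omega
        subst hp0
        have := hd 0 (by omega)
        simpa using this
      obtain ⟨y, rfl⟩ := Nat.exists_eq_add_of_le hlp
      have h1 := hd y (by omega)
      rw [DD_pow_apply, Finset.sum_range_succ, Nat.sub_self, pow_zero, Nat.choose_self,
        Nat.cast_one, one_mul, one_mul] at h1
      have e1 : (y : ℤ) * H + (p : ℤ) * H = ((p + y : ℕ) : ℤ) * H := by push_cast; ring
      rw [e1] at h1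
      set R := ∑ m ∈ range p, (-1 : ℝ) ^ (p - m) * (p.choose m : ℝ) * f ((y : ℤ) * H + m * H)
        with hR
      set B : ℝ := (2 ^ p + 1) ^ (p + y - 1) * F with hB
      have h2p : (0 : ℝ) ≤ 2 ^ p := by positivity
      have hB0 : F ≤ B := by
        rw [hB]
        have : (1 : ℝ) ≤ (2 ^ p + 1) ^ (p + y - 1) := one_le_pow₀ (by linarith)
        nlinarith
      have hB1 : 0 ≤ B := hF.trans hB0
      have hR1 : |R| ≤ 2 ^ p * B := by
        rw [hR]
        refine (abs_sum_le_sum_abs _ _).trans ?_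
        have h3 : ∑ m ∈ range (p + 1), ((p.choose m : ℕ) : ℝ) = 2 ^ p := by
          exact_mod_cast Nat.sum_range_choose p
        have h4 : ∑ m ∈ range p, ((p.choose m : ℕ) : ℝ) ≤ 2 ^ p := by
          rw [← h3, Finset.sum_range_succ]
          have : (0 : ℝ) ≤ ((p.choose p : ℕ) : ℝ) := Nat.cast_nonneg _
          linarith
        calc ∑ m ∈ range p, |(-1 : ℝ) ^ (p - m) * (p.choose m : ℝ) * f ((y : ℤ) * H + m * H)|
            ≤ ∑ m ∈ range p, ((p.choose m : ℕ) : ℝ) * B := by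
              refine Finset.sum_le_sum fun m hm => ?_
              have hm' : m < p := Finset.mem_range.mp hm
              rw [abs_mul, abs_mul, abs_pow, abs_neg, abs_one, one_pow, one_mul, Nat.abs_cast]
              refine mul_le_mul_of_nonneg_left ?_ (Nat.cast_nonneg _)
              have e2 : (y : ℤ) * H + (m : ℤ) * H = ((m + y : ℕ) : ℤ) * H := by push_cast; ring
              rw [e2]
              refine (ih (m + y) (by omega) (by omega)).trans ?_
              rw [hB]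
              exact mul_le_mul_of_nonneg_right
                (pow_le_pow_right₀ (by linarith) (by omega)) hF
          _ = (∑ m ∈ range p, ((p.choose m : ℕ) : ℝ)) * B := by rw [Finset.sum_mul]
          _ ≤ 2 ^ p * B := mul_le_mul_of_nonneg_right h4 hB1
      have h5 : |f (((p + y : ℕ) : ℤ) * H)| ≤ F + 2 ^ p * B := by
        have e3 : f (((p + y : ℕ) : ℤ) * H) = (R + f (((p + y : ℕ) : ℤ) * H)) - R := by ring
        rw [e3]
        exact (abs_sub _ _).trans (add_le_add h1 hR1)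
      refine h5.trans ?_
      have e4 : (2 ^ p + 1 : ℝ) ^ (p + y) * F = (2 ^ p + 1) * B := by
        rw [hB, ← mul_assoc, ← pow_succ']
        congr 2
        omega
      rw [e4]
      linarith

/-- **Whitney's theorem along dyadic steps** -/
theorem whitney (p K : ℕ) (hp : 1 ≤ p) : ∃ C : ℝ, 0 ≤ C ∧
    ∀ (g : ℤ → ℝ) (J : ℕ) (F : ℝ), 0 ≤ F →
      (∀ j ≤ J, ∀ x : ℤ, 0 ≤ x → x + p * 2 ^ j ≤ K * 2 ^ J → |((DD (2 ^ j)) ^ p) g x| ≤ F) →
      ∃ P : Polynomial ℝ, P.degree < p ∧ ∀ x : ℤ, 0 ≤ x → x ≤ ((K : ℤ) - 2 * p) * 2 ^ J →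
        |g x - P.eval (x : ℝ)| ≤ C * (J + 1) * F := by
  obtain ⟨κ, hκ, hval⟩ := dya_val p hp
  refine ⟨κ * (2 ^ p + 1) ^ K, by positivity, fun g J F hF hd => ?_⟩
  set v : ℕ → ℝ := fun l => (((l : ℤ) * 2 ^ J : ℤ) : ℝ) with hv
  have hinj : Set.InjOn v (range p : Finset ℕ) := by
    intro a _ b _ hab
    have h1 : ((a : ℤ) * 2 ^ J : ℤ) = (b : ℤ) * 2 ^ J := by
      have hab' : (((a : ℤ) * 2 ^ J : ℤ) : ℝ) = (((b : ℤ) * 2 ^ J : ℤ) : ℝ) := hab
      exact Int.cast_injective hab'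
    have h2 : (2 : ℤ) ^ J ≠ 0 := by positivity
    exact_mod_cast mul_right_cancel₀ h2 h1
  set P : Polynomial ℝ := Lagrange.interpolate (range p) v (fun l => g ((l : ℤ) * 2 ^ J)) with hP
  have hdeg : P.degree < p := by
    have := Lagrange.degree_interpolate_lt (fun l : ℕ => g ((l : ℤ) * 2 ^ J)) hinj
    rwa [Finset.card_range] at this
  refine ⟨P, hdeg, ?_⟩
  set f : ℤ → ℝ := fun x => g x - P.eval (x : ℝ) with hf
  have hff : f = g - fun x : ℤ => P.eval (x : ℝ) := rfl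
  have hdf : ∀ (h x : ℤ), ((DD h) ^ p) f x = ((DD h) ^ p) g x := by
    intro h x
    rw [hff, map_sub, Pi.sub_apply, DD_poly P p hp hdeg, sub_zero]
  have hgrid := ext_grid (p := p) (f := f) (H := 2 ^ J) hF K (fun l hl => by
      rw [hdf]
      refine hd J le_rfl _ (by positivity) ?_
      have h1 : ((l : ℤ) + p) ≤ K := by exact_mod_cast hl
      have h2 : (0 : ℤ) ≤ 2 ^ J := by positivity
      have h3 := mul_le_mul_of_nonneg_right h1 h2
      linarith [add_mul (l : ℤ) p (2 ^ J)])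
    (fun l hl => by
      have h1 := Lagrange.eval_interpolate_at_node (fun l : ℕ => g ((l : ℤ) * 2 ^ J)) hinj
        (Finset.mem_range.mpr hl)
      simp only [hf]
      rw [hP]
      have h2 : v l = (((l : ℤ) * 2 ^ J : ℤ) : ℝ) := rfl
      rw [← h2, h1, sub_self])
  have h2p : (0 : ℝ) ≤ 2 ^ p := by positivity
  have hFF : F ≤ (2 ^ p + 1) ^ K * F := by
    have : (1 : ℝ) ≤ (2 ^ p + 1) ^ K := one_le_pow₀ (by linarith)
    nlinarith
  have hD : Dya p f J (((K : ℤ) - 2 * p) * 2 ^ J) ((2 ^ p + 1) ^ K * F) := by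
    refine ⟨hF.trans hFF, fun j hj x hx hxb => ?_, fun l hl => ?_⟩
    · rw [hdf]
      refine (hd j hj x hx ?_).trans hFF
      refine hxb.trans (le_of_eq ?_)
      ring
    · have h2 : (0 : ℤ) < 2 ^ J := by positivity
      have h3 : (l : ℤ) * 2 ^ J ≤ K * 2 ^ J := by
        have h4 : (0 : ℤ) ≤ p * 2 ^ J := by positivity
        linarith [sub_mul (K : ℤ) (2 * p) (2 ^ J)]
      have h5 : (l : ℤ) ≤ K := le_of_mul_le_mul_right h3 h2
      have h6 : l ≤ K := by exact_mod_cast h5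
      refine (hgrid l h6).trans (mul_le_mul_of_nonneg_right ?_ hF)
      exact pow_le_pow_right₀ (by linarith) h6
  intro x hx hxb
  have := hval f J _ _ hD x hx hxb
  refine this.trans (le_of_eq ?_)
  ring

end Vale.Agent.P127.Stk
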