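import Vale.Agent.P127.Stk.Props

/-!
# P127 / Stk / Window, part A: elementary facts on conditional entropies
-/

namespace Vale.Agent.P127.Stk.Win

open Finset Vale.Agent.P127

variable {Ω : Type} [Fintype Ω] {S S' T T' U V : Type*}

lemma hc_nonneg (P : Law Ω) (X : Ω → S) (Y : Ω → T) : 0 ≤ hc P X Y := by
  have h := P.H_mono (X := fun ω => (X ω, Y ω)) (Y := Y) (fun ω ω' h => (Prod.mk.inj h).2)
  unfold hc
  linarith

/-- monotonicity in the first variable -/
lemma hc_mono_left (P : Law Ω) {X : Ω → S} {X' : Ω → S'} {Y : Ω → T}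
    (h : ∀ ω ω', X ω = X ω' → Y ω = Y ω' → X' ω = X' ω') : hc P X' Y ≤ hc P X Y := by
  have := P.H_mono (X := fun ω => (X ω, Y ω)) (Y := fun ω => (X' ω, Y ω)) (fun ω ω' h' => by
    obtain ⟨h1, h2⟩ := Prod.mk.inj h'
    rw [h ω ω' h1 h2, h2])
  unfold hc
  linarith

/-- conditioning on more decreases the entropy -/
lemma hc_mono_right (P : Law Ω) {X : Ω → S} {Y : Ω → T} {Y' : Ω → T'}
    (h : ∀ ω ω', Y' ω = Y' ω' → Y ω = Y ω') : hc P X Y' ≤ hc P X Y := by
  have h1 := P.submod X Y' Y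
  have h2 : P.H (fun ω => (X ω, Y' ω, Y ω)) = P.H (fun ω => (X ω, Y' ω)) :=
    P.H_congr fun ω ω' => by
      simp only [Prod.mk.injEq]
      exact ⟨fun h' => ⟨h'.1, h'.2.1⟩, fun h' => ⟨h'.1, h'.2, h ω ω' h'.2⟩⟩
  have h3 : P.H (fun ω => (Y' ω, Y ω)) = P.H Y' :=
    P.H_congr fun ω ω' => by
      simp only [Prod.mk.injEq]
      exact ⟨fun h' => h'.1, fun h' => ⟨h', h ω ω' h'⟩⟩
  unfold hc
  linarith

lemma hc_congr_left (P : Law Ω) {X : Ω → S} {X' : Ω → S'} {Y : Ω → T}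
    (h : ∀ ω ω', Y ω = Y ω' → (X ω = X ω' ↔ X' ω = X' ω')) : hc P X' Y = hc P X Y :=
  le_antisymm (hc_mono_left P fun ω ω' h1 h2 => (h ω ω' h2).1 h1)
    (hc_mono_left P fun ω ω' h1 h2 => (h ω ω' h2).2 h1)

lemma hc_congr_right (P : Law Ω) {X : Ω → S} {Y : Ω → T} {Y' : Ω → T'}
    (h : ∀ ω ω', Y' ω = Y' ω' ↔ Y ω = Y ω') : hc P X Y' = hc P X Y :=
  le_antisymm (hc_mono_right P fun ω ω' h1 => (h ω ω').1 h1)
    (hc_mono_right P fun ω ω' h1 => (h ω ω').2 h1)

/-- chain rule -/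
lemma hc_chain (P : Law Ω) (X : Ω → S) (Y : Ω → T) (Z : Ω → U) :
    hc P (fun ω => (X ω, Y ω)) Z = hc P X Z + hc P Y (fun ω => (X ω, Z ω)) := by
  have h1 : P.H (fun ω => ((X ω, Y ω), Z ω)) = P.H (fun ω => (Y ω, (X ω, Z ω))) :=
    P.H_congr fun ω ω' => by
      simp only [Prod.mk.injEq]
      tauto
  unfold hc
  linarith

/-- chain rule as an inequality -/
lemma hc_le_add (P : Law Ω) (X : Ω → S) (Y : Ω → T) (Z : Ω → U) :
    hc P Y Z ≤ hc P X Z + hc P Y (fun ω => (X ω, Z ω)) := by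
  rw [← hc_chain]
  exact hc_mono_left P fun ω ω' h _ => (Prod.mk.inj h).2

open Classical in
/-- a variable with at most `N` values given `Y` -/
lemma hc_card (P : Law Ω) (X : Ω → S) (Y : Ω → T) (N : ℝ) (hN : 0 < N)
    (h : ∀ y, (((univ.filter (fun ω => Y ω = y)).image X).card : ℝ) ≤ N) :
    hc P X Y ≤ Real.log N := by
  have h1 := P.gibbs_cond X Y (fun x y => if x ∈ (univ.filter (fun ω => Y ω = y)).image X then
      1 / N else 0) (fun x y => by split_ifs <;> positivity) (fun y F => by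
        rw [← Finset.sum_filter, Finset.sum_const, nsmul_eq_mul]
        have h2 : ((F.filter (fun x => x ∈ (univ.filter (fun ω => Y ω = y)).image X)).card : ℝ) ≤
            N := by
          refine le_trans ?_ (h y)
          exact_mod_cast Finset.card_le_card fun x hx => (Finset.mem_filter.1 hx).2
        rw [mul_one_div]
        exact div_le_one_of_le₀ h2 hN.le) (fun ω _ => by
        rw [if_pos]
        · positivity
        · exact Finset.mem_image_of_mem _ (by simp))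
  refine h1.trans (le_of_eq ?_)
  have h3 : ∀ ω, -Real.log (if X ω ∈ (univ.filter (fun ω' => Y ω' = Y ω)).image X then
      1 / N else 0) = Real.log N := by
    intro ω
    rw [if_pos (Finset.mem_image_of_mem _ (by simp)), one_div, Real.log_inv, neg_neg]
  simp only [h3]
  rw [P.ex_const]

/-- an integer vector known up to `K` -/
lemma hc_box {ι : Type} [Fintype ι] (P : Law Ω) (X : Ω → ι → ℤ) (Y : Ω → T) (g : Ω → ι → ℝ)
    (hg : ∀ ω ω', Y ω = Y ω' → g ω = g ω') (K : ℝ) (hK0 : 0 ≤ K)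
    (hK : ∀ ω i, |(X ω i : ℝ) - g ω i| ≤ K) :
    hc P X Y ≤ Fintype.card ι * Real.log (2 * K + 1) := by
  classical
  have h0 : (0 : ℝ) < 2 * K + 1 := by linarith
  have h := hc_card P X Y ((2 * K + 1) ^ Fintype.card ι) (by positivity) ?_
  · rwa [Real.log_pow] at h
  intro y
  by_cases hy : ∃ ω, Y ω = y
  · obtain ⟨ω0, rfl⟩ := hy
    have hsub : ∀ ω, Y ω = Y ω0 → X ω ∈
        Fintype.piFinset (fun i => Finset.Icc ⌈g ω0 i - K⌉ ⌊g ω0 i + K⌋) := by
      intro ω hω'
      rw [Fintype.mem_piFinset]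
      intro i
      have h1 := abs_le.1 (hK ω i)
      rw [hg ω ω0 hω'] at h1
      rw [Finset.mem_Icc]
      refine ⟨Int.ceil_le.2 (by linarith), Int.le_floor.2 (by linarith)⟩
    have hcard : ((Fintype.piFinset (fun i => Finset.Icc ⌈g ω0 i - K⌉ ⌊g ω0 i + K⌋)).card : ℝ) ≤
        (2 * K + 1) ^ Fintype.card ι := by
      rw [Fintype.card_piFinset, Nat.cast_prod]
      calc ∏ i, (((Finset.Icc ⌈g ω0 i - K⌉ ⌊g ω0 i + K⌋).card : ℕ) : ℝ)
          ≤ ∏ _i : ι, (2 * K + 1) := by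
            refine Finset.prod_le_prod (fun i _ => by positivity) fun i _ => ?_
            rw [Int.card_Icc]
            have h2 : (((⌊g ω0 i + K⌋ + 1 - ⌈g ω0 i - K⌉).toNat : ℕ) : ℝ) =
                ((max (⌊g ω0 i + K⌋ + 1 - ⌈g ω0 i - K⌉) 0 : ℤ) : ℝ) := by
              rw [← Int.toNat_eq_max]
              push_cast
              rfl
            rw [h2]
            push_cast
            refine max_le ?_ h0.le
            have h3 := Int.floor_le (g ω0 i + K)
            have h4 := Int.le_ceil (g ω0 i - K)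
            linarith
        _ = (2 * K + 1) ^ Fintype.card ι := by
            rw [Finset.prod_const, Finset.card_univ]
    refine le_trans ?_ hcard
    rw [Nat.cast_le]
    refine Finset.card_le_card fun v hv => ?_
    simp only [Finset.mem_image, Finset.mem_filter, Finset.mem_univ, true_and] at hv
    obtain ⟨ω, hω, rfl⟩ := hv
    exact hsub ω hω
  · have : univ.filter (fun ω => Y ω = y) = ∅ := by
      rw [Finset.filter_eq_empty_iff]
      intro ω _ hω
      exact hy ⟨ω, hω⟩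
    rw [this]
    simp only [Finset.image_empty, Finset.card_empty, Nat.cast_zero]
    positivity

lemma mi_comm (P : Law Ω) (X : Ω → S) (Y : Ω → T) (Z : Ω → U) : mi P X Y Z = mi P Y X Z := by
  have h : P.H (fun ω => (X ω, (Y ω, Z ω))) = P.H (fun ω => (Y ω, (X ω, Z ω))) :=
    P.H_congr fun ω ω' => by
      simp only [Prod.mk.injEq]
      tauto
  unfold mi hc
  linarith

lemma mi_nonneg (P : Law Ω) (X : Ω → S) (Y : Ω → T) (Z : Ω → U) : 0 ≤ mi P X Y Z := by
  have := hc_mono_right P (X := X) (Y := Z) (Y' := fun ω => (Y ω, Z ω))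
    (fun ω ω' h => (Prod.mk.inj h).2)
  unfold mi
  linarith

/-- data processing -/
lemma mi_mono_left (P : Law Ω) {X : Ω → S} {X' : Ω → S'} {Y : Ω → T} {Z : Ω → U}
    (h : ∀ ω ω', X ω = X ω' → Z ω = Z ω' → X' ω = X' ω') : mi P X' Y Z ≤ mi P X Y Z := by
  rw [mi_comm P X', mi_comm P X]
  have := hc_mono_right P (X := Y) (Y := fun ω => (X' ω, Z ω)) (Y' := fun ω => (X ω, Z ω))
    (fun ω ω' h' => by
      obtain ⟨h1, h2⟩ := Prod.mk.inj h'
      rw [h ω ω' h1 h2, h2])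
  unfold mi
  linarith

lemma mi_mono_right (P : Law Ω) {X : Ω → S} {Y : Ω → T} {Y' : Ω → T'} {Z : Ω → U}
    (h : ∀ ω ω', Y ω = Y ω' → Z ω = Z ω' → Y' ω = Y' ω') : mi P X Y' Z ≤ mi P X Y Z := by
  rw [mi_comm P X, mi_comm P X]
  exact mi_mono_left P h

/-- chain rule for the mutual information -/
lemma mi_chain (P : Law Ω) (X : Ω → S) (X' : Ω → S') (Y : Ω → T) (Z : Ω → U) :
    mi P (fun ω => (X ω, X' ω)) Y Z = mi P X Y Z + mi P X' Y (fun ω => (X ω, Z ω)) := by
  have h1 := hc_chain P X X' Z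
  have h2 := hc_chain P X X' (fun ω => (Y ω, Z ω))
  have h3 : hc P X' (fun ω => (X ω, (Y ω, Z ω))) = hc P X' (fun ω => (Y ω, (X ω, Z ω))) :=
    hc_congr_right P fun ω ω' => by
      simp only [Prod.mk.injEq]
      tauto
  unfold mi
  linarith

lemma mi_congr_left (P : Law Ω) {X : Ω → S} {X' : Ω → S'} {Y : Ω → T} {Z : Ω → U}
    (h : ∀ ω ω', Z ω = Z ω' → (X ω = X ω' ↔ X' ω = X' ω')) : mi P X' Y Z = mi P X Y Z :=
  le_antisymm (mi_mono_left P fun ω ω' h1 h2 => (h ω ω' h2).1 h1)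
    (mi_mono_left P fun ω ω' h1 h2 => (h ω ω' h2).2 h1)

lemma mi_congr_cond (P : Law Ω) {X : Ω → S} {Y : Ω → T} {Z : Ω → U} {Z' : Ω → V}
    (h : ∀ ω ω', Z' ω = Z' ω' ↔ Z ω = Z ω') : mi P X Y Z' = mi P X Y Z := by
  have h1 := hc_congr_right P (X := X) h
  have h2 : hc P X (fun ω => (Y ω, Z' ω)) = hc P X (fun ω => (Y ω, Z ω)) :=
    hc_congr_right P fun ω ω' => by
      simp only [Prod.mk.injEq, h ω ω']
  unfold mi
  linarith

/-- removing the condition costs at most the information -/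
lemma hc_sub_le_mi (P : Law Ω) (X : Ω → S) (Y : Ω → T) (Z : Ω → U) :
    hc P X Z - hc P X (fun ω => (Y ω, Z ω)) = mi P X Y Z := rfl

end Vale.Agent.P127.Stk.Win
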