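import Vale.Agent.P127.Stk.WinA

/-!
# P127 / Stk / Window, part B: digits and truncated sub-configurations
-/

namespace Vale.Agent.P127.Stk.Win

open Finset Vale.Agent.P127

/-! ### digits -/

/-- the digits `r+1, ..., r+L` of a number, as a number of `[0,1)` -/
noncomputable def dg (r L : ℕ) (v : ℝ) : ℝ :=
  ((⌊(2 : ℝ) ^ (r + L) * v⌋ : ℝ) - 2 ^ L * ⌊(2 : ℝ) ^ r * v⌋) / 2 ^ L

/-- floors at a coarser scale -/
lemma floor_coarse (s d : ℕ) (v : ℝ) :
    ⌊(2 : ℝ) ^ s * v⌋ = ⌊(2 : ℝ) ^ (s + d) * v⌋ / (2 ^ d : ℕ) := by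
  rw [← Int.floor_div_natCast]
  congr 1
  push_cast
  rw [pow_add]
  field_simp

lemma dg_nonneg (r L : ℕ) (v : ℝ) : 0 ≤ dg r L v := by
  unfold dg
  refine div_nonneg ?_ (by positivity)
  have h1 : (2 : ℝ) ^ L * ⌊(2 : ℝ) ^ r * v⌋ ≤ 2 ^ (r + L) * v := by
    have := mul_le_mul_of_nonneg_left (Int.floor_le ((2 : ℝ) ^ r * v))
      (by positivity : (0 : ℝ) ≤ 2 ^ L)
    rw [pow_add]
    linarith
  have h2 : ((2 ^ L * ⌊(2 : ℝ) ^ r * v⌋ : ℤ) : ℝ) ≤ 2 ^ (r + L) * v := by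
    push_cast
    exact h1
  have h3 : (2 ^ L * ⌊(2 : ℝ) ^ r * v⌋ : ℤ) ≤ ⌊(2 : ℝ) ^ (r + L) * v⌋ := Int.le_floor.2 h2
  have h4 : ((2 ^ L * ⌊(2 : ℝ) ^ r * v⌋ : ℤ) : ℝ) ≤ (⌊(2 : ℝ) ^ (r + L) * v⌋ : ℤ) := by
    exact_mod_cast h3
  push_cast at h4
  linarith

lemma dg_lt_one (r L : ℕ) (v : ℝ) : dg r L v < 1 := by
  unfold dg
  rw [div_lt_one (by positivity)]
  have h1 := Int.floor_le ((2 : ℝ) ^ (r + L) * v)
  have h2 := mul_lt_mul_of_pos_left (Int.lt_floor_add_one ((2 : ℝ) ^ r * v))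
    (by positivity : (0 : ℝ) < 2 ^ L)
  have h3 : (2 : ℝ) ^ (r + L) * v = 2 ^ L * (2 ^ r * v) := by rw [pow_add]; ring
  linarith

lemma floor_dg (r L s : ℕ) (hs : s ≤ L) (v : ℝ) :
    ⌊(2 : ℝ) ^ s * dg r L v⌋ = ⌊(2 : ℝ) ^ (r + s) * v⌋ - 2 ^ s * ⌊(2 : ℝ) ^ r * v⌋ := by
  obtain ⟨d, rfl⟩ := Nat.exists_eq_add_of_le hs
  have h1 := floor_coarse (r + s) d v
  have h2 : (2 : ℝ) ^ s * dg r (s + d) v =
      ((⌊(2 : ℝ) ^ (r + (s + d)) * v⌋ : ℤ) : ℝ) / ((2 ^ d : ℕ) : ℝ) -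
        ((2 ^ s * ⌊(2 : ℝ) ^ r * v⌋ : ℤ) : ℝ) := by
    unfold dg
    push_cast
    rw [pow_add 2 s d]
    field_simp
  rw [h2, Int.floor_sub_intCast, Int.floor_div_natCast, Int.floor_intCast, h1, add_assoc]

lemma dg_err (r L : ℕ) (v : ℝ) :
    |(2 : ℝ) ^ r * v - ⌊(2 : ℝ) ^ r * v⌋ - dg r L v| ≤ 1 / 2 ^ L := by
  have h2 : (0 : ℝ) < 2 ^ L := by positivity
  have h3 : (2 : ℝ) ^ (r + L) * v = 2 ^ L * (2 ^ r * v) := by rw [pow_add]; ring
  have h1 : (2 : ℝ) ^ r * v - ⌊(2 : ℝ) ^ r * v⌋ - dg r L v =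
      ((2 : ℝ) ^ (r + L) * v - ⌊(2 : ℝ) ^ (r + L) * v⌋) / 2 ^ L := by
    unfold dg
    rw [h3]
    field_simp
    ring
  rw [h1, abs_div, abs_of_pos h2]
  refine div_le_div_of_nonneg_right ?_ h2.le
  have h4 := Int.floor_le ((2 : ℝ) ^ (r + L) * v)
  have h5 := Int.lt_floor_add_one ((2 : ℝ) ^ (r + L) * v)
  rw [abs_le]
  constructor <;> linarith

section fl

variable {ι : Type}

lemma fl_coarse {s s' : ℕ} (h : s ≤ s') {v w : ι → ℝ} (hv : fl s' v = fl s' w) :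
    fl s v = fl s w := by
  obtain ⟨d, rfl⟩ := Nat.exists_eq_add_of_le h
  funext i
  have := congrFun hv i
  unfold fl at this ⊢
  rw [floor_coarse s d, floor_coarse s d (w i), this]

lemma fl1_coarse {s s' : ℕ} (h : s ≤ s') {v w : ℝ} (hv : fl1 s' v = fl1 s' w) :
    fl1 s v = fl1 s w := by
  obtain ⟨d, rfl⟩ := Nat.exists_eq_add_of_le h
  unfold fl1 at hv ⊢
  rw [floor_coarse s d, floor_coarse s d w, hv]

lemma fl_dg (r L s : ℕ) (hs : s ≤ L) (v : ι → ℝ) (i : ι) :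
    fl s (fun i => dg r L (v i)) i = fl (r + s) v i - 2 ^ s * fl r v i := by
  unfold fl
  exact floor_dg r L s hs (v i)

/-- given the first `r` digits, the digits of the truncation are the digits of the vector -/
lemma fl_dg_iff {r L s : ℕ} (hs : s ≤ L) {v w : ι → ℝ} (hr : fl r v = fl r w) :
    fl s (fun i => dg r L (v i)) = fl s (fun i => dg r L (w i)) ↔ fl (r + s) v = fl (r + s) w := by
  simp only [funext_iff, fl_dg r L s hs]
  refine forall_congr' fun i => ?_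
  rw [congrFun hr i]
  constructor <;> intro h <;> linarith

lemma dg_eq_iff {r L : ℕ} {v w : ι → ℝ} (hr : fl r v = fl r w) :
    (fun i => dg r L (v i)) = (fun i => dg r L (w i)) ↔ fl (r + L) v = fl (r + L) w := by
  constructor
  · intro h
    rw [← fl_dg_iff le_rfl hr, h]
  · intro h
    funext i
    have h1 : (⌊(2 : ℝ) ^ (r + L) * v i⌋) = ⌊(2 : ℝ) ^ (r + L) * w i⌋ := congrFun h i
    have h2 : (⌊(2 : ℝ) ^ r * v i⌋) = ⌊(2 : ℝ) ^ r * w i⌋ := congrFun hr i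
    simp only [dg, h1, h2]

end fl

/-! ### truncated sub-configurations -/

variable {Ω : Type} {m : ℕ}

/-- the digits `r+1, ..., r+L` of the lines of a configuration -/
noncomputable def tr (c : Cf Ω m) (r L : ℕ) : Cf Ω m where
  α := c.α × (Fin m → ℤ) × (Fin m → ℤ)
  A := fun ω => (c.A ω, fl r (c.x ω), fl r (c.y ω))
  x := fun ω i => dg r L (c.x ω i)
  y := fun ω i => dg r L (c.y ω i)
  t := c.t

/-- the first `s` digits of the line -/
noncomputable def Qs (c : Cf Ω m) (s : ℕ) (ω : Ω) : (Fin m → ℤ) × (Fin m → ℤ) :=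
  (fl s (c.x ω), fl s (c.y ω))

variable [Fintype Ω]

lemma good_C {P : Law Ω} {c : Cf Ω m} {L : ℕ} {e C : ℝ} (hG : Good P c L e C) : 0 ≤ C :=
  (mi_nonneg P _ _ _).trans hG.ind

/-- entropy of the first digits of the direction, given the first digits of the line -/
lemma Q_le {P : Law Ω} {c : Cf Ω m} {L : ℕ} {e C : ℝ} (hG : Good P c L e C) {s : ℕ}
    (hs : s ≤ L) : hc P (Qs c s) c.A ≤ (m * s : ℝ) * Real.log 2 + e := hG.lin s hs

lemma Q_ge {P : Law Ω} {c : Cf Ω m} {L : ℕ} {e C : ℝ} (hG : Good P c L e C) {s : ℕ}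
    (hs : s ≤ L) : (m * s : ℝ) * Real.log 2 - e ≤ hc P (Qs c s) c.A :=
  (hG.dir s hs).trans (hc_mono_left P fun _ _ h _ => (Prod.mk.inj h).2)

theorem good_tr {P : Law Ω} {c : Cf Ω m} {L1 : ℕ} {e C : ℝ} (hG : Good P c L1 e C) {r L : ℕ}
    (h : r + L ≤ L1) : Good P (tr c r L) L (2 * e) (2 * C) := by
  have hC := good_C hG
  refine ⟨fun ω i => ⟨dg_nonneg _ _ _, dg_lt_one _ _ _⟩, fun ω i => ⟨dg_nonneg _ _ _,
    dg_lt_one _ _ _⟩, hG.t01, ?_, ?_, ?_, ?_⟩
  · -- independence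
    have h1 := mi_chain P (Qs c r) (fun ω => (c.x ω, c.y ω)) c.t c.A
    have h2 : mi P (fun ω => (Qs c r ω, (c.x ω, c.y ω))) c.t c.A =
        mi P (fun ω => (c.x ω, c.y ω)) c.t c.A :=
      mi_congr_left P fun ω ω' _ => by
        constructor
        · intro h'
          obtain ⟨h3, h4⟩ := Prod.mk.inj h'
          simp only [Qs, Prod.mk.injEq, h3, h4, and_self]
        · intro h'
          exact (Prod.mk.inj h').2
    have h3 := mi_nonneg P (Qs c r) c.t c.A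
    have h4 : mi P (fun ω => ((tr c r L).x ω, (tr c r L).y ω)) (tr c r L).t (tr c r L).A ≤
        mi P (fun ω => (c.x ω, c.y ω)) c.t (fun ω => (Qs c r ω, c.A ω)) := by
      have h5 : mi P (fun ω => (c.x ω, c.y ω)) c.t (fun ω => (Qs c r ω, c.A ω)) =
          mi P (fun ω => (c.x ω, c.y ω)) c.t (tr c r L).A :=
        mi_congr_cond P fun ω ω' => by
          simp only [Qs, tr, Prod.mk.injEq]
          tauto
      rw [h5]
      refine mi_mono_left P fun ω ω' h' _ => ?_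
      obtain ⟨h6, h7⟩ := Prod.mk.inj h'
      simp only [tr, h6, h7]
    have h5 := hG.ind
    linarith
  · intro s hs
    have h1 : hc P (fun ω => fl s ((tr c r L).y ω)) (tr c r L).A =
        hc P (fun ω => fl (r + s) (c.y ω)) (fun ω => (Qs c r ω, c.A ω)) := by
      rw [hc_congr_right P (Y := (tr c r L).A) (Y' := (fun ω => (Qs c r ω, c.A ω)))]
      · refine hc_congr_left P fun ω ω' h' => ?_
        simp only [tr, Prod.mk.injEq] at h'
        exact (fl_dg_iff hs h'.2.2).symm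
      · intro ω ω'
        simp only [Qs, tr, Prod.mk.injEq]
        tauto
    have h2 := hc_chain P (Qs c r) (fun ω => fl (r + s) (c.y ω)) c.A
    have h3 : hc P (fun ω => fl (r + s) (c.y ω)) c.A ≤
        hc P (fun ω => (Qs c r ω, fl (r + s) (c.y ω))) c.A :=
      hc_mono_left P fun _ _ h' _ => (Prod.mk.inj h').2
    have h4 := hG.dir (r + s) (by omega)
    have h5 := Q_le hG (s := r) (by omega)
    rw [h1]
    push_cast at h4
    nlinarith
  · intro s hs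
    have h1 : hc P (fun ω => (fl s ((tr c r L).x ω), fl s ((tr c r L).y ω))) (tr c r L).A =
        hc P (Qs c (r + s)) (fun ω => (Qs c r ω, c.A ω)) := by
      rw [hc_congr_right P (Y := (tr c r L).A) (Y' := (fun ω => (Qs c r ω, c.A ω)))]
      · refine hc_congr_left P fun ω ω' h' => ?_
        simp only [tr, Prod.mk.injEq] at h'
        simp only [Qs, Prod.mk.injEq, tr]
        rw [fl_dg_iff hs h'.2.1, fl_dg_iff hs h'.2.2]
      · intro ω ω'
        simp only [Qs, tr, Prod.mk.injEq]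
        tauto
    have h2 := hc_chain P (Qs c r) (Qs c (r + s)) c.A
    have h3 : hc P (fun ω => (Qs c r ω, Qs c (r + s) ω)) c.A ≤ hc P (Qs c (r + s)) c.A :=
      hc_mono_left P fun ω ω' h' _ => by
        have h'' := h'
        simp only [Qs, Prod.mk.injEq] at h'' ⊢
        exact ⟨⟨fl_coarse (by omega) h''.1, fl_coarse (by omega) h''.2⟩, h''⟩
    have h4 := Q_le hG (s := r + s) (by omega)
    have h5 := Q_ge hG (s := r) (by omega)
    rw [h1]
    push_cast at h4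
    nlinarith
  · intro s hs
    have h1 : hc P (fun ω => fl1 s ((tr c r L).t ω)) (tr c r L).A =
        hc P (fun ω => fl1 s (c.t ω)) (fun ω => (Qs c r ω, c.A ω)) := by
      rw [hc_congr_right P (Y := (tr c r L).A) (Y' := (fun ω => (Qs c r ω, c.A ω)))]
      · rfl
      · intro ω ω'
        simp only [Qs, tr, Prod.mk.injEq]
        tauto
    have h2 : mi P (fun ω => fl1 s (c.t ω)) (Qs c r) c.A ≤ mi P c.t (Qs c r) c.A :=
      mi_mono_left P fun ω ω' h' _ => by simp only [h']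
    have h3 : mi P c.t (Qs c r) c.A ≤ mi P c.t (fun ω => (c.x ω, c.y ω)) c.A :=
      mi_mono_right P fun ω ω' h' _ => by
        obtain ⟨h3, h4⟩ := Prod.mk.inj h'
        simp only [Qs, h3, h4]
    have h4 := hG.ind
    rw [mi_comm P] at h4
    have h5 := hG.tim s (by omega)
    have h6 := hc_sub_le_mi P (fun ω => fl1 s (c.t ω)) (Qs c r) c.A
    rw [h1]
    linarith

end Vale.Agent.P127.Stk.Win
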