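import Vale.Agent.P127.Stk.WinB

/-!
# P127 / Stk / Window, part C: costs and rates of the truncated sub-configurations
-/

namespace Vale.Agent.P127.Stk.Win

open Finset Vale.Agent.P127

variable {Ω : Type} {m κ : ℕ}

/-! ### the projection -/

/-- norm of the projections of type `κ` -/
noncomputable def Kk (κ : ℕ) : ℝ := 1 + κ * 3 ^ κ

lemma one_le_Kk (κ : ℕ) : 1 ≤ Kk κ := by
  unfold Kk
  have : (0 : ℝ) ≤ κ * 3 ^ κ := by positivity
  linarith

lemma app_add (o : Ob Ω m κ) (ω : Ω) (u v : Fin m → ℝ) :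
    o.app ω (u + v) = o.app ω u + o.app ω v := by
  classical
  funext i
  simp only [Ob.app, Pi.add_apply]
  split_ifs
  · simp
  · simp only [mul_add, Finset.sum_add_distrib]
    ring

lemma app_smul (o : Ob Ω m κ) (ω : Ω) (a : ℝ) (v : Fin m → ℝ) :
    o.app ω (a • v) = a • o.app ω v := by
  classical
  funext i
  simp only [Ob.app, Pi.smul_apply, smul_eq_mul]
  split_ifs
  · simp
  · rw [mul_sub, Finset.mul_sum]
    congr 1
    refine Finset.sum_congr rfl fun j _ => ?_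
    ring

lemma sum_J_le (o : Ob Ω m κ) (ω : Ω) (v : Fin m → ℝ) (M : ℝ) (i : Fin m)
    (hv : ∀ j, |v j| ≤ M) : |∑ j ∈ o.J, o.Γ ω i j * v j| ≤ κ * 3 ^ κ * M := by
  calc |∑ j ∈ o.J, o.Γ ω i j * v j| ≤ ∑ j ∈ o.J, |o.Γ ω i j * v j| :=
        Finset.abs_sum_le_sum_abs _ _
    _ ≤ ∑ _j ∈ o.J, (3 : ℝ) ^ κ * M := by
        refine Finset.sum_le_sum fun j _ => ?_
        rw [abs_mul]
        exact mul_le_mul (o.bd ω i j) (hv j) (abs_nonneg _) (by positivity)
    _ = κ * 3 ^ κ * M := by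
        rw [Finset.sum_const, o.card, nsmul_eq_mul]
        ring

lemma app_le (o : Ob Ω m κ) (ω : Ω) (v : Fin m → ℝ) (M : ℝ) (hv : ∀ j, |v j| ≤ M)
    (i : Fin m) : |o.app ω v i| ≤ Kk κ * M := by
  classical
  have hM : 0 ≤ M := (abs_nonneg _).trans (hv i)
  unfold Ob.app
  split_ifs
  · rw [abs_zero]
    exact mul_nonneg (by linarith [one_le_Kk κ]) hM
  · have h1 := sum_J_le o ω v M i hv
    have h2 := abs_sub (v i) (∑ j ∈ o.J, o.Γ ω i j * v j)
    have h3 := hv i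
    unfold Kk
    linarith

/-! ### the projected point of the truncation -/

/-- the part of the projected point determined by the first `r` digits of the line -/
noncomputable def wr (c : Cf Ω m) (o : Ob Ω m κ) (r : ℕ) (ω : Ω) : Fin m → ℝ :=
  o.app ω (fun i => (fl r (c.x ω) i : ℝ) + c.t ω * fl r (c.y ω) i)

lemma wr_congr (c : Cf Ω m) (o : Ob Ω m κ) (r : ℕ) {ω ω' : Ω} (h1 : c.t ω = c.t ω')
    (h2 : o.G ω = o.G ω') (h3 : fl r (c.x ω) = fl r (c.x ω')) (h4 : fl r (c.y ω) = fl r (c.y ω')) :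
    wr c o r ω = wr c o r ω' := by
  unfold wr Ob.app
  rw [h1, h3, h4, o.fn ω ω' h2]

/-- position of the projected point -/
lemma F_pos (c : Cf Ω m) (o : Ob Ω m κ) (ω : Ω) (r : ℕ) (ht : 0 ≤ c.t ω ∧ c.t ω < 1)
    (i : Fin m) : |(2 : ℝ) ^ r * o.F c ω i - wr c o r ω i| ≤ Kk κ * 2 := by
  have h1 : (2 : ℝ) ^ r * o.F c ω i - wr c o r ω i =
      o.app ω (((2 : ℝ) ^ r) • c.pt ω +
        (-1 : ℝ) • (fun i => (fl r (c.x ω) i : ℝ) + c.t ω * fl r (c.y ω) i)) i := by
    rw [app_add, app_smul, app_smul]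
    simp only [Ob.F, wr, Pi.add_apply, Pi.smul_apply, smul_eq_mul]
    ring
  rw [h1]
  refine app_le o ω _ 2 (fun j => ?_) i
  simp only [Cf.pt, Pi.add_apply, Pi.smul_apply, smul_eq_mul, fl]
  have a1 := Int.floor_le ((2 : ℝ) ^ r * c.x ω j)
  have a2 := Int.lt_floor_add_one ((2 : ℝ) ^ r * c.x ω j)
  have a3 := Int.floor_le ((2 : ℝ) ^ r * c.y ω j)
  have a4 := Int.lt_floor_add_one ((2 : ℝ) ^ r * c.y ω j)
  have a5 : 0 ≤ (2 : ℝ) ^ r * c.y ω j - ⌊(2 : ℝ) ^ r * c.y ω j⌋ := by linarith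
  have a6 : (2 : ℝ) ^ r * c.y ω j - ⌊(2 : ℝ) ^ r * c.y ω j⌋ ≤ 1 := by linarith
  have a7 : 0 ≤ c.t ω * ((2 : ℝ) ^ r * c.y ω j - ⌊(2 : ℝ) ^ r * c.y ω j⌋) :=
    mul_nonneg ht.1 a5
  have a8 : c.t ω * ((2 : ℝ) ^ r * c.y ω j - ⌊(2 : ℝ) ^ r * c.y ω j⌋) ≤ 1 * 1 :=
    mul_le_mul ht.2.le a6 a5 (by norm_num)
  rw [abs_le]
  constructor <;> nlinarith

/-- position of the projected point of the truncation -/
lemma F_tr (c : Cf Ω m) (o : Ob Ω m κ) (ω : Ω) (r L : ℕ) (ht : 0 ≤ c.t ω ∧ c.t ω < 1)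
    (i : Fin m) :
    |(2 : ℝ) ^ (r + L) * o.F c ω i - 2 ^ L * wr c o r ω i - 2 ^ L * o.F (tr c r L) ω i| ≤
      Kk κ * 2 := by
  have h1 : (2 : ℝ) ^ (r + L) * o.F c ω i - 2 ^ L * wr c o r ω i -
      2 ^ L * o.F (tr c r L) ω i =
      o.app ω (((2 : ℝ) ^ (r + L)) • c.pt ω +
        (-(2 : ℝ) ^ L) • (fun i => (fl r (c.x ω) i : ℝ) + c.t ω * fl r (c.y ω) i) +
        (-(2 : ℝ) ^ L) • (tr c r L).pt ω) i := by
    rw [app_add, app_add, app_smul, app_smul, app_smul]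
    simp only [Ob.F, wr, Pi.add_apply, Pi.smul_apply, smul_eq_mul]
    ring
  rw [h1]
  refine app_le o ω _ 2 (fun j => ?_) i
  have a1 := abs_le.1 (dg_err r L (c.x ω j))
  have a2 := abs_le.1 (dg_err r L (c.y ω j))
  have hp : (0 : ℝ) < 2 ^ L := by positivity
  have e1 : (2 : ℝ) ^ L * (1 / 2 ^ L) = 1 := by field_simp
  have b1 := mul_le_mul_of_nonneg_left a1.1 hp.le
  have b2 := mul_le_mul_of_nonneg_left a1.2 hp.le
  have b3 := mul_le_mul_of_nonneg_left a2.1 hp.le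
  have b4 := mul_le_mul_of_nonneg_left a2.2 hp.le
  rw [mul_neg, e1] at b1 b3
  rw [e1] at b2 b4
  have h2 : (((2 : ℝ) ^ (r + L)) • c.pt ω +
        (-(2 : ℝ) ^ L) • (fun i => (fl r (c.x ω) i : ℝ) + c.t ω * fl r (c.y ω) i) +
        (-(2 : ℝ) ^ L) • (tr c r L).pt ω) j =
      2 ^ L * ((2 : ℝ) ^ r * c.x ω j - ⌊(2 : ℝ) ^ r * c.x ω j⌋ - dg r L (c.x ω j)) +
        c.t ω * (2 ^ L * ((2 : ℝ) ^ r * c.y ω j - ⌊(2 : ℝ) ^ r * c.y ω j⌋ -
          dg r L (c.y ω j))) := by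
    simp only [Cf.pt, tr, Pi.add_apply, Pi.smul_apply, smul_eq_mul, fl, pow_add]
    ring
  rw [h2]
  set u := (2 : ℝ) ^ L * ((2 : ℝ) ^ r * c.x ω j - ⌊(2 : ℝ) ^ r * c.x ω j⌋ - dg r L (c.x ω j))
  set v := (2 : ℝ) ^ L * ((2 : ℝ) ^ r * c.y ω j - ⌊(2 : ℝ) ^ r * c.y ω j⌋ - dg r L (c.y ω j))
  have c1 : |u| ≤ 1 := abs_le.2 ⟨by linarith, by linarith⟩
  have c2 : |v| ≤ 1 := abs_le.2 ⟨by linarith, by linarith⟩
  clear_value u v
  calc |u + c.t ω * v| ≤ |u| + |c.t ω * v| := abs_add_le _ _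
    _ = |u| + c.t ω * |v| := by rw [abs_mul, abs_of_nonneg ht.1]
    _ ≤ 1 + 1 * 1 := add_le_add c1 (mul_le_mul ht.2.le c2 (abs_nonneg _) (by norm_num))
    _ = 2 := by norm_num

variable [Fintype Ω]

/-- the rate of a configuration with an object -/
noncomputable def rate (P : Law Ω) (c : Cf Ω m) (o : Ob Ω m κ) (L : ℕ) : ℝ :=
  hc P (fun ω => fl L (o.F c ω)) (fun ω => (c.t ω, o.G ω, c.A ω))

/-- the cost of the object -/
noncomputable def cost (P : Law Ω) (c : Cf Ω m) (o : Ob Ω m κ) : ℝ :=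
  mi P (fun ω => (c.x ω, c.y ω)) o.G (fun ω => (c.t ω, c.A ω))

lemma cost_nonneg (P : Law Ω) (c : Cf Ω m) (o : Ob Ω m κ) : 0 ≤ cost P c o := mi_nonneg P _ _ _

/-- the loss per block -/
noncomputable def K1 (m κ : ℕ) : ℝ := 2 * (m * Real.log (2 * (Kk κ * 2 + 2) + 1))

lemma rate_tr_le (P : Law Ω) (c : Cf Ω m) (o : Ob Ω m κ) (r L : ℕ)
    (ht : ∀ ω, 0 ≤ c.t ω ∧ c.t ω < 1) :
    rate P (tr c r L) o L ≤ hc P (fun ω => fl (r + L) (o.F c ω))
      (fun ω => (fl r (o.F c ω), c.t ω, o.G ω, c.A ω)) + K1 m κ := by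
  have hK := one_le_Kk κ
  -- the conditioning variable
  let Y : Ω → ℝ × o.γ × (c.α × (Fin m → ℤ) × (Fin m → ℤ)) :=
    fun ω => (c.t ω, o.G ω, (c.A ω, fl r (c.x ω), fl r (c.y ω)))
  have hw : ∀ ω ω', Y ω = Y ω' → wr c o r ω = wr c o r ω' := by
    intro ω ω' h
    simp only [Y, Prod.mk.injEq] at h
    exact wr_congr c o r h.1 h.2.1 h.2.2.2.1 h.2.2.2.2
  have h0 : rate P (tr c r L) o L = hc P (fun ω => fl L (o.F (tr c r L) ω)) Y := rfl
  have h1 := hc_le_add P (fun ω => fl (r + L) (o.F c ω)) (fun ω => fl L (o.F (tr c r L) ω)) Y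
  have h2 : hc P (fun ω => fl L (o.F (tr c r L) ω)) (fun ω => (fl (r + L) (o.F c ω), Y ω)) ≤
      m * Real.log (2 * (Kk κ * 2 + 2) + 1) := by
    have := hc_box P (fun ω => fl L (o.F (tr c r L) ω)) (fun ω => (fl (r + L) (o.F c ω), Y ω))
      (fun ω i => (fl (r + L) (o.F c ω) i : ℝ) - 2 ^ L * wr c o r ω i) (fun ω ω' h => by
        obtain ⟨h3, h4⟩ := Prod.mk.inj h
        simp only [h3, hw ω ω' h4]) (Kk κ * 2 + 2) (by linarith) (fun ω i => by
        have a1 := abs_le.1 (F_tr c o ω r L (ht ω) i)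
        have a2 := Int.floor_le ((2 : ℝ) ^ (r + L) * o.F c ω i)
        have a3 := Int.lt_floor_add_one ((2 : ℝ) ^ (r + L) * o.F c ω i)
        have a4 := Int.floor_le ((2 : ℝ) ^ L * o.F (tr c r L) ω i)
        have a5 := Int.lt_floor_add_one ((2 : ℝ) ^ L * o.F (tr c r L) ω i)
        unfold fl
        rw [abs_le]
        constructor <;> linarith)
    simpa using this
  have h3 := hc_le_add P (fun ω => fl r (o.F c ω)) (fun ω => fl (r + L) (o.F c ω)) Y
  have h4 : hc P (fun ω => fl r (o.F c ω)) Y ≤ m * Real.log (2 * (Kk κ * 2 + 2) + 1) := by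
    have := hc_box P (fun ω => fl r (o.F c ω)) Y (fun ω i => wr c o r ω i)
      (fun ω ω' h => hw ω ω' h) (Kk κ * 2 + 2) (by linarith) (fun ω i => by
        have a1 := abs_le.1 (F_pos c o ω r (ht ω) i)
        have a2 := Int.floor_le ((2 : ℝ) ^ r * o.F c ω i)
        have a3 := Int.lt_floor_add_one ((2 : ℝ) ^ r * o.F c ω i)
        unfold fl
        rw [abs_le]
        constructor <;> linarith)
    simpa using this
  have h5 : hc P (fun ω => fl (r + L) (o.F c ω)) (fun ω => (fl r (o.F c ω), Y ω)) ≤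
      hc P (fun ω => fl (r + L) (o.F c ω))
        (fun ω => (fl r (o.F c ω), c.t ω, o.G ω, c.A ω)) :=
    hc_mono_right P fun ω ω' h => by
      simp only [Y, Prod.mk.injEq] at h ⊢
      tauto
  rw [h0]
  unfold K1
  linarith

/-- sum of the rates over the blocks -/
theorem rates_sum (P : Law Ω) (c : Cf Ω m) (o : Ob Ω m κ) (L : ℕ)
    (ht : ∀ ω, 0 ≤ c.t ω ∧ c.t ω < 1) (N : ℕ) :
    ∑ i ∈ Finset.range N, rate P (tr c (i * L) L) o L ≤ rate P c o (N * L) + N * K1 m κ := by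
  induction N with
  | zero =>
    simp only [Finset.range_zero, Finset.sum_empty, Nat.cast_zero, zero_mul, add_zero]
    exact hc_nonneg P _ _
  | succ N ih =>
    rw [Finset.sum_range_succ]
    have h1 := rate_tr_le P c o (N * L) L ht
    have h2 := hc_chain P (fun ω => fl (N * L) (o.F c ω)) (fun ω => fl (N * L + L) (o.F c ω))
      (fun ω => (c.t ω, o.G ω, c.A ω))
    have h3 : hc P (fun ω => (fl (N * L) (o.F c ω), fl (N * L + L) (o.F c ω)))
        (fun ω => (c.t ω, o.G ω, c.A ω)) ≤ rate P c o ((N + 1) * L) := by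
      refine hc_mono_left P fun ω ω' h _ => ?_
      rw [Nat.succ_mul] at h
      simp only [Prod.mk.injEq]
      exact ⟨fl_coarse (by omega) h, h⟩
    have h4 : rate P c o (N * L) = hc P (fun ω => fl (N * L) (o.F c ω))
      (fun ω => (c.t ω, o.G ω, c.A ω)) := rfl
    push_cast
    linarith

/-- sum of the costs over the blocks -/
theorem costs_sum (P : Law Ω) (c : Cf Ω m) (o : Ob Ω m κ) (L : ℕ) (N : ℕ) :
    ∑ i ∈ Finset.range N, cost P (tr c (i * L) L) o ≤ cost P c o := by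
  have key : ∑ i ∈ Finset.range N, cost P (tr c (i * L) L) o ≤
      mi P (Qs c (N * L)) o.G (fun ω => (c.t ω, c.A ω)) := by
    induction N with
    | zero =>
      simp only [Finset.range_zero, Finset.sum_empty]
      exact mi_nonneg P _ _ _
    | succ N ih =>
      rw [Finset.sum_range_succ]
      have h1 := mi_chain P (Qs c (N * L)) (Qs c (N * L + L)) o.G (fun ω => (c.t ω, c.A ω))
      have h2 : mi P (fun ω => (Qs c (N * L) ω, Qs c (N * L + L) ω)) o.G
          (fun ω => (c.t ω, c.A ω)) ≤ mi P (Qs c ((N + 1) * L)) o.G (fun ω => (c.t ω, c.A ω)) := by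
        refine mi_mono_left P fun ω ω' h _ => ?_
        rw [Nat.succ_mul] at h
        have h' := h
        simp only [Qs, Prod.mk.injEq] at h h' ⊢
        exact ⟨⟨fl_coarse (by omega) h.1, fl_coarse (by omega) h.2⟩, h'⟩
      have h3 : cost P (tr c (N * L) L) o = mi P (Qs c (N * L + L)) o.G
          (fun ω => (Qs c (N * L) ω, (c.t ω, c.A ω))) := by
        unfold cost
        rw [mi_congr_cond P (Z := fun ω => ((tr c (N * L) L).t ω, (tr c (N * L) L).A ω))
          (Z' := fun ω => (Qs c (N * L) ω, (c.t ω, c.A ω)))]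
        · refine mi_congr_left P fun ω ω' h => ?_
          simp only [tr, Prod.mk.injEq] at h
          simp only [Qs, tr, Prod.mk.injEq]
          rw [dg_eq_iff h.2.2.1, dg_eq_iff h.2.2.2]
        · intro ω ω'
          simp only [Qs, tr, Prod.mk.injEq]
          tauto
      linarith
  refine key.trans (mi_mono_left P fun ω ω' h _ => ?_)
  obtain ⟨h3, h4⟩ := Prod.mk.inj h
  simp only [Qs, h3, h4]

/-- the constant in the lower bound -/
noncomputable def K2 (m κ : ℕ) : ℝ :=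
  κ * Real.log 3 + m * Real.log (2 * (Kk κ + 1) + 1)

open Classical in
/-- the point is determined by the projected point and the coordinates in `J` -/
theorem pt_le (P : Law Ω) (c : Cf Ω m) (o : Ob Ω m κ) (L : ℕ)
    (hx : ∀ ω i, 0 ≤ c.x ω i ∧ c.x ω i < 1) (hy : ∀ ω i, 0 ≤ c.y ω i ∧ c.y ω i < 1)
    (ht : ∀ ω, 0 ≤ c.t ω ∧ c.t ω < 1) :
    hc P (fun ω => fl L (c.pt ω)) (fun ω => (c.t ω, c.A ω)) ≤
      rate P c o L + cost P c o + κ * (L * Real.log 2) + K2 m κ := by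
  have hK := one_le_Kk κ
  -- the object costs `cost`
  have h1 : hc P (fun ω => fl L (c.pt ω)) (fun ω => (c.t ω, c.A ω)) ≤
      hc P (fun ω => fl L (c.pt ω)) (fun ω => (o.G ω, (c.t ω, c.A ω))) + cost P c o := by
    have h2 := hc_sub_le_mi P (fun ω => fl L (c.pt ω)) o.G (fun ω => (c.t ω, c.A ω))
    have h3 : mi P (fun ω => fl L (c.pt ω)) o.G (fun ω => (c.t ω, c.A ω)) ≤ cost P c o := by
      refine mi_mono_left P fun ω ω' h h' => ?_
      simp only [Prod.mk.injEq] at h h'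
      obtain ⟨hx', hy'⟩ := h
      show fl L (c.pt ω) = fl L (c.pt ω')
      have e : c.pt ω = c.pt ω' := by
        funext i
        unfold Cf.pt
        rw [hx', hy', h'.1]
      rw [e]
    linarith
  have h1' : hc P (fun ω => fl L (c.pt ω)) (fun ω => (o.G ω, (c.t ω, c.A ω))) =
      hc P (fun ω => fl L (c.pt ω)) (fun ω => (c.t ω, o.G ω, c.A ω)) :=
    hc_congr_right P fun ω ω' => by
      simp only [Prod.mk.injEq]
      tauto
  -- the chain
  let XJ : Ω → {j // j ∈ o.J} → ℤ := fun ω j => fl L (c.pt ω) j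
  have h2 := hc_le_add P (fun ω => fl L (o.F c ω)) (fun ω => fl L (c.pt ω))
    (fun ω => (c.t ω, o.G ω, c.A ω))
  have h3 := hc_le_add P XJ (fun ω => fl L (c.pt ω))
    (fun ω => (fl L (o.F c ω), (c.t ω, o.G ω, c.A ω)))
  have h4 : hc P XJ (fun ω => (fl L (o.F c ω), (c.t ω, o.G ω, c.A ω))) ≤
      κ * (L * Real.log 2 + Real.log 3) := by
    have hp : (0 : ℝ) < 2 ^ L := by positivity
    have hp1 : (1 : ℝ) ≤ 2 ^ L := one_le_pow₀ (by norm_num)
    have := hc_box P XJ (fun ω => (fl L (o.F c ω), (c.t ω, o.G ω, c.A ω)))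
      (fun _ _ => (2 : ℝ) ^ L) (fun _ _ _ => rfl) (2 ^ L) hp.le (fun ω j => by
        have a1 : 0 ≤ c.pt ω j := by
          unfold Cf.pt
          exact add_nonneg (hx ω j).1 (mul_nonneg (ht ω).1 (hy ω j).1)
        have a2 : c.pt ω j ≤ 2 := by
          unfold Cf.pt
          have := mul_le_mul (ht ω).2.le (hy ω j).2.le (hy ω j).1 (by norm_num : (0 : ℝ) ≤ 1)
          linarith [(hx ω j).2]
        have a3 : (0 : ℝ) ≤ 2 ^ L * c.pt ω j := mul_nonneg hp.le a1
        have a4 : (2 : ℝ) ^ L * c.pt ω j ≤ 2 ^ L * 2 := mul_le_mul_of_nonneg_left a2 hp.le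
        have a5 : (0 : ℝ) ≤ (XJ ω j : ℝ) := by
          have : (0 : ℤ) ≤ XJ ω j := Int.floor_nonneg.2 a3
          exact_mod_cast this
        have a6 : (XJ ω j : ℝ) ≤ 2 ^ L * 2 := (Int.floor_le _).trans a4
        rw [abs_le]
        constructor <;> linarith)
    rw [Fintype.card_coe, o.card] at this
    refine this.trans (mul_le_mul_of_nonneg_left ?_ (Nat.cast_nonneg _))
    have h5 : Real.log (2 * 2 ^ L + 1) ≤ Real.log (2 ^ L * 3) :=
      Real.log_le_log (by positivity) (by linarith)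
    rw [Real.log_mul hp.ne' (by norm_num), Real.log_pow] at h5
    exact h5
  have h5 : hc P (fun ω => fl L (c.pt ω))
      (fun ω => (XJ ω, (fl L (o.F c ω), (c.t ω, o.G ω, c.A ω)))) ≤
      m * Real.log (2 * (Kk κ + 1) + 1) := by
    have := hc_box P (fun ω => fl L (c.pt ω))
      (fun ω => (XJ ω, (fl L (o.F c ω), (c.t ω, o.G ω, c.A ω))))
      (fun ω i => if i ∈ o.J then (fl L (c.pt ω) i : ℝ) else
        fl L (o.F c ω) i + ∑ j ∈ o.J, o.Γ ω i j * fl L (c.pt ω) j) (fun ω ω' h => by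
        simp only [Prod.mk.injEq] at h
        obtain ⟨g1, g2, g3, g4, g5⟩ := h
        funext i
        have g6 : ∀ j ∈ o.J, fl L (c.pt ω) j = fl L (c.pt ω') j := fun j hj =>
          congrFun g1 ⟨j, hj⟩
        by_cases hi : i ∈ o.J
        · rw [if_pos hi, if_pos hi, g6 i hi]
        · rw [if_neg hi, if_neg hi, g2, o.fn ω ω' g4]
          congr 1
          refine Finset.sum_congr rfl fun j hj => ?_
          rw [g6 j hj]) (Kk κ + 1) (by linarith) (fun ω i => by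
        by_cases hi : i ∈ o.J
        · rw [if_pos hi, sub_self, abs_zero]
          linarith
        · rw [if_neg hi]
          have e1 : o.F c ω i = c.pt ω i - ∑ j ∈ o.J, o.Γ ω i j * c.pt ω j := by
            simp only [Ob.F, Ob.app, if_neg hi]
          have e2 := sum_J_le o ω (fun j => (2 : ℝ) ^ L * c.pt ω j - fl L (c.pt ω) j) 1 i
            (fun j => by
              have a1 := Int.floor_le ((2 : ℝ) ^ L * c.pt ω j)
              have a2 := Int.lt_floor_add_one ((2 : ℝ) ^ L * c.pt ω j)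
              unfold fl
              rw [abs_le]
              constructor <;> linarith)
          have e3 : ∑ j ∈ o.J, o.Γ ω i j * ((2 : ℝ) ^ L * c.pt ω j - fl L (c.pt ω) j) =
              2 ^ L * ∑ j ∈ o.J, o.Γ ω i j * c.pt ω j -
                ∑ j ∈ o.J, o.Γ ω i j * fl L (c.pt ω) j := by
            rw [Finset.mul_sum, ← Finset.sum_sub_distrib]
            refine Finset.sum_congr rfl fun j _ => ?_
            ring
          rw [e3] at e2
          have e4 := abs_le.1 e2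
          have b1 := Int.floor_le ((2 : ℝ) ^ L * c.pt ω i)
          have b2 := Int.lt_floor_add_one ((2 : ℝ) ^ L * c.pt ω i)
          have b3 := Int.floor_le ((2 : ℝ) ^ L * o.F c ω i)
          have b4 := Int.lt_floor_add_one ((2 : ℝ) ^ L * o.F c ω i)
          have e5 : (2 : ℝ) ^ L * o.F c ω i =
              2 ^ L * c.pt ω i - 2 ^ L * ∑ j ∈ o.J, o.Γ ω i j * c.pt ω j := by
            rw [e1]
            ring
          have e6 : (fl L (c.pt ω) i : ℝ) = (⌊(2 : ℝ) ^ L * c.pt ω i⌋ : ℤ) := rfl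
          have e7 : (fl L (o.F c ω) i : ℝ) = (⌊(2 : ℝ) ^ L * o.F c ω i⌋ : ℤ) := rfl
          have e8 : Kk κ = 1 + κ * 3 ^ κ := rfl
          rw [e6, e7, abs_le]
          constructor <;> linarith)
    simpa using this
  have h6 : rate P c o L = hc P (fun ω => fl L (o.F c ω)) (fun ω => (c.t ω, o.G ω, c.A ω)) := rfl
  unfold K2
  rw [mul_add] at h4
  linarith

end Vale.Agent.P127.Stk.Win
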