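import Vale.Agent.P127.Stk.WinC

/-!
# P127 / Stk / Window: choice of the window (PROOF.md, section 5)
-/

namespace Vale.Agent.P127.Stk.Win

open Finset Vale.Agent.P127

variable {Ω : Type} [Fintype Ω] {m κ : ℕ}

lemma good_mono {P : Law Ω} {c : Cf Ω m} {L : ℕ} {e e' C C' : ℝ} (hG : Good P c L e C)
    (he : e ≤ e') (hC : C ≤ C') : Good P c L e' C' :=
  ⟨hG.x01, hG.y01, hG.t01, hG.ind.trans hC, fun s hs => by linarith [hG.dir s hs],
    fun s hs => by linarith [hG.lin s hs], fun s hs => by linarith [hG.tim s hs]⟩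

/-- the line and the side information -/
def xyA (c : Cf Ω m) (ω : Ω) : (Fin m → ℝ) × (Fin m → ℝ) × c.α := (c.x ω, c.y ω, c.A ω)

/-- the deficit of the time -/
noncomputable def Dt (P : Law Ω) (c : Cf Ω m) (s : ℕ) : ℝ :=
  s * Real.log 2 - hc P (fun ω => fl1 s (c.t ω)) (xyA c)

lemma hc_time_le {T : Type*} (P : Law Ω) (t : Ω → ℝ) (Y : Ω → T) (s d : ℕ) :
    hc P (fun ω => fl1 (s + d) (t ω)) (fun ω => (fl1 s (t ω), Y ω)) ≤ d * Real.log 2 := by
  have h1 := hc_box P (fun ω (_ : Unit) => fl1 (s + d) (t ω)) (fun ω => (fl1 s (t ω), Y ω))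
    (fun ω _ => (2 : ℝ) ^ d * fl1 s (t ω) + (2 ^ d - 1) / 2) (fun ω ω' h => by
      simp only [(Prod.mk.inj h).1]) ((2 ^ d - 1) / 2)
    (div_nonneg (sub_nonneg.2 (one_le_pow₀ (by norm_num))) (by norm_num)) (fun ω _ => by
      have h2 : fl1 s (t ω) = fl1 (s + d) (t ω) / (2 ^ d : ℕ) := floor_coarse s d (t ω)
      have hp : (0 : ℤ) < ((2 ^ d : ℕ) : ℤ) := by positivity
      have h3 := Int.emod_add_mul_ediv (fl1 (s + d) (t ω)) ((2 ^ d : ℕ) : ℤ)
      have h4 := Int.emod_nonneg (fl1 (s + d) (t ω)) hp.ne'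
      have h5 := Int.emod_lt_of_pos (fl1 (s + d) (t ω)) hp
      have h5' : fl1 (s + d) (t ω) % ((2 ^ d : ℕ) : ℤ) ≤ ((2 ^ d : ℕ) : ℤ) - 1 := by omega
      rw [← h2] at h3
      have h6 : (((fl1 (s + d) (t ω) % ((2 ^ d : ℕ) : ℤ)) : ℤ) : ℝ) =
          fl1 (s + d) (t ω) - 2 ^ d * fl1 s (t ω) := by
        have : (((fl1 (s + d) (t ω) % ((2 ^ d : ℕ) : ℤ)) : ℤ) : ℝ) +
            (((2 ^ d : ℕ) : ℤ) : ℝ) * fl1 s (t ω) = fl1 (s + d) (t ω) := by
          exact_mod_cast h3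
        push_cast at this ⊢
        linarith
      have h7 : (0 : ℝ) ≤ fl1 (s + d) (t ω) - 2 ^ d * fl1 s (t ω) := by
        rw [← h6]
        exact_mod_cast h4
      have h8 : (fl1 (s + d) (t ω) : ℝ) - 2 ^ d * fl1 s (t ω) ≤ 2 ^ d - 1 := by
        rw [← h6]
        have : (((fl1 (s + d) (t ω) % ((2 ^ d : ℕ) : ℤ)) : ℤ) : ℝ) ≤
            ((((2 ^ d : ℕ) : ℤ) - 1 : ℤ) : ℝ) := by exact_mod_cast h5'
        push_cast at this ⊢
        exact this
      rw [abs_le]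
      constructor <;> linarith)
  have h2 : hc P (fun ω => fl1 (s + d) (t ω)) (fun ω => (fl1 s (t ω), Y ω)) =
      hc P (fun ω (_ : Unit) => fl1 (s + d) (t ω)) (fun ω => (fl1 s (t ω), Y ω)) :=
    hc_congr_left P fun ω ω' _ => ⟨fun h => congrFun h (), fun h => funext fun _ => h⟩
  rw [h2]
  refine h1.trans (le_of_eq ?_)
  have h3 : (2 : ℝ) * ((2 ^ d - 1) / 2) + 1 = 2 ^ d := by ring
  rw [h3, Real.log_pow]
  simp

lemma Dt_mono (P : Law Ω) (c : Cf Ω m) {s s' : ℕ} (h : s ≤ s') : Dt P c s ≤ Dt P c s' := by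
  obtain ⟨d, rfl⟩ := Nat.exists_eq_add_of_le h
  have h1 := hc_le_add P (fun ω => fl1 s (c.t ω)) (fun ω => fl1 (s + d) (c.t ω)) (xyA c)
  have h2 := hc_time_le P c.t (xyA c) s d
  unfold Dt
  push_cast
  linarith

lemma Dt_nonneg (P : Law Ω) (c : Cf Ω m) (ht : ∀ ω, 0 ≤ c.t ω ∧ c.t ω < 1) (s : ℕ) :
    0 ≤ Dt P c s := by
  refine le_trans ?_ (Dt_mono P c (Nat.zero_le s))
  have h1 := hc_box P (fun ω (_ : Unit) => fl1 0 (c.t ω)) (xyA c)
    (fun _ _ => 0) (fun _ _ _ => rfl) 0 le_rfl (fun ω _ => by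
      have : fl1 0 (c.t ω) = 0 := by
        unfold fl1
        rw [Int.floor_eq_zero_iff, pow_zero, one_mul]
        exact ⟨(ht ω).1, (ht ω).2⟩
      rw [this]
      simp)
  have h2 : hc P (fun ω => fl1 0 (c.t ω)) (xyA c) =
      hc P (fun ω (_ : Unit) => fl1 0 (c.t ω)) (xyA c) :=
    hc_congr_left P fun ω ω' _ => ⟨fun h => congrFun h (), fun h => funext fun _ => h⟩
  unfold Dt
  rw [h2]
  simp only [mul_zero, zero_add, Real.log_one, mul_zero] at h1
  simp only [Nat.cast_zero, zero_mul]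
  linarith

lemma Dt_le {P : Law Ω} {c : Cf Ω m} {L : ℕ} {e C : ℝ} (hG : Good P c L e C) {s : ℕ}
    (hs : s ≤ L) : Dt P c s ≤ 2 * C := by
  have h1 := hG.tim s hs
  have h2 := hG.ind
  rw [mi_comm P] at h2
  have h3 : mi P (fun ω => fl1 s (c.t ω)) (fun ω => (c.x ω, c.y ω)) c.A ≤
      mi P c.t (fun ω => (c.x ω, c.y ω)) c.A := mi_mono_left P fun ω ω' h _ => by simp only [h]
  have h4 := hc_sub_le_mi P (fun ω => fl1 s (c.t ω)) (fun ω => (c.x ω, c.y ω)) c.A
  have h5 : hc P (fun ω => fl1 s (c.t ω)) (xyA c) =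
      hc P (fun ω => fl1 s (c.t ω)) (fun ω => ((c.x ω, c.y ω), c.A ω)) :=
    hc_congr_right P fun ω ω' => by
      simp only [xyA, Prod.mk.injEq]
      tauto
  unfold Dt
  rw [h5]
  linarith

/-- the pigeonhole on the windows -/
lemma exists_window (D : ℕ → ℝ) (hD : Monotone D) (h0 : ∀ s, 0 ≤ D s) (q L1 R : ℕ)
    (M εu : ℝ) (hR : M < R * εu) (hM : ∀ s ≤ L1, D s ≤ M) (hq : 0 < q) (hM0 : 0 ≤ M) :
    ∃ r < R, D (q * (L1 / q ^ (r + 1))) - D (L1 / q ^ (r + 1)) ≤ εu := by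
  by_contra hcon
  push Not at hcon
  have hR0 : 0 < R := by
    rcases Nat.eq_zero_or_pos R with h | h
    · subst h
      simp at hR
      linarith
    · exact h
  have key : ∀ r, r < R → D (L1 / q ^ (r + 1)) < M - (r + 1) * εu + 0 := by
    intro r
    induction r with
    | zero =>
      intro hr
      have h1 := hcon 0 hr
      have h2 := hM (q * (L1 / q ^ (0 + 1))) (by
        rw [zero_add, pow_one]
        exact Nat.mul_div_le L1 q)
      push_cast
      linarith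
    | succ r ih =>
      intro hr
      have h1 := hcon (r + 1) hr
      have h2 := ih (by omega)
      have h3 : q * (L1 / q ^ (r + 1 + 1)) ≤ L1 / q ^ (r + 1) := by
        rw [pow_succ q (r + 1), ← Nat.div_div_eq_div_mul]
        exact Nat.mul_div_le _ q
      have h4 := hD h3
      push_cast
      linarith
  have h1 := key (R - 1) (by omega)
  have h2 := h0 (L1 / q ^ (R - 1 + 1))
  have h3 : ((R - 1 : ℕ) : ℝ) + 1 = R := by
    have : R - 1 + 1 = R := by omega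
    exact_mod_cast this
  rw [h3] at h1
  linarith

/-- the choice of the block -/
theorem exists_block {P : Law Ω} {c : Cf Ω m} (o : Ob Ω m κ) (h ι1 ι2 : ℝ) (L1 N L D : ℕ)
    (hx : ∀ ω i, 0 ≤ c.x ω i ∧ c.x ω i < 1) (hy : ∀ ω i, 0 ≤ c.y ω i ∧ c.y ω i < 1)
    (ht : ∀ ω, 0 ≤ c.t ω ∧ c.t ω < 1) (hN : 0 < N) (hNL : N * L ≤ L1) (hD : L1 ≤ N * L + N * D)
    (hι1 : 0 ≤ ι1) (hc1 : cost P c o ≤ ι1 * L1) (hr1 : rate P c o L1 ≤
      (h - κ + ι1) * L1 * Real.log 2)
    (hLB : ∀ i < N, (h - ι2) * L * Real.log 2 ≤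
      hc P (fun ω => fl L ((tr c (i * L) L).pt ω))
        (fun ω => ((tr c (i * L) L).t ω, (tr c (i * L) L).A ω))) :
    ∃ i < N, rate P (tr c (i * L) L) o L + 2 * cost P (tr c (i * L) L) o -
        (h - κ - ι2) * L * Real.log 2 + K2 m κ ≤
      |h - κ| * D * Real.log 2 + ι1 * (L + D) * (Real.log 2 + 2) + ι2 * L * Real.log 2 +
        K1 m κ + K2 m κ ∧
      cost P (tr c (i * L) L) o ≤ rate P (tr c (i * L) L) o L + 2 * cost P (tr c (i * L) L) o -
        (h - κ - ι2) * L * Real.log 2 + K2 m κ := by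
  have hb : 0 < Real.log 2 := Real.log_pos (by norm_num)
  have hN' : (0 : ℝ) < N := by exact_mod_cast hN
  have hN1 : (1 : ℝ) ≤ N := by exact_mod_cast hN
  -- lower bounds
  have low : ∀ i < N, cost P (tr c (i * L) L) o ≤ rate P (tr c (i * L) L) o L +
      2 * cost P (tr c (i * L) L) o - (h - κ - ι2) * L * Real.log 2 + K2 m κ := by
    intro i hi
    have h1 := pt_le P (tr c (i * L) L) o L (fun ω i => ⟨dg_nonneg _ _ _, dg_lt_one _ _ _⟩)
      (fun ω i => ⟨dg_nonneg _ _ _, dg_lt_one _ _ _⟩) ht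
    have h2 := hLB i hi
    have h3 := cost_nonneg P (tr c (i * L) L) o
    nlinarith
  -- the sums
  have s1 := rates_sum P c o L ht N
  have s2 := costs_sum P c o L N
  have s3 : rate P c o (N * L) ≤ rate P c o L1 :=
    hc_mono_left P fun ω ω' h _ => fl_coarse hNL h
  have s4 : ∑ i ∈ Finset.range N, (rate P (tr c (i * L) L) o L +
      2 * cost P (tr c (i * L) L) o - (h - κ - ι2) * L * Real.log 2 + K2 m κ) ≤
      ∑ i ∈ Finset.range N, (|h - κ| * D * Real.log 2 + ι1 * (L + D) * (Real.log 2 + 2) +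
        ι2 * L * Real.log 2 + K1 m κ + K2 m κ) := by
    rw [Finset.sum_add_distrib, Finset.sum_sub_distrib, Finset.sum_add_distrib,
      ← Finset.mul_sum]
    simp only [Finset.sum_const, Finset.card_range, nsmul_eq_mul]
    have e1 : (L1 : ℝ) ≤ N * L + N * D := by exact_mod_cast hD
    have e2 : (N : ℝ) * L ≤ L1 := by exact_mod_cast hNL
    have e3 : (0 : ℝ) ≤ D := Nat.cast_nonneg _
    have e4 : (h - κ) * (L1 - N * L) ≤ N * (|h - κ| * D) := by
      calc (h - κ) * (L1 - N * L) ≤ |h - κ| * (L1 - N * L) :=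
            mul_le_mul_of_nonneg_right (le_abs_self _) (by linarith)
        _ ≤ |h - κ| * (N * D) := mul_le_mul_of_nonneg_left (by linarith) (abs_nonneg _)
        _ = N * (|h - κ| * D) := by ring
    have e6 : (L1 : ℝ) ≤ N * (L + D) := by linarith
    have e7 : ι1 * L1 ≤ N * (ι1 * (L + D)) := by nlinarith [mul_le_mul_of_nonneg_left e6 hι1]
    have e8 : ι1 * L1 * (Real.log 2 + 2) ≤ N * (ι1 * (L + D)) * (Real.log 2 + 2) :=
      mul_le_mul_of_nonneg_right e7 (by linarith)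
    have e9 : ((h - κ) * (L1 - N * L)) * Real.log 2 ≤ N * (|h - κ| * D) * Real.log 2 :=
      mul_le_mul_of_nonneg_right e4 hb.le
    have e10 : ∑ i ∈ Finset.range N, rate P (tr c (i * L) L) o L ≤
        (h - κ + ι1) * L1 * Real.log 2 + N * K1 m κ := by linarith
    have e11 : ∑ i ∈ Finset.range N, cost P (tr c (i * L) L) o ≤ ι1 * L1 := by linarith
    nlinarith
  obtain ⟨i, hi, h1⟩ := Finset.exists_le_of_sum_le
    (Finset.nonempty_range_iff.2 hN.ne') s4
  exact ⟨i, Finset.mem_range.1 hi, h1, low i (Finset.mem_range.1 hi)⟩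

end Vale.Agent.P127.Stk.Win

namespace Vale.Agent.P127.Stk

open Finset Vale.Agent.P127 Win

lemma K1_nonneg (m κ : ℕ) : 0 ≤ K1 m κ := by
  have := one_le_Kk κ
  have h : 0 ≤ Real.log (2 * (Kk κ * 2 + 2) + 1) := Real.log_nonneg (by linarith)
  unfold K1
  positivity

lemma K2_nonneg (m κ : ℕ) : 0 ≤ K2 m κ := by
  have := one_le_Kk κ
  have h : 0 ≤ Real.log (2 * (Kk κ + 1) + 1) := Real.log_nonneg (by linarith)
  have h3 : 0 ≤ Real.log 3 := Real.log_nonneg (by norm_num)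
  unfold K2
  positivity

theorem pWindow (R : Gr) : PWindow R := by
  intro m h κ hLB hYK ι hι εu hεu
  have hb : 0 < Real.log 2 := Real.log_pos (by norm_num)
  have hb1 : Real.log 2 < 1 := by linarith [Real.log_two_lt_d9]
  -- choice of the parameters
  obtain ⟨ι1, hι1⟩ : ∃ x, x = ι * Real.log 2 / (4 * (Real.log 2 + 2)) := ⟨_, rfl⟩
  have hι1p : 0 < ι1 := by rw [hι1]; positivity
  obtain ⟨g1, hY⟩ := hYK ι1 hι1p
  obtain ⟨g2, hg2⟩ := R.win g1 κ εu hεu
  obtain ⟨g3, hg3⟩ := R.dom g2 2 (by norm_num)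
  refine ⟨g3, fun n => ?_⟩
  obtain ⟨nL, hL2⟩ := hLB (ι / 4) (by positivity) g3
  obtain ⟨q, hq⟩ : ∃ q, q = κ + 4 := ⟨_, rfl⟩
  have hq4 : 4 ≤ q := by omega
  have hqp : 0 < q := by omega
  have hqr' : ((κ : ℝ) + 4) = q := by rw [hq]; push_cast; ring
  have hq1 : (1 : ℝ) ≤ q := by exact_mod_cast hqp
  -- the constant losses
  obtain ⟨E, hE⟩ : ∃ x, x = |h - κ| * q * Real.log 2 +
    ι1 * q * (Real.log 2 + 2) + K1 m κ + K2 m κ := ⟨_, rfl⟩
  obtain ⟨aE, haE⟩ := exists_nat_gt (2 * E / (ι * Real.log 2))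
  have haE' : 2 * E < aE * (ι * Real.log 2) := by rwa [div_lt_iff₀ (by positivity)] at haE
  -- the levels
  obtain ⟨n2, hn2⟩ := hg3 (max n nL)
  obtain ⟨ns, hns⟩ := R.small g2 (1 / ((aE : ℝ) + 2)) (by positivity)
  obtain ⟨n1, hn1⟩ := hg2 (max n2 ns)
  obtain ⟨nt, hnt⟩ := R.small g1 (1 / 4) (by norm_num)
  obtain ⟨L1, e, C, hok, Ω, hΩ, P, c, o, hG, hcost, hrate⟩ := hY (max n1 nt)
  have hC : 0 ≤ C := good_C hG
  have hok1 := R.anti _ _ _ _ _ _ (le_max_left n1 nt) hok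
  have hL14 : 4 ≤ L1 := by
    have h1 := (hnt _ _ _ (R.anti _ _ _ _ _ _ (le_max_right n1 nt) hok)).1
    have h2 : (4 : ℝ) ≤ L1 := by linarith
    exact_mod_cast h2
  -- the number of windows
  obtain ⟨W, hW⟩ : ∃ W, W = ⌊2 * C / εu⌋₊ + 1 := ⟨_, rfl⟩
  have hW1 : 2 * C < W * εu := by
    rw [← div_lt_iff₀ hεu, hW]
    push_cast
    exact Nat.lt_floor_add_one _
  have hW2 : (W : ℝ) ≤ 2 * C / εu + 1 := by
    rw [hW]
    push_cast
    linarith [Nat.floor_le (show 0 ≤ 2 * C / εu by positivity)]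
  have hexp : ((W + 1 : ℕ) : ℝ) ≤ 8 * (max C 0 + 1) / εu + 3 := by
    rw [max_eq_left hC]
    have h1 : 2 * C / εu ≤ 8 * (C + 1) / εu :=
      div_le_div_of_nonneg_right (by linarith) hεu.le
    push_cast
    linarith
  have hpow : ((q ^ (W + 1) : ℕ) : ℝ) ≤ ((κ : ℝ) + 4) ^ (8 * (max C 0 + 1) / εu + 3) := by
    rw [hqr']
    push_cast
    rw [← Real.rpow_natCast]
    exact Real.rpow_le_rpow_of_exponent_le hq1 hexp
  -- the last window is long
  have hlast : aE + 1 ≤ L1 / q ^ (W + 1) := by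
    have hqW : 4 ≤ q ^ (W + 1) := by
      calc 4 ≤ q ^ 1 := by rw [pow_one]; exact hq4
        _ ≤ q ^ (W + 1) := Nat.pow_le_pow_right hqp (by omega)
    have h1 : L1 ≤ q ^ (W + 1) * (L1 / q ^ (W + 1) + 1) :=
      (Nat.lt_mul_div_succ L1 (show 0 < q ^ (W + 1) by positivity)).le
    have h2 : L1 / q ^ (W + 1) + 1 ≤ L1 := by
      have : L1 / q ^ (W + 1) ≤ L1 / 4 := Nat.div_le_div_left hqW (by norm_num)
      omega
    have h3 := hn1 L1 (L1 / q ^ (W + 1) + 1) e C hok1 (by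
      have h4 : (L1 : ℝ) ≤ ((q ^ (W + 1) : ℕ) : ℝ) * ((L1 / q ^ (W + 1) + 1 : ℕ) : ℝ) := by
        exact_mod_cast h1
      exact h4.trans (mul_le_mul_of_nonneg_right hpow (Nat.cast_nonneg _))) h2
    have h4 := (hns _ _ _ (R.anti _ _ _ _ _ _ (le_max_right n2 ns) h3)).1
    rw [one_div, inv_mul_eq_div, le_div_iff₀ (by positivity), one_mul] at h4
    have h5 : aE + 2 ≤ L1 / q ^ (W + 1) + 1 := by exact_mod_cast h4
    omega
  -- the window
  obtain ⟨r, hrR, hr⟩ := exists_window (Dt P c) (fun s s' h => Dt_mono P c h)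
    (Dt_nonneg P c hG.t01) q L1 W (2 * C) εu hW1
    (fun s hs => Dt_le hG hs) hqp (by linarith)
  obtain ⟨a, ha⟩ : ∃ a, a = L1 / q ^ (r + 1) := ⟨_, rfl⟩
  rw [← ha] at hr
  have hqr : q ^ (r + 1) ≤ q ^ (W + 1) := Nat.pow_le_pow_right hqp (by omega)
  have ha1' : aE + 1 ≤ a := by
    refine hlast.trans ?_
    rw [ha]
    exact Nat.div_le_div_left hqr (by positivity)
  obtain ⟨L, hL⟩ : ∃ L, L = q * a := ⟨_, rfl⟩
  have hLa : a ≤ L := by
    rw [hL]
    exact Nat.le_mul_of_pos_left a hqp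
  have hmul : q ^ r * L = q ^ (r + 1) * a := by rw [hL, pow_succ]; ring
  have hNL : q ^ r * L ≤ L1 := by
    rw [hmul, ha]
    exact Nat.mul_div_le _ _
  have hD : L1 ≤ q ^ r * L + q ^ r * q := by
    rw [hmul, ha, ← pow_succ]
    have := Nat.lt_mul_div_succ L1 (show 0 < q ^ (r + 1) by positivity)
    rw [Nat.mul_add, Nat.mul_one] at this
    exact this.le
  have hLq : q ≤ L := by
    rw [hL]
    exact Nat.le_mul_of_pos_right q (by omega)
  have hLL1 : L ≤ L1 := (Nat.le_mul_of_pos_left L (by positivity)).trans hNL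
  -- size of the window
  have hL1L : L1 ≤ q ^ (W + 1) * L := by
    calc L1 ≤ q ^ r * L + q ^ r * q := hD
      _ ≤ q ^ r * L + q ^ r * L := Nat.add_le_add_left (Nat.mul_le_mul_left _ hLq) _
      _ = q ^ r * L * 2 := by ring
      _ ≤ q ^ r * L * q := Nat.mul_le_mul_left _ (by omega)
      _ = q ^ (r + 1) * L := by rw [pow_succ]; ring
      _ ≤ q ^ (W + 1) * L := Nat.mul_le_mul_right _ hqr
  have hokL : R.ok g3 (max n nL) L (2 * e) (2 * C) := by
    have h1 := hn1 L1 L e C hok1 (by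
      have h4 : (L1 : ℝ) ≤ ((q ^ (W + 1) : ℕ) : ℝ) * (L : ℝ) := by exact_mod_cast hL1L
      exact h4.trans (mul_le_mul_of_nonneg_right hpow (Nat.cast_nonneg _))) hLL1
    have h2 := hn2 _ _ _ (R.anti _ _ _ _ _ _ (le_max_left n2 ns) h1)
    exact R.mono _ _ _ _ _ _ _ (by linarith) (by linarith) h2
  have hgood : ∀ i < q ^ r, Good P (tr c (i * L) L) L (2 * e) (2 * C) := by
    intro i hi
    refine good_tr hG ?_
    calc i * L + L = (i + 1) * L := by ring
      _ ≤ q ^ r * L := Nat.mul_le_mul_right _ hi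
      _ ≤ L1 := hNL
  -- the block
  obtain ⟨i, hi, hi1, hi2⟩ := exists_block (P := P) (c := c) o h ι1 (ι / 4) L1 (q ^ r) L q
    hG.x01 hG.y01 hG.t01 (by positivity) hNL hD hι1p.le hcost hrate (fun i hi =>
      hL2 L _ _ (R.anti _ _ _ _ _ _ (le_max_right n nL) hokL) Ω P (tr c (i * L) L) (hgood i hi))
  have hcn := cost_nonneg P (tr c (i * L) L) o
  have hK1 := K1_nonneg m κ
  have hK2 := K2_nonneg m κ
  have hmain : |h - κ| * q * Real.log 2 + ι1 * (L + q) * (Real.log 2 + 2) +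
      ι / 4 * L * Real.log 2 + K1 m κ + K2 m κ ≤ ι * L * Real.log 2 := by
    have h1 : ι1 * (L + q) * (Real.log 2 + 2) =
        ι * Real.log 2 / 4 * L + ι1 * q * (Real.log 2 + 2) := by
      have e : ι1 * (Real.log 2 + 2) = ι * Real.log 2 / 4 := by
        rw [hι1]
        field_simp
      rw [← e]
      ring
    have h2 : E ≤ ι * Real.log 2 / 2 * L := by
      have h3 : (aE : ℝ) ≤ L := by
        have : aE ≤ L := by omega
        exact_mod_cast this
      have h4 : aE * (ι * Real.log 2) ≤ L * (ι * Real.log 2) :=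
        mul_le_mul_of_nonneg_right h3 (by positivity)
      linarith
    rw [h1]
    rw [hE] at h2
    linarith
  have hLc : ((κ + 4) * a : ℕ) = L := by rw [hL, hq]
  refine ⟨a, 2 * e, 2 * C, ?_, Ω, hΩ, P, tr c (i * L) L, o, ?_⟩
  · rw [hLc]
    exact R.anti _ _ _ _ _ _ (le_max_left n nL) hokL
  refine ⟨?_, ?_, ?_, ?_⟩
  · rw [hLc]
    exact hgood i hi
  · rw [hLc]
    have h1 : cost P (tr c (i * L) L) o ≤ ι * L * Real.log 2 := hi2.trans (hi1.trans hmain)
    refine h1.trans ?_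
    have h2 : 0 ≤ ι * L := mul_nonneg hι.le (Nat.cast_nonneg _)
    nlinarith
  · rw [hLc]
    have h1 : rate P (tr c (i * L) L) o L ≤ (h - κ + ι) * L * Real.log 2 := by
      have h2 : 0 ≤ ι / 4 * L * Real.log 2 := by positivity
      have h3 := hi1.trans hmain
      nlinarith
    exact h1
  · rw [hLc]
    have h1 := hc_le_add P (fun ω => fl1 a (c.t ω)) (fun ω => fl1 L (c.t ω)) (xyA c)
    have h2 : hc P (fun ω => fl1 L (c.t ω)) (fun ω => (fl1 a (c.t ω), xyA c ω)) ≤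
        hc P (fun ω => fl1 L ((tr c (i * L) L).t ω))
          (fun ω => (fl1 a ((tr c (i * L) L).t ω), (tr c (i * L) L).x ω,
            (tr c (i * L) L).y ω, (tr c (i * L) L).A ω)) := by
      refine hc_mono_right P fun ω ω' h' => ?_
      simp only [xyA, Prod.mk.injEq] at h'
      obtain ⟨g1, g2, g3, g4⟩ := h'
      simp only [tr, Prod.mk.injEq, g1, g2, g3, g4, and_self]
    rw [← hL] at hr
    unfold Dt at hr
    linarith

end Vale.Agent.P127.Stk
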